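import Vale.Agent.P160.Dom

set_option linter.unusedSectionVars false

namespace Vale.Agent.P160

open Finset

/-- Probability, over an iid lazy matrix `ω`, that `H x = 0` and `Hᵀ z = 0`. -/
noncomputable def Bpr {α β : Type*} [Fintype α] [Fintype β] [DecidableEq α] [DecidableEq β]
    (M : ℕ) {N : ℕ} (x : α → ZMod N) (z : β → ZMod N) : ℝ :=
  ((univ.filter (fun ω : β → α → Fin M =>
    (∀ i, walk (ω i) x = 0) ∧ ∀ j, walk (fun i => ω i j) z = 0)).card : ℝ) /
      (M : ℝ) ^ (Fintype.card β * Fintype.card α)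

section model

variable {ι : Type*} [Fintype ι] [DecidableEq ι]

/-- The symmetric 0/1 matrix of `b` applied to `v`. -/
def smul2 {R : Type*} [AddCommMonoid R] (b : Sym2 ι → Bool) (v : ι → R) : ι → R :=
  fun i => ∑ j, if b s(i, j) then v j else 0

/-- Column vectors of the linear map `b ↦ smul2 b v`. -/
def symc {R : Type*} [AddCommMonoid R] (v : ι → R) (e : Sym2 ι) : ι → R :=
  fun i => ∑ j, if s(i, j) = e then v j else 0

/-- Probability over the symmetric 0/1 matrix that `S v = w`. -/
noncomputable def Spr {N : ℕ} (v w : ι → ZMod N) : ℝ :=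
  ((univ.filter (fun b : Sym2 ι → Bool => smul2 b v = w)).card : ℝ) /
    (2 : ℝ) ^ Fintype.card (Sym2 ι)

lemma bwalk_symc {N : ℕ} [NeZero N] (b : Sym2 ι → Bool) (v : ι → ZMod N) :
    bwalk b (symc v) = smul2 b v := by
  funext i
  unfold bwalk smul2 symc
  rw [Finset.sum_apply]
  have h1 : ∀ e : Sym2 ι, (if b e then (fun i => ∑ j, if s(i, j) = e then v j else 0) else
      (0 : ι → ZMod N)) i = ∑ j, if s(i, j) = e then (if b s(i, j) then v j else 0) else 0 := by
    intro e
    split_ifs with h
    · refine sum_congr rfl fun j _ => ?_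
      split_ifs with h2 h3
      · rfl
      · rw [h2] at h3; exact absurd h h3
      · rfl
    · rw [Pi.zero_apply]
      symm
      apply sum_eq_zero
      intro j _
      split_ifs with h2 h3
      · rw [h2] at h3; exact absurd h3 h
      · rfl
      · rfl
  rw [sum_congr rfl fun e _ => h1 e, sum_comm]
  refine sum_congr rfl fun j _ => ?_
  rw [sum_ite_eq]
  simp only [mem_univ, ↓reduceIte]

lemma Spr_eq_bpr {N : ℕ} [NeZero N] (v w : ι → ZMod N) : Spr v w = bpr (symc v) w := by
  unfold Spr bpr
  simp only [bwalk_symc]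

lemma symc_ne {N : ℕ} (v : ι → ZMod N) {i j : ι} (hij : i ≠ j) :
    symc v s(i, j) = Pi.single i (v j) + Pi.single j (v i) := by
  funext k
  unfold symc
  simp only [Pi.add_apply]
  by_cases hki : k = i
  · subst hki
    rw [Pi.single_eq_same, Pi.single_eq_of_ne hij, add_zero]
    rw [Finset.sum_eq_single j]
    · simp
    · intro l _ hl
      rw [if_neg]
      intro h
      rw [Sym2.eq_iff] at h
      rcases h with h | h
      · exact hl h.2
      · exact hij h.1
    · simp only [mem_univ, not_true_eq_false, ↓reduceIte, IsEmpty.forall_iff]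
  · by_cases hkj : k = j
    · subst hkj
      rw [Pi.single_eq_same, Pi.single_eq_of_ne hki, zero_add]
      rw [Finset.sum_eq_single i]
      · rw [if_pos]
        exact Sym2.eq_swap
      · intro l _ hl
        rw [if_neg]
        intro h
        rw [Sym2.eq_iff] at h
        rcases h with h | h
        · exact hki h.1
        · exact hl h.2
      · simp only [mem_univ, not_true_eq_false, Sym2.eq, Sym2.rel_iff', Prod.mk.injEq, Prod.swap_prod_mk, or_true, ↓reduceIte, IsEmpty.forall_iff]
    · rw [Pi.single_eq_of_ne hki, Pi.single_eq_of_ne hkj, zero_add]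
      apply sum_eq_zero
      intro l _
      rw [if_neg]
      intro h
      rw [Sym2.eq_iff] at h
      rcases h with h | h
      · exact hki h.1
      · exact hkj h.1

variable (D : Finset ι)

/-- The index pairs outside `D` times `D`. -/
def offp (p : {i // i ∉ D} × {i // i ∈ D}) : Sym2 ι := s(p.1.1, p.2.1)

lemma offp_injective : Function.Injective (offp D) := by
  rintro ⟨⟨i, hi⟩, ⟨j, hj⟩⟩ ⟨⟨k, hk⟩, ⟨l, hl⟩⟩ h
  unfold offp at h
  simp only [Sym2.eq_iff] at h
  rcases h with h | h
  · obtain ⟨h1, h2⟩ := h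
    subst h1; subst h2; rfl
  · exact absurd (h.1 ▸ hl) hi

lemma gwalk_offp {N : ℕ} [NeZero N] {M : ℕ} (v : ι → ZMod N)
    (ω : {i // i ∉ D} × {i // i ∈ D} → Fin M) (k : ι) :
    gwalk ω (fun p => symc v (offp D p)) k =
      if hk : k ∈ D then walk (fun i => ω (i, ⟨k, hk⟩)) (fun i : {i // i ∉ D} => v i)
      else walk (fun j => ω (⟨k, hk⟩, j)) (fun j : {i // i ∈ D} => v j) := by
  unfold gwalk
  rw [Finset.sum_apply]
  have h1 : ∀ p : {i // i ∉ D} × {i // i ∈ D},
      ((st (ω p)) • symc v (offp D p)) k =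
        (st (ω p) : ZMod N) * ((Pi.single p.1.1 (v p.2) : ι → ZMod N) k +
          (Pi.single p.2.1 (v p.1) : ι → ZMod N) k) := by
    intro p
    have hne : p.1.1 ≠ p.2.1 := fun h => p.1.2 (h ▸ p.2.2)
    rw [Pi.smul_apply, zsmul_eq_mul]
    unfold offp
    rw [symc_ne v hne, Pi.add_apply]
  rw [sum_congr rfl fun p _ => h1 p, Fintype.sum_prod_type]
  by_cases hk : k ∈ D
  · rw [dif_pos hk]
    unfold walk
    refine sum_congr rfl fun i _ => ?_
    rw [Finset.sum_eq_single (⟨k, hk⟩ : {i // i ∈ D})]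
    · have : k ≠ i.1 := fun h => i.2 (h ▸ hk)
      rw [Pi.single_eq_of_ne this, Pi.single_eq_same, zero_add]
    · intro j _ hj
      have h2 : k ≠ i.1 := fun h => i.2 (h ▸ hk)
      have h3 : k ≠ j.1 := fun h => hj (Subtype.ext h.symm)
      rw [Pi.single_eq_of_ne h2, Pi.single_eq_of_ne h3, add_zero, mul_zero]
    · simp only [univ_eq_attach, mem_attach, not_true_eq_false, Pi.single_eq_same, IsEmpty.forall_iff]
  · rw [dif_neg hk]
    unfold walk
    rw [Finset.sum_eq_single (⟨k, hk⟩ : {i // i ∉ D})]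
    · refine sum_congr rfl fun j _ => ?_
      have : k ≠ j.1 := fun h => hk (h ▸ j.2)
      rw [Pi.single_eq_same, Pi.single_eq_of_ne this, add_zero]
    · intro i _ hi
      apply sum_eq_zero
      intro j _
      have h2 : k ≠ i.1 := fun h => hi (Subtype.ext h.symm)
      have h3 : k ≠ j.1 := fun h => hk (h ▸ j.2)
      rw [Pi.single_eq_of_ne h2, Pi.single_eq_of_ne h3, add_zero, mul_zero]
    · simp only [mem_univ, not_true_eq_false, univ_eq_attach, Pi.single_eq_same, IsEmpty.forall_iff]

lemma gwalk_offp_eq_zero {N : ℕ} [NeZero N] {M : ℕ} (v : ι → ZMod N)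
    (ω : {i // i ∉ D} × {i // i ∈ D} → Fin M) :
    gwalk ω (fun p => symc v (offp D p)) = 0 ↔
      (∀ i : {i // i ∉ D}, walk (fun j => ω (i, j)) (fun j : {i // i ∈ D} => v j) = 0) ∧
      ∀ j : {i // i ∈ D}, walk (fun i => ω (i, j)) (fun i : {i // i ∉ D} => v i) = 0 := by
  constructor
  · intro h
    constructor
    · intro i
      have := congrFun h i.1
      rw [gwalk_offp, dif_neg i.2] at this
      exact this
    · intro j
      have := congrFun h j.1
      rw [gwalk_offp, dif_pos j.2] at this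
      exact this
  · rintro ⟨h1, h2⟩
    funext k
    rw [gwalk_offp]
    split_ifs with hk
    · exact h2 ⟨k, hk⟩
    · exact h1 ⟨k, hk⟩

lemma gpr_offp {N : ℕ} [NeZero N] {M : ℕ} (v : ι → ZMod N) :
    gpr M (fun p => symc v (offp D p)) 0 =
      Bpr M (fun j : {i // i ∈ D} => v j) (fun i : {i // i ∉ D} => v i) := by
  unfold gpr Bpr
  congr 1
  · congr 1
    apply Finset.card_bij (fun ω _ => fun i j => ω (i, j))
    · intro ω hω
      simp only [mem_filter, mem_univ, true_and] at hω ⊢
      exact (gwalk_offp_eq_zero D v ω).1 hω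
    · intro ω _ ω' _ h
      funext p
      exact congrFun (congrFun h p.1) p.2
    · intro ω hω
      refine ⟨fun p => ω p.1 p.2, ?_, rfl⟩
      simp only [mem_filter, mem_univ, true_and] at hω ⊢
      exact (gwalk_offp_eq_zero D v _).2 hω
  · rw [Fintype.card_prod]

/-- Domination: the symmetric 0/1 matrix is dominated by the lazy bipartite matrix. -/
lemma Spr_le_Bpr {N : ℕ} [NeZero N] {M : ℕ} (hM : 8 ≤ M) (v w : ι → ZMod N) :
    Spr v w ≤ Bpr M (fun j : {i // i ∈ D} => v j) (fun i : {i // i ∉ D} => v i) := by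
  rw [Spr_eq_bpr, ← gpr_offp D v]
  exact bpr_le_gpr hM (offp D) (offp_injective D) (symc v) w

end model

end Vale.Agent.P160
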