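import Vale.Agent.P160.Basic

set_option linter.unusedSectionVars false

namespace Vale.Agent.P160

open Finset Matrix

section rank

variable {α β : Type*} [Fintype α] [Fintype β] [DecidableEq α] [DecidableEq β]

/-- Number of `z` mod `N` with `Hᵀ z = 0`. -/
def kerT (N : ℕ) [NeZero N] (H : β → α → ℤ) : Finset (β → ZMod N) :=
  univ.filter (fun z => ∀ l, ∑ i, (H i l : ZMod N) * z i = 0)

lemma mem_kerT {N : ℕ} [NeZero N] {H : β → α → ℤ} {z : β → ZMod N} :
    z ∈ kerT N H ↔ ∀ l, ∑ i, (H i l : ZMod N) * z i = 0 := by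
  simp only [kerT, mem_filter, mem_univ, true_and]

/-- The number of solutions of an inhomogeneous system is at most that of the homogeneous one. -/
lemma card_affine_le {N : ℕ} [NeZero N] (H : β → α → ℤ) (w : α → ZMod N) :
    (univ.filter (fun z : β → ZMod N => ∀ l, ∑ i, (H i l : ZMod N) * z i = w l)).card ≤
      (kerT N H).card := by
  by_cases hne : (univ.filter (fun z : β → ZMod N =>
      ∀ l, ∑ i, (H i l : ZMod N) * z i = w l)).Nonempty
  · obtain ⟨z₀, hz₀⟩ := hne
    refine Finset.card_le_card_of_injOn (fun z => z - z₀) ?_ ?_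
    · intro z hz
      simp only [coe_filter, mem_univ, true_and, Set.mem_ofPred_eq, mem_filter] at hz hz₀
      rw [Finset.mem_coe, mem_kerT]
      intro l
      simp only [Pi.sub_apply, mul_sub, sum_sub_distrib]
      rw [hz l, hz₀ l, sub_self]
    · intro z _ z' _ h
      exact sub_left_injective h
  · rw [Finset.not_nonempty_iff_eq_empty] at hne
    rw [hne]; simp

variable (q : ℕ) [Fact q.Prime]

lemma card_kerT_succ (H : β → α → ℤ) (j : ℕ) :
    (kerT (q ^ (j + 1)) H).card ≤ (kerT (q ^ j) H).card * (kerT q H).card := by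
  have hq : 0 < q := (Fact.out : q.Prime).pos
  have hdvd : q ∣ q ^ (j + 1) := dvd_pow_self q (by omega)
  -- reduction
  set φ : (β → ZMod (q ^ (j + 1))) → (β → ZMod q) :=
    fun z i => ZMod.castHom hdvd (ZMod q) (z i) with hφ
  have hmaps : ∀ z ∈ kerT (q ^ (j + 1)) H, φ z ∈ kerT q H := by
    intro z hz
    rw [mem_kerT] at hz ⊢
    intro l
    have := congrArg (ZMod.castHom hdvd (ZMod q)) (hz l)
    rw [map_sum, map_zero] at this
    rw [← this]
    refine sum_congr rfl fun i _ => ?_
    rw [map_mul, map_intCast]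
  have hfib : ∀ u ∈ kerT q H, ((kerT (q ^ (j + 1)) H).filter (fun z => φ z = u)).card ≤
      (kerT (q ^ j) H).card := by
    intro u _
    by_cases hne : ((kerT (q ^ (j + 1)) H).filter (fun z => φ z = u)).Nonempty
    · obtain ⟨z₀, hz₀⟩ := hne
      rw [mem_filter, mem_kerT] at hz₀
      refine Finset.card_le_card_of_injOn
        (fun z i => (((z i - z₀ i).val / q : ℕ) : ZMod (q ^ j))) ?_ ?_
      · intro z hz
        rw [Finset.mem_coe, mem_filter, mem_kerT] at hz
        rw [Finset.mem_coe, mem_kerT]
        intro l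
        have hd : ∀ i, q ∣ (z i - z₀ i).val := by
          intro i
          have h1 : φ z i = φ z₀ i := by rw [hz.2, hz₀.2]
          have h2 : ZMod.castHom hdvd (ZMod q) (z i - z₀ i) = 0 := by
            rw [map_sub, sub_eq_zero]; exact h1
          rw [← ZMod.natCast_zmod_val (z i - z₀ i), map_natCast,
            ZMod.natCast_eq_zero_iff] at h2
          exact h2
        have h3 : ∑ i, (H i l : ZMod (q ^ (j + 1))) * (z i - z₀ i) = 0 := by
          simp only [mul_sub, sum_sub_distrib]
          rw [hz.1 l, hz₀.1 l, sub_self]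
        have h5 : ∀ i, (q : ZMod (q ^ (j + 1))) *
            (((z i - z₀ i).val / q : ℕ) : ZMod (q ^ (j + 1))) = z i - z₀ i := by
          intro i
          rw [← Nat.cast_mul, Nat.mul_div_cancel' (hd i), ZMod.natCast_zmod_val]
        generalize hk : (fun i => (z i - z₀ i).val / q) = k at *
        have hk' : ∀ i, (z i - z₀ i).val / q = k i := fun i => congrFun hk i
        simp only [hk'] at h5 ⊢
        have h4 : (((q : ℤ) * ∑ i, H i l * (k i : ℤ) : ℤ) : ZMod (q ^ (j + 1))) = 0 := by
          rw [← h3, mul_sum]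
          push_cast
          refine sum_congr rfl fun i _ => ?_
          rw [← h5 i]
          ring
        rw [ZMod.intCast_zmod_eq_zero_iff_dvd] at h4
        have h6 : ((q ^ j : ℕ) : ℤ) ∣ ∑ i, H i l * (k i : ℤ) := by
          have h7 : ((q ^ (j + 1) : ℕ) : ℤ) = (q : ℤ) * ((q ^ j : ℕ) : ℤ) := by
            push_cast; ring
          rw [h7] at h4
          exact Int.dvd_of_mul_dvd_mul_left (by exact_mod_cast hq.ne') h4
        have h8 := (ZMod.intCast_zmod_eq_zero_iff_dvd _ (q ^ j)).2 h6
        rw [← h8]
        push_cast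
        rfl
      · intro z hz z' hz' h
        rw [Finset.mem_coe, mem_filter, mem_kerT] at hz hz'
        have hd : ∀ y : β → ZMod (q ^ (j + 1)), φ y = u → ∀ i, q ∣ (y i - z₀ i).val := by
          intro y hy i
          have h1 : φ y i = φ z₀ i := by rw [hy, hz₀.2]
          have h2 : ZMod.castHom hdvd (ZMod q) (y i - z₀ i) = 0 := by
            rw [map_sub, sub_eq_zero]; exact h1
          rw [← ZMod.natCast_zmod_val (y i - z₀ i), map_natCast,
            ZMod.natCast_eq_zero_iff] at h2
          exact h2
        funext i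
        have h1 := congrFun h i
        simp only at h1
        have hlt : ∀ y : ZMod (q ^ (j + 1)), y.val / q < q ^ j := by
          intro y
          have := ZMod.val_lt y
          rw [Nat.div_lt_iff_lt_mul hq]
          exact lt_of_lt_of_eq this (pow_succ q j)
        have h2 := congrArg ZMod.val h1
        rw [ZMod.val_cast_of_lt (hlt _), ZMod.val_cast_of_lt (hlt _)] at h2
        have h3 : (z i - z₀ i).val = (z' i - z₀ i).val := by
          rw [← Nat.mul_div_cancel' (hd z hz.2 i), ← Nat.mul_div_cancel' (hd z' hz'.2 i), h2]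
        have h4 := ZMod.val_injective _ h3
        exact sub_left_injective h4
    · rw [Finset.not_nonempty_iff_eq_empty] at hne
      rw [hne]; simp
  calc (kerT (q ^ (j + 1)) H).card
      = ∑ u ∈ kerT q H, ((kerT (q ^ (j + 1)) H).filter (fun z => φ z = u)).card :=
        Finset.card_eq_sum_card_fiberwise hmaps
    _ ≤ ∑ _u ∈ kerT q H, (kerT (q ^ j) H).card := sum_le_sum hfib
    _ = _ := by rw [sum_const, smul_eq_mul, mul_comm]

lemma card_kerT_le (H : β → α → ℤ) (j : ℕ) :
    (kerT (q ^ j) H).card ≤ (kerT q H).card ^ j := by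
  induction j with
  | zero =>
    have : (kerT (q ^ 0) H).card ≤ 1 := by
      apply Finset.card_le_one.2
      intro a _ b _
      funext i
      apply ZMod.val_injective
      have h1 : (a i).val < 1 := lt_of_lt_of_eq (ZMod.val_lt (a i)) (pow_zero q)
      have h2 : (b i).val < 1 := lt_of_lt_of_eq (ZMod.val_lt (b i)) (pow_zero q)
      omega
    exact this.trans (le_of_eq (pow_zero _).symm)
  | succ j ih =>
    refine (card_kerT_succ q H j).trans ?_
    rw [pow_succ]
    exact Nat.mul_le_mul_right _ ih

/-- The kernel of `H` mod `q`. -/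
def kerS (H : β → α → ℤ) : Finset (α → ZMod q) :=
  univ.filter (fun u => ∀ i, ∑ l, (H i l : ZMod q) * u l = 0)

lemma mem_kerS {H : β → α → ℤ} {u : α → ZMod q} :
    u ∈ kerS q H ↔ ∀ i, ∑ l, (H i l : ZMod q) * u l = 0 := by
  simp only [kerS, mem_filter, mem_univ, true_and]

lemma card_ker_mulVecLin {a b : Type*} [Fintype a] [Fintype b] [DecidableEq a] [DecidableEq b]
    (A : Matrix a b (ZMod q)) :
    (univ.filter (fun u : b → ZMod q => A.mulVec u = 0)).card * q ^ A.rank =
      q ^ Fintype.card b := by
  classical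
  have h1 : (univ.filter (fun u : b → ZMod q => A.mulVec u = 0)).card =
      Fintype.card (LinearMap.ker A.mulVecLin) := by
    rw [Fintype.card_subtype]
    congr 1
    ext u
    simp only [mem_filter, mem_univ, true_and, LinearMap.mem_ker, mulVecBilin_apply]
  have h2 : Fintype.card (LinearMap.ker A.mulVecLin) =
      q ^ Module.finrank (ZMod q) (LinearMap.ker A.mulVecLin) := by
    have := Module.card_eq_pow_finrank (K := ZMod q) (V := LinearMap.ker A.mulVecLin)
    rw [ZMod.card] at this
    exact this
  have h3 := LinearMap.finrank_range_add_finrank_ker A.mulVecLin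
  rw [h1, h2, Matrix.rank, ← pow_add]
  congr 1
  rw [add_comm, h3]
  simp only [Module.finrank_fintype_fun_eq_card]

/-- `#ker Hᵀ * q ^ d = #ker H * q ^ m`. -/
lemma card_kerT_eq (H : β → α → ℤ) :
    (kerT q H).card * q ^ Fintype.card α = (kerS q H).card * q ^ Fintype.card β := by
  have hq : 0 < q := (Fact.out : q.Prime).pos
  set A : Matrix β α (ZMod q) := fun i l => (H i l : ZMod q) with hA
  have h1 := card_ker_mulVecLin q A
  have h2 := card_ker_mulVecLin q A.transpose
  rw [Matrix.rank_transpose] at h2
  have h3 : univ.filter (fun u : α → ZMod q => A.mulVec u = 0) = kerS q H := by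
    ext u
    simp only [mem_filter, mem_univ, true_and, mem_kerS]
    constructor
    · intro h i
      exact congrFun h i
    · intro h
      funext i
      exact h i
  have h4 : univ.filter (fun z : β → ZMod q => A.transpose.mulVec z = 0) = kerT q H := by
    ext z
    simp only [mem_filter, mem_univ, true_and, mem_kerT]
    constructor
    · intro h l
      exact congrFun h l
    · intro h
      funext l
      exact h l
  rw [h3] at h1
  rw [h4] at h2
  have h5 : 0 < q ^ A.rank := pow_pos hq _
  apply Nat.eq_of_mul_eq_mul_right h5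
  calc (kerT q H).card * q ^ Fintype.card α * q ^ A.rank
      = ((kerT q H).card * q ^ A.rank) * q ^ Fintype.card α := by ring
    _ = q ^ Fintype.card β * q ^ Fintype.card α := by rw [h2]
    _ = ((kerS q H).card * q ^ A.rank) * q ^ Fintype.card β := by rw [h1]; ring
    _ = _ := by ring

/-- The rank lemma. -/
theorem card_kerT_rank (H : β → α → ℤ) (j : ℕ) :
    (kerT (q ^ j) H).card * (q ^ j) ^ Fintype.card α ≤
      (q ^ j) ^ Fintype.card β * (kerS q H).card ^ j := by
  calc (kerT (q ^ j) H).card * (q ^ j) ^ Fintype.card α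
      ≤ (kerT q H).card ^ j * (q ^ j) ^ Fintype.card α :=
        Nat.mul_le_mul_right _ (card_kerT_le q H j)
    _ = ((kerT q H).card * q ^ Fintype.card α) ^ j := by
        rw [mul_pow, ← pow_mul, ← pow_mul, mul_comm j]
    _ = ((kerS q H).card * q ^ Fintype.card β) ^ j := by rw [card_kerT_eq]
    _ = _ := by rw [mul_pow, ← pow_mul, ← pow_mul, mul_comm j, mul_comm]

end rank

end Vale.Agent.P160
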