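import Vale.Agent.P160.PI3
import Vale.Agent.P160.Rank
import Vale.Agent.P160.Model

set_option linter.unusedSectionVars false

namespace Vale.Agent.P160

open Finset

section sumB

variable {α β : Type*} [Fintype α] [Fintype β] [DecidableEq α] [DecidableEq β] {M q j : ℕ}

lemma kerS_card_eq [Fact q.Prime] {m : ℕ} (ω : Fin m → α → Fin M) (e : β ≃ Fin m) :
    (kerS q (fun (i : β) (l : α) => st (ω (e i) l))).card =
      Nat.card ↥((⊤ : Submodule (ZMod q) (α → ZMod q)) ⊓ ⨅ i, KerR q (ω i)) := by
  classical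
  have h1 : Nat.card ↥((⊤ : Submodule (ZMod q) (α → ZMod q)) ⊓ ⨅ i, KerR q (ω i)) =
      Nat.card ↥(kerS q (fun (i : β) (l : α) => st (ω (e i) l))) := by
    refine Nat.card_congr (Equiv.subtypeEquivRight fun u => ?_)
    rw [mem_kerS]
    simp only [Submodule.mem_inf, Submodule.mem_top, true_and, Submodule.mem_iInf, mem_KerR]
    constructor
    · intro h i
      exact h (e i)
    · intro h i
      have := h (e.symm i)
      rw [e.apply_symm_apply] at this
      exact this
  rw [h1, Nat.card_eq_fintype_card, Fintype.card_coe]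

open Classical in
theorem sum_Bpr_le_Phi [Fact q.Prime] [NeZero (q ^ j)] (hM : 0 < M) (x : α → ZMod (q ^ j)) :
    (∑ z : β → ZMod (q ^ j), Bpr M x z) * ((q : ℝ) ^ j) ^ Fintype.card α ≤
      ((q : ℝ) ^ j) ^ Fintype.card β * Phi x M q j (Fintype.card β) ⊤ := by
  set e := Fintype.equivFin β with he
  have hMr : (0 : ℝ) < M := by exact_mod_cast hM
  have h1 : ∑ z : β → ZMod (q ^ j), Bpr M x z =
      (∑ ω : β → α → Fin M, if ∀ i, walk (ω i) x = 0 then
        ((kerT (q ^ j) (fun i l => st (ω i l))).card : ℝ) else 0) /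
        (M : ℝ) ^ (Fintype.card β * Fintype.card α) := by
    unfold Bpr
    rw [← sum_div]
    congr 1
    have : ∀ z : β → ZMod (q ^ j), ((univ.filter (fun ω : β → α → Fin M =>
        (∀ i, walk (ω i) x = 0) ∧ ∀ l, walk (fun i => ω i l) z = 0)).card : ℝ) =
        ∑ ω : β → α → Fin M, if (∀ i, walk (ω i) x = 0) ∧ ∀ l, walk (fun i => ω i l) z = 0
          then (1 : ℝ) else 0 := by
      intro z
      rw [card_filter]
      push_cast
      rfl
    simp only [this]
    rw [sum_comm]
    refine sum_congr rfl fun ω _ => ?_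
    by_cases hω : ∀ i, walk (ω i) x = 0
    · rw [if_pos hω]
      unfold kerT
      rw [card_filter]
      push_cast
      refine sum_congr rfl fun z _ => ?_
      by_cases hz : ∀ l, walk (fun i => ω i l) z = 0
      · have hz' : ∀ l, ∑ i, ((st (ω i l) : ℤ) : ZMod (q ^ j)) * z i = 0 := hz
        rw [if_pos ⟨hω, hz⟩, if_pos hz']
      · have hz' : ¬ ∀ l, ∑ i, ((st (ω i l) : ℤ) : ZMod (q ^ j)) * z i = 0 := hz
        rw [if_neg (fun h => hz h.2), if_neg hz']
    · rw [if_neg hω]
      refine sum_eq_zero fun z _ => ?_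
      rw [if_neg (fun h => hω h.1)]
  have h2 : Phi x M q j (Fintype.card β) ⊤ =
      (∑ ω : β → α → Fin M, if ∀ i, walk (ω i) x = 0 then
        ((kerS q (fun i l => st (ω i l))).card : ℝ) ^ j else 0) /
        (M : ℝ) ^ (Fintype.card β * Fintype.card α) := by
    unfold Phi
    rw [← pow_mul, mul_comm (Fintype.card α)]
    congr 1
    refine Fintype.sum_equiv (Equiv.arrowCongr e.symm (Equiv.refl _)) _ _ ?_
    intro ω
    have hiff : (∀ i, walk (ω i) x = 0) ↔
        ∀ i, walk ((Equiv.arrowCongr e.symm (Equiv.refl (α → Fin M))) ω i) x = 0 := by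
      constructor
      · intro h i
        exact h (e i)
      · intro h i
        have := h (e.symm i)
        simpa using this
    by_cases hω : ∀ i, walk (ω i) x = 0
    · rw [if_pos hω, if_pos (hiff.mp hω), ← kerS_card_eq ω e]
      rfl
    · rw [if_neg hω, if_neg (fun h => hω (hiff.mpr h))]
  rw [h1, h2, div_mul_eq_mul_div, ← mul_div_assoc]
  rw [div_le_div_iff_of_pos_right (by positivity), sum_mul, mul_sum]
  refine sum_le_sum fun ω _ => ?_
  by_cases hω : ∀ i, walk (ω i) x = 0
  · rw [if_pos hω, if_pos hω]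
    have := card_kerT_rank q (fun i l => st (ω i l)) j
    exact_mod_cast this
  · rw [if_neg hω, if_neg hω]
    simp

end sumB

end Vale.Agent.P160
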