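import Vale.Agent.P160.Count3

namespace Vale.Agent.P160

open Finset Filter Topology

/-- Bound for the number of vectors with very large return probability. -/
lemma card_large_exp {M : ℕ} (hM : 4 ≤ M) {ε X : ℝ} (hε : 0 < ε) (hε1 : ε < 1)
    (hX0 : 0 ≤ X)
    (hX : Real.log (((1 - 2 / (M : ℝ)) ^ (1 - ε / 4) - (1 - 2 / M)) * M / 2) ≤ X) :
    ∃ Λ : ℝ, 1 ≤ Λ ∧ ∀ (a : ℕ) (d : ℝ) (N : ℕ) [NeZero N],
      Real.log N ≤ (1 - ε) * d * (-Real.log (1 - 2 / (M : ℝ))) → 0 ≤ d →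
      ((univ.filter (fun v : Fin a → ZMod N => Λ ≤ Zf M v)).card : ℝ) ≤
        (N : ℝ) ^ a * Real.exp (a * (Real.log 2 - X) + X * (1 - 3 * ε / 4) * d) := by
  have hM' : (4 : ℝ) ≤ M := by exact_mod_cast hM
  have hM0 : (0 : ℝ) < M := by linarith only [hM']
  set s : ℝ := 1 - 2 / (M : ℝ) with hs
  have hs0 : 0 < s := by
    rw [hs, sub_pos, div_lt_one hM0]; linarith only [hM']
  have hs1 : s < 1 := by
    rw [hs]
    have : 0 < 2 / (M : ℝ) := by (clear * - hM; positivity)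
    linarith only [this]
  set L0 := -Real.log s with hL0
  have hL0pos : 0 < L0 := by
    rw [hL0]
    have := Real.log_neg hs0 hs1
    linarith only [this]
  set ρ : ℝ := s ^ (1 - ε / 4) with hρ
  have hρ0 : 0 < ρ := Real.rpow_pos_of_pos hs0 _
  set ε' := ρ - s with hε'
  have hε'0 : 0 < ε' := by
    rw [hε', sub_pos, hρ]
    calc s = s ^ (1 : ℝ) := (Real.rpow_one s).symm
      _ < s ^ (1 - ε / 4) := Real.rpow_lt_rpow_of_exponent_gt hs0 hs1 (by linarith only [hε])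
  set Λ' := Real.exp X with hΛ'
  set Λ := 2 / M * Λ' / ε' with hΛ
  have hΛ1 : 1 ≤ Λ := by
    rw [hΛ, le_div_iff₀ hε'0, one_mul]
    have h1 : ε' * M / 2 ≤ Λ' := by
      rw [hΛ']
      calc ε' * M / 2 = Real.exp (Real.log (ε' * M / 2)) :=
            (Real.exp_log (by (clear * - hε'0 hM; positivity))).symm
        _ ≤ Real.exp X := Real.exp_le_exp.mpr hX
    have : ε' = 2 / M * (ε' * M / 2) := by field_simp
    rw [this]
    (clear * - h1 hM; gcongr)
  refine ⟨Λ, hΛ1, ?_⟩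
  intro a d N _ hN hd
  have hN0 : (0 : ℝ) < N := by exact_mod_cast Nat.pos_of_ne_zero (NeZero.ne N)
  set κ := X / ((1 - ε / 4) * L0) with hκ
  have hden : 0 < (1 - ε / 4) * L0 := mul_pos (by linarith only [hε1]) hL0pos
  have hκ0 : 0 ≤ κ := div_nonneg hX0 hden.le
  have hρκ : ρ ^ κ = 1 / Λ' := by
    rw [hρ, ← Real.rpow_mul hs0.le, Real.rpow_def_of_pos hs0, hΛ', one_div, ← Real.exp_neg]
    congr 1
    have h1 : κ * ((1 - ε / 4) * L0) = X := by rw [hκ, div_mul_cancel₀ _ hden.ne']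
    rw [hL0] at h1
    linarith only [h1]
  set β := Λ / N with hβ
  have hβ0 : 0 < β := by
    rw [hβ]; (clear * - hM hε'0 hN0; positivity)
  have hmain := card_large (N := N) hM (ρ := ρ) (ε' := ε') (β := β) (κ := κ)
    (by rw [hε']; linarith only []) hρ0.le hε'0 hβ0 hκ0 a
  have hΛ'0 : 0 < Λ' := Real.exp_pos X
  have hbase : 2 / M / (ε' * β) + N * ρ ^ κ = 2 * N / Λ' := by
    rw [hρκ, hβ, hΛ]
    field_simp
    ring
  rw [hbase] at hmain
  have hset : univ.filter (fun v : Fin a → ZMod N => β ≤ pr M v 0) =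
      univ.filter (fun v : Fin a → ZMod N => Λ ≤ Zf M v) := by
    ext v
    simp only [mem_filter, mem_univ, true_and]
    rw [hβ, div_le_iff₀ hN0, mul_comm]
    rfl
  rw [hset] at hmain
  have hβκ : Real.exp (-(κ * Real.log N)) ≤ β ^ κ := by
    have h1 : (1 / (N : ℝ)) ≤ β := by
      rw [hβ]
      (clear * - hΛ1 hN0; gcongr)
    have h2 : (1 / (N : ℝ)) ^ κ ≤ β ^ κ := Real.rpow_le_rpow (by (clear * - hN0; positivity)) h1 hκ0
    refine le_trans (le_of_eq ?_) h2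
    rw [one_div, Real.inv_rpow hN0.le, Real.rpow_def_of_pos hN0, ← Real.exp_neg]
    ring_nf
  have hcard : ((univ.filter (fun v : Fin a → ZMod N => Λ ≤ Zf M v)).card : ℝ) ≤
      (2 * N / Λ') ^ a * Real.exp (κ * Real.log N) := by
    have h3 : ((univ.filter (fun v : Fin a → ZMod N => Λ ≤ Zf M v)).card : ℝ) *
        Real.exp (-(κ * Real.log N)) ≤ (2 * N / Λ') ^ a := by
      refine le_trans ?_ hmain
      (clear hρ0 d hN hd hκ hρκ hβ0 hmain hΛ'0 hbase hset; gcongr)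
    have h4 : Real.exp (-(κ * Real.log N)) * Real.exp (κ * Real.log N) = 1 := by
      rw [← Real.exp_add]; simp
    calc ((univ.filter (fun v : Fin a → ZMod N => Λ ≤ Zf M v)).card : ℝ)
        = (((univ.filter (fun v : Fin a → ZMod N => Λ ≤ Zf M v)).card : ℝ) *
          Real.exp (-(κ * Real.log N))) * Real.exp (κ * Real.log N) := by
          rw [mul_assoc, h4, mul_one]
      _ ≤ _ := by gcongr
  refine hcard.trans ?_
  have h5 : (2 * N / Λ') ^ a = (N : ℝ) ^ a * Real.exp (a * (Real.log 2 - X)) := by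
    rw [mul_comm 2 (N : ℝ), mul_div_assoc, mul_pow]
    congr 1
    rw [← Real.exp_log (show (0 : ℝ) < 2 / Λ' by positivity), ← Real.exp_nat_mul]
    congr 1
    rw [Real.log_div (by norm_num) hΛ'0.ne', hΛ', Real.log_exp]
  rw [h5, mul_assoc, ← Real.exp_add]
  refine mul_le_mul_of_nonneg_left (Real.exp_le_exp.mpr (add_le_add le_rfl ?_)) (by (clear * - hN0; positivity))
  have h6 : κ * Real.log N ≤ κ * ((1 - ε) * d * L0) := mul_le_mul_of_nonneg_left hN hκ0
  refine h6.trans ?_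
  have h8 : κ * ((1 - ε / 4) * L0) = X := by rw [hκ, div_mul_cancel₀ _ hden.ne']
  have h9 : (1 - ε) ≤ (1 - 3 * ε / 4) * (1 - ε / 4) := by nlinarith only [hε]
  have h10 : 0 ≤ κ * d * L0 := by (clear * - hX0 hden hd hL0pos; positivity)
  calc κ * ((1 - ε) * d * L0) = (κ * d * L0) * (1 - ε) := by ring
    _ ≤ (κ * d * L0) * ((1 - 3 * ε / 4) * (1 - ε / 4)) := mul_le_mul_of_nonneg_left h9 h10
    _ = (κ * ((1 - ε / 4) * L0)) * (1 - 3 * ε / 4) * d := by ring
    _ = X * (1 - 3 * ε / 4) * d := by rw [h8]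

lemma exp_ineq1 {a D X K1 ε : ℝ} (hε : 0 < ε) (hD0 : 0 ≤ D) (ha : (1 - ε / 4) * D ≤ a)
    (hXa : 2 / ε * (K1 + 1 + Real.log 2) ≤ X) (hXlog : Real.log 2 ≤ X) :
    a * (Real.log 2 - X) + X * (1 - 3 * ε / 4) * D ≤ -(K1 + 1) * D := by
  have hlog2 : 0 < Real.log 2 := Real.log_pos (by norm_num)
  have h2 : a * (Real.log 2 - X) ≤ ((1 - ε / 4) * D) * (Real.log 2 - X) :=
    mul_le_mul_of_nonpos_right ha (by (clear * - hXlog; linarith))
  have h3 : K1 + 1 + Real.log 2 ≤ ε / 2 * X := by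
    have := mul_le_mul_of_nonneg_left hXa (show 0 ≤ ε / 2 by positivity)
    have h4 : ε / 2 * (2 / ε * (K1 + 1 + Real.log 2)) = K1 + 1 + Real.log 2 := by
      (clear * - hε; field_simp)
    linarith only [this, h4]
  have h5 : 0 ≤ D * (ε / 2 * X - (K1 + 1 + Real.log 2)) := mul_nonneg hD0 (by linarith only [h3])
  have h6 : 0 ≤ ε / 4 * D * Real.log 2 := by positivity
  linarith

lemma exp_ineq2 {r D K1 ε : ℝ} {b : ℕ} (hε : 0 < ε) (hK10 : 0 ≤ K1) (hr0 : 0 ≤ r)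
    (hr : r ≤ Real.exp (-(4 * (K1 + 2) / ε))) (hb : (ε / 4) * D - 1 ≤ b) :
    r ^ b ≤ Real.exp (4 * (K1 + 2) / ε) * Real.exp (-(K1 + 2) * D) := by
  calc r ^ b ≤ (Real.exp (-(4 * (K1 + 2) / ε))) ^ b := pow_le_pow_left₀ hr0 hr _
    _ = Real.exp (-(4 * (K1 + 2) / ε) * b) := by
        rw [← Real.exp_nat_mul, mul_comm]
    _ ≤ Real.exp (4 * (K1 + 2) / ε + -(K1 + 2) * D) := by
        refine Real.exp_le_exp.mpr ?_
        have h2 : -(4 * (K1 + 2) / ε) * b ≤ -(4 * (K1 + 2) / ε) * ((ε / 4) * D - 1) := by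
          have : 0 ≤ 4 * (K1 + 2) / ε := by positivity
          nlinarith only [hb, this]
        refine h2.trans (le_of_eq ?_)
        field_simp
        ring
    _ = _ := Real.exp_add _ _

open Classical in
/-- Counting lemma: structured vectors are superexponentially rare. -/
theorem count_structured {M : ℕ} (hM : 4 ≤ M) {ε η δ : ℝ} (K : ℝ) (hε : 0 < ε) (hε1 : ε < 1)
    (hη : 0 < η) (hδ : 0 < δ) :
    ∃ d0 : ℕ, ∀ d ≥ d0, ∀ (N : ℕ) [NeZero N],
      Real.log N ≤ (1 - ε) * d * (-Real.log (1 - 2 / (M : ℝ))) →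
      ((univ.filter (fun v : Fin d → ZMod N => δ * d ≤ nu v ∧ 1 + η < Zf M v)).card : ℝ) ≤
        Real.exp (-K * d) * (N : ℝ) ^ d := by
  have hM' : (4 : ℝ) ≤ M := by exact_mod_cast hM
  set K1 := max K 0 with hK1
  have hK10 : 0 ≤ K1 := le_max_right _ _
  have hKK1 : K ≤ K1 := le_max_left _ _
  have hlog2 : 0 < Real.log 2 := Real.log_pos (by norm_num)
  have hlog2' : Real.log 2 ≤ 1 := by
    have := Real.log_two_lt_d9
    linarith only [this]
  set w := Real.log (((1 - 2 / (M : ℝ)) ^ (1 - ε / 4) - (1 - 2 / M)) * M / 2) with hw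
  set X := 2 / ε * (K1 + 1 + Real.log 2) + |w| with hX
  have hXa : 2 / ε * (K1 + 1 + Real.log 2) ≤ X := by
    rw [hX]; linarith only [abs_nonneg w]
  have hXw : w ≤ X := by
    have h1 : 0 ≤ 2 / ε * (K1 + 1 + Real.log 2) := by (clear * - hε; positivity)
    have h2 := le_abs_self w
    rw [hX]; linarith only [h1, h2]
  have hX0 : 0 ≤ X := by
    have h1 : 0 ≤ 2 / ε * (K1 + 1 + Real.log 2) := by (clear * - hε; positivity)
    linarith only [hXa, h1]
  have hXlog : Real.log 2 ≤ X := by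
    refine le_trans ?_ hXa
    have h1 : (1 : ℝ) ≤ 2 / ε := by
      rw [le_div_iff₀ hε]; linarith only [hε1]
    nlinarith only [hK10, h1, hlog2]
  obtain ⟨Λ, hΛ1, hΛ⟩ := card_large_exp hM hε hε1 hX0 hXw
  have hΛ0 : 0 < Λ := by linarith only [hΛ1]
  set τ := Real.exp (-(4 * (K1 + 2) / ε)) with hτ
  obtain ⟨k', hk', hrk⟩ := exists_rk_small hM (τ := τ) (Real.exp_pos _)
  obtain ⟨k, rfl⟩ : ∃ k, k' = k + 1 := ⟨k' - 1, by omega⟩
  set C := Λ ^ (k + 1) * (2 / η) ^ (k + 1) * Real.exp (4 * (K1 + 2) / ε) with hC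
  have hC0 : 0 < C := by rw [hC]; positivity
  -- small order frequencies
  set c : ℝ := 1 - 1 / ((M : ℝ) * ((k : ℝ) + 1) ^ 2) with hc
  have hc0 : 0 ≤ c := by
    rw [hc, sub_nonneg, div_le_one (by (clear * - hM; positivity))]
    have : (1 : ℝ) ≤ ((k : ℝ) + 1) ^ 2 := by
      have : (0 : ℝ) ≤ k := by (clear * -; positivity)
      nlinarith
    nlinarith only [this, hM']
  have hc1 : c < 1 := by
    rw [hc]
    have : 0 < 1 / ((M : ℝ) * ((k : ℝ) + 1) ^ 2) := by (clear * - hM; positivity)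
    linarith only [this]
  have hlim : Tendsto (fun u : ℕ => ((k : ℝ) + 1) ^ 2 * c ^ u) atTop (𝓝 (((k : ℝ) + 1) ^ 2 * 0)) :=
    (tendsto_pow_atTop_nhds_zero_of_lt_one hc0 hc1).const_mul _
  rw [mul_zero] at hlim
  have hev := hlim.eventually_lt_const (show (0 : ℝ) < η / 2 by positivity)
  obtain ⟨u0, hu0⟩ := eventually_atTop.mp hev
  refine ⟨max (max ⌈(u0 : ℝ) / δ⌉₊ ⌈Real.log C⌉₊) 1, ?_⟩
  intro d hd N _ hN
  have hd1 : (1 : ℝ) ≤ d := by
    exact_mod_cast (le_max_right _ _).trans hd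
  have hdu : (u0 : ℝ) ≤ δ * d := by
    have h1 : (u0 : ℝ) / δ ≤ d := by
      refine (Nat.le_ceil _).trans ?_
      exact_mod_cast ((le_max_left _ _).trans (le_max_left _ _)).trans hd
    rw [div_le_iff₀ hδ] at h1
    linarith only [h1]
  have hdC : Real.log C ≤ d := by
    refine (Nat.le_ceil _).trans ?_
    exact_mod_cast ((le_max_right _ _).trans (le_max_left _ _)).trans hd
  -- split d = a + b
  obtain ⟨a, b, hab, ha, hb⟩ : ∃ a b : ℕ, a + b = d ∧ (1 - ε / 4) * d ≤ a ∧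
      (ε / 4) * d - 1 ≤ b := by
    have hb1 : ((⌊ε / 4 * d⌋₊ : ℕ) : ℝ) ≤ ε / 4 * d := Nat.floor_le (by (clear * - hε hd1; positivity))
    have hb2 : ε / 4 * d < (⌊ε / 4 * d⌋₊ : ℕ) + 1 := Nat.lt_floor_add_one _
    have hb3 : ⌊ε / 4 * d⌋₊ ≤ d := by
      have : ((⌊ε / 4 * d⌋₊ : ℕ) : ℝ) ≤ d := by nlinarith only [hε1, hb1]
      exact_mod_cast this
    refine ⟨d - ⌊ε / 4 * d⌋₊, ⌊ε / 4 * d⌋₊, by omega, ?_, by linarith only [hb2]⟩
    rw [Nat.cast_sub hb3]
    linarith only [hb1]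
  subst hab
  set u := ⌈δ * ((a + b : ℕ) : ℝ)⌉₊ with hu
  have hu0' : u0 ≤ u := by
    have : (u0 : ℝ) ≤ u := hdu.trans (Nat.le_ceil _)
    exact_mod_cast this
  have hsmall : ((k : ℝ) + 1) ^ 2 * (1 - 1 / (M * ((k : ℝ) + 1) ^ 2)) ^ u ≤ η / 2 :=
    (hu0 u hu0').le
  have hN0 : (0 : ℝ) < N := by exact_mod_cast Nat.pos_of_ne_zero (NeZero.ne N)
  have hmain := count_main (N := N) hM a b u hη hΛ0 hsmall
  have hsub : ((univ.filter (fun v : Fin (a + b) → ZMod N =>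
      δ * ((a + b : ℕ) : ℝ) ≤ nu v ∧ 1 + η < Zf M v)).card : ℝ) ≤
      ((univ.filter (fun v : Fin (a + b) → ZMod N => u ≤ nu v ∧ 1 + η < Zf M v)).card : ℝ) := by
    refine Nat.cast_le.mpr (card_le_card (monotone_filter_right _ fun v _ h => ?_))
    exact ⟨Nat.ceil_le.mpr h.1, h.2⟩
  refine hsub.trans (hmain.trans ?_)
  set D : ℝ := ((a + b : ℕ) : ℝ) with hD
  have hD0 : 0 ≤ D := by linarith only [hd1]
  clear_value D u X K1 τ C
  -- first term
  have hfirst : ((univ.filter (fun v : Fin a → ZMod N => Λ ≤ Zf M v)).card : ℝ) * (N : ℝ) ^ b ≤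
      (N : ℝ) ^ (a + b) * Real.exp (-(K1 + 1) * D) := by
    have h1 := hΛ a D N hN hD0
    have h2 := exp_ineq1 hε hD0 ha hXa hXlog
    calc ((univ.filter (fun v : Fin a → ZMod N => Λ ≤ Zf M v)).card : ℝ) * (N : ℝ) ^ b
        ≤ ((N : ℝ) ^ a * Real.exp (a * (Real.log 2 - X) + X * (1 - 3 * ε / 4) * D)) *
          (N : ℝ) ^ b := mul_le_mul_of_nonneg_right h1 (by (clear * - hN0; positivity))
      _ = (N : ℝ) ^ (a + b) * Real.exp (a * (Real.log 2 - X) + X * (1 - 3 * ε / 4) * D) := by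
          rw [pow_add]; ring
      _ ≤ _ := mul_le_mul_of_nonneg_left (Real.exp_le_exp.mpr h2) (by (clear * - hN0; positivity))
  -- second term
  have hsecond : (N : ℝ) ^ a * (Λ ^ (k + 1) * (2 / η) ^ (k + 1) *
      ((N : ℝ) * rk M (k + 1)) ^ b) ≤ (N : ℝ) ^ (a + b) * Real.exp (-(K1 + 1) * D) := by
    have h1 := exp_ineq2 hε hK10 (rk_nonneg (M := M) (k + 1)) (hτ ▸ hrk) hb
    have h2 : C ≤ Real.exp D := by
      rw [← Real.exp_log hC0]
      exact Real.exp_le_exp.mpr hdC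
    calc (N : ℝ) ^ a * (Λ ^ (k + 1) * (2 / η) ^ (k + 1) * ((N : ℝ) * rk M (k + 1)) ^ b)
        = (N : ℝ) ^ (a + b) * (Λ ^ (k + 1) * (2 / η) ^ (k + 1) * rk M (k + 1) ^ b) := by
          rw [mul_pow, pow_add]; ring
      _ ≤ (N : ℝ) ^ (a + b) * (Λ ^ (k + 1) * (2 / η) ^ (k + 1) *
          (Real.exp (4 * (K1 + 2) / ε) * Real.exp (-(K1 + 2) * D))) := by (clear * - h1 hΛ1 hη hN0; gcongr)
      _ = (N : ℝ) ^ (a + b) * (C * Real.exp (-(K1 + 2) * D)) := by rw [hC]; ring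
      _ ≤ (N : ℝ) ^ (a + b) * (Real.exp D * Real.exp (-(K1 + 2) * D)) :=
          mul_le_mul_of_nonneg_left (mul_le_mul_of_nonneg_right h2 (Real.exp_pos _).le)
            (by (clear * - hN0; positivity))
      _ = (N : ℝ) ^ (a + b) * Real.exp (-(K1 + 1) * D) := by
          rw [← Real.exp_add]
          congr 2
          ring
  have hthird : 2 * Real.exp (-(K1 + 1) * D) ≤ Real.exp (-K * D) := by
    have h2 : (2 : ℝ) ≤ Real.exp D := by
      calc (2 : ℝ) = Real.exp (Real.log 2) := (Real.exp_log (by norm_num)).symm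
        _ ≤ Real.exp D := Real.exp_le_exp.mpr (by linarith only [hlog2', hd1])
    calc 2 * Real.exp (-(K1 + 1) * D) ≤ Real.exp D * Real.exp (-(K1 + 1) * D) := by (clear * - h2; gcongr)
      _ = Real.exp (-K1 * D) := by
          rw [← Real.exp_add]
          congr 1
          ring
      _ ≤ Real.exp (-K * D) :=
          Real.exp_le_exp.mpr (mul_le_mul_of_nonneg_right (neg_le_neg hKK1) hD0)
  have hfin : (N : ℝ) ^ (a + b) * Real.exp (-(K1 + 1) * D) +
        (N : ℝ) ^ (a + b) * Real.exp (-(K1 + 1) * D) ≤ Real.exp (-K * D) * (N : ℝ) ^ (a + b) := by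
    calc _ = (2 * Real.exp (-(K1 + 1) * D)) * (N : ℝ) ^ (a + b) := by ring
      _ ≤ Real.exp (-K * D) * (N : ℝ) ^ (a + b) :=
        mul_le_mul_of_nonneg_right hthird (by (clear * - hN0; positivity))
  have hadd := add_le_add hfirst hsecond
  refine hadd.trans hfin

end Vale.Agent.P160
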