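import Vale.Agent.P160.Union2

set_option linter.unusedSectionVars false

namespace Vale.Agent.P160

open Finset

section classes

variable {α : Type*} [Fintype α] [DecidableEq α]

open Classical in
/-- Structured vectors, first structured at level `j + 1`. -/
noncomputable def cl1 (α : Type*) [Fintype α] [DecidableEq α] (M' u : ℕ) (η : ℝ) (j : ℕ) :
    Finset (α → ZMod (2 ^ (j + 1))) :=
  univ.filter (fun x => u ≤ nu x ∧ 1 + η < Zf M' x ∧
    Zf M' (fun i => ((x i).cast : ZMod (2 ^ j))) ≤ 1 + η)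

open Classical in
/-- Unstructured vectors at level `J + 1`. -/
noncomputable def cl2 (α : Type*) [Fintype α] [DecidableEq α] (M' u : ℕ) (η : ℝ) (J : ℕ) :
    Finset (α → ZMod (2 ^ (J + 1))) :=
  univ.filter (fun x => u ≤ nu x ∧ Zf M' x ≤ 1 + η)

end classes

section bounds

variable {n : ℕ} (D : Finset (Fin n))

lemma sum_filter_split {R : Type*} [Fintype R] [DecidableEq R]
    (C : Finset ({i // i ∈ D} → R)) (F : ({i // i ∈ D} → R) → ({i // i ∉ D} → R) → ℝ) :
    ∑ v ∈ univ.filter (fun v : Fin n → R => (fun j : {i // i ∈ D} => v j) ∈ C),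
      F (fun j => v j) (fun i => v i) = ∑ x ∈ C, ∑ z, F x z := by
  classical
  rw [sum_filter]
  have h := sum_split D (fun (x : {i // i ∈ D} → R) (z : {i // i ∉ D} → R) =>
    if x ∈ C then F x z else 0)
  rw [h, ← sum_filter_add_sum_filter_not univ (fun x => x ∈ C)]
  rw [sum_eq_zero (s := univ.filter (fun x => ¬ x ∈ C)), add_zero]
  · have h2 : univ.filter (fun x => x ∈ C) = C := by ext; simp only [subset_univ, filter_mem_eq_of_subset]
    rw [h2]
    refine sum_congr rfl fun x hx => ?_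
    refine sum_congr rfl fun z _ => ?_
    rw [if_pos hx]
  · intro x hx
    rw [mem_filter] at hx
    apply sum_eq_zero
    intro z _
    rw [if_neg hx.2]

/-- Bound for the sparse event. -/
lemma Pb_Ev0_le (u : ℕ) :
    Pb (Ev0 D u) ≤ 2 * ((univ.filter (fun x : {i // i ∈ D} → ZMod 2 => nu x < u)).card : ℝ) /
      2 ^ D.card := by
  classical
  set C : Finset ({i // i ∈ D} → ZMod 2) := univ.filter (fun x => nu x < u) with hC
  set s : Finset ((Fin n → ZMod 2) × ZMod 2) :=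
    (univ.filter (fun v : Fin n → ZMod 2 => (fun j : {i // i ∈ D} => v j) ∈ C)) ×ˢ univ with hs
  have h1 : Pb (Ev0 D u) ≤ Pb (fun b => ∃ p ∈ s, p.1 ≠ 0 ∧ smul2 b p.1 = fun _ => p.2) := by
    apply Pb_mono
    rintro b ⟨v, c, hv, hnu, h⟩
    refine ⟨(v, c), ?_, hv, h⟩
    rw [hs, mem_product]
    refine ⟨?_, mem_univ _⟩
    rw [mem_filter, hC, mem_filter]
    exact ⟨mem_univ _, mem_univ _, hnu⟩
  have h2 : ∀ p ∈ s, Pb (fun b => p.1 ≠ 0 ∧ smul2 b p.1 = fun _ => p.2) ≤ 1 / 2 ^ n := by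
    intro p _
    by_cases hp : p.1 = 0
    · have : Pb (fun b => p.1 ≠ 0 ∧ smul2 b p.1 = fun _ => p.2) = 0 := by
        have h0 := Pb_mono (A := fun b => p.1 ≠ 0 ∧ smul2 b p.1 = fun _ => p.2)
          (B := fun _ => False) (fun b hb => hb.1 hp)
        have h00 : Pb (fun _ : Sym2 (Fin n) → Bool => False) = 0 := by
          unfold Pb; simp only [filter_false, card_empty, CharP.cast_eq_zero, zero_div]
        exact le_antisymm (h00 ▸ h0) (Pb_nonneg _)
      rw [this]; positivity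
    · have h3 := Spr_le_two_pow p.1 (fun _ => p.2) hp
      rw [← Pb_eq_Spr, Fintype.card_fin] at h3
      exact (Pb_mono fun b hb => hb.2).trans h3
  have h3 := (h1.trans (Pb_exists s _)).trans (sum_le_sum h2)
  rw [sum_const, nsmul_eq_mul] at h3
  refine h3.trans (le_of_eq ?_)
  have h4 : (s.card : ℝ) = 2 * (C.card * 2 ^ (n - D.card)) := by
    rw [hs, card_product, card_univ, ZMod.card]
    have h5 := sum_filter_split (R := ZMod 2) D C (fun _ _ => (1 : ℝ))
    rw [sum_const, nsmul_eq_mul, mul_one] at h5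
    push_cast
    rw [h5]
    simp only [sum_const, nsmul_eq_mul, mul_one, card_univ, Fintype.card_fun, ZMod.card]
    push_cast
    have h6 : Fintype.card {i // i ∉ D} = n - D.card := by
      rw [Fintype.card_subtype_compl, Fintype.card_fin, Fintype.card_coe]
    rw [h6]
    ring
  rw [h4]
  have hd : D.card ≤ n := by
    have := Finset.card_le_univ D
    rwa [Fintype.card_fin] at this
  have h7 : (2 : ℝ) ^ n = 2 ^ D.card * 2 ^ (n - D.card) := by
    rw [← pow_add]; congr 1; omega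
  rw [h7]
  (clear * -; field_simp)

/-- Bound for the structured event. -/
lemma Pb_Ev1_le {M : ℕ} (hM : 8 ≤ M) (M' u : ℕ) (η : ℝ) (j : ℕ) :
    Pb (Ev1 D M' u η j) ≤ 2 ^ (j + 1) *
      ∑ x ∈ cl1 {i // i ∈ D} M' u η j, ∑ z : {i // i ∉ D} → ZMod (2 ^ (j + 1)), Bpr M x z := by
  classical
  set C := cl1 {i // i ∈ D} M' u η j with hC
  set s : Finset ((Fin n → ZMod (2 ^ (j + 1))) × ZMod (2 ^ (j + 1))) :=
    (univ.filter (fun v : Fin n → ZMod (2 ^ (j + 1)) => (fun j : {i // i ∈ D} => v j) ∈ C)) ×ˢ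
      univ with hs
  have h1 : Pb (Ev1 D M' u η j) ≤ Pb (fun b => ∃ p ∈ s, smul2 b p.1 = fun _ => p.2) := by
    apply Pb_mono
    rintro b ⟨v, c, hv, h⟩
    refine ⟨(v, c), ?_, h⟩
    rw [hs, mem_product]
    refine ⟨?_, mem_univ _⟩
    rw [mem_filter, hC, cl1, mem_filter]
    exact ⟨mem_univ _, mem_univ _, hv⟩
  have h2 : ∀ p ∈ s, Pb (fun b => smul2 b p.1 = fun _ => p.2) ≤
      Bpr M (fun j : {i // i ∈ D} => p.1 j) (fun i : {i // i ∉ D} => p.1 i) := by
    intro p _
    rw [Pb_eq_Spr]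
    exact Spr_le_Bpr D hM p.1 _
  have h3 := (h1.trans (Pb_exists s _)).trans (sum_le_sum h2)
  refine h3.trans (le_of_eq ?_)
  rw [hs, sum_product]
  simp only [sum_const, card_univ, ZMod.card, nsmul_eq_mul]
  rw [← mul_sum]
  have h5 := sum_filter_split (R := ZMod (2 ^ (j + 1))) D C (fun x z => Bpr M x z)
  rw [h5]
  push_cast
  ring

lemma exists_unit_of_nu_pos {α : Type*} [Fintype α] {N : ℕ} (v : α → ZMod N) (h : 0 < nu v) :
    ∃ i, IsUnit (v i) := by
  classical
  unfold nu at h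
  rw [Finset.card_pos] at h
  obtain ⟨i, hi⟩ := h
  exact ⟨i, (mem_filter.1 hi).2⟩

lemma card_two_mul_eq_le {J : ℕ} (s : ZMod (2 ^ (J + 1))) :
    (univ.filter (fun c : ZMod (2 ^ (J + 1)) => 2 * c = s)).card ≤ 2 := by
  classical
  by_cases hne : (univ.filter (fun c : ZMod (2 ^ (J + 1)) => 2 * c = s)).Nonempty
  · obtain ⟨c₀, hc₀⟩ := hne
    rw [mem_filter] at hc₀
    have : univ.filter (fun c : ZMod (2 ^ (J + 1)) => 2 * c = s) ⊆
        {c₀, c₀ + ((2 ^ J : ℕ) : ZMod (2 ^ (J + 1)))} := by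
      intro c hc
      rw [mem_filter] at hc
      have h1 : 2 * (c - c₀) = 0 := by rw [mul_sub, hc.2, hc₀.2, sub_self]
      rcases (two_mul_eq_zero_iff _).1 h1 with h | h
      · rw [sub_eq_zero] at h
        rw [h]; simp only [Nat.cast_pow, Nat.cast_ofNat, mem_insert, mem_singleton, left_eq_add, true_or]
      · rw [sub_eq_iff_eq_add'] at h
        rw [h]; simp only [Nat.cast_pow, Nat.cast_ofNat, mem_insert, add_eq_left, mem_singleton, or_true]
    exact (Finset.card_le_card this).trans (Finset.card_le_two)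
  · rw [Finset.not_nonempty_iff_eq_empty] at hne
    rw [hne]; simp

lemma card_units_two_pow (J : ℕ) : Fintype.card (ZMod (2 ^ (J + 1)))ˣ = 2 ^ J := by
  rw [ZMod.card_units_eq_totient, Nat.totient_prime_pow_succ Nat.prime_two]
  simp only [Nat.add_one_sub_one, mul_one]

lemma smul2_unit_mul {N : ℕ} (b : Sym2 (Fin n) → Bool) (v : Fin n → ZMod N) (t c : ZMod N)
    (h : smul2 b v = fun _ => c) : smul2 b (fun i => t * v i) = fun _ => t * c := by
  funext i
  have h1 := congrFun h i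
  unfold smul2 at h1 ⊢
  rw [← h1, mul_sum]
  refine sum_congr rfl fun j _ => ?_
  split_ifs <;> simp

/-- Bound for the top level event. -/
lemma Pb_Ev2_le {M : ℕ} (hM : 8 ≤ M) (M' u : ℕ) (hu : 0 < u) (η : ℝ) (J : ℕ) :
    2 ^ J * Pb (Ev2 D M' u η J) ≤ 8 *
      ∑ x ∈ cl2 {i // i ∈ D} M' u η J,
        pr M x 0 * ∑ z : {i // i ∉ D} → ZMod (2 ^ (J + 1)), Bpr M x z := by
  classical
  set C := cl2 {i // i ∈ D} M' u η J with hC
  set V := univ.filter (fun v : Fin n → ZMod (2 ^ (J + 1)) =>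
    (fun j : {i // i ∈ D} => v j) ∈ C) with hV
  set s : Finset (Σ _v : Fin n → ZMod (2 ^ (J + 1)), ZMod (2 ^ (J + 1))) :=
    V.sigma (fun v => univ.filter (fun c => 2 * c = ∑ i, v i)) with hs
  have hmem : ∀ (v : Fin n → ZMod (2 ^ (J + 1))) (c : ZMod (2 ^ (J + 1))),
      (⟨v, c⟩ : Σ _v : Fin n → ZMod (2 ^ (J + 1)), ZMod (2 ^ (J + 1))) ∈ s ↔
      (u ≤ nu (fun i : {i // i ∈ D} => v i) ∧ Zf M' (fun i : {i // i ∈ D} => v i) ≤ 1 + η) ∧
      2 * c = ∑ i, v i := by
    intro v c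
    rw [hs, mem_sigma, hV, mem_filter, mem_filter, hC, cl2, mem_filter]
    simp only [mem_univ, true_and]
  have h1 := Pb_markov s (fun p b => smul2 b p.1 = fun _ => p.2) (2 ^ J) (Ev2 D M' u η J) (by
    rintro b ⟨v, c, hv, h, hc⟩
    obtain ⟨i₀, hi₀⟩ := exists_unit_of_nu_pos (fun i : {i // i ∈ D} => v i) (by omega)
    refine ⟨univ.image (fun t : (ZMod (2 ^ (J + 1)))ˣ =>
      (⟨fun i => (t : ZMod (2 ^ (J + 1))) * v i, (t : ZMod (2 ^ (J + 1))) * c⟩ :
        Σ _v : Fin n → ZMod (2 ^ (J + 1)), ZMod (2 ^ (J + 1)))), ?_, ?_, ?_⟩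
    · intro p hp
      rw [mem_image] at hp
      obtain ⟨t, _, rfl⟩ := hp
      rw [hmem]
      refine ⟨⟨?_, ?_⟩, ?_⟩
      · rw [nu_unit_mul t.isUnit (fun i : {i // i ∈ D} => v i)]; exact hv.1
      · unfold Zf at hv ⊢
        rw [pr_unit_mul t.isUnit (fun i : {i // i ∈ D} => v i)]; exact hv.2
      · rw [← mul_sum, ← hc]; ring
    · rw [Finset.card_image_of_injective, card_univ, card_units_two_pow]
      intro t t' ht
      simp only [Sigma.mk.injEq] at ht
      have h2 : (t : ZMod (2 ^ (J + 1))) * v i₀ = t' * v i₀ := congrFun (by simpa using ht.1) i₀.1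
      exact Units.ext (hi₀.mul_right_cancel h2)
    · intro p hp
      rw [mem_image] at hp
      obtain ⟨t, _, rfl⟩ := hp
      exact smul2_unit_mul b v _ c h)
  have h2 : ∀ p ∈ s, Pb (fun b => smul2 b p.1 = fun _ => p.2) ≤
      4 * pr M (fun j : {i // i ∈ D} => p.1 j) 0 *
      Bpr M (fun j : {i // i ∈ D} => p.1 j) (fun i : {i // i ∉ D} => p.1 i) := by
    rintro ⟨v, c⟩ hp
    rw [hmem] at hp
    obtain ⟨i₀, hi₀⟩ := exists_unit_of_nu_pos (fun i : {i // i ∈ D} => v i)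
      (by have := hp.1.1; omega)
    rw [Pb_eq_Spr]
    exact Spr_le_top D hM v _ i₀ hi₀
  have h3 := h1.trans (sum_le_sum h2)
  push_cast at h3
  refine h3.trans ?_
  rw [hs, sum_sigma]
  have h4 : ∀ v ∈ V, ∑ _c ∈ univ.filter (fun c : ZMod (2 ^ (J + 1)) => 2 * c = ∑ i, v i),
      4 * pr M (fun j : {i // i ∈ D} => v j) 0 *
      Bpr M (fun j : {i // i ∈ D} => v j) (fun i : {i // i ∉ D} => v i) ≤
      8 * pr M (fun j : {i // i ∈ D} => v j) 0 *
      Bpr M (fun j : {i // i ∈ D} => v j) (fun i : {i // i ∉ D} => v i) := by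
    intro v _
    rw [sum_const, nsmul_eq_mul]
    have h5 : ((univ.filter (fun c : ZMod (2 ^ (J + 1)) => 2 * c = ∑ i, v i)).card : ℝ) ≤ 2 := by
      exact_mod_cast card_two_mul_eq_le _
    have h6 : 0 ≤ pr M (fun j : {i // i ∈ D} => v j) 0 *
      Bpr M (fun j : {i // i ∈ D} => v j) (fun i : {i // i ∉ D} => v i) := by
      unfold pr Bpr
      (clear * - hM; positivity)
    nlinarith only [h5, h6]
  refine (sum_le_sum h4).trans (le_of_eq ?_)
  have h5 := sum_filter_split (R := ZMod (2 ^ (J + 1))) D C (fun x z => 8 * pr M x 0 * Bpr M x z)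
  rw [hV, h5, mul_sum]
  refine sum_congr rfl fun x _ => ?_
  rw [mul_sum, mul_sum]
  refine sum_congr rfl fun z _ => ?_
  ring

end bounds

end Vale.Agent.P160
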