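import Vale.Agent.P160.Asm1
import Vale.Agent.P160.Union3
import Vale.Agent.P160.Count4

set_option linter.unusedSectionVars false

namespace Vale.Agent.P160

open Finset

section reindex

variable {α β : Type*} [Fintype α] [Fintype β] [DecidableEq α] [DecidableEq β] {M N : ℕ}

lemma Zf_comp [NeZero N] (hM : 2 ≤ M) (e : α ≃ β) (v : β → ZMod N) :
    Zf M (fun i => v (e i)) = Zf M v := by
  rw [Zf_eq hM, Zf_eq hM]
  refine sum_congr rfl fun t _ => ?_
  exact Equiv.prod_comp e (fun i => cf M (ee (t * v i)))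

lemma nu_comp (e : α ≃ β) (v : β → ZMod N) : nu (fun i => v (e i)) = nu v := by
  classical
  unfold nu
  refine card_equiv e fun i => ?_
  simp

open Classical in
/-- The counting theorem for an arbitrary index type. -/
theorem count_structured' {M : ℕ} (hM : 4 ≤ M) {ε η δ : ℝ} (K : ℝ) (hε : 0 < ε) (hε1 : ε < 1)
    (hη : 0 < η) (hδ : 0 < δ) :
    ∃ d0 : ℕ, ∀ (α : Type) [Fintype α] [DecidableEq α], Fintype.card α ≥ d0 →
      ∀ (N : ℕ) [NeZero N],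
      Real.log N ≤ (1 - ε) * Fintype.card α * (-Real.log (1 - 2 / (M : ℝ))) →
      ((univ.filter (fun v : α → ZMod N => δ * Fintype.card α ≤ nu v ∧ 1 + η < Zf M v)).card : ℝ) ≤
        Real.exp (-K * Fintype.card α) * (N : ℝ) ^ Fintype.card α := by
  obtain ⟨d0, h⟩ := count_structured hM K hε hε1 hη hδ
  refine ⟨d0, fun α _ _ hα N _ hN => ?_⟩
  refine le_trans (le_of_eq ?_) (h (Fintype.card α) hα N hN)
  congr 1
  set e := Fintype.equivFin α
  refine card_equiv (Equiv.arrowCongr e (Equiv.refl _)) fun v => ?_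
  rw [mem_filter, mem_filter]
  have e1 : nu ((Equiv.arrowCongr e (Equiv.refl (ZMod N))) v) = nu v :=
    nu_comp e.symm v
  have e2 : Zf M ((Equiv.arrowCongr e (Equiv.refl (ZMod N))) v) = Zf M v :=
    Zf_comp (by omega) e.symm v
  rw [e1, e2]
  simp

lemma isUnit_iff_castHom {j : ℕ} (hj : j ≠ 0) (a : ZMod (2 ^ j)) :
    IsUnit a ↔ ZMod.castHom (dvd_pow_self 2 hj) (ZMod 2) a ≠ 0 := by
  have : NeZero (2 ^ j) := ⟨by positivity⟩
  have ha : ((a.val : ℕ) : ZMod (2 ^ j)) = a := ZMod.natCast_zmod_val a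
  rw [← ha, map_natCast, ZMod.isUnit_iff_coprime, Nat.coprime_pow_right_iff (by omega),
    Ne, ZMod.natCast_eq_zero_iff, Nat.coprime_comm, Nat.Prime.coprime_iff_not_dvd Nat.prime_two]

lemma nu_eq (v : α → ZMod N) [DecidablePred fun i => IsUnit (v i)] :
    nu v = (univ.filter fun i => IsUnit (v i)).card := by
  unfold nu
  congr

lemma wt_eq_nu {j : ℕ} (hj : j ≠ 0) (v : α → ZMod (2 ^ j)) :
    wt (fun i => ZMod.castHom (dvd_pow_self 2 hj) (ZMod 2) (v i)) = nu v := by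
  classical
  have hNZ : NeZero (2 ^ j) := ⟨by positivity⟩
  rw [nu_eq]
  unfold wt
  refine card_equiv (Equiv.refl α) fun i => ?_
  rw [mem_filter, mem_filter, Equiv.refl_apply, isUnit_iff_castHom hj]

lemma Zf_le_two_mul_cast {j : ℕ} (hM : 0 < M) (x : α → ZMod (2 ^ (j + 1))) :
    Zf M x ≤ 2 * Zf M (fun i => ((x i).cast : ZMod (2 ^ j))) := by
  have hMpos : (0 : ℝ) < M := by exact_mod_cast hM
  have hdvd : 2 ^ j ∣ 2 ^ (j + 1) := pow_dvd_pow 2 (Nat.le_succ j)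
  have h1 : pr M x 0 ≤ pr M (fun i => ((x i).cast : ZMod (2 ^ j))) 0 := by
    unfold pr
    rw [div_le_div_iff_of_pos_right (by positivity)]
    exact_mod_cast card_le_card fun r hr => by
      rw [mem_filter] at hr ⊢
      refine ⟨mem_univ _, ?_⟩
      have := walk_castHom hdvd r x
      rw [hr.2, map_zero] at this
      exact this
  unfold Zf
  push_cast
  rw [pow_succ]
  have : (0 : ℝ) ≤ 2 ^ j := by positivity
  nlinarith

end reindex

section block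

variable {α β : Type} [Fintype α] [Fintype β] [DecidableEq α] [DecidableEq β]

open Classical in
/-- Total weight of a structured class. -/
theorem sum_cl1 {j d m u : ℕ} {η K : ℝ} (hη0 : 0 ≤ η)
    (hd : Fintype.card α = d) (hm : Fintype.card β = m) (hu : 0 < u)
    (hcount : ((univ.filter (fun v : α → ZMod (2 ^ (j + 1)) =>
      u ≤ nu v ∧ 1 + η < Zf 32 v)).card : ℝ) ≤ Real.exp (-K * d) * ((2 : ℝ) ^ (j + 1)) ^ d)
    (hnum : (2 : ℝ) ^ (j + 1) * (7 / 8) ^ m * (8 / 7) ^ (d - 1) ≤ 1 / 2) :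
    ∑ x ∈ cl1 α 32 u η j, ∑ z : β → ZMod (2 ^ (j + 1)), Bpr 8 x z ≤
    Real.exp (-K * d) * (2 : ℝ) ^ (j + 1) * (4 * (1 + η)) ^ m * (2 * Real.exp 64) := by
  have hNZ : NeZero (2 ^ (j + 1)) := ⟨by positivity⟩
  have : Fact (Nat.Prime 2) := ⟨Nat.prime_two⟩
  obtain ⟨C, hCdef⟩ : ∃ C : ℝ, C = (2 : ℝ) ^ (j + 1) * (4 * (1 + η) / 2 ^ (j + 1)) ^ m *
    (2 * Real.exp 64) := ⟨_, rfl⟩
  have hCnn : 0 ≤ C := by rw [hCdef]; positivity
  have hpos : (0 : ℝ) < ((2 : ℝ) ^ (j + 1)) ^ d := by positivity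
  have hC : ∀ x ∈ cl1 α 32 u η j, (∑ z : β → ZMod (2 ^ (j + 1)), Bpr 8 x z) *
      ((2 : ℝ) ^ (j + 1)) ^ d ≤ ((2 : ℝ) ^ (j + 1)) ^ m * C := by
    intro x hx
    rw [cl1, mem_filter] at hx
    obtain ⟨_, hx1, hx2, hx3⟩ := hx
    have hne : (fun i => ZMod.castHom (dvd_pow_self 2 (Nat.succ_ne_zero j)) (ZMod 2) (x i)) ≠ 0 := by
      intro h
      have h1 := wt_eq_nu (Nat.succ_ne_zero j) x
      rw [h] at h1
      have h2 : wt (0 : α → ZMod 2) = 0 := by simp [wt]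
      omega
    have hZ : Zf 32 x ≤ 2 * (1 + η) :=
      (Zf_le_two_mul_cast (by norm_num) x).trans (by linarith)
    have h1 := Phi_class (dvd_pow_self 2 (Nat.succ_ne_zero j)) x (j + 1) m (Z := 2 * (1 + η))
      (by linarith) hZ hne (by rw [hd]; exact hnum)
    have h2 := sum_Bpr_le_Phi (q := 2) (j := j + 1) (β := β) (M := 8) (by norm_num) x
    rw [hd, hm] at h2
    push_cast at h1 h2
    refine h2.trans (mul_le_mul_of_nonneg_left (h1.trans (le_of_eq ?_)) (by positivity))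
    have e4 : 2 * (2 * (1 + η)) = 4 * (1 + η) := by ring
    rw [hCdef, Nat.succ_eq_add_one, e4]
  have h3 : ((cl1 α 32 u η j).card : ℝ) ≤ Real.exp (-K * d) * ((2 : ℝ) ^ (j + 1)) ^ d := by
    refine le_trans ?_ hcount
    exact_mod_cast card_le_card fun x hx => by
      rw [cl1, mem_filter] at hx
      rw [mem_filter]
      exact ⟨mem_univ _, hx.2.1, hx.2.2.1⟩
  refine le_of_mul_le_mul_right ?_ hpos
  rw [sum_mul]
  refine (sum_le_sum hC).trans ?_
  rw [sum_const, nsmul_eq_mul]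
  calc ((cl1 α 32 u η j).card : ℝ) * (((2 : ℝ) ^ (j + 1)) ^ m * C)
      ≤ Real.exp (-K * d) * ((2 : ℝ) ^ (j + 1)) ^ d * (((2 : ℝ) ^ (j + 1)) ^ m * C) := by gcongr
    _ = Real.exp (-K * d) * (2 : ℝ) ^ (j + 1) *
          (((2 : ℝ) ^ (j + 1)) ^ m * (4 * (1 + η) / 2 ^ (j + 1)) ^ m) *
          (2 * Real.exp 64) * ((2 : ℝ) ^ (j + 1)) ^ d := by
        rw [hCdef]; ring
    _ = _ := by
        rw [← mul_pow, mul_div_cancel₀ _ (by positivity)]

/-- Total weight of the unstructured vectors at the top level. -/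
theorem sum_cl2 {J d m u : ℕ} {η : ℝ} (hη0 : 0 ≤ η) (hη : η ≤ 1 / 200) (hu : 9 ≤ u)
    (hd : Fintype.card α = d) (hm : Fintype.card β = m)
    (hnum : (2 : ℝ) ^ (J + 1) * (7 / 8) ^ m * (8 / 7) ^ (d - 1) ≤ 1 / 2) :
    ∑ x ∈ cl2 α 32 u η J, pr 8 x 0 * ∑ z : β → ZMod (2 ^ (J + 1)), Bpr 8 x z ≤
    2 * Real.exp 64 * (1 + η) ^ (m + 1) := by
  have hNZ : NeZero (2 ^ (J + 1)) := ⟨by positivity⟩
  have : Fact (Nat.Prime 2) := ⟨Nat.prime_two⟩
  obtain ⟨C, hCdef⟩ : ∃ C : ℝ, C = (2 : ℝ) ^ (J + 1) * ((1 + η) / 2 ^ (J + 1)) ^ m *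
    (2 * Real.exp 64) := ⟨_, rfl⟩
  have hCnn : 0 ≤ C := by rw [hCdef]; positivity
  have hpos : (0 : ℝ) < ((2 : ℝ) ^ (J + 1)) ^ d := by positivity
  have hC : ∀ x ∈ cl2 α 32 u η J, (pr 8 x 0 * ∑ z : β → ZMod (2 ^ (J + 1)), Bpr 8 x z) *
      ((2 : ℝ) ^ (J + 1)) ^ d ≤ (1 + η) / 2 ^ (J + 1) * (((2 : ℝ) ^ (J + 1)) ^ m * C) := by
    intro x hx
    rw [cl2, mem_filter] at hx
    obtain ⟨_, hx1, hx2⟩ := hx
    have hwt := wt_eq_nu (Nat.succ_ne_zero J) x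
    have hs : ((1 : ℝ) / 2) ^ wt (fun i => ZMod.castHom (dvd_pow_self 2 (Nat.succ_ne_zero J))
        (ZMod 2) (x i)) ≤ 1 / 400 := by
      rw [hwt]
      calc ((1 : ℝ) / 2) ^ nu x ≤ (1 / 2) ^ 9 :=
            pow_le_pow_of_le_one (by norm_num) (by norm_num) (hu.trans hx1)
        _ ≤ 1 / 400 := by norm_num
    have h1 := Phi_top (dvd_pow_self 2 (Nat.succ_ne_zero J)) x (J + 1) m hη0 hη hx2 hs
      (by rw [hd]; exact hnum)
    have h2 := sum_Bpr_le_Phi (q := 2) (j := J + 1) (β := β) (M := 8) (by norm_num) x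
    have h3 := pr_8_le_Zf_32 x
    rw [hd, hm] at h2
    push_cast at h1 h2 h3
    rw [mul_assoc]
    refine mul_le_mul (h3.trans (by gcongr)) (h2.trans (mul_le_mul_of_nonneg_left
      (h1.trans (le_of_eq (by rw [hCdef]))) (by positivity))) ?_ (by positivity)
    exact mul_nonneg (sum_nonneg fun z _ => by unfold Bpr; positivity) hpos.le
  have h3 : ((cl2 α 32 u η J).card : ℝ) ≤ ((2 : ℝ) ^ (J + 1)) ^ d := by
    have : (cl2 α 32 u η J).card ≤ (2 ^ (J + 1)) ^ d := by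
      refine (card_le_univ _).trans (le_of_eq ?_)
      rw [Fintype.card_fun, ZMod.card, hd]
    exact_mod_cast this
  refine le_of_mul_le_mul_right ?_ hpos
  rw [sum_mul]
  refine (sum_le_sum hC).trans ?_
  rw [sum_const, nsmul_eq_mul]
  calc ((cl2 α 32 u η J).card : ℝ) * ((1 + η) / 2 ^ (J + 1) * (((2 : ℝ) ^ (J + 1)) ^ m * C))
      ≤ ((2 : ℝ) ^ (J + 1)) ^ d * ((1 + η) / 2 ^ (J + 1) * (((2 : ℝ) ^ (J + 1)) ^ m * C)) := by
        gcongr
    _ = 2 * Real.exp 64 * (1 + η) * (((2 : ℝ) ^ (J + 1)) ^ m * ((1 + η) / 2 ^ (J + 1)) ^ m) *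
          ((2 : ℝ) ^ (J + 1)) ^ d := by
        rw [hCdef]
        have : (2 : ℝ) ^ (J + 1) ≠ 0 := by positivity
        field_simp
    _ = _ := by
        rw [← mul_pow, mul_div_cancel₀ _ (by positivity)]
        ring

end block

end Vale.Agent.P160
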