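import Vale.Agent.P160.Defs

namespace Vale.Agent.P160

open Finset

section charsum

/-- Sum of `z ^ st a` over the seeds. -/
lemma sum_zpow_st {M : ℕ} (hM : 2 ≤ M) (z : ℂ) (hz : ‖z‖ = 1) :
    ∑ a : Fin M, z ^ (st a) = ((M : ℝ) * cf M z : ℝ) := by
  obtain ⟨k, rfl⟩ : ∃ k, M = k + 2 := ⟨M - 2, by omega⟩
  rw [Fin.sum_univ_succ, Fin.sum_univ_succ]
  have h0 : st (0 : Fin (k + 2)) = 1 := by simp only [st, Fin.coe_ofNat_eq_mod, Nat.zero_mod, ↓reduceIte]
  have h1 : st (Fin.succ (0 : Fin (k + 1))) = -1 := by simp [st]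
  have h2 : ∀ i : Fin k, st (Fin.succ (Fin.succ i)) = 0 := by
    intro i
    simp [st]
  rw [h0, h1]
  simp only [h2]
  have hz' : z⁻¹ = (starRingEnd ℂ) z := by
    rw [Complex.inv_def]
    have : Complex.normSq z = 1 := by
      rw [Complex.normSq_eq_norm_sq, hz]; norm_num
    rw [this]; simp
  have hzz : z + z⁻¹ = ((2 * z.re : ℝ) : ℂ) := by
    rw [hz', Complex.add_conj]
  have hk : ((k : ℝ) + 2) ≠ 0 := by (clear * -; positivity)
  simp only [zpow_one, zpow_neg, zpow_zero, sum_const, card_univ, Fintype.card_fin, nsmul_eq_mul,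
    mul_one, cf]
  have : z + (z⁻¹ + (k : ℂ)) = ((2 * z.re + k : ℝ) : ℂ) := by
    push_cast at hzz ⊢
    linear_combination hzz
  rw [this]
  congr 1
  push_cast
  field_simp
  ring

/-- Product formula for the characteristic function of the lazy walk. -/
lemma sum_prod_zpow_st {ι : Type*} [Fintype ι] [DecidableEq ι] {M : ℕ} (hM : 2 ≤ M)
    (z : ι → ℂ) (hz : ∀ i, ‖z i‖ = 1) :
    ∑ ω : ι → Fin M, ∏ i, z i ^ (st (ω i)) =
      (((M : ℝ) ^ Fintype.card ι * ∏ i, cf M (z i) : ℝ) : ℂ) := by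
  have h := Finset.prod_univ_sum (fun _ : ι => (univ : Finset (Fin M)))
    (fun i a => z i ^ (st a))
  rw [Fintype.piFinset_univ] at h
  rw [← h]
  have : ∀ i, ∑ a : Fin M, z i ^ (st a) = ((M : ℝ) * cf M (z i) : ℝ) :=
    fun i => sum_zpow_st hM (z i) (hz i)
  simp only [this]
  rw [← Complex.ofReal_prod, Finset.prod_mul_distrib]
  simp only [prod_const, card_univ, Complex.ofReal_mul, Complex.ofReal_pow, Complex.ofReal_natCast, Complex.ofReal_prod]

lemma cf_nonneg {M : ℕ} (hM : 4 ≤ M) {z : ℂ} (hz : ‖z‖ = 1) : 0 ≤ cf M z := by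
  have h1 : -1 ≤ z.re := by
    have := Complex.abs_re_le_norm z
    rw [hz] at this
    exact (abs_le.mp this).1
  have hM' : (4 : ℝ) ≤ M := by exact_mod_cast hM
  unfold cf
  have h2 : 2 / (M : ℝ) ≤ 1 / 2 := by
    rw [div_le_div_iff₀ (by positivity) (by norm_num)]; linarith only [hM']
  have h3 : 0 ≤ 2 / (M : ℝ) := by positivity
  nlinarith only [h2, h1, h3]

lemma cf_le_one {M : ℕ} {z : ℂ} (hz : ‖z‖ = 1) : cf M z ≤ 1 := by
  have h1 : z.re ≤ 1 := by
    have := Complex.abs_re_le_norm z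
    rw [hz] at this
    exact (abs_le.mp this).2
  unfold cf
  have h3 : 0 ≤ 2 / (M : ℝ) := by positivity
  nlinarith

end charsum

section zmod

variable {N : ℕ} [NeZero N]

/-- The standard character. -/
noncomputable def ee (x : ZMod N) : ℂ := ZMod.stdAddChar x

lemma norm_ee (x : ZMod N) : ‖ee x‖ = 1 := by
  unfold ee
  rw [ZMod.stdAddChar_apply]
  exact Circle.norm_coe _

lemma ee_add (x y : ZMod N) : ee (x + y) = ee x * ee y := by
  unfold ee
  exact AddChar.map_add_eq_mul _ _ _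

@[simp] lemma ee_zero : ee (0 : ZMod N) = 1 := by
  unfold ee
  exact AddChar.map_zero_eq_one _

lemma ee_sum {ι : Type*} (s : Finset ι) (f : ι → ZMod N) :
    ee (∑ i ∈ s, f i) = ∏ i ∈ s, ee (f i) := by
  classical
  induction s using Finset.induction_on with
  | empty => simp
  | insert a s ha ih => rw [sum_insert ha, prod_insert ha, ee_add, ih]

lemma ee_intCast_mul (k : ℤ) (x : ZMod N) : ee ((k : ZMod N) * x) = ee x ^ k := by
  unfold ee
  rw [← zsmul_eq_mul, AddChar.map_zsmul_eq_zpow]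

lemma ee_natCast_mul (k : ℕ) (x : ZMod N) : ee ((k : ZMod N) * x) = ee x ^ k := by
  have := ee_intCast_mul (N := N) (k : ℤ) x
  simpa using this

/-- Orthogonality. -/
lemma sum_ee_mul (x : ZMod N) : ∑ t : ZMod N, ee (t * x) = if x = 0 then (N : ℂ) else 0 := by
  have := AddChar.sum_mulShift x (ZMod.isPrimitive_stdAddChar N)
  simp only [ZMod.card] at this
  unfold ee
  rw [this]
  simp

lemma ee_walk {ι : Type*} [Fintype ι] {M : ℕ} (ω : ι → Fin M) (v : ι → ZMod N) (t : ZMod N) :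
    ee (t * walk ω v) = ∏ i, ee (t * v i) ^ (st (ω i)) := by
  unfold walk
  rw [mul_sum, ee_sum]
  refine prod_congr rfl fun i _ => ?_
  rw [← ee_intCast_mul]
  congr 1
  ring

/-- Fourier formula for the return probability of the lazy walk. -/
lemma pr_eq {ι : Type*} [Fintype ι] [DecidableEq ι] {M : ℕ} (hM : 2 ≤ M) (v : ι → ZMod N)
    (a : ZMod N) :
    ((N * pr M v a : ℝ) : ℂ) = ∑ t : ZMod N, ee (-(t * a)) * (∏ i, cf M (ee (t * v i)) : ℝ) := by
  have h1 : ∀ ω : ι → Fin M, (if walk ω v = a then (N : ℂ) else 0) =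
      ∑ t : ZMod N, ee (-(t * a)) * ee (t * walk ω v) := by
    intro ω
    have := sum_ee_mul (walk ω v - a)
    simp only [sub_eq_zero] at this
    rw [← this]
    refine sum_congr rfl fun t _ => ?_
    rw [← ee_add]
    congr 1
    ring
  have h2 : (((univ.filter (fun ω : ι → Fin M => walk ω v = a)).card : ℝ) : ℂ) * N =
      ∑ ω : ι → Fin M, (if walk ω v = a then (N : ℂ) else 0) := by
    rw [← sum_filter, sum_const, nsmul_eq_mul]
    simp only [Complex.ofReal_natCast]
  have h3 : (((univ.filter (fun ω : ι → Fin M => walk ω v = a)).card : ℝ) : ℂ) * N =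
      ∑ t : ZMod N, ee (-(t * a)) * (((M : ℝ) ^ Fintype.card ι *
        ∏ i, cf M (ee (t * v i)) : ℝ) : ℂ) := by
    rw [h2]
    simp only [h1]
    rw [sum_comm]
    refine sum_congr rfl fun t _ => ?_
    rw [← mul_sum]
    congr 1
    rw [← sum_prod_zpow_st hM (fun i => ee (t * v i)) (fun i => norm_ee _)]
    refine sum_congr rfl fun ω _ => ?_
    exact ee_walk ω v t
  have hM0 : ((M : ℝ) ^ Fintype.card ι : ℝ) ≠ 0 := by
    have : (0 : ℝ) < M := by exact_mod_cast (by omega : 0 < M)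
    positivity
  unfold pr
  have hM0' : (((M : ℝ) ^ Fintype.card ι : ℝ) : ℂ) ≠ 0 := by exact_mod_cast hM0
  rw [← mul_right_inj' hM0']
  calc (((M : ℝ) ^ Fintype.card ι : ℝ) : ℂ) * ((N * (((univ.filter (fun ω : ι → Fin M =>
        walk ω v = a)).card : ℝ) / (M : ℝ) ^ Fintype.card ι) : ℝ) : ℂ)
      = (((univ.filter (fun ω : ι → Fin M => walk ω v = a)).card : ℝ) : ℂ) * N := by
        have : (M : ℂ) ^ Fintype.card ι ≠ 0 := by exact_mod_cast hM0
        push_cast
        field_simp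
    _ = _ := by
        rw [h3, mul_sum]
        refine sum_congr rfl fun t _ => ?_
        push_cast
        ring

lemma Zf_eq {ι : Type*} [Fintype ι] [DecidableEq ι] {M : ℕ} (hM : 2 ≤ M) (v : ι → ZMod N) :
    Zf M v = ∑ t : ZMod N, ∏ i, cf M (ee (t * v i)) := by
  have h := pr_eq hM v 0
  simp only [mul_zero, neg_zero, ee_zero, one_mul] at h
  unfold Zf
  exact_mod_cast h

/-- The lazy walk is most likely at `0`. -/
lemma pr_le_pr_zero {ι : Type*} [Fintype ι] [DecidableEq ι] {M : ℕ} (hM : 4 ≤ M)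
    (v : ι → ZMod N) (a : ZMod N) : pr M v a ≤ pr M v 0 := by
  have hN : (0 : ℝ) < N := by exact_mod_cast Nat.pos_of_ne_zero (NeZero.ne N)
  have h := pr_eq (by omega : 2 ≤ M) v a
  have h0 := Zf_eq (by omega : 2 ≤ M) v
  have h1 : N * pr M v a ≤ Zf M v := by
    have : (N * pr M v a : ℝ) = ‖((N * pr M v a : ℝ) : ℂ)‖ := by
      rw [Complex.norm_real, Real.norm_eq_abs, abs_of_nonneg]
      unfold pr
      (clear * - hN hM; positivity)
    rw [this, h, h0]
    refine (norm_sum_le _ _).trans (sum_le_sum fun t _ => ?_)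
    rw [norm_mul, norm_ee, one_mul, Complex.norm_real, Real.norm_eq_abs, abs_of_nonneg]
    exact prod_nonneg fun i _ => cf_nonneg hM (norm_ee _)
  unfold Zf at h1
  exact le_of_mul_le_mul_left h1 hN

end zmod

end Vale.Agent.P160
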