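import Vale.Agent.P160.Basic
attribute [-instance] ProperSMul.toContinuousSMul IsTopologicalTorsor.toContinuousSMul IdemSemiring.toCanonicallyOrderedAdd IdemSemiring.toMulLeftMono IdemSemiring.toMulRightMono AddQuantale.instAddLeftMono AddQuantale.instAddRightMono Quantale.instMulLeftMono Quantale.instMulRightMono FiniteDimensional.rclike_to_real IsScalarTower.complexToReal FiniteDimensional.complexToReal

namespace Vale.Agent.P160

open Finset

lemma sum_fin_succ_fun {n : ℕ} {α : Type*} [Fintype α] {R : Type*} [AddCommMonoid R]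
    (F : (Fin (n + 1) → α) → R) :
    ∑ ω : Fin (n + 1) → α, F ω = ∑ a : α, ∑ ω : Fin n → α, F (Fin.cons a ω) := by
  rw [← (Fin.consEquiv (fun _ : Fin (n + 1) => α)).sum_comp, Fintype.sum_prod_type]
  rfl

lemma pr_eq_sum {ι : Type*} [Fintype ι] [DecidableEq ι] (M : ℕ) {N : ℕ}
    (v : ι → ZMod N) (a : ZMod N) :
    pr M v a = (∑ ω : ι → Fin M, if walk ω v = a then (1 : ℝ) else 0) /
      (M : ℝ) ^ Fintype.card ι := by
  unfold pr
  rw [Finset.sum_boole]

lemma pr_nonneg {ι : Type*} [Fintype ι] [DecidableEq ι] (M : ℕ) {N : ℕ}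
    (v : ι → ZMod N) (a : ZMod N) : 0 ≤ pr M v a := by
  unfold pr
  (clear * -; positivity)

lemma pr_le_one {ι : Type*} [Fintype ι] [DecidableEq ι] (M : ℕ) {N : ℕ}
    (v : ι → ZMod N) (a : ZMod N) : pr M v a ≤ 1 := by
  unfold pr
  refine div_le_one_of_le₀ ?_ (by positivity)
  calc ((univ.filter (fun ω : ι → Fin M => walk ω v = a)).card : ℝ)
      ≤ ((univ : Finset (ι → Fin M)).card : ℝ) := by
        exact_mod_cast card_le_card (filter_subset _ _)
    _ = (M : ℝ) ^ Fintype.card ι := by simp only [card_univ, Fintype.card_pi, Fintype.card_fin, prod_const, Nat.cast_pow]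

lemma walk_cons {n M N : ℕ} (s : Fin M) (ω : Fin n → Fin M) (a : ZMod N) (v : Fin n → ZMod N) :
    walk (Fin.cons s ω : Fin (n + 1) → Fin M) (Fin.cons a v : Fin (n + 1) → ZMod N) =
      (st s : ZMod N) * a + walk ω v := by
  unfold walk
  rw [Fin.sum_univ_succ]
  simp only [Fin.cons_zero, Fin.cons_succ]

lemma pr_cons {n M N : ℕ} (a : ZMod N) (v : Fin n → ZMod N) (b : ZMod N) :
    pr M (Fin.cons a v : Fin (n + 1) → ZMod N) b =
      (∑ s : Fin M, pr M v (b - (st s : ZMod N) * a)) / M := by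
  simp only [pr_eq_sum, sum_fin_succ_fun, walk_cons]
  rw [← Finset.sum_div, Fintype.card_fin, Fintype.card_fin, div_div]
  congr 1
  refine sum_congr rfl fun s _ => sum_congr rfl fun ω _ => ?_
  congr 1
  exact propext ⟨fun h => by rw [← h]; ring, fun h => by rw [h]; ring⟩

lemma sum_st {M : ℕ} (hM : 2 ≤ M) {R : Type*} [AddCommMonoid R] [Module ℝ R] (g : ℤ → R) :
    ∑ s : Fin M, g (st s) = g 1 + g (-1) + ((M : ℝ) - 2) • g 0 := by
  obtain ⟨k, rfl⟩ : ∃ k, M = k + 2 := ⟨M - 2, by omega⟩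
  rw [Fin.sum_univ_succ, Fin.sum_univ_succ]
  have h0 : st (0 : Fin (k + 2)) = 1 := by simp [st]
  have h1 : st (Fin.succ (0 : Fin (k + 1))) = -1 := by simp [st]
  have h2 : ∀ i : Fin k, st (Fin.succ (Fin.succ i)) = 0 := by
    intro i
    simp [st]
  rw [h0, h1]
  simp only [h2, sum_const, card_univ, Fintype.card_fin]
  rw [add_assoc]
  congr 2
  push_cast
  rw [add_sub_cancel_right, Nat.cast_smul_eq_nsmul]

lemma pr_cons' {n M N : ℕ} (hM : 2 ≤ M) (a : ZMod N) (v : Fin n → ZMod N) (b : ZMod N) :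
    pr M (Fin.cons a v : Fin (n + 1) → ZMod N) b =
      (1 - 2 / M) * pr M v b + (pr M v (b - a) + pr M v (b + a)) / M := by
  rw [pr_cons, sum_st hM (fun z : ℤ => pr M v (b - (z : ZMod N) * a))]
  have : (M : ℝ) ≠ 0 := by
    have : (0 : ℝ) < M := by exact_mod_cast (by omega : 0 < M)
    positivity
  simp only [Int.cast_one, one_mul, Int.cast_neg, neg_mul, sub_neg_eq_add, Int.cast_zero,
    zero_mul, sub_zero, smul_eq_mul]
  field_simp
  ring

/-- Adding a coordinate does not increase the return probability. -/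
lemma pr_cons_le {n M N : ℕ} [NeZero N] (hM : 4 ≤ M) (a : ZMod N) (v : Fin n → ZMod N) :
    pr M (Fin.cons a v : Fin (n + 1) → ZMod N) 0 ≤ pr M v 0 := by
  rw [pr_cons' (by omega)]
  have h1 := pr_le_pr_zero hM v (0 - a)
  have h2 := pr_le_pr_zero hM v (0 + a)
  have hM0 : (0 : ℝ) < M := by exact_mod_cast (by omega : 0 < M)
  have : (pr M v (0 - a) + pr M v (0 + a)) / M ≤ 2 / M * pr M v 0 := by
    rw [div_mul_eq_mul_div]
    gcongr
    linarith only [h1, h2]
  linarith

lemma sum_pr {ι : Type*} [Fintype ι] [DecidableEq ι] {M N : ℕ} [NeZero N] (hM : 0 < M)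
    (v : ι → ZMod N) : ∑ a : ZMod N, pr M v a = 1 := by
  simp only [pr_eq_sum]
  rw [← Finset.sum_div, sum_comm]
  simp only [sum_ite_eq, mem_univ, if_true, sum_const, card_univ, Fintype.card_fun, Fintype.card_fin, nsmul_eq_mul, Nat.cast_pow, mul_one]
  have : (M : ℝ) ≠ 0 := by exact_mod_cast hM.ne'
  exact div_self (pow_ne_zero _ this)

/-- The number of weights `a` for which the return probability does not drop. -/
lemma card_bad {n M N : ℕ} [NeZero N] (hM : 4 ≤ M) (v : Fin n → ZMod N) {ρ ε' : ℝ}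
    (hρ : 1 - 2 / M + ε' ≤ ρ) :
    ((univ.filter (fun a : ZMod N => ρ * pr M v 0 <
      pr M (Fin.cons a v : Fin (n + 1) → ZMod N) 0)).card : ℝ) * (ε' * pr M v 0) ≤ 2 / M := by
  have hM0 : (0 : ℝ) < M := by exact_mod_cast (by omega : 0 < M)
  have hsum : ∑ a : ZMod N, (pr M v (0 - a) + pr M v (0 + a)) / M = 2 / M := by
    rw [← Finset.sum_div, sum_add_distrib]
    congr 1
    have h1 : ∑ a : ZMod N, pr M v (0 - a) = 1 := by
      rw [← sum_pr (by omega : 0 < M) v]
      exact (Equiv.subLeft (0 : ZMod N)).sum_comp (fun a => pr M v a)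
    have h2 : ∑ a : ZMod N, pr M v (0 + a) = 1 := by
      rw [← sum_pr (by omega : 0 < M) v]
      simp only [zero_add]
    rw [h1, h2]; norm_num
  rw [← hsum]
  rw [← nsmul_eq_mul, ← sum_const]
  refine (sum_le_sum ?_).trans (sum_le_sum_of_subset_of_nonneg (filter_subset _ _) ?_)
  · intro a ha
    rw [mem_filter] at ha
    have h := ha.2
    rw [pr_cons' (by omega : 2 ≤ M)] at h
    have h0 := pr_nonneg M v 0
    nlinarith only [h, hρ, h0]
  · intro a _ _
    have := pr_nonneg M v (0 - a)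
    have := pr_nonneg M v (0 + a)
    (clear ε' hρ hM0 hsum; positivity)

/-- Moment recursion for the number of weight vectors with large return probability. -/
lemma moment_rec {M N : ℕ} [NeZero N] (hM : 4 ≤ M) {ρ ε' β κ : ℝ}
    (hρ : 1 - 2 / M + ε' ≤ ρ) (hρ0 : 0 ≤ ρ) (hε' : 0 < ε') (hβ : 0 < β) (hκ : 0 ≤ κ) (n : ℕ) :
    ∑ v : Fin n → ZMod N, (if β ≤ pr M v 0 then (pr M v 0) ^ κ else 0) ≤
      (2 / M / (ε' * β) + N * ρ ^ κ) ^ n := by
  have hM0 : (0 : ℝ) < M := by exact_mod_cast (by omega : 0 < M)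
  induction n with
  | zero =>
    simp only [univ_unique, sum_singleton, pow_zero]
    split_ifs
    · exact Real.rpow_le_one (pr_nonneg _ _ _) (pr_le_one _ _ _) hκ
    · exact zero_le_one
  | succ n ih =>
    rw [sum_fin_succ_fun, sum_comm, pow_succ]
    have hb : 0 ≤ 2 / M / (ε' * β) + N * ρ ^ κ := by (clear * - hM hε' hβ hρ0; positivity)
    refine le_trans ?_ (mul_le_mul_of_nonneg_right ih hb)
    rw [sum_mul]
    refine sum_le_sum fun v _ => ?_
    by_cases hv : β ≤ pr M v 0
    · rw [if_pos hv]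
      have hpos : 0 < pr M v 0 := lt_of_lt_of_le hβ hv
      -- bad and good a
      have hsplit : ∀ a : ZMod N, (if β ≤ pr M (Fin.cons a v : Fin (n + 1) → ZMod N) 0 then
          (pr M (Fin.cons a v : Fin (n + 1) → ZMod N) 0) ^ κ else 0) ≤
          (if ρ * pr M v 0 < pr M (Fin.cons a v : Fin (n + 1) → ZMod N) 0 then
            (pr M v 0) ^ κ else 0) + ρ ^ κ * (pr M v 0) ^ κ := by
        intro a
        have hle := pr_cons_le hM a v
        have hnn := pr_nonneg M (Fin.cons a v : Fin (n + 1) → ZMod N) 0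
        by_cases hbad : ρ * pr M v 0 < pr M (Fin.cons a v : Fin (n + 1) → ZMod N) 0
        · rw [if_pos hbad]
          have : 0 ≤ ρ ^ κ * (pr M v 0) ^ κ := by (clear * - hρ0 hpos; positivity)
          split_ifs
          · have := Real.rpow_le_rpow hnn hle hκ
            (clear ε' hρ hε' hM0 ih hb hbad; linarith)
          · have : 0 ≤ (pr M v 0) ^ κ := by positivity
            (clear hM ε' hρ hε' hκ hM0 ih hb hle hnn hbad; linarith)
        · rw [if_neg hbad, zero_add]
          push Not at hbad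
          have h3 : (pr M (Fin.cons a v : Fin (n + 1) → ZMod N) 0) ^ κ ≤
              ρ ^ κ * (pr M v 0) ^ κ := by
            rw [← Real.mul_rpow hρ0 hpos.le]
            exact Real.rpow_le_rpow hnn hbad hκ
          split_ifs
          · exact h3
          · (clear * - hρ0 hpos; positivity)
      refine (sum_le_sum fun a _ => hsplit a).trans ?_
      rw [sum_add_distrib, ← sum_filter, sum_const, sum_const, nsmul_eq_mul, nsmul_eq_mul,
        card_univ, ZMod.card]
      have hcb := card_bad hM v hρ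
      set c := ((univ.filter (fun a : ZMod N => ρ * pr M v 0 <
        pr M (Fin.cons a v : Fin (n + 1) → ZMod N) 0)).card : ℝ) with hc
      have hc2 : c ≤ 2 / M / (ε' * β) := by
        rw [le_div_iff₀ (by positivity)]
        refine le_trans ?_ hcb
        have : 0 ≤ c := by rw [hc]; (clear hM ε' β κ hρ hρ0 hε' hβ hκ hM0 ih hb hv hpos hsplit c hcb hc; positivity)
        (clear hM κ hρ hρ0 hβ hκ hM0 ih hb hpos hsplit hcb hc this; gcongr)
      have hpk : 0 ≤ (pr M v 0) ^ κ := by positivity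
      nlinarith only [hc2, hpk]
    · rw [if_neg hv, zero_mul]
      refine (sum_nonpos fun a _ => ?_)
      have hle := pr_cons_le hM a v
      rw [if_neg]
      intro h
      exact hv (h.trans hle)

/-- Counting weight vectors with large return probability. -/
lemma card_large {M N : ℕ} [NeZero N] (hM : 4 ≤ M) {ρ ε' β κ : ℝ}
    (hρ : 1 - 2 / M + ε' ≤ ρ) (hρ0 : 0 ≤ ρ) (hε' : 0 < ε') (hβ : 0 < β) (hκ : 0 ≤ κ) (n : ℕ) :
    ((univ.filter (fun v : Fin n → ZMod N => β ≤ pr M v 0)).card : ℝ) * β ^ κ ≤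
      (2 / M / (ε' * β) + N * ρ ^ κ) ^ n := by
  refine le_trans ?_ (moment_rec hM hρ hρ0 hε' hβ hκ n)
  rw [← sum_filter, ← nsmul_eq_mul, ← sum_const]
  refine sum_le_sum fun v hv => ?_
  rw [mem_filter] at hv
  exact Real.rpow_le_rpow hβ.le hv.2 hκ

end Vale.Agent.P160
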