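import Vale.Agent.P160.Count1

namespace Vale.Agent.P160

open Finset

/-- Product of one-step characteristic functions along `t`. -/
noncomputable def PP {ι : Type*} [Fintype ι] (M : ℕ) {N : ℕ} [NeZero N]
    (v : ι → ZMod N) (t : ZMod N) : ℝ := ∏ i, cf M (ee (t * v i))

section
variable {M N : ℕ} [NeZero N]

lemma PP_nonneg {ι : Type*} [Fintype ι] (hM : 4 ≤ M) (v : ι → ZMod N) (t : ZMod N) :
    0 ≤ PP M v t := prod_nonneg fun _ _ => cf_nonneg hM (norm_ee _)

lemma PP_le_one {ι : Type*} [Fintype ι] (hM : 4 ≤ M) (v : ι → ZMod N) (t : ZMod N) :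
    PP M v t ≤ 1 := prod_le_one (fun _ _ => cf_nonneg hM (norm_ee _)) fun _ _ => cf_le_one (norm_ee _)

lemma cf_one : cf M 1 = 1 := by simp [cf]

lemma PP_zero {ι : Type*} [Fintype ι] (v : ι → ZMod N) : PP M v 0 = 1 := by
  simp only [PP, zero_mul, ee_zero, cf_one, prod_const_one]

lemma Zf_eq_sum_PP {ι : Type*} [Fintype ι] [DecidableEq ι] (hM : 2 ≤ M) (v : ι → ZMod N) :
    Zf M v = ∑ t : ZMod N, PP M v t := Zf_eq hM v

lemma PP_append {a b : ℕ} (va : Fin a → ZMod N) (vb : Fin b → ZMod N) (t : ZMod N) :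
    PP M (Fin.append va vb) t = PP M va t * PP M vb t := by
  unfold PP
  rw [Fin.prod_univ_add]
  simp only [Fin.append_left, Fin.append_right]

/-- Return probability of the integer lazy walk with `k` steps. -/
noncomputable def rk (M k : ℕ) : ℝ :=
  ((univ.filter (fun ω : Fin k → Fin M => ∑ i, st (ω i) = 0)).card : ℝ) / (M : ℝ) ^ k

lemma rk_nonneg (k : ℕ) : 0 ≤ rk M k := by unfold rk; positivity

lemma abs_st_le (a : Fin M) : |st a| ≤ 1 := by
  unfold st
  split_ifs <;> simp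

lemma abs_sum_st_le {k : ℕ} (ω : Fin k → Fin M) : |∑ i, st (ω i)| ≤ k := by
  refine (abs_sum_le_sum_abs _ _).trans ?_
  refine (sum_le_sum fun i _ => abs_st_le (ω i)).trans ?_
  simp only [sum_const, card_univ, Fintype.card_fin, Int.nsmul_eq_mul, mul_one, Std.le_refl]

/-- For `t` of order larger than `k`, the return probability of the constant walk is `rk`. -/
lemma pr_const {k : ℕ} (t : ZMod N) (ht : ∀ i : ℕ, 1 ≤ i → i ≤ k → (i : ZMod N) * t ≠ 0) :
    pr M (fun _ : Fin k => t) 0 = rk M k := by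
  unfold pr rk
  rw [Fintype.card_fin]
  congr 3
  ext ω
  simp only [mem_filter, mem_univ, true_and]
  unfold walk
  rw [← sum_mul]
  constructor
  · intro h
    by_contra hne
    have habs := abs_sum_st_le ω
    rw [Int.abs_eq_natAbs] at habs
    set s := ∑ i, st (ω i) with hs
    have hcast : (∑ i, ((st (ω i) : ℤ) : ZMod N)) = ((s : ℤ) : ZMod N) := by
      rw [hs]; push_cast; rfl
    rw [hcast] at h
    refine ht s.natAbs (by omega) (by omega) ?_
    rcases Int.natAbs_eq s with h' | h'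
    · rw [h'] at h
      simpa only [Nat.cast_natAbs, Int.cast_abs, Int.cast_eq] using h
    · rw [h'] at h
      simpa only [Nat.cast_natAbs, Int.cast_abs, Int.cast_eq, Int.cast_neg, neg_mul, neg_eq_zero] using h
  · intro h
    have : (∑ i, ((st (ω i) : ℤ) : ZMod N)) = (((∑ i, st (ω i)) : ℤ) : ZMod N) := by
      push_cast; rfl
    rw [this, h]
    simp

lemma sum_cf_pow (hM : 2 ≤ M) (k : ℕ) (t : ZMod N) :
    ∑ a : ZMod N, cf M (ee (t * a)) ^ k = N * pr M (fun _ : Fin k => t) 0 := by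
  have := Zf_eq hM (fun _ : Fin k => t)
  unfold Zf at this
  rw [this]
  refine sum_congr rfl fun a _ => ?_
  rw [prod_const, card_univ, Fintype.card_fin, mul_comm]

/-- The `k`-th moment over the second block. -/
lemma sum_PP_pow (hM : 2 ≤ M) {k : ℕ} (b : ℕ) (t : ZMod N)
    (ht : ∀ i : ℕ, 1 ≤ i → i ≤ k → (i : ZMod N) * t ≠ 0) :
    ∑ vb : Fin b → ZMod N, (PP M vb t) ^ k = (N * rk M k) ^ b := by
  rw [← pr_const t ht, ← sum_cf_pow hM]
  unfold PP
  have h := Finset.prod_univ_sum (fun _ : Fin b => (univ : Finset (ZMod N)))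
    (fun _ a => cf M (ee (t * a)) ^ k)
  rw [Fintype.piFinset_univ] at h
  simp only [← prod_pow]
  rw [← h]
  simp only [prod_const, card_univ, Fintype.card_fin]

/-- Weighted power mean inequality. -/
lemma power_mean {ι : Type*} (s : Finset ι) (w X : ι → ℝ) (hw : ∀ i ∈ s, 0 ≤ w i)
    (hX : ∀ i ∈ s, 0 ≤ X i) {Λ : ℝ} (hΛ : 0 < Λ) (hwΛ : ∑ i ∈ s, w i ≤ Λ) (k : ℕ) :
    (∑ i ∈ s, w i * X i) ^ (k + 1) ≤ Λ ^ k * ∑ i ∈ s, w i * X i ^ (k + 1) := by
  have hW0 : 0 ≤ ∑ i ∈ s, w i := sum_nonneg hw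
  rcases hW0.eq_or_lt with hW | hW
  · have : ∀ i ∈ s, w i = 0 := (sum_eq_zero_iff_of_nonneg hw).mp hW.symm
    have h1 : ∑ i ∈ s, w i * X i = 0 := sum_eq_zero fun i hi => by rw [this i hi, zero_mul]
    rw [h1, zero_pow (Nat.succ_ne_zero k)]
    exact mul_nonneg (by positivity) (sum_nonneg fun i hi => mul_nonneg (hw i hi)
      (pow_nonneg (hX i hi) _))
  · set W := ∑ i ∈ s, w i with hWdef
    have hmean := Real.pow_arith_mean_le_arith_mean_pow s (fun i => w i / W) X
      (fun i hi => div_nonneg (hw i hi) hW.le)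
      (by rw [← sum_div]; exact div_self hW.ne') hX (k + 1)
    have h1 : ∑ i ∈ s, w i / W * X i = (∑ i ∈ s, w i * X i) / W := by
      rw [sum_div]; exact sum_congr rfl fun i _ => by ring
    have h2 : ∑ i ∈ s, w i / W * X i ^ (k + 1) = (∑ i ∈ s, w i * X i ^ (k + 1)) / W := by
      rw [sum_div]; exact sum_congr rfl fun i _ => by ring
    rw [h1, h2, div_pow, div_le_div_iff₀ (by positivity) hW] at hmean
    have hnn : 0 ≤ ∑ i ∈ s, w i * X i ^ (k + 1) :=
      sum_nonneg fun i hi => mul_nonneg (hw i hi) (pow_nonneg (hX i hi) _)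
    have h3 : (∑ i ∈ s, w i * X i) ^ (k + 1) ≤ (∑ i ∈ s, w i * X i ^ (k + 1)) * W ^ k := by
      rw [pow_succ W k, ← mul_assoc] at hmean
      exact le_of_mul_le_mul_right hmean hW
    refine h3.trans ?_
    rw [mul_comm]
    (clear * - hW hwΛ hnn; gcongr)

/-- The order of `t` is at most `k`. -/
def SmallOrd (N k : ℕ) (t : ZMod N) : Prop := ∃ i ∈ Finset.Icc 1 k, (i : ZMod N) * t = 0

open Classical in
/-- Frequencies of small order. -/
noncomputable def T0 (N k : ℕ) [NeZero N] : Finset (ZMod N) :=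
  univ.filter (SmallOrd N k)

lemma mem_T0 {k : ℕ} {t : ZMod N} : t ∈ T0 N k ↔ SmallOrd N k t := by
  classical
  simp [T0]

lemma card_T0_le (k : ℕ) : ((T0 N k).card : ℝ) ≤ (k : ℝ) ^ 2 := by
  classical
  have h1 : T0 N k ⊆ (Finset.Icc 1 k).biUnion fun i =>
      univ.filter fun t : ZMod N => i • t = 0 := by
    intro t ht
    rw [mem_T0] at ht
    obtain ⟨i, hi, h⟩ := ht
    rw [mem_biUnion]
    refine ⟨i, hi, ?_⟩
    rw [mem_filter]
    exact ⟨mem_univ _, by rw [nsmul_eq_mul]; exact h⟩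
  have h2 : (T0 N k).card ≤ ∑ i ∈ Finset.Icc 1 k, k := by
    refine (card_le_card h1).trans (card_biUnion_le.trans (sum_le_sum fun i hi => ?_))
    rw [mem_Icc] at hi
    have := IsAddCyclic.card_nsmul_eq_zero_le (α := ZMod N) (n := i) (by omega)
    refine le_trans (le_of_eq ?_) (this.trans hi.2)
    congr
  rw [sum_const, Nat.card_Icc, smul_eq_mul] at h2
  have : (T0 N k).card ≤ k ^ 2 := by
    calc (T0 N k).card ≤ (k + 1 - 1) * k := h2
      _ = k ^ 2 := by rw [Nat.add_sub_cancel]; ring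
  exact_mod_cast this

/-- Roots of unity of small order stay away from one. -/
lemma re_le_of_pow_eq_one {z : ℂ} (hz : ‖z‖ = 1) {i k : ℕ} (hi : 1 ≤ i) (hik : i ≤ k)
    (h1 : z ^ i = 1) (hne : z ≠ 1) : z.re ≤ 1 - 1 / (2 * (k : ℝ) ^ 2) := by
  have hgeom : ∑ l ∈ range i, z ^ l = 0 := by
    have := geom_sum_mul z i
    rw [h1, sub_self] at this
    rcases mul_eq_zero.mp this with h | h
    · exact h
    · exact absurd (sub_eq_zero.mp h) hne
  have hpow : ∀ l : ℕ, ‖1 - z ^ l‖ ≤ l * ‖1 - z‖ := by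
    intro l
    induction l with
    | zero => simp
    | succ l ih =>
      have : 1 - z ^ (l + 1) = (1 - z ^ l) + z ^ l * (1 - z) := by ring
      rw [this]
      refine (norm_add_le _ _).trans ?_
      rw [norm_mul, norm_pow, hz, one_pow, one_mul]
      push_cast
      linarith only [ih]
  have hsum : (i : ℝ) ≤ i * (i * ‖1 - z‖) := by
    have h2 : ((i : ℕ) : ℂ) = ∑ l ∈ range i, (1 - z ^ l) := by
      rw [sum_sub_distrib, hgeom]
      simp only [sum_const, card_range, nsmul_eq_mul, mul_one, sub_zero]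
    calc (i : ℝ) = ‖((i : ℕ) : ℂ)‖ := by simp
      _ = ‖∑ l ∈ range i, (1 - z ^ l)‖ := by rw [h2]
      _ ≤ ∑ l ∈ range i, ‖1 - z ^ l‖ := norm_sum_le _ _
      _ ≤ ∑ l ∈ range i, (i * ‖1 - z‖) := by
        refine sum_le_sum fun l hl => (hpow l).trans ?_
        have : (l : ℝ) ≤ i := by exact_mod_cast (mem_range.mp hl).le
        gcongr
      _ = i * (i * ‖1 - z‖) := by simp
  have hi0 : (0 : ℝ) < i := by exact_mod_cast hi
  have hk : (i : ℝ) ≤ k := by exact_mod_cast hik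
  have h3 : 1 ≤ (k : ℝ) * ‖1 - z‖ := by
    have h4 : 1 ≤ (i : ℝ) * ‖1 - z‖ := by
      by_contra hcon
      push Not at hcon
      have := mul_lt_mul_of_pos_left hcon hi0
      rw [mul_one] at this
      linarith only [hsum, this]
    refine h4.trans ?_
    gcongr
  have hnorm : ‖1 - z‖ ^ 2 = 2 - 2 * z.re := by
    rw [← Complex.normSq_eq_norm_sq, Complex.normSq_apply]
    have : z.re * z.re + z.im * z.im = 1 := by
      rw [← Complex.normSq_apply, Complex.normSq_eq_norm_sq, hz]; norm_num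
    simp only [Complex.sub_re, Complex.one_re, Complex.sub_im, Complex.one_im, zero_sub]
    linarith
  have hk0 : (0 : ℝ) < k := lt_of_lt_of_le hi0 hk
  have h5 : 1 ≤ (k : ℝ) ^ 2 * ‖1 - z‖ ^ 2 := by
    rw [← mul_pow]
    exact one_le_pow₀ h3
  rw [hnorm] at h5
  have h6 : 1 / (2 * (k : ℝ) ^ 2) ≤ 1 - z.re := by
    rw [div_le_iff₀ (by (clear * - hk0; positivity))]
    nlinarith only [h5]
  linarith only [h6]

lemma ee_ne_one {x : ZMod N} (hx : x ≠ 0) : ee x ≠ 1 := by
  intro h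
  apply hx
  have := ZMod.injective_stdAddChar (N := N)
  apply this
  unfold ee at h
  rw [h, AddChar.map_zero_eq_one]

lemma cf_le_of_small_order {k i : ℕ} (hM : 0 < M) (hi : 1 ≤ i) (hik : i ≤ k) {x : ZMod N}
    (hx : x ≠ 0) (h : (i : ZMod N) * x = 0) :
    cf M (ee x) ≤ 1 - 1 / (M * (k : ℝ) ^ 2) := by
  have h1 : ee x ^ i = 1 := by
    rw [← ee_natCast_mul, h, ee_zero]
  have := re_le_of_pow_eq_one (norm_ee x) hi hik h1 (ee_ne_one hx)
  unfold cf
  have hM' : (0 : ℝ) < M := by exact_mod_cast hM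
  have hk : (0 : ℝ) < k := by exact_mod_cast (by omega : 0 < k)
  have h2 : 2 / (M : ℝ) * (ee x).re ≤ 2 / M * (1 - 1 / (2 * (k : ℝ) ^ 2)) := by
    gcongr
  have h3 : 2 / (M : ℝ) * (1 - 1 / (2 * (k : ℝ) ^ 2)) = 2 / M - 1 / (M * (k : ℝ) ^ 2) := by
    field_simp
  linarith

open Classical in
/-- Number of unit coordinates. -/
noncomputable def nu {ι : Type*} [Fintype ι] {N : ℕ}
    (v : ι → ZMod N) : ℕ := (univ.filter fun i => IsUnit (v i)).card

/-- Bound of `PP` at frequencies of small order. -/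
lemma PP_small_order {ι : Type*} [Fintype ι]
    {k : ℕ} (hM : 4 ≤ M) (hk : 1 ≤ k)
    (v : ι → ZMod N) {t : ZMod N} (ht : t ∈ T0 N k) (ht0 : t ≠ 0) :
    PP M v t ≤ (1 - 1 / (M * (k : ℝ) ^ 2)) ^ (nu v) := by
  classical
  rw [mem_T0] at ht
  obtain ⟨i, hi, h⟩ := ht
  rw [mem_Icc] at hi
  have hnu : nu v = (univ.filter fun i => IsUnit (v i)).card := by unfold nu; congr
  rw [hnu]
  unfold PP
  rw [← prod_filter_mul_prod_filter_not univ (fun i => IsUnit (v i))]
  have hM' : (4 : ℝ) ≤ M := by exact_mod_cast hM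
  have hk' : (1 : ℝ) ≤ k := by exact_mod_cast hk
  have hc : 0 ≤ 1 - 1 / (M * (k : ℝ) ^ 2) := by
    rw [sub_nonneg, div_le_one (by positivity)]
    nlinarith only [hk', hM']
  have h1 : ∏ x ∈ univ.filter (fun i => IsUnit (v i)), cf M (ee (t * v x)) ≤
      (1 - 1 / (M * (k : ℝ) ^ 2)) ^ (univ.filter (fun i => IsUnit (v i))).card := by
    rw [← prod_const]
    refine prod_le_prod (fun _ _ => cf_nonneg hM (norm_ee _)) fun l hl => ?_
    rw [mem_filter] at hl
    refine cf_le_of_small_order (by omega) hi.1 hi.2 ?_ ?_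
    · intro h0
      apply ht0
      exact (hl.2.mul_left_eq_zero).mp h0
    · rw [← mul_assoc, h, zero_mul]
  have h2 : ∏ x ∈ univ.filter (fun i => ¬ IsUnit (v i)), cf M (ee (t * v x)) ≤ 1 :=
    prod_le_one (fun _ _ => cf_nonneg hM (norm_ee _)) fun _ _ => cf_le_one (norm_ee _)
  have h3 : 0 ≤ ∏ x ∈ univ.filter (fun i => ¬ IsUnit (v i)), cf M (ee (t * v x)) :=
    prod_nonneg fun _ _ => cf_nonneg hM (norm_ee _)
  calc _ ≤ (1 - 1 / (M * (k : ℝ) ^ 2)) ^ (univ.filter (fun i => IsUnit (v i))).card * 1 := by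
        gcongr
    _ = _ := mul_one _

end

end Vale.Agent.P160
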