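import Vale.Agent.P160.Count2

namespace Vale.Agent.P160

open Finset Filter Topology

lemma rk_le_pr {M k : ℕ} {N : ℕ} : rk M k ≤ pr M (fun _ : Fin k => (1 : ZMod N)) 0 := by
  unfold rk pr
  rw [Fintype.card_fin]
  refine div_le_div_of_nonneg_right ?_ (by positivity)
  refine Nat.cast_le.mpr (card_le_card (monotone_filter_right _ fun ω _ h => ?_))
  unfold walk
  rw [← sum_mul, mul_one]
  have : (∑ i, ((st (ω i) : ℤ) : ZMod N)) = (((∑ i, st (ω i)) : ℤ) : ZMod N) := by
    push_cast; rfl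
  rw [this, h]
  simp

lemma cf_lt_one {M N : ℕ} [NeZero N] (hM : 0 < M) {x : ZMod N} (hx : x ≠ 0) :
    cf M (ee x) < 1 := by
  have h1 : (ee x).re < 1 := by
    have hle : (ee x).re ≤ 1 := by
      have := Complex.abs_re_le_norm (ee x)
      rw [norm_ee] at this
      exact (abs_le.mp this).2
    rcases hle.eq_or_lt with h | h
    · exfalso
      apply ee_ne_one hx
      have hn : Complex.normSq (ee x) = 1 := by
        rw [Complex.normSq_eq_norm_sq, norm_ee]; norm_num
      rw [Complex.normSq_apply, h] at hn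
      have him : (ee x).im = 0 := by (clear M hM hx hle h; nlinarith)
      exact Complex.ext (by simpa using h) (by simpa using him)
    · exact h
  have hM' : (0 : ℝ) < M := by exact_mod_cast hM
  unfold cf
  have : 0 < 2 / (M : ℝ) := by positivity
  nlinarith

lemma exists_rk_small {M : ℕ} (hM : 4 ≤ M) {τ : ℝ} (hτ : 0 < τ) :
    ∃ k : ℕ, 1 ≤ k ∧ rk M k ≤ τ := by
  obtain ⟨N, hN⟩ := exists_nat_gt (2 / τ)
  have hN0 : 0 < N := by
    rcases Nat.eq_zero_or_pos N with h | h
    · exfalso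
      rw [h] at hN
      have : 0 < 2 / τ := by (clear * - hτ; positivity)
      simp only [CharP.cast_eq_zero] at hN
      linarith only [this, hN]
    · exact h
  have : NeZero N := ⟨hN0.ne'⟩
  have hN' : (0 : ℝ) < N := by exact_mod_cast hN0
  have hlim : Tendsto (fun k : ℕ => ∑ x ∈ univ.erase (0 : ZMod N), cf M (ee (x * 1)) ^ k) atTop
      (𝓝 (∑ _x ∈ univ.erase (0 : ZMod N), (0 : ℝ))) := by
    refine tendsto_finsetSum _ fun x hx => ?_
    rw [mem_erase] at hx
    refine tendsto_pow_atTop_nhds_zero_of_lt_one (cf_nonneg hM (norm_ee _)) ?_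
    rw [mul_one]
    exact cf_lt_one (by omega) hx.1
  rw [sum_const_zero] at hlim
  have hev : ∀ᶠ k : ℕ in atTop, ∑ x ∈ univ.erase (0 : ZMod N), cf M (ee (x * 1)) ^ k < 1 :=
    hlim.eventually_lt_const (by norm_num)
  obtain ⟨k, hk1, hk⟩ := ((eventually_ge_atTop 1).and hev).exists
  refine ⟨k, hk1, rk_le_pr.trans (b := pr M (fun _ : Fin k => (1 : ZMod N)) 0) ?_⟩
  have hZ := Zf_eq (M := M) (by omega) (fun _ : Fin k => (1 : ZMod N))
  unfold Zf at hZ
  have h2 : ∑ t : ZMod N, ∏ _i : Fin k, cf M (ee (t * 1)) < 2 := by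
    rw [← add_sum_erase _ _ (mem_univ (0 : ZMod N))]
    simp only [prod_const, card_univ, Fintype.card_fin]
    simp only [zero_mul, ee_zero, cf_one, one_pow]
    linarith only [hk]
  rw [← hZ] at h2
  have h3 : 2 ≤ τ * N := by
    have := (div_lt_iff₀ hτ).mp hN
    linarith only [this]
  by_contra hcon
  push Not at hcon
  nlinarith only [h2, h3, hcon]

open Classical in
theorem count_main {M N : ℕ} [NeZero N] (hM : 4 ≤ M) {k : ℕ} (a b u : ℕ) {η Λ : ℝ}
    (hη : 0 < η) (hΛ : 0 < Λ)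
    (hsmall : ((k : ℝ) + 1) ^ 2 * (1 - 1 / (M * ((k : ℝ) + 1) ^ 2)) ^ u ≤ η / 2) :
    ((univ.filter (fun v : Fin (a + b) → ZMod N => u ≤ nu v ∧ 1 + η < Zf M v)).card : ℝ) ≤
      ((univ.filter (fun v : Fin a → ZMod N => Λ ≤ Zf M v)).card : ℝ) * (N : ℝ) ^ b +
      (N : ℝ) ^ a * (Λ ^ (k + 1) * (2 / η) ^ (k + 1) * ((N : ℝ) * rk M (k + 1)) ^ b) := by
  have hM' : (4 : ℝ) ≤ M := by exact_mod_cast hM
  set T := T0 N (k + 1) with hT
  set rest : (Fin a → ZMod N) → (Fin b → ZMod N) → ℝ := fun va vb =>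
    ∑ t ∈ Tᶜ, PP M va t * PP M vb t with hrest
  -- key implication
  have key : ∀ (va : Fin a → ZMod N) (vb : Fin b → ZMod N),
      (u ≤ nu (Fin.append va vb) ∧ 1 + η < Zf M (Fin.append va vb)) → η / 2 < rest va vb := by
    intro va vb ⟨hu, hZ⟩
    rw [Zf_eq_sum_PP (by omega)] at hZ
    have hsplit : ∑ t : ZMod N, PP M (Fin.append va vb) t =
        ∑ t ∈ T, PP M (Fin.append va vb) t + ∑ t ∈ Tᶜ, PP M (Fin.append va vb) t :=
      (sum_add_sum_compl T _).symm
    have h0T : (0 : ZMod N) ∈ T := by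
      rw [hT, mem_T0]
      exact ⟨1, by simp only [mem_Icc, Std.le_refl, le_add_iff_nonneg_left, zero_le, and_self], by simp⟩
    have hTb : ∑ t ∈ T, PP M (Fin.append va vb) t ≤ 1 + η / 2 := by
      rw [← add_sum_erase _ _ h0T, PP_zero]
      have : ∑ t ∈ T.erase 0, PP M (Fin.append va vb) t ≤ η / 2 := by
        have hc : 0 ≤ 1 - 1 / ((M : ℝ) * ((k : ℝ) + 1) ^ 2) := by
          rw [sub_nonneg, div_le_one (by (clear * - hM; positivity))]
          have : (1 : ℝ) ≤ ((k : ℝ) + 1) ^ 2 := by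
            have : (0 : ℝ) ≤ k := by positivity
            nlinarith
          nlinarith only [this, hM']
        have hc1 : 1 - 1 / ((M : ℝ) * ((k : ℝ) + 1) ^ 2) ≤ 1 := by
          have : 0 ≤ 1 / ((M : ℝ) * ((k : ℝ) + 1) ^ 2) := by (clear * - hM; positivity)
          linarith only [this]
        calc ∑ t ∈ T.erase 0, PP M (Fin.append va vb) t
            ≤ ∑ _t ∈ T.erase 0, (1 - 1 / ((M : ℝ) * ((k : ℝ) + 1) ^ 2)) ^ u := by
              refine sum_le_sum fun t ht => ?_
              rw [mem_erase] at ht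
              have h := PP_small_order hM (by omega : 1 ≤ k + 1) (Fin.append va vb) ht.2 ht.1
              push_cast at h
              refine h.trans ?_
              exact pow_le_pow_of_le_one hc hc1 hu
          _ = ((T.erase 0).card : ℝ) * (1 - 1 / ((M : ℝ) * ((k : ℝ) + 1) ^ 2)) ^ u := by
              rw [sum_const, nsmul_eq_mul]
          _ ≤ ((k : ℝ) + 1) ^ 2 * (1 - 1 / ((M : ℝ) * ((k : ℝ) + 1) ^ 2)) ^ u := by
              have h1 : ((T.erase 0).card : ℝ) ≤ (T.card : ℝ) := by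
                exact_mod_cast card_le_card (erase_subset _ _)
              have h2 := card_T0_le (N := N) (k + 1)
              push_cast at h2
              have h3 : ((T.erase 0).card : ℝ) ≤ ((k : ℝ) + 1) ^ 2 := h1.trans h2
              exact mul_le_mul_of_nonneg_right h3 (pow_nonneg hc _)
          _ ≤ η / 2 := hsmall
      (clear Λ hη hΛ hT rest hrest hZ hsplit h0T; linarith)
    have hrest' : rest va vb = ∑ t ∈ Tᶜ, PP M (Fin.append va vb) t := by
      rw [hrest]
      exact sum_congr rfl fun t _ => (PP_append va vb t).symm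
    rw [hrest']
    linarith
  -- moment bound
  have hmoment : ∀ va : Fin a → ZMod N, Zf M va < Λ →
      ((univ.filter (fun vb : Fin b → ZMod N => η / 2 < rest va vb)).card : ℝ) ≤
        Λ ^ (k + 1) * (2 / η) ^ (k + 1) * ((N : ℝ) * rk M (k + 1)) ^ b := by
    intro va hva
    have h1 : ((univ.filter (fun vb : Fin b → ZMod N => η / 2 < rest va vb)).card : ℝ) *
        (η / 2) ^ (k + 1) ≤ ∑ vb : Fin b → ZMod N, (rest va vb) ^ (k + 1) := by
      rw [← nsmul_eq_mul, ← sum_const]
      refine (sum_le_sum fun vb hvb => ?_).trans (sum_le_sum_of_subset_of_nonneg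
        (filter_subset _ _) fun vb _ _ => ?_)
      · rw [mem_filter] at hvb
        exact pow_le_pow_left₀ (by positivity) hvb.2.le _
      · exact pow_nonneg (sum_nonneg fun t _ => mul_nonneg (PP_nonneg hM _ _)
          (PP_nonneg hM _ _)) _
    have hZva : ∑ t ∈ Tᶜ, PP M va t ≤ Λ := by
      rw [Zf_eq_sum_PP (by omega)] at hva
      exact (sum_le_sum_of_subset_of_nonneg (subset_univ _)
        fun t _ _ => PP_nonneg hM _ _).trans hva.le
    have h2 : ∑ vb : Fin b → ZMod N, (rest va vb) ^ (k + 1) ≤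
        ∑ vb : Fin b → ZMod N, Λ ^ k * ∑ t ∈ Tᶜ, PP M va t * PP M vb t ^ (k + 1) :=
      sum_le_sum fun vb _ => power_mean Tᶜ _ _ (fun t _ => PP_nonneg hM _ _)
        (fun t _ => PP_nonneg hM _ _) hΛ hZva k
    have h3 : ∑ vb : Fin b → ZMod N, Λ ^ k * ∑ t ∈ Tᶜ, PP M va t * PP M vb t ^ (k + 1) =
        Λ ^ k * ∑ t ∈ Tᶜ, PP M va t * ((N : ℝ) * rk M (k + 1)) ^ b := by
      rw [← mul_sum, sum_comm]
      congr 1
      refine sum_congr rfl fun t ht => ?_
      rw [← mul_sum]
      congr 1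
      refine sum_PP_pow (by omega) b t fun i hi1 hi2 h => ?_
      rw [mem_compl, hT, mem_T0] at ht
      exact ht ⟨i, by rw [mem_Icc]; exact ⟨hi1, hi2⟩, h⟩
    have h4 : Λ ^ k * ∑ t ∈ Tᶜ, PP M va t * ((N : ℝ) * rk M (k + 1)) ^ b ≤
        Λ ^ (k + 1) * ((N : ℝ) * rk M (k + 1)) ^ b := by
      rw [← sum_mul, pow_succ, mul_assoc]
      have := rk_nonneg (M := M) (k + 1)
      (clear u η hη hsmall hM' hT rest hrest key h1 h2 h3; gcongr)
    have h5 : ((univ.filter (fun vb : Fin b → ZMod N => η / 2 < rest va vb)).card : ℝ) *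
        (η / 2) ^ (k + 1) ≤ Λ ^ (k + 1) * ((N : ℝ) * rk M (k + 1)) ^ b :=
      h1.trans (h2.trans (h3.le.trans h4))
    have h6 : (2 / η) ^ (k + 1) * (η / 2) ^ (k + 1) = 1 := by
      rw [← mul_pow]
      have : 2 / η * (η / 2) = 1 := by field_simp
      rw [this, one_pow]
    have h7 : 0 < (2 / η) ^ (k + 1) := by positivity
    calc ((univ.filter (fun vb : Fin b → ZMod N => η / 2 < rest va vb)).card : ℝ)
        = (((univ.filter (fun vb : Fin b → ZMod N => η / 2 < rest va vb)).card : ℝ) *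
          (η / 2) ^ (k + 1)) * (2 / η) ^ (k + 1) := by
          rw [mul_assoc, mul_comm ((η / 2) ^ (k + 1)), h6, mul_one]
      _ ≤ (Λ ^ (k + 1) * ((N : ℝ) * rk M (k + 1)) ^ b) * (2 / η) ^ (k + 1) := by gcongr
      _ = _ := by ring
  -- assemble
  have hcard : ((univ.filter (fun v : Fin (a + b) → ZMod N =>
      u ≤ nu v ∧ 1 + η < Zf M v)).card : ℝ) =
      ∑ va : Fin a → ZMod N, ((univ.filter (fun vb : Fin b → ZMod N =>
        u ≤ nu (Fin.append va vb) ∧ 1 + η < Zf M (Fin.append va vb))).card : ℝ) := by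
    rw [natCast_card_filter, ← (Fin.appendEquiv a b).sum_comp, Fintype.sum_prod_type]
    refine sum_congr rfl fun va _ => ?_
    rw [natCast_card_filter]
    rfl
  rw [hcard]
  have hterm : ∀ va : Fin a → ZMod N, ((univ.filter (fun vb : Fin b → ZMod N =>
        u ≤ nu (Fin.append va vb) ∧ 1 + η < Zf M (Fin.append va vb))).card : ℝ) ≤
      (if Λ ≤ Zf M va then (N : ℝ) ^ b else 0) +
        Λ ^ (k + 1) * (2 / η) ^ (k + 1) * ((N : ℝ) * rk M (k + 1)) ^ b := by
    intro va
    have hnn : 0 ≤ Λ ^ (k + 1) * (2 / η) ^ (k + 1) * ((N : ℝ) * rk M (k + 1)) ^ b := by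
      have := rk_nonneg (M := M) (k + 1)
      (clear * - hΛ hη this; positivity)
    by_cases hva : Λ ≤ Zf M va
    · rw [if_pos hva]
      have : ((univ.filter (fun vb : Fin b → ZMod N =>
        u ≤ nu (Fin.append va vb) ∧ 1 + η < Zf M (Fin.append va vb))).card : ℝ) ≤
          ((univ : Finset (Fin b → ZMod N)).card : ℝ) := by
        exact_mod_cast card_le_card (filter_subset _ _)
      rw [card_univ, Fintype.card_fun, ZMod.card, Fintype.card_fin] at this
      push_cast at this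
      (clear hM hsmall hM' T hT rest hrest key hmoment hcard hva; linarith)
    · rw [if_neg hva, zero_add]
      push Not at hva
      refine le_trans ?_ (hmoment va hva)
      exact_mod_cast card_le_card (monotone_filter_right _ fun vb _ => key va vb)
  refine (sum_le_sum fun va _ => hterm va).trans ?_
  rw [sum_add_distrib, ← sum_filter, sum_const, sum_const, nsmul_eq_mul, nsmul_eq_mul, card_univ,
    Fintype.card_fun, ZMod.card, Fintype.card_fin]
  push_cast
  exact le_refl _

end Vale.Agent.P160
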