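import Vale.Agent.P160.MathlibUsed

namespace Vale.Agent.P160

open Finset

/-- Lazy step with a uniform seed in `Fin M`: value 1 at seed 0, value -1 at seed 1, else 0. -/
def st {M : ℕ} (a : Fin M) : ℤ := if a.val = 0 then 1 else if a.val = 1 then -1 else 0

/-- The walk with seeds `ω` and weights `v`. -/
def walk {ι : Type*} [Fintype ι] {M N : ℕ} (ω : ι → Fin M) (v : ι → ZMod N) : ZMod N :=
  ∑ i, (st (ω i) : ZMod N) * v i

/-- Probability that the lazy walk with weights `v` equals `a`. -/
noncomputable def pr {ι : Type*} [Fintype ι] [DecidableEq ι] (M : ℕ) {N : ℕ}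
    (v : ι → ZMod N) (a : ZMod N) : ℝ :=
  ((univ.filter (fun ω : ι → Fin M => walk ω v = a)).card : ℝ) / (M : ℝ) ^ Fintype.card ι

/-- Characteristic function of one lazy step at a unit complex number `z`. -/
noncomputable def cf (M : ℕ) (z : ℂ) : ℝ := 1 - 2 / M + 2 / M * z.re

/-- `Zf M v = N * P(walk = 0)`. -/
noncomputable def Zf {ι : Type*} [Fintype ι] [DecidableEq ι] (M : ℕ) {N : ℕ}
    (v : ι → ZMod N) : ℝ := N * pr M v 0

end Vale.Agent.P160
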