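import Vale.Agent.P160.Basic

set_option linter.unusedSectionVars false

namespace Vale.Agent.P160

open Finset

section group

variable {G : Type*} [AddCommGroup G] [Fintype G] [DecidableEq G]
variable {E : Type*} [Fintype E] [DecidableEq E]

/-- Lazy walk with weights in an abelian group. -/
def gwalk {M : ℕ} (ω : E → Fin M) (c : E → G) : G := ∑ e, (st (ω e)) • c e

/-- Probability that the lazy walk with weights `c` ends at `g`. -/
noncomputable def gpr (M : ℕ) (c : E → G) (g : G) : ℝ :=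
  ((univ.filter (fun ω : E → Fin M => gwalk ω c = g)).card : ℝ) / (M : ℝ) ^ Fintype.card E

/-- Random subset sum. -/
def bwalk (b : E → Bool) (c : E → G) : G := ∑ e, if b e then c e else 0

/-- Probability that the uniform random subset sum is `g`. -/
noncomputable def bpr (c : E → G) (g : G) : ℝ :=
  ((univ.filter (fun b : E → Bool => bwalk b c = g)).card : ℝ) / (2 : ℝ) ^ Fintype.card E

lemma norm_addChar (ψ : AddChar G ℂ) (g : G) : ‖ψ g‖ = 1 := AddChar.norm_apply ψ g

/-- Counting solutions of `f ω = g` by characters. -/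
lemma card_filter_eq_sum {Ω : Type*} [Fintype Ω] (f : Ω → G) (g : G) :
    (Fintype.card G : ℂ) * ((univ.filter (fun ω : Ω => f ω = g)).card : ℂ) =
      ∑ ψ : AddChar G ℂ, ψ (-g) * ∑ ω : Ω, ψ (f ω) := by
  classical
  have h1 : ∀ ω : Ω, (∑ ψ : AddChar G ℂ, ψ (-g) * ψ (f ω)) =
      if f ω = g then (Fintype.card G : ℂ) else 0 := by
    intro ω
    have := AddChar.sum_apply_eq_ite (f ω - g)
    simp only [sub_eq_zero] at this
    rw [← this]
    refine sum_congr rfl fun ψ _ => ?_
    rw [← AddChar.map_add_eq_mul]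
    congr 1
    abel
  calc (Fintype.card G : ℂ) * ((univ.filter (fun ω : Ω => f ω = g)).card : ℂ)
      = ∑ ω : Ω, if f ω = g then (Fintype.card G : ℂ) else 0 := by
        rw [← sum_filter, sum_const, nsmul_eq_mul, mul_comm]
    _ = ∑ ω : Ω, ∑ ψ : AddChar G ℂ, ψ (-g) * ψ (f ω) := by
        refine sum_congr rfl fun ω _ => ?_
        rw [h1]
    _ = _ := by
        rw [sum_comm]
        refine sum_congr rfl fun ψ _ => ?_
        rw [mul_sum]

lemma addChar_sum {κ : Type*} (ψ : AddChar G ℂ) (s : Finset κ) (f : κ → G) :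
    ψ (∑ i ∈ s, f i) = ∏ i ∈ s, ψ (f i) := by
  classical
  induction s using Finset.induction_on with
  | empty => simp
  | insert a s ha ih => rw [sum_insert ha, prod_insert ha, AddChar.map_add_eq_mul, ih]

lemma sum_addChar_gwalk {M : ℕ} (hM : 2 ≤ M) (ψ : AddChar G ℂ) (c : E → G) :
    ∑ ω : E → Fin M, ψ (gwalk ω c) =
      (((M : ℝ) ^ Fintype.card E * ∏ e, cf M (ψ (c e)) : ℝ) : ℂ) := by
  rw [← sum_prod_zpow_st hM (fun e => ψ (c e)) (fun e => norm_addChar ψ _)]
  refine sum_congr rfl fun ω _ => ?_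
  unfold gwalk
  rw [addChar_sum]
  refine prod_congr rfl fun e _ => ?_
  rw [AddChar.map_zsmul_eq_zpow]

lemma sum_addChar_bwalk (ψ : AddChar G ℂ) (c : E → G) :
    ∑ b : E → Bool, ψ (bwalk b c) = ∏ e, (1 + ψ (c e)) := by
  have h := Finset.prod_univ_sum (fun _ : E => (univ : Finset Bool))
    (fun e a => ψ (if a then c e else 0))
  rw [Fintype.piFinset_univ] at h
  have h2 : ∀ e, ∑ a : Bool, ψ (if a then c e else 0) = 1 + ψ (c e) := by
    intro e
    rw [Fintype.sum_bool]
    simp [add_comm]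
  simp only [h2] at h
  rw [h]
  refine sum_congr rfl fun b _ => ?_
  unfold bwalk
  rw [addChar_sum]

/-- Fourier formula for the lazy walk in a group. -/
lemma gpr_eq {M : ℕ} (hM : 2 ≤ M) (c : E → G) (g : G) :
    ((Fintype.card G * gpr M c g : ℝ) : ℂ) =
      ∑ ψ : AddChar G ℂ, ψ (-g) * ((∏ e, cf M (ψ (c e)) : ℝ) : ℂ) := by
  have hM0 : ((M : ℝ) ^ Fintype.card E : ℝ) ≠ 0 := by
    have : (0 : ℝ) < M := by exact_mod_cast (by omega : 0 < M)
    positivity
  have hM0' : (((M : ℝ) ^ Fintype.card E : ℝ) : ℂ) ≠ 0 := by exact_mod_cast hM0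
  have h := card_filter_eq_sum (fun ω : E → Fin M => gwalk ω c) g
  rw [← mul_right_inj' hM0']
  have e1 : (((M : ℝ) ^ Fintype.card E : ℝ) : ℂ) * ((Fintype.card G * gpr M c g : ℝ) : ℂ) =
      (Fintype.card G : ℂ) *
        ((univ.filter (fun ω : E → Fin M => gwalk ω c = g)).card : ℂ) := by
    have : (M : ℂ) ^ Fintype.card E ≠ 0 := by exact_mod_cast hM0
    unfold gpr
    push_cast
    field_simp
  rw [e1, h, mul_sum]
  refine sum_congr rfl fun ψ _ => ?_
  rw [sum_addChar_gwalk hM]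
  push_cast
  ring

lemma gpr_zero_eq {M : ℕ} (hM : 2 ≤ M) (c : E → G) :
    Fintype.card G * gpr M c 0 = ∑ ψ : AddChar G ℂ, ∏ e, cf M (ψ (c e)) := by
  have h := gpr_eq hM c 0
  simp only [neg_zero, AddChar.map_zero_eq_one, one_mul] at h
  exact_mod_cast h

lemma gpr_nonneg {M : ℕ} (c : E → G) (g : G) : 0 ≤ gpr M c g := by
  unfold gpr
  positivity

lemma bpr_nonneg (c : E → G) (g : G) : 0 ≤ bpr c g := by
  unfold bpr
  positivity

lemma cf_mono {M M' : ℕ} (hM : 4 ≤ M) (hMM : M ≤ M') {z : ℂ} (hz : ‖z‖ = 1) :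
    cf M z ≤ cf M' z := by
  have h1 : z.re ≤ 1 := by
    have := Complex.abs_re_le_norm z
    rw [hz] at this
    exact (abs_le.mp this).2
  have hM' : (4 : ℝ) ≤ M := by exact_mod_cast hM
  have hMM' : (M : ℝ) ≤ M' := by exact_mod_cast hMM
  have h2 : 2 / (M' : ℝ) ≤ 2 / (M : ℝ) := by
    apply div_le_div_of_nonneg_left <;> linarith
  unfold cf
  nlinarith

omit [DecidableEq E] in
/-- Dropping factors from a product of numbers in `[0,1]`. -/
lemma prod_le_prod_comp {E' : Type*} [Fintype E'] (f : E' → E) (hf : Function.Injective f)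
    (a : E → ℝ) (h0 : ∀ e, 0 ≤ a e) (h1 : ∀ e, a e ≤ 1) :
    ∏ e, a e ≤ ∏ e', a (f e') := by
  classical
  have hmap : ∏ e', a (f e') = ∏ x ∈ (univ : Finset E').map ⟨f, hf⟩, a x := by
    rw [Finset.prod_map]
    rfl
  rw [hmap, ← Finset.prod_sdiff (Finset.subset_univ ((univ : Finset E').map ⟨f, hf⟩))]
  have h2 : ∏ x ∈ univ \ (univ : Finset E').map ⟨f, hf⟩, a x ≤ 1 :=
    Finset.prod_le_one (fun i _ => h0 i) (fun i _ => h1 i)
  have h3 : 0 ≤ ∏ x ∈ (univ : Finset E').map ⟨f, hf⟩, a x := Finset.prod_nonneg fun i _ => h0 i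
  nlinarith

/-- Lazy walks: restricting to a sub-family and making the walk lazier increases the
probability of returning to `0`, and `0` is the most likely value. -/
lemma gpr_le_gpr {E' : Type*} [Fintype E'] [DecidableEq E'] {M M' : ℕ} (hM : 4 ≤ M)
    (hMM : M ≤ M') (f : E' → E) (hf : Function.Injective f) (c : E → G) (g : G) :
    gpr M c g ≤ gpr M' (fun e => c (f e)) 0 := by
  have hG : (0 : ℝ) < Fintype.card G := by exact_mod_cast Fintype.card_pos
  have h := gpr_eq (by omega : 2 ≤ M) c g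
  have h0 := gpr_zero_eq (by omega : 2 ≤ M') (fun e => c (f e))
  refine le_of_mul_le_mul_left ?_ hG
  have : (Fintype.card G * gpr M c g : ℝ) = ‖((Fintype.card G * gpr M c g : ℝ) : ℂ)‖ := by
    rw [Complex.norm_real, Real.norm_eq_abs, abs_of_nonneg]
    exact mul_nonneg hG.le (gpr_nonneg _ _)
  rw [this, h, h0]
  refine (norm_sum_le _ _).trans (sum_le_sum fun ψ _ => ?_)
  rw [norm_mul, norm_addChar, one_mul, Complex.norm_real, Real.norm_eq_abs, abs_of_nonneg
    (prod_nonneg fun i _ => cf_nonneg hM (norm_addChar _ _))]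
  refine (prod_le_prod_comp f hf _ (fun e => cf_nonneg hM (norm_addChar _ _))
    (fun e => cf_le_one (norm_addChar _ _))).trans ?_
  exact prod_le_prod (fun i _ => cf_nonneg hM (norm_addChar _ _))
    (fun i _ => cf_mono hM hMM (norm_addChar _ _))

lemma norm_half_le_cf {z : ℂ} (hz : ‖z‖ = 1) : ‖(1 + z) / 2‖ ≤ cf 8 z := by
  have h1 : ‖(1 + z) / 2‖ ^ 2 = (1 + z.re) / 2 := by
    rw [norm_div, div_pow, ← Complex.normSq_eq_norm_sq (1 + z), Complex.normSq_apply]
    have h2 : z.re * z.re + z.im * z.im = 1 := by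
      rw [← Complex.normSq_apply, Complex.normSq_eq_norm_sq, hz]; norm_num
    simp
    nlinarith
  have hre : -1 ≤ z.re := by
    have := Complex.abs_re_le_norm z
    rw [hz] at this
    exact (abs_le.mp this).1
  unfold cf
  have h3 : 0 ≤ ‖(1 + z) / 2‖ := norm_nonneg _
  push_cast
  nlinarith [sq_nonneg (‖(1 + z) / 2‖ - 1)]

/-- Domination of a random subset sum by a lazy walk on any sub-family. -/
lemma bpr_le_gpr {E' : Type*} [Fintype E'] [DecidableEq E'] {M' : ℕ}
    (hMM : 8 ≤ M') (f : E' → E) (hf : Function.Injective f) (c : E → G) (g : G) :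
    bpr c g ≤ gpr M' (fun e => c (f e)) 0 := by
  have hG : (0 : ℝ) < Fintype.card G := by exact_mod_cast Fintype.card_pos
  have h := card_filter_eq_sum (fun b : E → Bool => bwalk b c) g
  have h0 := gpr_zero_eq (by omega : 2 ≤ M') (fun e => c (f e))
  have h2E : (0 : ℝ) < (2 : ℝ) ^ Fintype.card E := by positivity
  have hb : (Fintype.card G * bpr c g : ℝ) * (2 : ℝ) ^ Fintype.card E =
      ‖(Fintype.card G : ℂ) *
        ((univ.filter (fun b : E → Bool => bwalk b c = g)).card : ℂ)‖ := by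
    rw [norm_mul, Complex.norm_natCast, Complex.norm_natCast]
    unfold bpr
    field_simp
  refine le_of_mul_le_mul_left ?_ hG
  refine le_of_mul_le_mul_right ?_ h2E
  rw [hb, h, h0, sum_mul]
  refine (norm_sum_le _ _).trans (sum_le_sum fun ψ _ => ?_)
  rw [norm_mul, norm_addChar, one_mul, sum_addChar_bwalk, norm_prod]
  have h3 : ∏ e, ‖1 + ψ (c e)‖ = (∏ e, ‖(1 + ψ (c e)) / 2‖) * (2 : ℝ) ^ Fintype.card E := by
    rw [← Finset.card_univ, ← Finset.prod_const, ← Finset.prod_mul_distrib]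
    refine prod_congr rfl fun e _ => ?_
    rw [norm_div]
    simp
  rw [h3]
  refine mul_le_mul_of_nonneg_right ?_ h2E.le
  refine (prod_le_prod_comp f hf _ (fun e => norm_nonneg _)
    (fun e => (norm_half_le_cf (norm_addChar _ _)).trans (cf_le_one (norm_addChar _ _)))).trans ?_
  refine prod_le_prod (fun i _ => norm_nonneg _) (fun i _ => ?_)
  exact (norm_half_le_cf (norm_addChar _ _)).trans
    (cf_mono (by norm_num) hMM (norm_addChar _ _))

end group

end Vale.Agent.P160
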