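import Vale.Agent.P160.Union
attribute [-instance] ProperSMul.toContinuousSMul IsTopologicalTorsor.toContinuousSMul IdemSemiring.toCanonicallyOrderedAdd IdemSemiring.toMulLeftMono IdemSemiring.toMulRightMono AddQuantale.instAddLeftMono AddQuantale.instAddRightMono Quantale.instMulLeftMono Quantale.instMulRightMono FiniteDimensional.rclike_to_real IsScalarTower.complexToReal FiniteDimensional.complexToReal

set_option linter.unusedSectionVars false

namespace Vale.Agent.P160

open Finset

open Classical in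
/-- Probability of an event for the random symmetric matrix. -/
noncomputable def Pb {n : ℕ} (A : (Sym2 (Fin n) → Bool) → Prop) : ℝ :=
  ((univ.filter A).card : ℝ) / (2 : ℝ) ^ Fintype.card (Sym2 (Fin n))

section events

variable {n : ℕ} (D : Finset (Fin n))

lemma Pb_mono {A B : (Sym2 (Fin n) → Bool) → Prop} (h : ∀ b, A b → B b) : Pb A ≤ Pb B := by
  classical
  unfold Pb
  rw [div_le_div_iff_of_pos_right (by positivity)]
  exact_mod_cast Finset.card_le_card (Finset.monotone_filter_right _ fun b _ hb => h b hb)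

lemma Pb_nonneg (A : (Sym2 (Fin n) → Bool) → Prop) : 0 ≤ Pb A := by
  unfold Pb; positivity

lemma Pb_or (A B : (Sym2 (Fin n) → Bool) → Prop) : Pb (fun b => A b ∨ B b) ≤ Pb A + Pb B := by
  classical
  unfold Pb
  rw [← add_div, div_le_div_iff_of_pos_right (by positivity)]
  norm_cast
  refine (Finset.card_le_card ?_).trans (Finset.card_union_le (univ.filter A) (univ.filter B))
  intro b hb
  simp only [mem_filter, mem_univ, true_and, mem_union] at hb ⊢
  exact hb

lemma Pb_eq_Spr {N : ℕ} [NeZero N] (v w : Fin n → ZMod N) :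
    Pb (fun b => smul2 b v = w) = Spr v w := by
  classical
  unfold Pb Spr
  congr

/-- Union bound. -/
lemma Pb_exists {κ : Type*} (s : Finset κ) (A : κ → (Sym2 (Fin n) → Bool) → Prop) :
    Pb (fun b => ∃ k ∈ s, A k b) ≤ ∑ k ∈ s, Pb (A k) := by
  classical
  unfold Pb
  rw [← sum_div, div_le_div_iff_of_pos_right (by positivity)]
  norm_cast
  refine (Finset.card_le_card ?_).trans
    (Finset.card_biUnion_le (s := s) (t := fun k => univ.filter (A k)))
  intro b hb
  simp only [mem_filter, mem_univ, true_and, mem_biUnion] at hb ⊢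
  exact hb

/-- Integer Markov inequality. -/
lemma Pb_markov {κ : Type*} (s : Finset κ) (A : κ → (Sym2 (Fin n) → Bool) → Prop) (L : ℕ)
    (E : (Sym2 (Fin n) → Bool) → Prop)
    (h : ∀ b, E b → ∃ t : Finset κ, t ⊆ s ∧ L ≤ t.card ∧ ∀ k ∈ t, A k b) :
    L * Pb E ≤ ∑ k ∈ s, Pb (A k) := by
  classical
  unfold Pb
  rw [← sum_div, mul_div_assoc', div_le_div_iff_of_pos_right (by positivity)]
  have h1 : ∀ k, (univ.filter (A k)).card = ∑ b : Sym2 (Fin n) → Bool, if A k b then 1 else 0 := by
    intro k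
    rw [Finset.card_filter]
  have h2 : L * (univ.filter E).card ≤ ∑ k ∈ s, (univ.filter (A k)).card := by
    rw [sum_congr rfl fun k _ => h1 k, sum_comm, Finset.card_filter, mul_sum]
    refine sum_le_sum fun b _ => ?_
    split_ifs with hE
    · obtain ⟨t, hts, hLt, ht⟩ := h b hE
      rw [mul_one, ← Finset.card_filter]
      refine hLt.trans (Finset.card_le_card ?_)
      intro k hk
      rw [mem_filter]
      exact ⟨hts hk, ht k hk⟩
    · simp
  exact_mod_cast h2

/-- The sparse event. -/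
def Ev0 (u : ℕ) (b : Sym2 (Fin n) → Bool) : Prop :=
  ∃ (v : Fin n → ZMod 2) (c : ZMod 2), v ≠ 0 ∧ nu (fun j : {i // i ∈ D} => v j) < u ∧
    smul2 b v = fun _ => c

/-- The structured event at level `j`. -/
def Ev1 (M' : ℕ) (u : ℕ) (η : ℝ) (j : ℕ) (b : Sym2 (Fin n) → Bool) : Prop :=
  ∃ (v : Fin n → ZMod (2 ^ (j + 1))) (c : ZMod (2 ^ (j + 1))),
    (u ≤ nu (fun i : {i // i ∈ D} => v i) ∧ 1 + η < Zf M' (fun i : {i // i ∈ D} => v i) ∧
    Zf M' (fun i : {i // i ∈ D} => ((v i).cast : ZMod (2 ^ j))) ≤ 1 + η) ∧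
    smul2 b v = fun _ => c

/-- The unstructured event at the top level `J + 1`. -/
def Ev2 (M' : ℕ) (u : ℕ) (η : ℝ) (J : ℕ) (b : Sym2 (Fin n) → Bool) : Prop :=
  ∃ (v : Fin n → ZMod (2 ^ (J + 1))) (c : ZMod (2 ^ (J + 1))),
    (u ≤ nu (fun i : {i // i ∈ D} => v i) ∧ Zf M' (fun i : {i // i ∈ D} => v i) ≤ 1 + η) ∧
    smul2 b v = (fun _ => c) ∧ 2 * c = ∑ i, v i

lemma isUnit_intCast_iff (a : ℤ) (j : ℕ) : IsUnit (a : ZMod (2 ^ (j + 1))) ↔ Odd a := by
  rw [ZMod.coe_int_isUnit_iff_isCoprime]
  push_cast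
  rw [IsCoprime.pow_left_iff (Nat.succ_pos j)]
  constructor
  · intro h
    rw [← Int.not_even_iff_odd]
    intro he
    have h2 := h.isUnit_of_dvd' (dvd_refl _) (even_iff_two_dvd.1 he)
    rw [Int.isUnit_iff] at h2
    omega
  · rintro ⟨k, rfl⟩
    exact ⟨-k, 1, by ring⟩

lemma nu_intCast {α : Type*} [Fintype α] (g : α → ℤ) (j : ℕ) :
    nu (fun i => (g i : ZMod (2 ^ (j + 1)))) = (univ.filter fun i => Odd (g i)).card := by
  classical
  unfold nu
  congr 1
  ext i
  simp only [mem_filter, mem_univ, true_and]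
  exact isUnit_intCast_iff (g i) j

lemma Zf_one {α : Type*} [Fintype α] [DecidableEq α] {M' : ℕ} (hM : 0 < M')
    (v : α → ZMod (2 ^ 0)) : Zf M' v = 1 := by
  have hMpos : (0 : ℝ) < M' := by exact_mod_cast hM
  unfold Zf pr
  have h1 : univ.filter (fun ω : α → Fin M' => walk ω v = 0) = univ := by
    apply Finset.filter_true_of_mem
    intro ω _
    have : Subsingleton (ZMod (2 ^ 0)) := by
      rw [pow_zero]; infer_instance
    exact Subsingleton.elim _ _
  rw [h1, Finset.card_univ, Fintype.card_fun, Fintype.card_fin]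
  push_cast
  rw [one_mul, div_self (by positivity)]

/-- The case distinction. -/
lemma sing_cases {M' : ℕ} (hM : 0 < M') (u : ℕ) {η : ℝ} (hη : 0 ≤ η) (J : ℕ)
    (b : Sym2 (Fin n) → Bool) (h : (signM b).det = 0) :
    Ev0 D u b ∨ (∃ j ∈ range (J + 1), Ev1 D M' u η j b) ∨ Ev2 D M' u η J b := by
  classical
  obtain ⟨g, c, ⟨i₀, hi₀⟩, hgc, hc⟩ := exists_kernel b h
  by_cases hsp : (univ.filter fun i : {i // i ∈ D} => Odd (g i)).card < u
  · left
    refine ⟨fun i => (g i : ZMod 2), (c : ZMod 2), ?_, ?_, ?_⟩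
    · intro h0
      have h1 := congrFun h0 i₀
      have h2 : ((g i₀ : ℤ) : ZMod 2) = 0 := h1
      rw [ZMod.intCast_zmod_eq_zero_iff_dvd] at h2
      exact (Int.not_even_iff_odd.2 hi₀) (even_iff_two_dvd.2 (by exact_mod_cast h2))
    · have h3 := nu_intCast (fun i : {i // i ∈ D} => g i) 0
      rw [zero_add, pow_one] at h3
      rw [h3]; exact hsp
    · exact smul2_cast b g c hgc
  · right
    push Not at hsp
    by_cases hbad : ∃ j, j ∈ range (J + 1) ∧
        1 + η < Zf M' (fun i : {i // i ∈ D} => (g i : ZMod (2 ^ (j + 1))))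
    · left
      have hj := Nat.find_spec hbad
      have hmin := fun m => Nat.find_min hbad (m := m)
      set j := Nat.find hbad with hjdef
      refine ⟨j, hj.1, fun i => (g i : ZMod (2 ^ (j + 1))), (c : ZMod (2 ^ (j + 1))),
        ⟨?_, hj.2, ?_⟩, smul2_cast b g c hgc⟩
      · rw [nu_intCast (fun i : {i // i ∈ D} => g i) j]; exact hsp
      · have hcast : ∀ i : {i // i ∈ D}, (((g i : ZMod (2 ^ (j + 1)))).cast : ZMod (2 ^ j)) =
            (g i : ZMod (2 ^ j)) := fun i =>
          ZMod.cast_intCast (pow_dvd_pow 2 (Nat.le_succ j)) (g i)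
        simp only [hcast]
        rcases Nat.eq_zero_or_pos j with h0 | h0
        · rw [h0]
          rw [Zf_one hM]; linarith
        · obtain ⟨k, hk⟩ : ∃ k, j = k + 1 := ⟨j - 1, by omega⟩
          have h1 := hmin k (by omega)
          rw [not_and] at h1
          have h2 := h1 (by
            have := mem_range.1 hj.1
            rw [mem_range]; omega)
          rw [hk]
          exact not_lt.1 h2
    · right
      push Not at hbad
      refine ⟨fun i => (g i : ZMod (2 ^ (J + 1))), (c : ZMod (2 ^ (J + 1))), ⟨?_, ?_⟩,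
        smul2_cast b g c hgc, ?_⟩
      · rw [nu_intCast (fun i : {i // i ∈ D} => g i) J]; exact hsp
      · exact hbad J (by rw [mem_range]; omega)
      · rw [← Int.cast_sum, ← hc]; push_cast; ring

end events

end Vale.Agent.P160
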