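import Vale.Agent.P160.ST11

set_option linter.unusedSectionVars false

namespace Vale.Agent.P160

open Filter

lemma st12_Pb_le_one (n : ℕ) :
    Pb (fun b : Sym2 (Fin n) → Bool => (signM b).det = 0) ≤ 1 := by
  classical
  unfold Pb
  rw [div_le_one (by positivity)]
  have h := Finset.card_le_univ
    (Finset.univ.filter (fun b : Sym2 (Fin n) → Bool => (signM b).det = 0))
  rw [Fintype.card_fun, Fintype.card_bool] at h
  have h' : (((Finset.univ.filter (fun b : Sym2 (Fin n) → Bool =>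
      (signM b).det = 0)).card : ℕ) : ℝ) ≤ 2 ^ Fintype.card (Sym2 (Fin n)) := by
    exact_mod_cast h
  refine le_trans (le_of_eq ?_) h'
  congr!

/-- Choice of the parameters. -/
lemma st12_params {lam : ℝ} (h : 1 / Real.sqrt 2 < lam) :
    ∃ a : ℕ, 3 ≤ a ∧ ∃ h : ℝ, 0 < h ∧
      (2 : ℝ) ^ (-(1 - h) * ((a ^ 2 - a : ℕ) : ℝ)) < lam ^ (2 * a ^ 2) := by
  have hs : 0 < 1 / Real.sqrt 2 := by positivity
  have hl : 0 < lam := hs.trans h
  obtain ⟨μ, hμ⟩ : ∃ μ, μ = -Real.logb 2 lam := ⟨_, rfl⟩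
  have hlam : lam = (2 : ℝ) ^ (-μ) := by
    rw [hμ, neg_neg, Real.rpow_logb (by norm_num) (by norm_num) hl]
  have hμ1 : μ < 1 / 2 := by
    have h1 : 1 / Real.sqrt 2 = (2 : ℝ) ^ (-(1 / 2 : ℝ)) := by
      rw [Real.rpow_neg (by norm_num), Real.sqrt_eq_rpow, one_div]
    rw [h1, hlam, Real.rpow_lt_rpow_left_iff (by norm_num)] at h
    linarith
  obtain ⟨η, hη⟩ : ∃ η, η = (1 / 2 - μ) / 2 := ⟨_, rfl⟩
  have hη0 : 0 < η := by rw [hη]; linarith
  obtain ⟨a0, ha0⟩ := exists_nat_gt (1 / (2 * η))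
  refine ⟨max a0 3, le_max_right _ _, η, hη0, ?_⟩
  have ha3 : 3 ≤ max a0 3 := le_max_right _ _
  have haa : 1 / (2 * η) < ((max a0 3 : ℕ) : ℝ) :=
    lt_of_lt_of_le ha0 (by exact_mod_cast le_max_left a0 3)
  generalize max a0 3 = a at ha3 haa
  have haR : (3 : ℝ) ≤ a := by exact_mod_cast ha3
  rw [st11_sub_cast a ha3, hlam, ← Real.rpow_natCast ((2 : ℝ) ^ (-μ)) (2 * a ^ 2),
    ← Real.rpow_mul (by norm_num), Real.rpow_lt_rpow_left_iff (by norm_num)]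
  rw [div_lt_iff₀ (by positivity)] at haa
  push_cast
  have h3 : 0 < (a : ℝ) := by linarith
  have h4 : μ = 1 / 2 - 2 * η := by rw [hη]; ring
  rw [h4]
  nlinarith [mul_pos h3 h3, mul_pos h3 hη0, mul_lt_mul_of_pos_left haa h3]

/-- Task T12 -/
theorem eventually_le6 {lam : ℝ} (h : 1 / Real.sqrt 2 < lam) :
    ∀ᶠ n : ℕ in atTop, Pb (fun b : Sym2 (Fin n) → Bool => (signM b).det = 0) ≤ lam ^ n := by
  rcases le_or_gt 1 lam with hlam | hlam
  · exact Filter.Eventually.of_forall fun n => (st12_Pb_le_one n).trans (one_le_pow₀ hlam)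
  have hs : 0 < 1 / Real.sqrt 2 := by positivity
  have hl : 0 < lam := hs.trans h
  obtain ⟨a, ha, η, hη0, hR⟩ := st12_params h
  obtain ⟨C, hC, q0, hq0⟩ := Pb_sing_le6 ha hη0
  set ρ : ℝ := (2 : ℝ) ^ (-(1 - η) * ((a ^ 2 - a : ℕ) : ℝ)) with hρ
  have hρ0 : 0 < ρ := by positivity
  obtain ⟨m, hm⟩ : ∃ m, m = 2 * a ^ 2 := ⟨_, rfl⟩
  have hm0 : 0 < m := by
    rw [hm]
    have : 0 < a := by omega
    positivity
  rw [← hm] at hR hq0
  have hR0 : 0 < lam ^ m := by positivity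
  set r : ℝ := ρ / lam ^ m with hr
  have hr0 : 0 ≤ r := by positivity
  have hr1 : r < 1 := by rw [hr, div_lt_one hR0]; exact hR
  have ht : Tendsto (fun k : ℕ => C / lam ^ m * r ^ k) atTop (nhds (C / lam ^ m * 0)) :=
    Tendsto.const_mul _ (tendsto_pow_atTop_nhds_zero_of_lt_one hr0 hr1)
  rw [mul_zero] at ht
  have h1 : ∀ᶠ k : ℕ in atTop, C / lam ^ m * r ^ k < 1 :=
    ht.eventually (gt_mem_nhds one_pos)
  obtain ⟨k0, hk0⟩ := Filter.eventually_atTop.1 h1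
  filter_upwards [eventually_ge_atTop (m * (max k0 q0))] with n hn
  obtain ⟨k, hk⟩ : ∃ k, k = n / m := ⟨_, rfl⟩
  have hk1 : m * k ≤ n := by rw [hk]; exact Nat.mul_div_le n m
  have hk2 : n ≤ m * (k + 1) := by
    rw [hk]
    exact (Nat.lt_mul_div_succ n hm0).le
  have hk3 : max k0 q0 ≤ k := by
    rw [hk, Nat.le_div_iff_mul_le hm0, mul_comm]
    exact hn
  have hkk0 : k0 ≤ k := le_trans (le_max_left _ _) hk3
  have hkq0 : q0 ≤ k := le_trans (le_max_right _ _) hk3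
  refine (hq0 k hkq0 n hk1 hk2).trans ?_
  have h2 := hk0 k hkk0
  have h4 : (2 : ℝ) ^ (-(1 - η) * (((a ^ 2 - a) * k : ℕ) : ℝ)) = ρ ^ k := by
    rw [hρ, ← Real.rpow_natCast _ k, ← Real.rpow_mul (by norm_num)]
    congr 1
    push_cast
    ring
  rw [h4]
  have h3 : C * ρ ^ k = (C / lam ^ m * r ^ k) * lam ^ (m * (k + 1)) := by
    have e1 : lam ^ (m * (k + 1)) = (lam ^ m) ^ k * lam ^ m := by
      rw [pow_mul, pow_succ]
    rw [hr, div_pow, e1]
    field_simp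
  rw [h3]
  calc _ ≤ 1 * lam ^ (m * (k + 1)) := by gcongr
    _ = lam ^ (m * (k + 1)) := one_mul _
    _ ≤ lam ^ n := pow_le_pow_of_le_one hl.le hlam.le hk2

end Vale.Agent.P160
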