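import Vale.Agent.P160.QMix
import Vale.Agent.P160.Union2

set_option linter.unusedSectionVars false

namespace Vale.Agent.P160

open Finset

/-- The standard lift of a residue mod `N` to a residue mod `N * N`. -/
def lft {N : ℕ} (x : ZMod N) : ZMod (N * N) := ((x.val : ℕ) : ZMod (N * N))

section quad

variable {ι : Type*} [Fintype ι] [DecidableEq ι]

/-- Steps of the symmetric matrix together with its quadratic form mod `N * N`. -/
def cq {N : ℕ} (v : ι → ZMod N) (e : Sym2 ι) : (ι → ZMod N) × ZMod (N * N) :=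
  (symc v e, 2 * ∑ i, lft (v i) * symc (fun i => lft (v i)) e i)

lemma bwalk_cq {N : ℕ} [NeZero N] (b : Sym2 ι → Bool) (v : ι → ZMod N) :
    bwalk b (cq v) = (smul2 b v, 2 * ∑ i, lft (v i) * smul2 b (fun i => lft (v i)) i) := by
  apply Prod.ext
  · rw [← bwalk_symc b v]
    unfold bwalk
    rw [Prod.fst_sum]
    refine sum_congr rfl fun e _ => ?_
    split_ifs <;> rfl
  · have h : ∀ i, smul2 b (fun i => lft (v i)) i =
        ∑ e, if b e then symc (fun i => lft (v i)) e i else 0 := by
      intro i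
      rw [← bwalk_symc b (fun i => lft (v i))]
      unfold bwalk
      rw [Finset.sum_apply]
      refine sum_congr rfl fun e _ => ?_
      split_ifs <;> rfl
    simp only [h]
    unfold bwalk
    rw [Prod.snd_sum]
    simp only [mul_sum]
    rw [sum_comm]
    refine sum_congr rfl fun e _ => ?_
    split_ifs with hb
    · unfold cq
      simp only [mul_sum]
    · simp

variable (D : Finset ι)

lemma starp_injective (l₀ : {i // i ∈ D}) : Function.Injective (starp D l₀) := by
  intro a b h
  have := topp_injective D l₀ (a₁ := Sum.inr a) (a₂ := Sum.inr b) h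
  exact Sum.inr_injective this

lemma offp_eq_iff {i j : ι} (h : ∃ p, offp D p = s(i, j)) :
    (i ∈ D ∧ j ∉ D) ∨ (i ∉ D ∧ j ∈ D) := by
  obtain ⟨p, hp⟩ := h
  unfold offp at hp
  rw [Sym2.eq_iff] at hp
  rcases hp with ⟨h1, h2⟩ | ⟨h1, h2⟩
  · right
    exact ⟨h1 ▸ p.1.2, h2 ▸ p.2.2⟩
  · left
    exact ⟨h2 ▸ p.2.2, h1 ▸ p.1.2⟩

lemma starp_eq_iff {i j : ι} (l₀ : {i // i ∈ D}) (h : ∃ l, starp D l₀ l = s(i, j)) :
    i ≠ j ∧ (l₀.1 = i ∨ l₀.1 = j) := by
  obtain ⟨l, hl⟩ := h
  have hne : l₀.1 ≠ l.1.1 := fun h => l.2 (Subtype.ext h.symm)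
  unfold starp at hl
  rw [Sym2.eq_iff] at hl
  rcases hl with ⟨h1, h2⟩ | ⟨h1, h2⟩
  · exact ⟨fun hh => hne (h1.trans (hh.trans h2.symm)), Or.inl h1⟩
  · exact ⟨fun hh => hne (h1.trans (hh.symm.trans h2.symm)), Or.inr h1⟩

lemma gpr_star_le {J M : ℕ} (hM : 8 ≤ M) (v : ι → ZMod (2 ^ (J + 1)))
    (l₀ : {i // i ∈ D}) (hl : IsUnit (v l₀)) :
    gpr M (fun l : {l : {i // i ∈ D} // l ≠ l₀} => 2 * (-(v l₀) * v l.1)) 0 ≤
      4 * pr M (fun j : {i // i ∈ D} => v j) 0 := by
  have h4 := gpr_two_mul_le (by omega : 4 ≤ M)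
    (fun l : {l : {i // i ∈ D} // l ≠ l₀} => -(v l₀) * v l.1)
  have h5 : pr M (fun l : {l : {i // i ∈ D} // l ≠ l₀} => -(v l₀) * v l.1) 0 =
      pr M (fun l : {l : {i // i ∈ D} // l ≠ l₀} => v l.1) 0 := by
    unfold pr
    congr 2
    congr 1
    ext ω
    simp only [mem_filter, mem_univ, true_and]
    have : walk ω (fun l : {l : {i // i ∈ D} // l ≠ l₀} => -(v l₀) * v l.1) =
        -(v l₀) * walk ω (fun l : {l : {i // i ∈ D} // l ≠ l₀} => v l.1) := by
      unfold walk
      rw [mul_sum]
      refine sum_congr rfl fun l _ => ?_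
      ring
    rw [this]
    exact hl.neg.mul_right_eq_zero
  have h6 := pr_remove_le hM (fun j : {i // i ∈ D} => v j) l₀
  rw [h5] at h4
  linarith

end quad

section family

variable {ι : Type} [Fintype ι] [DecidableEq ι]
variable {T : Type} [Fintype T] [DecidableEq T] [Nonempty T]

/-- A family of blocks such that every pair is separated by less than half of the blocks. -/
def Sep (D : T → Finset ι) : Prop :=
  ∀ i j : ι, i ≠ j → 2 * (univ.filter (fun t => (i ∈ D t ∧ j ∉ D t) ∨ (i ∉ D t ∧ j ∈ D t))).card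
    + 2 ≤ Fintype.card T

open Classical in
lemma family_count (D : T → Finset ι) (hD : Sep D)
    (l₀ : ∀ t, {i // i ∈ D t}) (hl₀ : Function.Injective (fun t => (l₀ t).1)) (e : Sym2 ι) :
    2 * (univ.filter (fun t => ∃ e₁, offp (D t) e₁ = e)).card +
      (univ.filter (fun t => ∃ e₂, starp (D t) (l₀ t) e₂ = e)).card ≤ Fintype.card T := by
  induction e using Sym2.ind with
  | _ i j =>
    by_cases hij : i = j
    · subst hij
      have h1 : univ.filter (fun t => ∃ e₁, offp (D t) e₁ = s(i, i)) = ∅ := by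
        apply Finset.filter_eq_empty_iff.2
        intro t _ h
        rcases offp_eq_iff (D t) h with h | h
        · exact h.2 h.1
        · exact h.1 h.2
      have h2 : univ.filter (fun t => ∃ e₂, starp (D t) (l₀ t) e₂ = s(i, i)) = ∅ := by
        apply Finset.filter_eq_empty_iff.2
        intro t _ h
        exact (starp_eq_iff (D t) (l₀ t) h).1 rfl
      rw [h1, h2]
      simp
    · have h1 := hD i j hij
      have h2 : (univ.filter (fun t => ∃ e₁, offp (D t) e₁ = s(i, j))).card ≤
          (univ.filter (fun t => (i ∈ D t ∧ j ∉ D t) ∨ (i ∉ D t ∧ j ∈ D t))).card := by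
        apply Finset.card_le_card
        intro t ht
        rw [mem_filter] at ht ⊢
        exact ⟨mem_univ _, offp_eq_iff (D t) ht.2⟩
      have h3 : (univ.filter (fun t => ∃ e₂, starp (D t) (l₀ t) e₂ = s(i, j))).card ≤ 2 := by
        have : (univ.filter (fun t => ∃ e₂, starp (D t) (l₀ t) e₂ = s(i, j))).image
            (fun t => (l₀ t).1) ⊆ {i, j} := by
          intro a ha
          rw [mem_image] at ha
          obtain ⟨t, ht, rfl⟩ := ha
          rw [mem_filter] at ht
          rcases (starp_eq_iff (D t) (l₀ t) ht.2).2 with h | h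
          · rw [h]; simp
          · rw [h]; simp
        have h4 := (Finset.card_le_card this).trans Finset.card_le_two
        rwa [Finset.card_image_of_injective _ hl₀] at h4
      have h5 : (univ.filter (fun t => (i ∈ D t ∧ j ∉ D t) ∨ (i ∉ D t ∧ j ∈ D t))).card =
          (univ.filter (fun t => (i ∈ D t ∧ j ∉ D t) ∨ (i ∉ D t ∧ j ∈ D t))).card := rfl
      refine le_trans ?_ h1
      have : 2 * (univ.filter (fun t => ∃ e₁, offp (D t) e₁ = s(i, j))).card ≤
          2 * (univ.filter (fun t => (i ∈ D t ∧ j ∉ D t) ∨ (i ∉ D t ∧ j ∈ D t))).card := by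
        omega
      refine add_le_add (this.trans (le_of_eq ?_)) h3
      congr!

/-- The top level estimate for the family. -/
lemma bpr_cq_le {J : ℕ} (D : T → Finset ι) (hD : Sep D) (v : ι → ZMod (2 ^ (J + 1)))
    (l₀ : ∀ t, {i // i ∈ D t}) (hl₀ : Function.Injective (fun t => (l₀ t).1))
    (hu : ∀ t, IsUnit (v (l₀ t))) (g : (ι → ZMod (2 ^ (J + 1))) × ZMod (2 ^ (J + 1) * 2 ^ (J + 1))) :
    bpr (cq v) g ≤ (∑ t, gpr 4 (fun p => cq v (offp (D t) p)) 0 *
      (4 * pr 8 (fun j : {i // i ∈ D t} => v j) 0)) / Fintype.card T := by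
  have hT : 0 < Fintype.card T := Fintype.card_pos
  have h := bpr_le_family (cq v) g (fun _ : T => (1 : ℝ)) (fun _ => zero_le_one) (by simp)
    (fun t => offp (D t)) (fun t => offp_injective (D t))
    (fun t => starp (D t) (l₀ t)) (fun t => starp_injective (D t) (l₀ t))
    (fun e => by
      have := family_count D hD l₀ hl₀ e
      convert this using 3)
  refine h.trans ?_
  have hT' : (0 : ℝ) < Fintype.card T := by exact_mod_cast hT
  rw [div_le_div_iff_of_pos_right hT']
  refine sum_le_sum fun t _ => ?_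
  rw [one_mul]
  have h2 := prM_le (fun e => cq v (offp (D t) e)) (fun e => cq v (starp (D t) (l₀ t) e))
    ((formD (D t) v).comp (AddMonoidHom.fst _ _)) (fun e => formD_offp (D t) v e)
  refine h2.trans ?_
  apply mul_le_mul_of_nonneg_left _ (gpr_nonneg _ _)
  have h3 : (fun e => ((formD (D t) v).comp (AddMonoidHom.fst (ι → ZMod (2 ^ (J + 1)))
      (ZMod (2 ^ (J + 1) * 2 ^ (J + 1))))) (cq v (starp (D t) (l₀ t) e))) =
      fun l => 2 * (-(v (l₀ t)) * v l.1) := by
    funext e
    exact formD_starp (D t) v (l₀ t) e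
  rw [h3]
  exact gpr_star_le (D t) le_rfl v (l₀ t) (hu t)

/-- The estimate for the family, without the star edges, with weights. -/
lemma bpr_symc_le {N : ℕ} [NeZero N] (D : T → Finset ι) (hD : Sep D) (v : ι → ZMod N)
    (w : T → ℝ) (hw : ∀ t, 0 ≤ w t) (hw1 : 1 ≤ ∏ t, w t) (g : ι → ZMod N) :
    bpr (symc v) g ≤ (∑ t, w t * Bpr 4 (fun j : {i // i ∈ D t} => v j)
      (fun i : {i // i ∉ D t} => v i)) / Fintype.card T := by
  have hT : 0 < Fintype.card T := Fintype.card_pos
  have h := bpr_le_family (symc v) g w hw hw1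
    (fun t => offp (D t)) (fun t => offp_injective (D t))
    (E₂ := fun _ => Empty) (fun _ e => e.elim) (fun _ e => e.elim)
    (fun e => by
      classical
      have h2 : (univ.filter (fun t : T => ∃ e₂ : Empty, (fun e : Empty => (e.elim : Sym2 ι)) e₂
          = e)).card = 0 := by
        rw [Finset.card_eq_zero]
        apply Finset.filter_eq_empty_iff.2
        rintro t _ ⟨e₂, _⟩
        exact e₂.elim
      induction e using Sym2.ind with
      | _ i j =>
        by_cases hij : i = j
        · subst hij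
          have h1 : univ.filter (fun t => ∃ e₁, offp (D t) e₁ = s(i, i)) = ∅ := by
            apply Finset.filter_eq_empty_iff.2
            intro t _ h
            rcases offp_eq_iff (D t) h with h | h
            · exact h.2 h.1
            · exact h.1 h.2
          have h3 : (univ.filter (fun t => ∃ e₁, offp (D t) e₁ = s(i, i))).card = 0 := by
            rw [h1]; rfl
          have : 2 * (univ.filter (fun t => ∃ e₁, offp (D t) e₁ = s(i, i))).card + 0 ≤
            Fintype.card T := by omega
          convert this using 2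
        · have h1 := hD i j hij
          have h3 : (univ.filter (fun t => ∃ e₁, offp (D t) e₁ = s(i, j))).card ≤
              (univ.filter (fun t => (i ∈ D t ∧ j ∉ D t) ∨ (i ∉ D t ∧ j ∈ D t))).card := by
            apply Finset.card_le_card
            intro t ht
            rw [mem_filter] at ht ⊢
            exact ⟨mem_univ _, offp_eq_iff (D t) ht.2⟩
          have h4 : 2 * (univ.filter (fun t => ∃ e₁, offp (D t) e₁ = s(i, j))).card + 0 ≤
            Fintype.card T := by
            have h5 : (univ.filter (fun t => (i ∈ D t ∧ j ∉ D t) ∨ (i ∉ D t ∧ j ∈ D t))).card =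
              (univ.filter (fun t => (i ∈ D t ∧ j ∉ D t) ∨ (i ∉ D t ∧ j ∈ D t))).card := rfl
            refine le_trans ?_ h1
            exact add_le_add (Nat.mul_le_mul_left _ (h3.trans (le_of_eq (by congr!)))) (Nat.zero_le _)
          convert h4 using 2)
  refine h.trans (le_of_eq ?_)
  congr 1
  refine sum_congr rfl fun t _ => ?_
  rw [prM_empty, gpr_offp]

end family

end Vale.Agent.P160
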