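import Mathlib

/-! # Weighted Kotlov-Lovasz bound (P160, S1)

`(∑ w)² ≤ choose (m+d) d * M² * |G| * |rad B|`. -/

set_option linter.unusedSectionVars false

namespace Vale.Agent.P160.KL

open Finset

/-! ## Hilbert-Schmidt norm against a test bound on the column span -/

section HS

variable {ι : Type*} [Fintype ι] [DecidableEq ι]

/-- If every unit vector `e` satisfies `∑_j ‖⟨e, A_j⟩‖² ≤ Q` and all columns lie in a subspace of
dimension `≤ R` then the Hilbert-Schmidt norm is at most `R * Q`. -/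
theorem hs_le (A : ι → EuclideanSpace ℂ ι) (V : Submodule ℂ (EuclideanSpace ℂ ι))
    (hV : ∀ j, A j ∈ V) {R : ℕ} (hR : Module.finrank ℂ V ≤ R) {Q : ℝ} (hQ0 : 0 ≤ Q)
    (hQ : ∀ e : EuclideanSpace ℂ ι, ‖e‖ = 1 → ∑ j, ‖inner ℂ e (A j)‖ ^ 2 ≤ Q) :
    ∑ j, ‖A j‖ ^ 2 ≤ R * Q := by
  classical
  set b := stdOrthonormalBasis ℂ V with hb
  have key : ∀ j, ‖A j‖ ^ 2 = ∑ k, ‖inner ℂ ((b k : V) : EuclideanSpace ℂ ι) (A j)‖ ^ 2 := by
    intro j
    have h1 := b.sum_sq_norm_inner_right (⟨A j, hV j⟩ : V)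
    have h2 : ‖(⟨A j, hV j⟩ : V)‖ = ‖A j‖ := rfl
    rw [h2] at h1
    rw [← h1]
    rfl
  calc ∑ j, ‖A j‖ ^ 2 = ∑ j, ∑ k, ‖inner ℂ ((b k : V) : EuclideanSpace ℂ ι) (A j)‖ ^ 2 :=
        Finset.sum_congr rfl fun j _ => key j
    _ = ∑ k, ∑ j, ‖inner ℂ ((b k : V) : EuclideanSpace ℂ ι) (A j)‖ ^ 2 := Finset.sum_comm
    _ ≤ ∑ _k : Fin (Module.finrank ℂ V), Q := by
        refine Finset.sum_le_sum fun k _ => hQ _ ?_
        have : ‖b k‖ = 1 := b.orthonormal.1 k
        rw [← this]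
        rfl
    _ = (Module.finrank ℂ V : ℝ) * Q := by simp
    _ ≤ R * Q := by
        have : (Module.finrank ℂ V : ℝ) ≤ R := by exact_mod_cast hR
        exact mul_le_mul_of_nonneg_right this hQ0

end HS

/-! ## Parseval with radical -/

section Char

variable {p : ℕ} [Fact p.Prime] {G : Type*} [AddCommGroup G] [Fintype G] [DecidableEq G]

/-- the radical on the left -/
def rad (B : G →+ G →+ ZMod p) : Finset G := Finset.univ.filter fun x => ∀ y, B x y = 0

omit [DecidableEq G] in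
theorem mem_rad {B : G →+ G →+ ZMod p} {x : G} : x ∈ rad B ↔ ∀ y, B x y = 0 := by
  simp [rad]

/-- character sum -/
theorem char_sum (B : G →+ G →+ ZMod p) (x : G) :
    ∑ y, (ZMod.stdAddChar (B x y) : ℂ) = if x ∈ rad B then (Fintype.card G : ℂ) else 0 := by
  classical
  split_ifs with h
  · rw [mem_rad] at h
    simp [h]
  · rw [mem_rad] at h
    push Not at h
    obtain ⟨y0, hy0⟩ := h
    set ψ : AddChar G ℂ := (ZMod.stdAddChar (N := p)).compAddMonoidHom (B x) with hψ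
    have hne : ψ ≠ 0 := by
      intro h0
      have h1 : ψ y0 = 1 := by rw [h0]; rfl
      have h2 : (ZMod.stdAddChar (B x y0) : ℂ) = 1 := h1
      exact hy0 ((ZMod.injective_stdAddChar) (by rw [h2]; simp))
    have := AddChar.sum_eq_zero_iff_ne_zero.mpr hne
    exact this

theorem parseval_eq (B : G →+ G →+ ZMod p) (c : G → ℂ) :
    ((∑ y, ‖∑ x, c x * (ZMod.stdAddChar (B x y) : ℂ)‖ ^ 2 : ℝ) : ℂ) =
      ∑ x, ∑ x', c x * (starRingEnd ℂ) (c x') *
        (if x - x' ∈ rad B then (Fintype.card G : ℂ) else 0) := by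
  classical
  push_cast
  have h1 : ∀ y, ((‖∑ x, c x * (ZMod.stdAddChar (B x y) : ℂ)‖ : ℂ)) ^ 2 =
      ∑ x, ∑ x', c x * (starRingEnd ℂ) (c x') * (ZMod.stdAddChar (B (x - x') y) : ℂ) := by
    intro y
    rw [← Complex.mul_conj', map_sum, Finset.sum_mul_sum]
    refine Finset.sum_congr rfl fun x _ => Finset.sum_congr rfl fun x' _ => ?_
    rw [map_mul]
    have h2 : (starRingEnd ℂ) (ZMod.stdAddChar (B x' y) : ℂ) = ZMod.stdAddChar (-(B x' y)) := by
      rw [AddChar.map_neg_eq_conj]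
    rw [h2, map_sub, AddMonoidHom.sub_apply, sub_eq_add_neg, AddChar.map_add_eq_mul]
    ring
  rw [Finset.sum_congr rfl fun y _ => h1 y, Finset.sum_comm]
  refine Finset.sum_congr rfl fun x _ => ?_
  rw [Finset.sum_comm]
  refine Finset.sum_congr rfl fun x' _ => ?_
  rw [← Finset.mul_sum, char_sum]

theorem parseval (B : G →+ G →+ ZMod p) (c : G → ℂ) :
    ∑ y, ‖∑ x, c x * (ZMod.stdAddChar (B x y) : ℂ)‖ ^ 2 ≤
      (Fintype.card G : ℝ) * (rad B).card * ∑ x, ‖c x‖ ^ 2 := by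
  classical
  have h0 : (∑ y, ‖∑ x, c x * (ZMod.stdAddChar (B x y) : ℂ)‖ ^ 2 : ℝ) =
      ‖((∑ y, ‖∑ x, c x * (ZMod.stdAddChar (B x y) : ℂ)‖ ^ 2 : ℝ) : ℂ)‖ := by
    rw [Complex.norm_real, Real.norm_of_nonneg]
    positivity
  rw [h0, parseval_eq]
  have h1 : ‖∑ x, ∑ x', c x * (starRingEnd ℂ) (c x') *
        (if x - x' ∈ rad B then (Fintype.card G : ℂ) else 0)‖ ≤
      ∑ x, ∑ x', ‖c x‖ * ‖c x'‖ * (if x - x' ∈ rad B then (Fintype.card G : ℝ) else 0) := by
    refine (norm_sum_le _ _).trans (Finset.sum_le_sum fun x _ => ?_)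
    refine (norm_sum_le _ _).trans (Finset.sum_le_sum fun x' _ => ?_)
    rw [norm_mul, norm_mul, RCLike.norm_conj]
    split_ifs <;> simp
  refine h1.trans ?_
  have h2 : ∀ x x', ‖c x‖ * ‖c x'‖ * (if x - x' ∈ rad B then (Fintype.card G : ℝ) else 0) ≤
      (‖c x‖ ^ 2 / 2) * (if x - x' ∈ rad B then (Fintype.card G : ℝ) else 0) +
      (‖c x'‖ ^ 2 / 2) * (if x - x' ∈ rad B then (Fintype.card G : ℝ) else 0) := by
    intro x x'
    rw [← add_mul]
    refine mul_le_mul_of_nonneg_right ?_ (by split_ifs <;> positivity)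
    nlinarith [sq_nonneg (‖c x‖ - ‖c x'‖)]
  refine (Finset.sum_le_sum fun x _ => Finset.sum_le_sum fun x' _ => h2 x x').trans ?_
  simp_rw [Finset.sum_add_distrib]
  have h3 : ∑ x, ∑ x', (‖c x‖ ^ 2 / 2) * (if x - x' ∈ rad B then (Fintype.card G : ℝ) else 0) =
      (Fintype.card G : ℝ) * (rad B).card * (∑ x, ‖c x‖ ^ 2) / 2 := by
    simp_rw [← Finset.mul_sum]
    have h4 : ∀ x, ∑ x', (if x - x' ∈ rad B then (Fintype.card G : ℝ) else 0) =
        (rad B).card * (Fintype.card G : ℝ) := by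
      intro x
      have h5 : ∑ x', (if x - x' ∈ rad B then (Fintype.card G : ℝ) else 0) =
          ∑ z, (if z ∈ rad B then (Fintype.card G : ℝ) else 0) :=
        (Equiv.subLeft x).sum_comp (fun z => if z ∈ rad B then (Fintype.card G : ℝ) else 0)
      rw [h5, Finset.sum_ite_mem]
      simp
    simp_rw [h4, ← Finset.sum_mul, ← Finset.sum_div]
    ring
  have h6 : ∑ x, ∑ x', (‖c x'‖ ^ 2 / 2) * (if x - x' ∈ rad B then (Fintype.card G : ℝ) else 0) =
      (Fintype.card G : ℝ) * (rad B).card * (∑ x, ‖c x‖ ^ 2) / 2 := by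
    rw [Finset.sum_comm]
    simp_rw [← Finset.mul_sum]
    have h4 : ∀ x', ∑ x, (if x - x' ∈ rad B then (Fintype.card G : ℝ) else 0) =
        (rad B).card * (Fintype.card G : ℝ) := by
      intro x'
      have h5 : ∑ x, (if x - x' ∈ rad B then (Fintype.card G : ℝ) else 0) =
          ∑ z, (if z ∈ rad B then (Fintype.card G : ℝ) else 0) :=
        (Equiv.subRight x').sum_comp (fun z => if z ∈ rad B then (Fintype.card G : ℝ) else 0)
      rw [h5, Finset.sum_ite_mem]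
      simp
    simp_rw [h4, ← Finset.sum_mul, ← Finset.sum_div]
    ring
  rw [h3, h6]
  apply le_of_eq
  ring

end Char

/-! ## The weighted test bound -/

section Test

variable {p : ℕ} [Fact p.Prime] {G : Type*} [AddCommGroup G] [Fintype G] [DecidableEq G]
variable {ι : Type*} [Fintype ι] [DecidableEq ι]

/-- columns of the weighted matrix -/
noncomputable def col (w : ι → ℝ) (F : ι → ι → ℂ) (j : ι) : EuclideanSpace ℂ ι :=
  WithLp.toLp 2 fun i => (Real.sqrt (w i) : ℂ) * (Real.sqrt (w j) : ℂ) * F i j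

theorem col_apply (w : ι → ℝ) (F : ι → ι → ℂ) (j i : ι) :
    col w F j i = (Real.sqrt (w i) : ℂ) * (Real.sqrt (w j) : ℂ) * F i j := rfl

theorem sum_norm_col (w : ι → ℝ) (hw : ∀ i, 0 ≤ w i) (F : ι → ι → ℂ) (hF : ∀ i j, ‖F i j‖ = 1) :
    ∑ j, ‖col w F j‖ ^ 2 = (∑ i, w i) ^ 2 := by
  rw [sq (∑ i, w i), Finset.sum_mul_sum, Finset.sum_comm]
  refine Finset.sum_congr rfl fun j _ => ?_
  rw [EuclideanSpace.norm_sq_eq]
  refine Finset.sum_congr rfl fun i _ => ?_
  rw [col_apply, norm_mul, norm_mul, hF, mul_one, Complex.norm_real, Complex.norm_real,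
    Real.norm_of_nonneg (Real.sqrt_nonneg _), Real.norm_of_nonneg (Real.sqrt_nonneg _), mul_pow,
    Real.sq_sqrt (hw i), Real.sq_sqrt (hw j)]

theorem test_bound (w : ι → ℝ) (hw : ∀ i, 0 ≤ w i) (B : G →+ G →+ ZMod p) (cl : ι → G) {M : ℝ}
    (hM0 : 0 ≤ M)
    (hM : ∀ x, ∑ i with cl i = x, w i ≤ M) (e : EuclideanSpace ℂ ι) (he : ‖e‖ = 1) :
    ∑ j, ‖inner ℂ e (col w (fun i j => (ZMod.stdAddChar (B (cl i) (cl j)) : ℂ)) j)‖ ^ 2 ≤
      M ^ 2 * (Fintype.card G : ℝ) * (rad B).card := by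
  classical
  set c : G → ℂ := fun x => ∑ i with cl i = x, (starRingEnd ℂ) (e i) * (Real.sqrt (w i) : ℂ)
    with hc
  have h1 : ∀ j, inner ℂ e (col w (fun i j => (ZMod.stdAddChar (B (cl i) (cl j)) : ℂ)) j) =
      (Real.sqrt (w j) : ℂ) * ∑ x, c x * (ZMod.stdAddChar (B x (cl j)) : ℂ) := by
    intro j
    have h2 : ∑ x, c x * (ZMod.stdAddChar (B x (cl j)) : ℂ) =
        ∑ i, (starRingEnd ℂ) (e i) * (Real.sqrt (w i) : ℂ) *
          (ZMod.stdAddChar (B (cl i) (cl j)) : ℂ) := by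
      rw [← Finset.sum_fiberwise (s := Finset.univ) (g := cl)]
      refine Finset.sum_congr rfl fun x _ => ?_
      rw [hc, Finset.sum_mul]
      refine Finset.sum_congr rfl fun i hi => ?_
      rw [(Finset.mem_filter.mp hi).2]
    rw [h2, Finset.mul_sum, PiLp.inner_apply]
    refine Finset.sum_congr rfl fun i _ => ?_
    rw [col_apply]
    simp only [RCLike.inner_apply]
    ring
  have h3 : ∀ j, ‖inner ℂ e (col w (fun i j => (ZMod.stdAddChar (B (cl i) (cl j)) : ℂ)) j)‖ ^ 2 =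
      w j * ‖∑ x, c x * (ZMod.stdAddChar (B x (cl j)) : ℂ)‖ ^ 2 := by
    intro j
    rw [h1, norm_mul, mul_pow, Complex.norm_real, Real.norm_of_nonneg (Real.sqrt_nonneg _),
      Real.sq_sqrt (hw j)]
  have h4 : ∀ x, ‖c x‖ ^ 2 ≤ M * ∑ i with cl i = x, ‖e i‖ ^ 2 := by
    intro x
    have h5 : ‖c x‖ ≤ ∑ i with cl i = x, ‖e i‖ * Real.sqrt (w i) := by
      rw [hc]
      refine (norm_sum_le _ _).trans (Finset.sum_le_sum fun i _ => ?_)
      rw [norm_mul, RCLike.norm_conj, Complex.norm_real, Real.norm_of_nonneg (Real.sqrt_nonneg _)]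
    have h6 : (∑ i with cl i = x, ‖e i‖ * Real.sqrt (w i)) ^ 2 ≤
        (∑ i with cl i = x, ‖e i‖ ^ 2) * (∑ i with cl i = x, (Real.sqrt (w i)) ^ 2) :=
      Finset.sum_mul_sq_le_sq_mul_sq _ _ _
    have h7 : ∑ i with cl i = x, (Real.sqrt (w i)) ^ 2 = ∑ i with cl i = x, w i :=
      Finset.sum_congr rfl fun i _ => Real.sq_sqrt (hw i)
    have h8 : 0 ≤ ∑ i with cl i = x, ‖e i‖ ^ 2 := Finset.sum_nonneg fun i _ => by positivity
    calc ‖c x‖ ^ 2 ≤ (∑ i with cl i = x, ‖e i‖ * Real.sqrt (w i)) ^ 2 := by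
          exact pow_le_pow_left₀ (norm_nonneg _) h5 2
      _ ≤ (∑ i with cl i = x, ‖e i‖ ^ 2) * (∑ i with cl i = x, w i) := by rw [← h7]; exact h6
      _ ≤ (∑ i with cl i = x, ‖e i‖ ^ 2) * M := mul_le_mul_of_nonneg_left (hM x) h8
      _ = _ := by ring
  have h9 : ∑ x, ‖c x‖ ^ 2 ≤ M := by
    calc ∑ x, ‖c x‖ ^ 2 ≤ ∑ x, M * ∑ i with cl i = x, ‖e i‖ ^ 2 :=
          Finset.sum_le_sum fun x _ => h4 x
      _ = M * ∑ i, ‖e i‖ ^ 2 := by
          rw [← Finset.mul_sum, Finset.sum_fiberwise]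
      _ = M := by
          rw [← EuclideanSpace.norm_sq_eq, he]; ring
  calc ∑ j, ‖inner ℂ e (col w (fun i j => (ZMod.stdAddChar (B (cl i) (cl j)) : ℂ)) j)‖ ^ 2
      = ∑ j, w j * ‖∑ x, c x * (ZMod.stdAddChar (B x (cl j)) : ℂ)‖ ^ 2 :=
        Finset.sum_congr rfl fun j _ => h3 j
    _ = ∑ y, ∑ j with cl j = y, w j * ‖∑ x, c x * (ZMod.stdAddChar (B x (cl j)) : ℂ)‖ ^ 2 := by
        rw [Finset.sum_fiberwise]
    _ = ∑ y, (∑ j with cl j = y, w j) * ‖∑ x, c x * (ZMod.stdAddChar (B x y) : ℂ)‖ ^ 2 := by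
        refine Finset.sum_congr rfl fun y _ => ?_
        rw [Finset.sum_mul]
        refine Finset.sum_congr rfl fun j hj => ?_
        rw [(Finset.mem_filter.mp hj).2]
    _ ≤ ∑ y, M * ‖∑ x, c x * (ZMod.stdAddChar (B x y) : ℂ)‖ ^ 2 :=
        Finset.sum_le_sum fun y _ => mul_le_mul_of_nonneg_right (hM y) (by positivity)
    _ = M * ∑ y, ‖∑ x, c x * (ZMod.stdAddChar (B x y) : ℂ)‖ ^ 2 := by rw [Finset.mul_sum]
    _ ≤ M * ((Fintype.card G : ℝ) * (rad B).card * ∑ x, ‖c x‖ ^ 2) :=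
        mul_le_mul_of_nonneg_left (parseval B c) hM0
    _ ≤ M * ((Fintype.card G : ℝ) * (rad B).card * M) := by
        refine mul_le_mul_of_nonneg_left ?_ hM0
        exact mul_le_mul_of_nonneg_left h9 (by positivity)
    _ = M ^ 2 * (Fintype.card G : ℝ) * (rad B).card := by ring

end Test

/-! ## Rank -/

theorem sum_multichoose (m d : ℕ) :
    ∑ e ∈ Finset.range (d + 1), Nat.multichoose m e = Nat.choose (m + d) d := by
  have h : ∑ e ∈ Finset.range (d + 1), Nat.multichoose m e = Nat.multichoose (m + 1) d := by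
    induction d with
    | zero => simp
    | succ d ih => rw [Finset.sum_range_succ, ih, Nat.multichoose_succ_succ, add_comm]
  rw [h, Nat.multichoose_eq]
  congr 1
  omega

section Rank

variable {ι : Type*} [Fintype ι] [DecidableEq ι]

/-- index set of monomials of degree `≤ d` in `m` variables -/
abbrev Mon (m d : ℕ) : Type := Σ e : Fin (d + 1), Sym (Fin m) (e : ℕ)

theorem card_mon (m d : ℕ) : Fintype.card (Mon m d) = Nat.choose (m + d) d := by
  rw [Fintype.card_sigma, ← sum_multichoose, Finset.sum_range]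
  refine Finset.sum_congr rfl fun e _ => ?_
  rw [Sym.card_sym_eq_multichoose, Fintype.card_fin]

/-- the span of the monomial columns -/
noncomputable def monSpan (w : ι → ℝ) {m : ℕ} (a : ι → Fin m → ℝ) (d : ℕ) :
    Submodule ℂ (EuclideanSpace ℂ ι) :=
  Submodule.span ℂ (Set.range fun μ : Mon m d =>
    (WithLp.toLp 2 fun i => (Real.sqrt (w i) : ℂ) *
      ((μ.2 : Multiset (Fin m)).map (fun k => (a i k : ℂ))).prod : EuclideanSpace ℂ ι))

theorem finrank_monSpan (w : ι → ℝ) {m : ℕ} (a : ι → Fin m → ℝ) (d : ℕ) :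
    Module.finrank ℂ (monSpan w a d) ≤ Nat.choose (m + d) d := by
  rw [← card_mon]
  exact finrank_range_le_card _

theorem col_mem (w : ι → ℝ) {m : ℕ} (a b : ι → Fin m → ℝ) {d : ℕ} (f : Polynomial ℂ)
    (hf : f.natDegree ≤ d) (j : ι) :
    col w (fun i j => f.eval ((∑ k, a i k * b j k : ℝ) : ℂ)) j ∈ monSpan w a d := by
  classical
  have h1 : col w (fun i j => f.eval ((∑ k, a i k * b j k : ℝ) : ℂ)) j =
      ∑ μ : Mon m d, (((Real.sqrt (w j) : ℂ) * f.coeff μ.1 *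
        ((μ.2 : Multiset (Fin m)).countPerms : ℂ) *
        ((μ.2 : Multiset (Fin m)).map (fun k => (b j k : ℂ))).prod)) •
        (WithLp.toLp 2 fun i => (Real.sqrt (w i) : ℂ) *
          ((μ.2 : Multiset (Fin m)).map (fun k => (a i k : ℂ))).prod : EuclideanSpace ℂ ι) := by
    ext i
    rw [col_apply, Polynomial.eval_eq_sum_range' (n := d + 1) (by omega)]
    have hev : ∀ e : ℕ, ((∑ k, a i k * b j k : ℝ) : ℂ) ^ e =
        ∑ s : Sym (Fin m) e, ((s : Multiset (Fin m)).countPerms : ℂ) *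
          (((s : Multiset (Fin m)).map (fun k => (a i k : ℂ))).prod *
          ((s : Multiset (Fin m)).map (fun k => (b j k : ℂ))).prod) := by
      intro e
      push_cast
      rw [Finset.sum_pow, Finset.sym_univ]
      refine Finset.sum_congr rfl fun s _ => ?_
      rw [Multiset.prod_map_mul]
      rfl
    rw [WithLp.ofLp_sum, Finset.sum_apply, Fintype.sum_sigma, Finset.sum_range, Finset.mul_sum]
    refine Finset.sum_congr rfl fun e _ => ?_
    rw [hev, Finset.mul_sum, Finset.mul_sum]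
    refine Finset.sum_congr rfl fun s _ => ?_
    simp
    ring
  rw [h1]
  refine Submodule.sum_mem _ fun μ _ => Submodule.smul_mem _ _ ?_
  exact Submodule.subset_span ⟨μ, rfl⟩

end Rank

/-! ## The theorem -/

/-- **Weighted Kotlov-Lovasz bound.** -/
theorem weighted_kl {ι : Type*} [Fintype ι] [DecidableEq ι] {p : ℕ} [Fact p.Prime]
    {G : Type*} [AddCommGroup G] [Fintype G] [DecidableEq G]
    (w : ι → ℝ) (hw : ∀ i, 0 ≤ w i) (T : ι → ι → ℤ) {m d : ℕ} (a b : ι → Fin m → ℝ)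
    (hT : ∀ i j, (T i j : ℝ) = ∑ k, a i k * b j k) (S : Finset ℤ) (hS : ∀ i j, T i j ∈ S)
    (hSd : S.card ≤ d + 1) (cl : ι → G) (B : G →+ G →+ ZMod p)
    (hB : ∀ i j, (T i j : ZMod p) = B (cl i) (cl j)) {M : ℝ}
    (hM : ∀ x, ∑ i with cl i = x, w i ≤ M) :
    (∑ i, w i) ^ 2 ≤ (Nat.choose (m + d) d : ℝ) * (M ^ 2 * (Fintype.card G : ℝ) * (rad B).card) := by
  classical
  have hM0 : 0 ≤ M := (Finset.sum_nonneg fun i _ => hw i).trans (hM 0)
  set f : Polynomial ℂ := Lagrange.interpolate S (fun s : ℤ => (s : ℂ))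
    (fun s : ℤ => (ZMod.stdAddChar ((s : ZMod p)) : ℂ)) with hf
  have hinj : Set.InjOn (fun s : ℤ => (s : ℂ)) S := fun x _ y _ h => by
    have h' : (x : ℂ) = (y : ℂ) := h
    exact_mod_cast h'
  have hdeg : f.natDegree ≤ d := by
    have h1 : f.degree < S.card := Lagrange.degree_interpolate_lt _ hinj
    have h2 : f.degree < ((d + 1 : ℕ) : WithBot ℕ) := h1.trans_le (by exact_mod_cast hSd)
    by_cases h0 : f = 0
    · rw [h0]; simp
    · have := (Polynomial.natDegree_lt_iff_degree_lt h0).mpr h2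
      omega
  have heval : ∀ i j, (ZMod.stdAddChar (B (cl i) (cl j)) : ℂ) =
      f.eval ((∑ k, a i k * b j k : ℝ) : ℂ) := by
    intro i j
    rw [← hT, ← hB]
    have := Lagrange.eval_interpolate_at_node
      (fun s : ℤ => (ZMod.stdAddChar ((s : ZMod p)) : ℂ)) hinj (hS i j)
    rw [← hf] at this
    rw [← this]
    norm_cast
  have hcol : ∀ j, col w (fun i j => (ZMod.stdAddChar (B (cl i) (cl j)) : ℂ)) j ∈
      monSpan w a d := by
    intro j
    have h1 : (fun i j => (ZMod.stdAddChar (B (cl i) (cl j)) : ℂ)) =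
        fun i j => f.eval ((∑ k, a i k * b j k : ℝ) : ℂ) := by
      funext i j
      exact heval i j
    rw [h1]
    exact col_mem w a b f hdeg j
  have hnorm : ∀ z : ZMod p, ‖(ZMod.stdAddChar z : ℂ)‖ = 1 := fun z => AddChar.norm_apply _ _
  rw [← sum_norm_col w hw (fun i j => (ZMod.stdAddChar (B (cl i) (cl j)) : ℂ))
    (fun i j => hnorm _)]
  exact hs_le _ (monSpan w a d) hcol (finrank_monSpan w a d) (by positivity)
    (fun e he => test_bound w hw B cl hM0 hM e he)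

end Vale.Agent.P160.KL
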