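import Vale.Agent.P160.Sparse

set_option linter.unusedSectionVars false

namespace Vale.Agent.P160

open Finset Matrix

section kernel

variable {n : ℕ}

/-- The symmetric sign matrix with sign pattern `b`. -/
def signM (b : Sym2 (Fin n) → Bool) : Matrix (Fin n) (Fin n) ℤ :=
  fun i j => if b s(i, j) then -1 else 1

lemma smul2_of_signM (b : Sym2 (Fin n) → Bool) (v : Fin n → ℤ) (hv : (signM b).mulVec v = 0)
    (i : Fin n) : 2 * smul2 b v i = ∑ j, v j := by
  have h := congrFun hv i
  have h1 : ∀ j, signM b i j * v j = v j - 2 * (if b s(i, j) then v j else 0) := by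
    intro j
    unfold signM
    split_ifs <;> ring
  have h2 : (signM b).mulVec v i = ∑ j, signM b i j * v j := rfl
  rw [h2, sum_congr rfl fun j _ => h1 j, sum_sub_distrib, ← mul_sum] at h
  have h3 : (0 : Fin n → ℤ) i = 0 := rfl
  rw [h3] at h
  have h4 : smul2 b v i = ∑ j, if b s(i, j) then v j else 0 := rfl
  rw [h4]
  linarith

/-- A singular symmetric sign matrix has an integer kernel vector with an odd coordinate. -/
lemma exists_kernel (b : Sym2 (Fin n) → Bool) (h : (signM b).det = 0) :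
    ∃ (v : Fin n → ℤ) (c : ℤ), (∃ i, Odd (v i)) ∧ smul2 b v = (fun _ => c) ∧
      2 * c = ∑ i, v i := by
  obtain ⟨v, hv0, hv⟩ := Matrix.exists_mulVec_eq_zero_iff.2 h
  obtain ⟨i₀, hi₀⟩ := Function.ne_iff.1 hv0
  obtain ⟨g, hg, hg1⟩ := Finset.extract_gcd v (s := univ) ⟨i₀, mem_univ _⟩
  have hgcd : univ.gcd v ≠ 0 := by
    intro h0
    apply hi₀
    rw [hg i₀ (mem_univ _), h0, zero_mul]; rfl
  have hgk : (signM b).mulVec g = 0 := by
    have h1 : v = (univ.gcd v) • g := by
      funext i
      rw [hg i (mem_univ _)]; rfl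
    rw [h1, Matrix.mulVec_smul] at hv
    exact (smul_eq_zero.1 hv).resolve_left hgcd
  have hodd : ∃ i, Odd (g i) := by
    by_contra hcon
    push Not at hcon
    have h2 : (2 : ℤ) ∣ univ.gcd g := by
      apply Finset.dvd_gcd
      intro i _
      exact even_iff_two_dvd.1 (Int.not_odd_iff_even.1 (hcon i))
    rw [hg1] at h2
    norm_num at h2
  refine ⟨g, smul2 b g i₀, hodd, ?_, smul2_of_signM b g hgk i₀⟩
  funext i
  have h3 := smul2_of_signM b g hgk i
  have h4 := smul2_of_signM b g hgk i₀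
  linarith

lemma smul2_cast {N : ℕ} (b : Sym2 (Fin n) → Bool) (v : Fin n → ℤ) (c : ℤ)
    (h : smul2 b v = (fun _ => c)) :
    smul2 b (fun i => (v i : ZMod N)) = (fun _ => (c : ZMod N)) := by
  funext i
  have h1 := congrFun h i
  rw [← h1]
  unfold smul2
  rw [Int.cast_sum]
  refine sum_congr rfl fun j _ => ?_
  split_ifs <;> simp

end kernel

end Vale.Agent.P160
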