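import Mathlib

/-!
# Littlewood-Offord modulo `q` (helper365, P160)

If `u : ι → ZMod q` has at least `s ≥ 1` unit coordinates, then for every `a` the number of
`x : ι → Bool` with `∑ i, x_i u_i = a` is at most `2^|ι| (1/q + 2/√s)`.
-/

open Finset Real

namespace Vale.P160.LOMod

theorem sum_exp_le (q s : ℕ) (hq : 1 ≤ q) (hs : 1 ≤ s) :
    ∑ k ∈ range q, Real.exp (-(2 * (s : ℝ) / (q : ℝ) ^ 2) * (((k + 1 : ℕ) : ℝ)) ^ 2) ≤
      (q : ℝ) * √(π / (2 * s)) / 2 := by
  have hq' : (0 : ℝ) < q := by exact_mod_cast hq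
  have hs' : (0 : ℝ) < s := by exact_mod_cast hs
  set b : ℝ := 2 * (s : ℝ) / (q : ℝ) ^ 2 with hb
  have hb0 : 0 < b := by positivity
  have hanti : AntitoneOn (fun x : ℝ => Real.exp (-b * x ^ 2)) (Set.Icc (0 : ℝ) (0 + (q : ℕ))) := by
    intro x hx y hy hxy
    simp only
    apply Real.exp_le_exp.mpr
    have h1 : x ^ 2 ≤ y ^ 2 := by
      apply pow_le_pow_left₀ hx.1 hxy
    nlinarith
  have h1 := hanti.sum_le_integral
  have h2 : ∑ k ∈ range q, Real.exp (-b * (((k + 1 : ℕ) : ℝ)) ^ 2) ≤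
      ∫ x in (0 : ℝ)..(0 + (q : ℕ)), Real.exp (-b * x ^ 2) := by
    refine le_trans (le_of_eq ?_) h1
    apply Finset.sum_congr rfl
    intro k _
    simp
  have h3 : ∫ x in (0 : ℝ)..(0 + (q : ℕ)), Real.exp (-b * x ^ 2) ≤
      ∫ x in Set.Ioi (0 : ℝ), Real.exp (-b * x ^ 2) := by
    rw [intervalIntegral.integral_of_le (by positivity)]
    apply MeasureTheory.setIntegral_mono_set
    · exact (integrable_exp_neg_mul_sq hb0).integrableOn
    · exact Filter.Eventually.of_forall (fun x => (Real.exp_pos _).le)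
    · exact Filter.Eventually.of_forall (fun x hx => hx.1)
  rw [integral_gaussian_Ioi] at h3
  refine h2.trans (h3.trans (le_of_eq ?_))
  congr 1
  have h4 : π / b = (q : ℝ) ^ 2 * (π / (2 * s)) := by
    rw [hb]; field_simp
  rw [h4, Real.sqrt_mul (by positivity), Real.sqrt_sq hq'.le]

theorem abs_cos_pow_le (q s t : ℕ) (hq : 1 ≤ q) (ht : t ≤ q) :
    |Real.cos (π * t / q)| ^ s ≤ Real.exp (-(2 * (s : ℝ) / (q : ℝ) ^ 2) * (t : ℝ) ^ 2) +
      Real.exp (-(2 * (s : ℝ) / (q : ℝ) ^ 2) * ((q - t : ℝ)) ^ 2) := by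
  have hq' : (0 : ℝ) < q := by exact_mod_cast hq
  have ht' : (t : ℝ) ≤ q := by exact_mod_cast ht
  have key : ∀ y : ℝ, 0 ≤ y → y ≤ 1 / 2 → |Real.cos (π * y)| ^ s ≤ Real.exp (-(2 * s) * y ^ 2) := by
    intro y hy0 hy1
    have hc0 : 0 ≤ Real.cos (π * y) := by
      apply Real.cos_nonneg_of_neg_pi_div_two_le_of_le
      · have := Real.pi_pos; nlinarith
      · have := Real.pi_pos; nlinarith
    rw [abs_of_nonneg hc0]
    have hc1 : Real.cos (π * y) ≤ Real.exp (-(2 * y ^ 2)) := by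
      have h1 : Real.cos (π * y) ≤ 1 - 2 / π ^ 2 * (π * y) ^ 2 := by
        apply Real.cos_le_one_sub_mul_cos_sq
        have := Real.pi_pos
        rw [abs_of_nonneg (by positivity)]
        nlinarith
      have h2 : 2 / π ^ 2 * (π * y) ^ 2 = 2 * y ^ 2 := by
        have := Real.pi_pos
        field_simp
      rw [h2] at h1
      have h3 := Real.add_one_le_exp (-(2 * y ^ 2))
      linarith
    calc Real.cos (π * y) ^ s ≤ (Real.exp (-(2 * y ^ 2))) ^ s := pow_le_pow_left₀ hc0 hc1 s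
      _ = Real.exp (-(2 * s) * y ^ 2) := by
        rw [← Real.exp_nat_mul]; congr 1; ring
  rcases le_total ((t : ℝ) / q) (1 / 2) with h | h
  · have h1 := key ((t : ℝ) / q) (by positivity) h
    have h2 : π * (t : ℝ) / q = π * ((t : ℝ) / q) := by ring
    rw [h2]
    have h3 : -(2 * (s : ℝ)) * ((t : ℝ) / q) ^ 2 = -(2 * (s : ℝ) / (q : ℝ) ^ 2) * (t : ℝ) ^ 2 := by
      field_simp
    rw [h3] at h1
    have := Real.exp_pos (-(2 * (s : ℝ) / (q : ℝ) ^ 2) * ((q - t : ℝ)) ^ 2)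
    linarith
  · have hq1 : ((q : ℝ) - t) / q ≤ 1 / 2 := by
      rw [sub_div, div_self hq'.ne']; linarith
    have h1 := key (((q : ℝ) - t) / q) (div_nonneg (by linarith) hq'.le) hq1
    have h2 : π * (t : ℝ) / q = π - π * (((q : ℝ) - t) / q) := by
      field_simp; ring
    rw [h2, Real.cos_pi_sub, abs_neg]
    have h3 : -(2 * (s : ℝ)) * (((q : ℝ) - t) / q) ^ 2 =
        -(2 * (s : ℝ) / (q : ℝ) ^ 2) * ((q : ℝ) - t) ^ 2 := by
      field_simp
    rw [h3] at h1
    have := Real.exp_pos (-(2 * (s : ℝ) / (q : ℝ) ^ 2) * (t : ℝ) ^ 2)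
    linarith

theorem sum_abs_cos_pow_le (q s : ℕ) (hq : 1 ≤ q) (hs : 1 ≤ s) :
    ∑ t ∈ range q, |Real.cos (π * t / q)| ^ s ≤ 1 + (q : ℝ) * √(π / (2 * s)) := by
  have hq' : (0 : ℝ) < q := by exact_mod_cast hq
  set b : ℝ := 2 * (s : ℝ) / (q : ℝ) ^ 2 with hb
  have hb0 : 0 ≤ b := by positivity
  have hG := sum_exp_le q s hq hs
  rw [← hb] at hG
  set g : ℕ → ℝ := fun k => Real.exp (-b * (k : ℝ) ^ 2) with hg
  have h1 : ∑ t ∈ range q, |Real.cos (π * t / q)| ^ s ≤
      ∑ t ∈ range q, g t + ∑ t ∈ range q, g (q - t) := by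
    rw [← Finset.sum_add_distrib]
    apply Finset.sum_le_sum
    intro t ht
    have ht' : t ≤ q := (Finset.mem_range.mp ht).le
    have h := abs_cos_pow_le q s t hq ht'
    rw [← hb] at h
    simp only [hg]
    rw [Nat.cast_sub ht']
    exact h
  have h2 : ∑ t ∈ range q, g (q - t) = ∑ k ∈ range q, g (k + 1) := by
    rw [← Finset.sum_range_reflect (fun k => g (k + 1)) q]
    apply Finset.sum_congr rfl
    intro t ht
    have ht' : t < q := Finset.mem_range.mp ht
    congr 1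
    omega
  have h3 : ∑ t ∈ range q, g t ≤ 1 + ∑ k ∈ range q, g (k + 1) := by
    have h4 : ∑ t ∈ range q, g t ≤ ∑ t ∈ range (q + 1), g t := by
      apply Finset.sum_le_sum_of_subset_of_nonneg
      · intro x hx; simp only [Finset.mem_range] at hx ⊢; omega
      · intro i _ _; exact (Real.exp_pos _).le
    rw [Finset.sum_range_succ'] at h4
    have h5 : g 0 = 1 := by simp [hg]
    rw [h5] at h4
    linarith
  have h6 : ∑ k ∈ range q, g (k + 1) ≤ (q : ℝ) * √(π / (2 * s)) / 2 := hG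
  linarith

variable {q : ℕ} [NeZero q]

/-- the standard additive character -/
noncomputable abbrev ψ (q : ℕ) [NeZero q] : AddChar (ZMod q) ℂ := ZMod.stdAddChar

theorem norm_one_add_ψ (t : ZMod q) : ‖(1 : ℂ) + ψ q t‖ = 2 * |Real.cos (π * t.val / q)| := by
  have h1 : ψ q t = Complex.exp (2 * π * Complex.I * t.val / q) := by
    have := ZMod.stdAddChar_coe (N := q) (t.val : ℤ)
    rw [show ((t.val : ℤ) : ZMod q) = t by simp] at this
    rw [this]
    simp
  have hq' : (q : ℂ) ≠ 0 := by exact_mod_cast NeZero.ne q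
  set θ : ℝ := π * t.val / q with hθ
  have h2 : (2 * π * Complex.I * t.val / q : ℂ) = (θ * Complex.I) + (θ * Complex.I) := by
    rw [hθ]; push_cast; ring
  have h3 : (1 : ℂ) + Complex.exp (θ * Complex.I + θ * Complex.I) =
      Complex.exp (θ * Complex.I) * (2 * Complex.cos θ) := by
    rw [Complex.two_cos, mul_add, ← Complex.exp_add, ← Complex.exp_add]
    rw [show (θ * Complex.I + -θ * Complex.I : ℂ) = 0 by ring, Complex.exp_zero]
    ring
  rw [h1, h2, h3, norm_mul, Complex.norm_exp_ofReal_mul_I, one_mul, norm_mul,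
    ← Complex.ofReal_cos, Complex.norm_real]
  simp

theorem sum_norm_one_add_ψ_pow (s : ℕ) (hs : 1 ≤ s) :
    ∑ t : ZMod q, ‖(1 : ℂ) + ψ q t‖ ^ s ≤ 2 ^ s * (1 + (q : ℝ) * √(π / (2 * s))) := by
  have hq1 : 1 ≤ q := Nat.one_le_iff_ne_zero.mpr (NeZero.ne q)
  have h1 : ∑ t : ZMod q, ‖(1 : ℂ) + ψ q t‖ ^ s = 2 ^ s * ∑ t ∈ range q, |Real.cos (π * t / q)| ^ s := by
    rw [Finset.mul_sum]
    have h2 : ∀ t : ZMod q, ‖(1 : ℂ) + ψ q t‖ ^ s = 2 ^ s * |Real.cos (π * t.val / q)| ^ s := by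
      intro t; rw [norm_one_add_ψ, mul_pow]
    simp_rw [h2]
    refine Finset.sum_bij (fun t _ => t.val) ?_ ?_ ?_ ?_
    · intro t _; exact Finset.mem_range.mpr (ZMod.val_lt t)
    · intro a _ b _ h; exact ZMod.val_injective q h
    · intro b hb
      exact ⟨(b : ZMod q), Finset.mem_univ _, ZMod.val_cast_of_lt (Finset.mem_range.mp hb)⟩
    · intro a _; rfl
  rw [h1]
  apply mul_le_mul_of_nonneg_left (sum_abs_cos_pow_le q s hq1 hs) (by positivity)

variable {ι : Type*} [Fintype ι] [DecidableEq ι]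

theorem ψ_sum {κ : Type*} (s : Finset κ) (f : κ → ZMod q) :
    ψ q (∑ i ∈ s, f i) = ∏ i ∈ s, ψ q (f i) := by
  classical
  induction s using Finset.induction_on with
  | empty => simp
  | insert a s ha ih => rw [Finset.sum_insert ha, Finset.prod_insert ha, AddChar.map_add_eq_mul, ih]

theorem count_eq (u : ι → ZMod q) (a : ZMod q) :
    ((univ.filter (fun x : ι → Bool => ∑ i, (if x i then u i else 0) = a)).card : ℂ) =
      (1 / (q : ℂ)) * ∑ t : ZMod q, ψ q (-(t * a)) * ∏ i, (1 + ψ q (t * u i)) := by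
  have hq' : (q : ℂ) ≠ 0 := by exact_mod_cast NeZero.ne q
  have h1 : ∀ t : ZMod q, ∏ i, (1 + ψ q (t * u i)) =
      ∑ x : ι → Bool, ψ q (t * ∑ i, (if x i then u i else 0)) := by
    intro t
    have h2 : ∀ i, (1 + ψ q (t * u i)) = ∑ b : Bool, ψ q (t * (if b then u i else 0)) := by
      intro i
      rw [Fintype.sum_bool]
      simp [add_comm]
    simp_rw [h2]
    rw [Finset.prod_univ_sum, Fintype.piFinset_univ]
    apply Finset.sum_congr rfl
    intro x _
    rw [Finset.mul_sum]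
    exact (ψ_sum _ _).symm
  have h3 : ∀ t : ZMod q, ψ q (-(t * a)) * ∏ i, (1 + ψ q (t * u i)) =
      ∑ x : ι → Bool, ψ q (t * ((∑ i, (if x i then u i else 0)) - a)) := by
    intro t
    rw [h1, Finset.mul_sum]
    apply Finset.sum_congr rfl
    intro x _
    rw [← AddChar.map_add_eq_mul]
    congr 1
    ring
  simp_rw [h3]
  rw [Finset.sum_comm]
  have h4 : ∀ x : ι → Bool, ∑ t : ZMod q, ψ q (t * ((∑ i, (if x i then u i else 0)) - a)) =
      if (∑ i, (if x i then u i else 0)) = a then (q : ℂ) else 0 := by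
    intro x
    rw [AddChar.sum_mulShift _ (ZMod.isPrimitive_stdAddChar q)]
    simp [sub_eq_zero, ZMod.card]
  simp_rw [h4]
  rw [← Finset.sum_filter, Finset.sum_const, nsmul_eq_mul]
  field_simp

theorem norm_one_add_le_two (t : ZMod q) : ‖(1 : ℂ) + ψ q t‖ ≤ 2 := by
  rw [norm_one_add_ψ]
  have := Real.abs_cos_le_one (π * t.val / q)
  linarith

/-- **Littlewood-Offord modulo `q`.** -/
theorem littlewoodOfford_mod (u : ι → ZMod q) (S : Finset ι) (hS : ∀ i ∈ S, IsUnit (u i))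
    (hs : 1 ≤ S.card) (a : ZMod q) :
    ((univ.filter (fun x : ι → Bool => ∑ i, (if x i then u i else 0) = a)).card : ℝ) ≤
      2 ^ Fintype.card ι * (1 / (q : ℝ) + 2 / √(S.card : ℝ)) := by
  have hq' : (0 : ℝ) < q := by exact_mod_cast Nat.pos_of_ne_zero (NeZero.ne q)
  have hs' : (0 : ℝ) < S.card := by exact_mod_cast hs
  set s := S.card with hsdef
  -- AM-GM for the product
  have hprod : ∀ t : ZMod q, ∏ i ∈ S, ‖(1 : ℂ) + ψ q (t * u i)‖ ≤
      ∑ i ∈ S, (1 / (s : ℝ)) * ‖(1 : ℂ) + ψ q (t * u i)‖ ^ s := by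
    intro t
    have h := Real.geom_mean_le_arith_mean_weighted S (fun _ => (1 / (s : ℝ)))
      (fun i => ‖(1 : ℂ) + ψ q (t * u i)‖ ^ s) (fun i _ => by positivity)
      (by rw [Finset.sum_const, nsmul_eq_mul, ← hsdef]; field_simp)
      (fun i _ => by positivity)
    refine le_trans (le_of_eq ?_) h
    apply Finset.prod_congr rfl
    intro i _
    rw [← Real.rpow_natCast, ← Real.rpow_mul (norm_nonneg _)]
    rw [mul_one_div_cancel hs'.ne', Real.rpow_one]
  have hprod2 : ∀ t : ZMod q, ∏ i, ‖(1 : ℂ) + ψ q (t * u i)‖ ≤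
      2 ^ (Fintype.card ι - s) * ∑ i ∈ S, (1 / (s : ℝ)) * ‖(1 : ℂ) + ψ q (t * u i)‖ ^ s := by
    intro t
    rw [← Finset.prod_mul_prod_compl S, mul_comm]
    apply mul_le_mul _ (hprod t) (Finset.prod_nonneg (fun _ _ => norm_nonneg _)) (by positivity)
    calc ∏ i ∈ Sᶜ, ‖(1 : ℂ) + ψ q (t * u i)‖ ≤ ∏ i ∈ Sᶜ, (2 : ℝ) :=
          Finset.prod_le_prod (fun _ _ => norm_nonneg _) (fun i _ => norm_one_add_le_two _)
      _ = 2 ^ (Fintype.card ι - s) := by
          rw [Finset.prod_const, Finset.card_compl]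
  have hshift : ∀ i ∈ S, ∑ t : ZMod q, ‖(1 : ℂ) + ψ q (t * u i)‖ ^ s =
      ∑ t : ZMod q, ‖(1 : ℂ) + ψ q t‖ ^ s := by
    intro i hi
    obtain ⟨v, hv⟩ := hS i hi
    rw [← hv]
    exact Fintype.sum_equiv (Units.mulRight v) _ _ (fun t => rfl)
  have hsum := sum_norm_one_add_ψ_pow (q := q) s hs
  have hC := count_eq u a
  have hnorm : ((univ.filter (fun x : ι → Bool => ∑ i, (if x i then u i else 0) = a)).card : ℝ) ≤
      (1 / (q : ℝ)) * ∑ t : ZMod q, ∏ i, ‖(1 : ℂ) + ψ q (t * u i)‖ := by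
    have h1 : ((univ.filter (fun x : ι → Bool => ∑ i, (if x i then u i else 0) = a)).card : ℝ) =
        ‖((univ.filter (fun x : ι → Bool => ∑ i, (if x i then u i else 0) = a)).card : ℂ)‖ := by
      simp
    rw [h1, hC, norm_mul]
    have h2 : ‖(1 / (q : ℂ))‖ = 1 / (q : ℝ) := by simp
    rw [h2]
    apply mul_le_mul_of_nonneg_left _ (by positivity)
    refine (norm_sum_le _ _).trans ?_
    apply Finset.sum_le_sum
    intro t _
    rw [norm_mul, AddChar.norm_apply, one_mul, norm_prod]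
  have hmain : ∑ t : ZMod q, ∏ i, ‖(1 : ℂ) + ψ q (t * u i)‖ ≤
      2 ^ (Fintype.card ι - s) * (2 ^ s * (1 + (q : ℝ) * √(π / (2 * s)))) := by
    calc ∑ t : ZMod q, ∏ i, ‖(1 : ℂ) + ψ q (t * u i)‖
        ≤ ∑ t : ZMod q, 2 ^ (Fintype.card ι - s) *
            ∑ i ∈ S, (1 / (s : ℝ)) * ‖(1 : ℂ) + ψ q (t * u i)‖ ^ s :=
          Finset.sum_le_sum (fun t _ => hprod2 t)
      _ = 2 ^ (Fintype.card ι - s) * ∑ i ∈ S, (1 / (s : ℝ)) *
            ∑ t : ZMod q, ‖(1 : ℂ) + ψ q (t * u i)‖ ^ s := by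
          rw [← Finset.mul_sum, Finset.sum_comm]
          simp_rw [← Finset.mul_sum]
      _ = 2 ^ (Fintype.card ι - s) * ∑ i ∈ S, (1 / (s : ℝ)) *
            ∑ t : ZMod q, ‖(1 : ℂ) + ψ q t‖ ^ s := by
          congr 1
          apply Finset.sum_congr rfl
          intro i hi
          rw [hshift i hi]
      _ = 2 ^ (Fintype.card ι - s) * ∑ t : ZMod q, ‖(1 : ℂ) + ψ q t‖ ^ s := by
          rw [Finset.sum_const, nsmul_eq_mul, ← hsdef]
          field_simp
      _ ≤ _ := mul_le_mul_of_nonneg_left hsum (by positivity)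
  have hcard : s ≤ Fintype.card ι := Finset.card_le_univ S
  have hpow : (2 : ℝ) ^ (Fintype.card ι - s) * 2 ^ s = 2 ^ Fintype.card ι := by
    rw [← pow_add, Nat.sub_add_cancel hcard]
  calc ((univ.filter (fun x : ι → Bool => ∑ i, (if x i then u i else 0) = a)).card : ℝ)
      ≤ (1 / (q : ℝ)) * (2 ^ (Fintype.card ι - s) * (2 ^ s * (1 + (q : ℝ) * √(π / (2 * s))))) :=
        hnorm.trans (mul_le_mul_of_nonneg_left hmain (by positivity))
    _ = 2 ^ Fintype.card ι * (1 / (q : ℝ) + √(π / (2 * s))) := by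
        rw [← mul_assoc ((2 : ℝ) ^ (Fintype.card ι - s)), hpow]
        field_simp
    _ ≤ 2 ^ Fintype.card ι * (1 / (q : ℝ) + 2 / √(s : ℝ)) := by
        apply mul_le_mul_of_nonneg_left _ (by positivity)
        have h5 : √(π / (2 * s)) ≤ 2 / √(s : ℝ) := by
          have h6 : π / (2 * s) ≤ 4 / (s : ℝ) := by
            rw [div_le_div_iff₀ (by positivity) hs']
            have := Real.pi_lt_four
            nlinarith
          calc √(π / (2 * s)) ≤ √(4 / (s : ℝ)) := Real.sqrt_le_sqrt h6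
            _ = 2 / √(s : ℝ) := by
              rw [Real.sqrt_div (by norm_num)]
              congr 1
              rw [show (4 : ℝ) = 2 ^ 2 by norm_num]
              exact Real.sqrt_sq (by norm_num)
        linarith

end Vale.P160.LOMod
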