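import Vale.Agent.P160.Rows
import Vale.Agent.P160.Count2

namespace Vale.Agent.P160

open Finset

section pivots

variable {ι : Type*} [Fintype ι] [DecidableEq ι] {q : ℕ}

lemma finrank_inf_ker' {F V : Type*} [Field F] [AddCommGroup V] [Module F V]
    [FiniteDimensional F V] (K : Submodule F V) (φ : V →ₗ[F] F) (h : ¬ K ≤ LinearMap.ker φ) :
    Module.finrank F ↥(K ⊓ LinearMap.ker φ) + 1 = Module.finrank F ↥K := by
  have h1 := LinearMap.finrank_range_add_finrank_ker (φ.domRestrict K)
  have h2 : Module.finrank F ↥(LinearMap.range (φ.domRestrict K)) = 1 := by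
    have hne : LinearMap.range (φ.domRestrict K) = ⊤ := by
      rw [LinearMap.range_eq_top]
      have hnz : φ.domRestrict K ≠ 0 := by
        intro h0
        apply h
        intro u hu
        have := LinearMap.congr_fun h0 ⟨u, hu⟩
        simpa using this
      exact LinearMap.surjective hnz
    rw [hne, finrank_top, Module.finrank_self]
  have h3 : Module.finrank F ↥(LinearMap.ker (φ.domRestrict K)) =
      Module.finrank F ↥(K ⊓ LinearMap.ker φ) := by
    have hk : LinearMap.ker (φ.domRestrict K) = (LinearMap.ker φ).comap K.subtype := by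
      ext u
      simp
    rw [hk, ← Submodule.map_comap_subtype, Submodule.finrank_map_subtype_eq]
  omega

/-- Existence of pivots. -/
lemma exists_pivots [Fact q.Prime] (k : ℕ) : ∀ K : Submodule (ZMod q) (ι → ZMod q),
    Module.finrank (ZMod q) ↥K = k →
    ∃ J : Finset ι, J.card = k ∧ ∀ ρ : ι → ZMod q, (∀ i, i ∉ J → ρ i = 0) →
      (∀ u ∈ K, ∑ i, ρ i * u i = 0) → ρ = 0 := by
  induction k with
  | zero =>
    intro K _
    refine ⟨∅, rfl, fun ρ h _ => ?_⟩
    funext i
    exact h i (by simp)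
  | succ k ih =>
    intro K hK
    have hpos : 0 < Module.finrank (ZMod q) ↥K := by omega
    rw [Module.finrank_pos_iff_exists_ne_zero] at hpos
    obtain ⟨⟨u, hu⟩, hne⟩ := hpos
    have hne' : u ≠ 0 := fun h => hne (Subtype.ext h)
    obtain ⟨j, hj⟩ := Function.ne_iff.mp hne'
    have hj' : u j ≠ 0 := hj
    have hnle : ¬ K ≤ LinearMap.ker (LinearMap.proj (R := ZMod q) (φ := fun _ : ι => ZMod q) j) := by
      intro h
      have := h hu
      rw [LinearMap.mem_ker, LinearMap.proj_apply] at this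
      exact hj' this
    have hfr := finrank_inf_ker' K _ hnle
    obtain ⟨J, hJ, hJ2⟩ := ih _ (by omega : Module.finrank (ZMod q)
      ↥(K ⊓ LinearMap.ker (LinearMap.proj (R := ZMod q) (φ := fun _ : ι => ZMod q) j)) = k)
    have hjJ : j ∉ J := by
      intro hmem
      have := hJ2 (Pi.single j 1) (fun i hi => by
        rw [Pi.single_eq_of_ne]
        rintro rfl
        exact hi hmem) (fun w hw => by
        have hw2 : w j = 0 := hw.2
        rw [sum_eq_single j]
        · rw [hw2, mul_zero]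
        · intro i _ hi
          rw [Pi.single_eq_of_ne hi, zero_mul]
        · simp)
      have h1 := congrFun this j
      rw [Pi.single_eq_same] at h1
      exact one_ne_zero h1
    refine ⟨insert j J, by rw [card_insert_of_notMem hjJ, hJ], fun ρ hρ hρK => ?_⟩
    have h1 := hJ2 (Function.update ρ j 0) (fun i hi => by
      by_cases hij : i = j
      · subst hij; simp
      · rw [Function.update_of_ne hij]
        exact hρ i (by simp [hij, hi])) (fun w hw => by
      have hw2 : w j = 0 := hw.2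
      rw [← hρK w hw.1]
      refine sum_congr rfl fun i _ => ?_
      by_cases hij : i = j
      · subst hij; simp [hw2]
      · rw [Function.update_of_ne hij])
    have h2 : ∀ i, i ≠ j → ρ i = 0 := by
      intro i hi
      have := congrFun h1 i
      rwa [Function.update_of_ne hi] at this
    have h3 := hρK u hu
    rw [sum_eq_single j] at h3
    · funext i
      by_cases hij : i = j
      · subst hij
        rcases mul_eq_zero.mp h3 with h | h
        · exact h
        · exact absurd h hj'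
      · exact h2 i hij
    · intro i _ hi
      rw [h2 i hi, zero_mul]
    · simp

end pivots

section sums

variable {ι : Type*} [Fintype ι] [DecidableEq ι] {α : Type*} [Fintype α] [DecidableEq α]

lemma sum_inj_le (w : ι → α → ℝ) (hw : ∀ i a, 0 ≤ w i a) (J : Finset ι)
    (W : ι → ℝ) (hW0 : ∀ i ∈ J, 0 ≤ W i) (hW : ∀ i ∈ J, ∀ a, w i a ≤ W i) (S : Finset (ι → α))
    (hS : ∀ ρ ∈ S, ∀ ρ' ∈ S, (∀ i, i ∉ J → ρ i = ρ' i) → ρ = ρ') :
    ∑ ρ ∈ S, ∏ i, w i (ρ i) ≤ (∏ i ∈ J, W i) * ∏ i ∈ Jᶜ, ∑ a, w i a := by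
  have h1 : ∀ ρ ∈ S, ∏ i, w i (ρ i) ≤ (∏ i ∈ J, W i) * ∏ i ∈ Jᶜ, w i (ρ i) := by
    intro ρ _
    rw [← Finset.prod_mul_prod_compl J]
    refine mul_le_mul_of_nonneg_right ?_ (prod_nonneg fun i _ => hw i _)
    exact prod_le_prod (fun i _ => hw i _) fun i hi => hW i hi _
  refine (sum_le_sum h1).trans ?_
  rw [← mul_sum]
  refine mul_le_mul_of_nonneg_left ?_ (prod_nonneg hW0)
  have h2 : ∏ i ∈ Jᶜ, ∑ a, w i a = ∑ τ : ({i // i ∉ J} → α), ∏ i, w i.1 (τ i) := by
    have := Finset.prod_univ_sum (fun _ : {i // i ∉ J} => (univ : Finset α))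
      (fun i a => w i.1 a)
    rw [Fintype.piFinset_univ] at this
    rw [← this]
    rw [← Finset.prod_coe_sort]
    refine Fintype.prod_equiv (Equiv.subtypeEquivRight (by simp)) _ _ ?_
    intro x
    rfl
  have h3 : ∀ ρ : ι → α, ∏ i ∈ Jᶜ, w i (ρ i) = ∏ i : {i // i ∉ J}, w i.1 (ρ i.1) := by
    intro ρ
    rw [← Finset.prod_coe_sort]
    refine Fintype.prod_equiv (Equiv.subtypeEquivRight (by simp)) _ _ ?_
    intro x
    rfl
  rw [h2]
  simp only [h3]
  have hinj : Set.InjOn (fun (ρ : ι → α) (i : {i // i ∉ J}) => ρ i.1) S := by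
    intro ρ hρ ρ' hρ' h
    exact hS ρ hρ ρ' hρ' fun i hi => congrFun h ⟨i, hi⟩
  rw [← Finset.sum_image (f := fun τ : ({i // i ∉ J} → α) => ∏ i, w i.1 (τ i)) hinj]
  exact sum_le_sum_of_subset_of_nonneg (subset_univ _) fun τ _ _ =>
    prod_nonneg fun i _ => hw _ _

end sums

section bound

variable {ι : Type*} [Fintype ι] [DecidableEq ι] {q M : ℕ}

/-- The residue pattern of a row. -/
def pat (q : ℕ) (r : ι → Fin M) : ι → ZMod q := fun i => (st (r i) : ZMod q)

/-- Part of the characteristic function of a step with prescribed residue. -/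
noncomputable def cpart (M q : ℕ) (z : ℂ) (a : ZMod q) : ℂ :=
  ∑ s ∈ (univ : Finset (Fin M)).filter (fun s => (st s : ZMod q) = a), z ^ st s

lemma sum_pat (z : ι → ℂ) (ρ : ι → ZMod q) :
    ∑ r ∈ univ.filter (fun r : ι → Fin M => pat q r = ρ), ∏ i, z i ^ st (r i) =
      ∏ i, cpart M q (z i) (ρ i) := by
  unfold cpart
  rw [Finset.prod_univ_sum]
  refine sum_congr ?_ fun _ _ => rfl
  ext r
  simp [pat, funext_iff]

lemma mem_KerR_le {K : Submodule (ZMod q) (ι → ZMod q)} (r : ι → Fin M) :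
    K ≤ KerR q r ↔ ∀ u ∈ K, ∑ i, pat q r i * u i = 0 := by
  constructor
  · intro h u hu
    have := h hu
    rwa [mem_KerR] at this
  · intro h u hu
    rw [mem_KerR]
    exact h u hu

open Classical in
/-- Bound for the Fourier transform restricted to rows orthogonal to `K`. -/
lemma norm_sum_KerR_le [Fact q.Prime] (K : Submodule (ZMod q) (ι → ZMod q)) (z : ι → ℂ)
    (w : ι → ZMod q → ℝ) (hw : ∀ i a, ‖cpart M q (z i) a‖ ≤ w i a)
    (A B : ι → ℝ) (hA : ∀ i a, w i a ≤ A i) (hAB : ∀ i, A i ≤ B i) (c : ℝ) (hc : 0 ≤ c)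
    (hBc : ∀ i, A i ≤ c * B i) (hB : ∀ i, ∑ a, w i a ≤ B i) :
    ‖∑ r ∈ univ.filter (fun r : ι → Fin M => K ≤ KerR q r), ∏ i, z i ^ st (r i)‖ ≤
      c ^ Module.finrank (ZMod q) ↥K * ∏ i, B i := by
  have hw0 : ∀ i a, 0 ≤ w i a := fun i a => (norm_nonneg _).trans (hw i a)
  obtain ⟨J, hJ, hJ2⟩ := exists_pivots _ K rfl
  set S : Finset (ι → ZMod q) := univ.filter (fun ρ : ι → ZMod q => ∀ u ∈ K, ∑ i, ρ i * u i = 0)
    with hS
  have h1 : ∑ r ∈ univ.filter (fun r : ι → Fin M => K ≤ KerR q r), ∏ i, z i ^ st (r i) =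
      ∑ ρ ∈ S, ∑ r ∈ univ.filter (fun r : ι → Fin M => pat q r = ρ), ∏ i, z i ^ st (r i) := by
    rw [← Finset.sum_fiberwise_of_maps_to (s := univ.filter (fun r : ι → Fin M => K ≤ KerR q r))
      (t := S) (g := pat q)]
    · refine sum_congr rfl fun ρ hρ => ?_
      refine sum_congr ?_ fun _ _ => rfl
      ext r
      simp only [mem_filter, mem_univ, true_and]
      constructor
      · exact fun h => h.2
      · intro h
        refine ⟨?_, h⟩
        rw [mem_KerR_le, h]
        rw [hS, mem_filter] at hρ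
        exact hρ.2
    · intro r hr
      rw [mem_filter] at hr
      rw [hS, mem_filter]
      exact ⟨mem_univ _, (mem_KerR_le r).mp hr.2⟩
  rw [h1]
  simp only [sum_pat]
  have hB0 : ∀ i, 0 ≤ B i := fun i =>
    (hw0 i 0).trans ((hA i 0).trans (hAB i))
  calc ‖∑ ρ ∈ S, ∏ i, cpart M q (z i) (ρ i)‖
      ≤ ∑ ρ ∈ S, ∏ i, w i (ρ i) := by
        refine (norm_sum_le _ _).trans (sum_le_sum fun ρ _ => ?_)
        rw [norm_prod]
        exact prod_le_prod (fun _ _ => norm_nonneg _) fun i _ => hw i _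
    _ ≤ (∏ i ∈ J, A i) * ∏ i ∈ Jᶜ, ∑ a, w i a := by
        refine sum_inj_le w hw0 J A (fun i _ => (hw0 i 0).trans (hA i 0))
          (fun i _ a => hA i a) S ?_
        intro ρ hρ ρ' hρ' heq
        rw [hS, mem_filter] at hρ hρ'
        have := hJ2 (ρ - ρ') (fun i hi => by
          rw [Pi.sub_apply, heq i hi, sub_self]) (fun u hu => by
          have e1 := hρ.2 u hu
          have e2 := hρ'.2 u hu
          simp only [Pi.sub_apply, sub_mul, sum_sub_distrib]
          rw [e1, e2, sub_zero])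
        exact sub_eq_zero.mp this
    _ ≤ (∏ i ∈ J, c * B i) * ∏ i ∈ Jᶜ, B i := by
        refine mul_le_mul ?_ ?_ ?_ ?_
        · exact prod_le_prod (fun i _ => (hw0 i 0).trans (hA i 0)) fun i _ => hBc i
        · exact prod_le_prod (fun i _ => sum_nonneg fun a _ => hw0 i a) fun i _ => hB i
        · exact prod_nonneg fun i _ => sum_nonneg fun a _ => hw0 i a
        · exact prod_nonneg fun i _ => mul_nonneg hc (hB0 i)
    _ = _ := by
        rw [prod_mul_distrib, prod_const, hJ, mul_assoc, Finset.prod_mul_prod_compl]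

end bound

end Vale.Agent.P160
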