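import Vale.Agent.P160.PI1

namespace Vale.Agent.P160

open Finset

section two

variable {ι : Type*} [Fintype ι] [DecidableEq ι] {N : ℕ}

lemma card_two_fiber [NeZero N] (s : ZMod N) :
    (univ.filter (fun t : ZMod N => 2 * t = s)).card ≤ 2 := by
  classical
  rcases (univ.filter (fun t : ZMod N => 2 * t = s)).eq_empty_or_nonempty with h | ⟨t0, ht0⟩
  · rw [h]; simp
  · rw [mem_filter] at ht0
    have h1 : (univ.filter (fun t : ZMod N => 2 • t = 0)).card ≤ 2 := by
      have := IsAddCyclic.card_nsmul_eq_zero_le (α := ZMod N) (n := 2) (by omega)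
      refine le_trans (le_of_eq ?_) this
      congr
    refine le_trans (card_le_card_of_injOn (fun t => t - t0) ?_ ?_) h1
    · intro t ht
      rw [mem_coe, mem_filter] at ht
      rw [mem_coe, mem_filter]
      refine ⟨mem_univ _, ?_⟩
      rw [smul_sub, nsmul_eq_mul, nsmul_eq_mul]
      push_cast
      rw [ht.2, ht0.2, sub_self]
    · intro a _ b _ hab
      exact sub_left_injective hab

lemma sum_two_mul_le [NeZero N] (g : ZMod N → ℝ) (hg : ∀ s, 0 ≤ g s) :
    ∑ t : ZMod N, g (2 * t) ≤ 2 * ∑ s : ZMod N, g s := by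
  rw [← Finset.sum_fiberwise_of_maps_to (s := univ) (t := univ) (g := fun t : ZMod N => 2 * t)
    (fun _ _ => mem_univ _), mul_sum]
  refine sum_le_sum fun s _ => ?_
  have : ∑ t ∈ univ.filter (fun t : ZMod N => 2 * t = s), g (2 * t) =
      ∑ t ∈ univ.filter (fun t : ZMod N => 2 * t = s), g s := by
    refine sum_congr rfl fun t ht => ?_
    rw [mem_filter] at ht
    rw [ht.2]
  rw [this, sum_const, nsmul_eq_mul]
  refine mul_le_mul_of_nonneg_right ?_ (hg s)
  exact_mod_cast card_two_fiber s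

lemma cpart_two_zero (z : ℂ) : cpart 8 2 z 0 = 6 := by
  unfold cpart
  rw [Finset.sum_filter]
  simp only [Fin.sum_univ_succ, st]
  simp
  norm_num

lemma cpart_two_one (z : ℂ) : cpart 8 2 z 1 = z + z⁻¹ := by
  unfold cpart
  rw [Finset.sum_filter]
  simp only [Fin.sum_univ_succ, st]
  simp

lemma zmod_two_cases (a : ZMod 2) : a = 0 ∨ a = 1 := by
  fin_cases a
  · exact Or.inl rfl
  · exact Or.inr rfl

lemma add_inv_of_norm_one {z : ℂ} (hz : ‖z‖ = 1) : z + z⁻¹ = ((2 * z.re : ℝ) : ℂ) := by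
  have hz' : z⁻¹ = (starRingEnd ℂ) z := by
    rw [Complex.inv_def]
    have : Complex.normSq z = 1 := by
      rw [Complex.normSq_eq_norm_sq, hz]; norm_num
    rw [this]; simp
  rw [hz', Complex.add_conj]

/-- Weights: 6 at residue 0, `2 |Re z|` at residue 1. -/
noncomputable def wt2 (z : ℂ) (a : ZMod 2) : ℝ := if a = 0 then 6 else 2 * |z.re|

lemma norm_cpart_two {z : ℂ} (hz : ‖z‖ = 1) (a : ZMod 2) : ‖cpart 8 2 z a‖ ≤ wt2 z a := by
  rcases zmod_two_cases a with rfl | rfl
  · rw [cpart_two_zero]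
    simp [wt2]
  · rw [cpart_two_one, add_inv_of_norm_one hz, Complex.norm_real, Real.norm_eq_abs]
    unfold wt2
    rw [if_neg (by decide), abs_mul]
    norm_num

lemma wt2_le {z : ℂ} (hz : ‖z‖ = 1) (a : ZMod 2) : wt2 z a ≤ 6 := by
  have h1 : |z.re| ≤ 1 := by
    have := Complex.abs_re_le_norm z
    rwa [hz] at this
  unfold wt2
  split_ifs <;> linarith

lemma sum_wt2 (z : ℂ) : ∑ a : ZMod 2, wt2 z a = 6 + 2 * |z.re| := by
  have : (univ : Finset (ZMod 2)) = {0, 1} := by decide
  rw [this, sum_pair (by decide)]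
  unfold wt2
  rw [if_pos rfl, if_neg (by decide)]

lemma cf_sq {z : ℂ} (hz : ‖z‖ = 1) : cf 32 (z ^ 2) = 7 / 8 + z.re ^ 2 / 8 := by
  have h2 : z.re * z.re + z.im * z.im = 1 := by
    rw [← Complex.normSq_apply, Complex.normSq_eq_norm_sq, hz]; norm_num
  have h3 : (z ^ 2).re = 2 * z.re ^ 2 - 1 := by
    rw [pow_two, Complex.mul_re]
    nlinarith
  unfold cf
  rw [h3]
  push_cast
  ring

open Classical in
/-- Pivot bound for the twisted count. -/
lemma norm_KerR_twist_le (K : Submodule (ZMod 2) (ι → ZMod 2)) (z : ι → ℂ)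
    (hz : ∀ i, ‖z i‖ = 1) :
    ‖∑ r ∈ univ.filter (fun r : ι → Fin 8 => K ≤ KerR 2 r), ∏ i, z i ^ st (r i)‖ ≤
      (6 / 7) ^ Module.finrank (ZMod 2) ↥K * (8 ^ Fintype.card ι * ∏ i, cf 32 (z i ^ 2)) := by
  have : Fact (Nat.Prime 2) := ⟨Nat.prime_two⟩
  have h1 : ∀ i, |(z i).re| ≤ 1 := by
    intro i
    have := Complex.abs_re_le_norm (z i)
    rwa [hz i] at this
  have hB : ∀ i, 8 * cf 32 (z i ^ 2) = 7 + |(z i).re| ^ 2 := by
    intro i
    rw [cf_sq (hz i), sq_abs]
    ring
  have := norm_sum_KerR_le (M := 8) K z (fun i a => wt2 (z i) a)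
    (fun i a => norm_cpart_two (hz i) a) (fun _ => 6) (fun i => 8 * cf 32 (z i ^ 2))
    (fun i a => wt2_le (hz i) a)
    (fun i => by rw [hB]; nlinarith [sq_nonneg |(z i).re|]) (6 / 7) (by norm_num)
    (fun i => by rw [hB]; nlinarith [sq_nonneg |(z i).re|])
    (fun i => by rw [hB, sum_wt2]; nlinarith [sq_nonneg (|(z i).re| - 1)])
  refine this.trans (le_of_eq ?_)
  rw [prod_mul_distrib, prod_const, card_univ]

open Classical in
/-- Pivot bound for the untwisted count. -/
lemma card_KerR_le (K : Submodule (ZMod 2) (ι → ZMod 2)) :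
    ((univ.filter (fun r : ι → Fin 8 => K ≤ KerR 2 r)).card : ℝ) ≤
      (3 / 4) ^ Module.finrank (ZMod 2) ↥K * 8 ^ Fintype.card ι := by
  have : Fact (Nat.Prime 2) := ⟨Nat.prime_two⟩
  have := norm_sum_KerR_le (M := 8) K (fun _ => (1 : ℂ)) (fun i a => wt2 1 a)
    (fun i a => norm_cpart_two (by simp) a) (fun _ => 6) (fun i => 8)
    (fun i a => wt2_le (by simp) a) (fun i => by norm_num) (3 / 4) (by norm_num)
    (fun i => by norm_num) (fun i => by rw [sum_wt2]; norm_num)
  simp only [one_zpow, prod_const_one, sum_const, nsmul_eq_mul, mul_one, Complex.norm_natCast,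
    prod_const, card_univ] at this
  exact this

open Classical in
/-- Main corank estimate. -/
theorem corank_bound [NeZero N] (v : ι → ZMod N) (K : Submodule (ZMod 2) (ι → ZMod 2)) :
    N * ((univ.filter (fun r : ι → Fin 8 => walk r v = 0 ∧ K ≤ KerR 2 r)).card : ℝ) ≤
      2 * ((univ.filter (fun r : ι → Fin 8 => K ≤ KerR 2 r)).card : ℝ) +
      (6 / 7) ^ Module.finrank (ZMod 2) ↥K * 8 ^ Fintype.card ι * (2 * (Zf 32 v - 1)) := by
  set S := univ.filter (fun r : ι → Fin 8 => K ≤ KerR 2 r) with hS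
  set T := univ.filter (fun r : ι → Fin 8 => walk r v = 0 ∧ K ≤ KerR 2 r) with hT
  have hTS : T = S.filter (fun r => walk r v = 0) := by
    rw [hS, hT, filter_filter]
    refine filter_congr fun r _ => ?_
    tauto
  have h1 : ((N * (T.card : ℝ) : ℝ) : ℂ) = ∑ t : ZMod N, ∑ r ∈ S, ee (t * walk r v) := by
    rw [sum_comm]
    simp only [sum_ee_mul]
    rw [← sum_filter, ← hTS, sum_const, nsmul_eq_mul]
    push_cast
    ring
  have h2 : ∀ t : ZMod N, ‖∑ r ∈ S, ee (t * walk r v)‖ ≤
      (if 2 * t = 0 then (S.card : ℝ) else 0) +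
        (6 / 7) ^ Module.finrank (ZMod 2) ↥K * 8 ^ Fintype.card ι *
          (if 2 * t = 0 then 0 else PP 32 v (2 * t)) := by
    intro t
    by_cases ht : 2 * t = 0
    · rw [if_pos ht, if_pos ht, mul_zero, add_zero]
      refine (norm_sum_le _ _).trans ?_
      simp only [norm_ee, sum_const, nsmul_eq_mul, mul_one, le_refl]
    · rw [if_neg ht, if_neg ht, zero_add]
      have := norm_KerR_twist_le K (fun i => ee (t * v i)) (fun i => norm_ee _)
      rw [mul_assoc]
      have e1 : ∀ r : ι → Fin 8, ∏ i, ee (t * v i) ^ st (r i) = ee (t * walk r v) :=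
        fun r => (ee_walk r v t).symm
      simp only [e1] at this
      refine this.trans (le_of_eq ?_)
      congr 2
      unfold PP
      refine prod_congr rfl fun i _ => ?_
      rw [← ee_natCast_mul]
      push_cast
      rw [mul_assoc]
  have h3 : (N * (T.card : ℝ) : ℝ) ≤ ∑ t : ZMod N, ‖∑ r ∈ S, ee (t * walk r v)‖ := by
    have : (N * (T.card : ℝ) : ℝ) = ‖((N * (T.card : ℝ) : ℝ) : ℂ)‖ := by
      rw [Complex.norm_real, Real.norm_eq_abs, abs_of_nonneg (by positivity)]
    rw [this, h1]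
    exact norm_sum_le _ _
  refine h3.trans ((sum_le_sum fun t _ => h2 t).trans ?_)
  rw [sum_add_distrib, ← mul_sum]
  refine add_le_add ?_ ?_
  · rw [← sum_filter, sum_const, nsmul_eq_mul]
    refine mul_le_mul_of_nonneg_right ?_ (by positivity)
    exact_mod_cast card_two_fiber (0 : ZMod N)
  · refine mul_le_mul_of_nonneg_left ?_ (by positivity)
    have h4 := sum_two_mul_le (fun s : ZMod N => if s = 0 then 0 else PP 32 v s) (fun s => by
      split_ifs
      · exact le_rfl
      · exact PP_nonneg (by norm_num) v s)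
    refine h4.trans (le_of_eq ?_)
    congr 1
    rw [Zf_eq_sum_PP (by norm_num) v, ← Finset.add_sum_erase univ _ (mem_univ (0 : ZMod N)),
      ← Finset.add_sum_erase univ (fun t => PP 32 v t) (mem_univ (0 : ZMod N)), PP_zero,
      if_pos rfl, zero_add]
    have : ∑ x ∈ univ.erase (0 : ZMod N), (if x = 0 then 0 else PP 32 v x) =
        ∑ x ∈ univ.erase (0 : ZMod N), PP 32 v x := by
      refine sum_congr rfl fun x hx => ?_
      rw [mem_erase] at hx
      rw [if_neg hx.1]
    rw [this]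
    ring

end two

end Vale.Agent.P160
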