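import Vale.Agent.P160.PI2
attribute [-instance] ProperSMul.toContinuousSMul IsTopologicalTorsor.toContinuousSMul IdemSemiring.toCanonicallyOrderedAdd IdemSemiring.toMulLeftMono IdemSemiring.toMulRightMono AddQuantale.instAddLeftMono AddQuantale.instAddRightMono Quantale.instMulLeftMono Quantale.instMulRightMono FiniteDimensional.rclike_to_real IsScalarTower.complexToReal FiniteDimensional.complexToReal

namespace Vale.Agent.P160

open Finset

section two

variable {ι : Type*} [Fintype ι] [DecidableEq ι]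

lemma ee_one_two : ee (1 : ZMod 2) = -1 := by
  have h1 : ee (1 : ZMod 2) ^ 2 = 1 := by
    rw [← ee_natCast_mul]
    have : ((2 : ℕ) : ZMod 2) * 1 = 0 := by decide
    rw [this, ee_zero]
  have h2 : ee (1 : ZMod 2) ≠ 1 := ee_ne_one (by decide)
  rcases (sq_eq_sq_iff_eq_or_eq_neg (a := ee (1 : ZMod 2)) (b := 1)).mp (by rw [h1]; norm_num) with h | h
  · exact absurd h h2
  · exact h

/-- Number of nonzero coordinates of a vector mod 2. -/
def wt (y : ι → ZMod 2) : ℕ := (univ.filter (fun i => y i ≠ 0)).card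

lemma pr_two (y : ι → ZMod 2) : 2 * pr 8 y 0 = 1 + (1 / 2) ^ wt y := by
  have h := Zf_eq (M := 8) (by norm_num) y
  unfold Zf at h
  push_cast at h
  rw [h]
  have : (univ : Finset (ZMod 2)) = {0, 1} := by decide
  rw [this, sum_pair (by decide)]
  congr 1
  · simp [cf_one]
  · unfold wt
    rw [← prod_const, prod_filter]
    refine prod_congr rfl fun i _ => ?_
    rw [one_mul]
    rcases zmod_two_cases (y i) with h | h
    · rw [h, ee_zero, cf_one, if_neg (by simp)]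
    · rw [h, if_pos (by decide), ee_one_two]
      unfold cf
      norm_num

lemma wt_pos {y : ι → ZMod 2} (hy : y ≠ 0) : 1 ≤ wt y := by
  obtain ⟨i, hi⟩ := Function.ne_iff.mp hy
  unfold wt
  rw [Nat.one_le_iff_ne_zero, Ne, card_eq_zero]
  intro h
  have : i ∈ univ.filter (fun i => y i ≠ 0) := by
    rw [mem_filter]; exact ⟨mem_univ _, hi⟩
  rw [h] at this
  exact absurd this (notMem_empty _)

lemma wt_le_add (x u : ι → ZMod 2) : wt x ≤ wt u + wt (x + u) := by
  unfold wt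
  refine (card_le_card ?_).trans (card_union_le _ _)
  intro i hi
  rw [mem_filter] at hi
  rw [mem_union, mem_filter, mem_filter]
  by_contra hcon
  push Not at hcon
  have h1 := hcon.1 (mem_univ _)
  have h2 := hcon.2 (mem_univ _)
  rw [Pi.add_apply, h1, add_zero] at h2
  exact hi.2 h2

open Classical in
lemma card_pair (x u : ι → ZMod 2) :
    2 * (univ.filter (fun r : ι → Fin 8 => walk r x = 0 ∧ walk r u = 0)).card +
      8 ^ Fintype.card ι =
    (univ.filter (fun r : ι → Fin 8 => walk r x = 0)).card +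
      (univ.filter (fun r : ι → Fin 8 => walk r u = 0)).card +
      (univ.filter (fun r : ι → Fin 8 => walk r (x + u) = 0)).card := by
  have h8 : 8 ^ Fintype.card ι = ∑ r : ι → Fin 8, 1 := by
    simp
  rw [h8, card_filter, card_filter, card_filter, card_filter, mul_sum, ← sum_add_distrib,
    ← sum_add_distrib, ← sum_add_distrib]
  refine sum_congr rfl fun r _ => ?_
  rw [walk_add]
  generalize walk r x = a
  generalize walk r u = b
  revert a b
  decide

open Classical in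
lemma card_pair_le (x u : ι → ZMod 2) (hu : u ≠ 0) (hxu : x + u ≠ 0) :
    ((univ.filter (fun r : ι → Fin 8 => walk r x = 0 ∧ walk r u = 0)).card : ℝ) ≤
      (3 / 8 + (1 / 2) ^ wt x) * 8 ^ Fintype.card ι := by
  have h1 := card_pair x u
  have h1' : 2 * ((univ.filter (fun r : ι → Fin 8 => walk r x = 0 ∧ walk r u = 0)).card : ℝ) +
      8 ^ Fintype.card ι =
    ((univ.filter (fun r : ι → Fin 8 => walk r x = 0)).card : ℝ) +
      ((univ.filter (fun r : ι → Fin 8 => walk r u = 0)).card : ℝ) +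
      ((univ.filter (fun r : ι → Fin 8 => walk r (x + u) = 0)).card : ℝ) := by
    exact_mod_cast h1
  have hpos : (0 : ℝ) < 8 ^ Fintype.card ι := by positivity
  have key : ∀ y : ι → ZMod 2, ((univ.filter (fun r : ι → Fin 8 => walk r y = 0)).card : ℝ) =
      (1 + (1 / 2) ^ wt y) / 2 * 8 ^ Fintype.card ι := by
    intro y
    have h := pr_two y
    unfold pr at h
    push_cast at h
    field_simp at h ⊢
    have e : (univ.filter (fun r : ι → Fin 8 => walk r y = 0)) =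
      @Finset.filter _ (fun r : ι → Fin 8 => walk r y = 0) (fun r => instDecidableEqOfLawfulBEq _ _)
        univ := by
      congr
    linarith
  rw [key, key, key] at h1'
  have hb : ((1 : ℝ) / 2) ^ wt u ≤ 1 / 2 := by
    calc ((1 : ℝ) / 2) ^ wt u ≤ (1 / 2) ^ 1 :=
          pow_le_pow_of_le_one (by norm_num) (by norm_num) (wt_pos hu)
      _ = 1 / 2 := by norm_num
  have hc : ((1 : ℝ) / 2) ^ wt (x + u) ≤ 1 / 2 := by
    calc ((1 : ℝ) / 2) ^ wt (x + u) ≤ (1 / 2) ^ 1 :=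
          pow_le_pow_of_le_one (by norm_num) (by norm_num) (wt_pos hxu)
      _ = 1 / 2 := by norm_num
  have hbc : ((1 : ℝ) / 2) ^ wt u * (1 / 2) ^ wt (x + u) ≤ (1 / 2) ^ wt x := by
    rw [← pow_add]
    exact pow_le_pow_of_le_one (by norm_num) (by norm_num) (wt_le_add x u)
  have ha0 : (0 : ℝ) ≤ (1 / 2) ^ wt x := by positivity
  have h3 : (0 : ℝ) ≤ (1 / 2 - (1 / 2) ^ wt u) * (1 / 2 - (1 / 2) ^ wt (x + u)) :=
    mul_nonneg (by linarith) (by linarith)
  have h4 : ((1 : ℝ) / 2) ^ wt u + (1 / 2) ^ wt (x + u) ≤ 1 / 2 + 2 * (1 / 2) ^ wt x := by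
    nlinarith
  nlinarith

open Classical in
/-- If `K` has dimension at least 2 and contains `x ≠ 0`, at most a `3/8 + 2^(-wt x)` fraction of
the rows is orthogonal to `K`. -/
lemma card_KerR_special (K : Submodule (ZMod 2) (ι → ZMod 2)) {x : ι → ZMod 2} (hx : x ∈ K)
    (hx0 : x ≠ 0) (hK : 2 ≤ Module.finrank (ZMod 2) ↥K) :
    ((univ.filter (fun r : ι → Fin 8 => K ≤ KerR 2 r)).card : ℝ) ≤
      (3 / 8 + (1 / 2) ^ wt x) * 8 ^ Fintype.card ι := by
  have : Fact (Nat.Prime 2) := ⟨Nat.prime_two⟩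
  obtain ⟨u, huK, hu⟩ : ∃ u ∈ K, u ∉ Submodule.span (ZMod 2) {x} := by
    by_contra hcon
    push Not at hcon
    have h1 : Module.finrank (ZMod 2) ↥K ≤ Module.finrank (ZMod 2) ↥(Submodule.span (ZMod 2) {x}) :=
      Submodule.finrank_mono hcon
    rw [finrank_span_singleton hx0] at h1
    omega
  have hu0 : u ≠ 0 := by
    rintro rfl
    exact hu (Submodule.zero_mem _)
  have hxu : x + u ≠ 0 := by
    intro h
    apply hu
    have : u = x := by
      rw [add_eq_zero_iff_neg_eq] at h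
      rw [← h]
      funext i
      rw [Pi.neg_apply, ZMod.neg_eq_self_mod_two]
    rw [this]
    exact Submodule.mem_span_singleton_self x
  refine le_trans ?_ (card_pair_le x u hu0 hxu)
  exact_mod_cast card_le_card fun r hr => by
    rw [mem_filter] at hr ⊢
    exact ⟨mem_univ _, mem_KerR.mp (hr.2 hx), mem_KerR.mp (hr.2 huK)⟩

end two

section final

variable {ι : Type*} [Fintype ι] [DecidableEq ι] {N : ℕ}

lemma walk_castHom {M q : ℕ} (h : q ∣ N) (r : ι → Fin M) (v : ι → ZMod N) :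
    walk r (fun i => ZMod.castHom h (ZMod q) (v i)) = ZMod.castHom h (ZMod q) (walk r v) := by
  unfold walk
  rw [map_sum]
  refine sum_congr rfl fun i _ => ?_
  rw [map_mul, map_intCast]

lemma numeric_top (k : ℕ) (hk : 2 ≤ k) :
    2 * (3 / 4 : ℝ) ^ (k + 2) + (6 / 7) ^ (k + 2) * (1 / 100) ≤ (7 / 8) ^ (k + 1) := by
  induction k, hk using Nat.le_induction with
  | base => norm_num
  | succ k hk ih =>
    have h1 : (0 : ℝ) ≤ (3 / 4) ^ (k + 2) := by positivity
    have h2 : (0 : ℝ) ≤ (6 / 7) ^ (k + 2) := by positivity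
    calc 2 * (3 / 4 : ℝ) ^ (k + 1 + 2) + (6 / 7) ^ (k + 1 + 2) * (1 / 100)
        = 2 * (3 / 4) ^ (k + 2) * (3 / 4) + (6 / 7) ^ (k + 2) * (1 / 100) * (6 / 7) := by ring
      _ ≤ (2 * (3 / 4) ^ (k + 2) + (6 / 7) ^ (k + 2) * (1 / 100)) * (7 / 8) := by
          nlinarith
      _ ≤ (7 / 8) ^ (k + 1) * (7 / 8) := by gcongr
      _ = _ := by ring

open Classical in
lemma hp2_top [NeZero N] (v : ι → ZMod N) {x : ι → ZMod 2} (hx0 : x ≠ 0)
    (hs : ((1 : ℝ) / 2) ^ wt x ≤ 1 / 400) {η : ℝ} (hη : η ≤ 1 / 200) (hZ : Zf 32 v ≤ 1 + η)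
    (K : Submodule (ZMod 2) (ι → ZMod 2)) (k : ℕ) (hx : x ∈ K)
    (hK : Module.finrank (ZMod 2) ↥K = k + 2) :
    ((univ.filter (fun r : ι → Fin 8 => walk r v = 0 ∧ K ≤ KerR 2 r)).card : ℝ) /
        ((8 : ℕ) : ℝ) ^ Fintype.card ι ≤ 1 / N * (7 / 8) ^ (k + 1) := by
  have hN : (0 : ℝ) < N := by exact_mod_cast Nat.pos_of_ne_zero (NeZero.ne N)
  have hb := corank_bound v K
  rw [hK] at hb
  have h8 : (0 : ℝ) < 8 ^ Fintype.card ι := by positivity
  have hη2 : 2 * (Zf 32 v - 1) ≤ 1 / 100 := by linarith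
  have h1 : 2 * ((univ.filter (fun r : ι → Fin 8 => K ≤ KerR 2 r)).card : ℝ) +
      (6 / 7) ^ (k + 2) * 8 ^ Fintype.card ι * (2 * (Zf 32 v - 1)) ≤
      (7 / 8) ^ (k + 1) * 8 ^ Fintype.card ι := by
    have hlast : (6 / 7 : ℝ) ^ (k + 2) * 8 ^ Fintype.card ι * (2 * (Zf 32 v - 1)) ≤
        (6 / 7 : ℝ) ^ (k + 2) * (1 / 100) * 8 ^ Fintype.card ι := by
      calc (6 / 7 : ℝ) ^ (k + 2) * 8 ^ Fintype.card ι * (2 * (Zf 32 v - 1))
          ≤ (6 / 7 : ℝ) ^ (k + 2) * 8 ^ Fintype.card ι * (1 / 100) := by gcongr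
        _ = _ := by ring
    rcases Nat.lt_or_ge k 2 with hk | hk
    · have hsp := card_KerR_special K hx hx0 (by omega)
      have hsp2 : 2 * ((univ.filter (fun r : ι → Fin 8 => K ≤ KerR 2 r)).card : ℝ) ≤
          (151 / 200) * 8 ^ Fintype.card ι := by
        calc 2 * ((univ.filter (fun r : ι → Fin 8 => K ≤ KerR 2 r)).card : ℝ)
            ≤ 2 * ((3 / 8 + (1 / 2) ^ wt x) * 8 ^ Fintype.card ι) := by gcongr
          _ ≤ 2 * ((3 / 8 + 1 / 400) * 8 ^ Fintype.card ι) := by gcongr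
          _ = _ := by ring
      have hnum : (151 / 200 : ℝ) + (6 / 7) ^ (k + 2) * (1 / 100) ≤ (7 / 8) ^ (k + 1) := by
        interval_cases k <;> norm_num
      calc _ ≤ (151 / 200 : ℝ) * 8 ^ Fintype.card ι +
            (6 / 7 : ℝ) ^ (k + 2) * (1 / 100) * 8 ^ Fintype.card ι := add_le_add hsp2 hlast
        _ = (151 / 200 + (6 / 7) ^ (k + 2) * (1 / 100)) * 8 ^ Fintype.card ι := by ring
        _ ≤ _ := by gcongr
    · have hg := card_KerR_le K
      rw [hK] at hg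
      calc _ ≤ 2 * ((3 / 4) ^ (k + 2) * 8 ^ Fintype.card ι) +
            (6 / 7 : ℝ) ^ (k + 2) * (1 / 100) * 8 ^ Fintype.card ι := by
              refine add_le_add ?_ hlast
              linarith
        _ = (2 * (3 / 4) ^ (k + 2) + (6 / 7) ^ (k + 2) * (1 / 100)) * 8 ^ Fintype.card ι := by
            ring
        _ ≤ _ := by
            have := numeric_top k hk
            gcongr
  push_cast
  rw [div_le_iff₀ h8, one_div, mul_assoc, inv_mul_eq_div, le_div_iff₀ hN]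
  linarith

open Classical in
lemma hp2_class [NeZero N] (v : ι → ZMod N) {Z : ℝ} (hZ1 : 1 ≤ Z) (hZ : Zf 32 v ≤ Z)
    (K : Submodule (ZMod 2) (ι → ZMod 2)) (k : ℕ)
    (hK : Module.finrank (ZMod 2) ↥K = k + 2) :
    ((univ.filter (fun r : ι → Fin 8 => walk r v = 0 ∧ K ≤ KerR 2 r)).card : ℝ) /
        ((8 : ℕ) : ℝ) ^ Fintype.card ι ≤ 2 * Z / N * (7 / 8) ^ (k + 1) := by
  have hN : (0 : ℝ) < N := by exact_mod_cast Nat.pos_of_ne_zero (NeZero.ne N)
  have hb := corank_bound v K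
  rw [hK] at hb
  have h8 : (0 : ℝ) < 8 ^ Fintype.card ι := by positivity
  have hg := card_KerR_le K
  rw [hK] at hg
  have h34 : (3 / 4 : ℝ) ^ (k + 2) ≤ (7 / 8) ^ (k + 2) :=
    pow_le_pow_left₀ (by norm_num) (by norm_num) _
  have h67 : (6 / 7 : ℝ) ^ (k + 2) ≤ (7 / 8) ^ (k + 2) :=
    pow_le_pow_left₀ (by norm_num) (by norm_num) _
  have h78 : (7 / 8 : ℝ) ^ (k + 2) ≤ (7 / 8) ^ (k + 1) :=
    pow_le_pow_of_le_one (by norm_num) (by norm_num) (by omega)
  have h1 : 2 * ((univ.filter (fun r : ι → Fin 8 => K ≤ KerR 2 r)).card : ℝ) +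
      (6 / 7) ^ (k + 2) * 8 ^ Fintype.card ι * (2 * (Zf 32 v - 1)) ≤
      2 * Z * (7 / 8) ^ (k + 1) * 8 ^ Fintype.card ι := by
    have e1 : 2 * ((univ.filter (fun r : ι → Fin 8 => K ≤ KerR 2 r)).card : ℝ) ≤
        2 * (7 / 8) ^ (k + 1) * 8 ^ Fintype.card ι := by
      calc 2 * ((univ.filter (fun r : ι → Fin 8 => K ≤ KerR 2 r)).card : ℝ)
          ≤ 2 * ((3 / 4) ^ (k + 2) * 8 ^ Fintype.card ι) := by gcongr
        _ ≤ 2 * ((7 / 8) ^ (k + 1) * 8 ^ Fintype.card ι) := by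
            gcongr 2 * (?_ * _)
            exact h34.trans h78
        _ = _ := by ring
    have e2 : (6 / 7 : ℝ) ^ (k + 2) * 8 ^ Fintype.card ι * (2 * (Zf 32 v - 1)) ≤
        (7 / 8) ^ (k + 1) * 8 ^ Fintype.card ι * (2 * (Z - 1)) := by
      calc (6 / 7 : ℝ) ^ (k + 2) * 8 ^ Fintype.card ι * (2 * (Zf 32 v - 1))
          ≤ (6 / 7 : ℝ) ^ (k + 2) * 8 ^ Fintype.card ι * (2 * (Z - 1)) := by gcongr
        _ ≤ _ := by
            have : 0 ≤ 2 * (Z - 1) := by linarith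
            gcongr ?_ * _ * _
            exact h67.trans h78
    calc _ ≤ _ := add_le_add e1 e2
      _ = _ := by ring
  push_cast
  rw [div_le_iff₀ h8, mul_assoc, div_mul_eq_mul_div, le_div_iff₀ hN]
  linarith

lemma pr_8_le_Zf_32 [NeZero N] (v : ι → ZMod N) : pr 8 v 0 ≤ Zf 32 v / N := by
  have hN : (0 : ℝ) < N := by exact_mod_cast Nat.pos_of_ne_zero (NeZero.ne N)
  rw [le_div_iff₀ hN, mul_comm]
  have h1 := Zf_eq (M := 8) (by norm_num) v
  have h2 := Zf_eq (M := 32) (by norm_num) v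
  unfold Zf at h1
  rw [h1, h2]
  refine sum_le_sum fun t _ => prod_le_prod (fun i _ => cf_nonneg (by norm_num) (norm_ee _))
    fun i _ => ?_
  have hre : (ee (t * v i)).re ≤ 1 := by
    have := Complex.abs_re_le_norm (ee (t * v i))
    rw [norm_ee] at this
    exact (abs_le.mp this).2
  unfold cf
  push_cast
  nlinarith

open Classical in
/-- General form of the bound on `Phi`. -/
lemma Phi_bound {q M : ℕ} [Fact q.Prime] [NeZero N] (hqN : q ∣ N) (v : ι → ZMod N) (j m : ℕ)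
    {p σ s : ℝ} (hM : 0 < M) (h0 : 0 < σ) (h1 : σ < 1) (hs : σ * s = 1) (hp : 0 ≤ p)
    (hx : (fun i => ZMod.castHom hqN (ZMod q) (v i)) ≠ 0) (hp1 : pr M v 0 ≤ p)
    (hp2 : ∀ (K : Submodule (ZMod q) (ι → ZMod q)) (k : ℕ),
      (fun i => ZMod.castHom hqN (ZMod q) (v i)) ∈ K →
      Module.finrank (ZMod q) ↥K = k + 2 →
      ((univ.filter (fun r : ι → Fin M => walk r v = 0 ∧ K ≤ KerR q r)).card : ℝ) /
        (M : ℝ) ^ Fintype.card ι ≤ p * σ ^ (k + 1))
    (hnum : (q : ℝ) ^ j * σ ^ m * s ^ (Fintype.card ι - 1) ≤ 1 / 2) :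
    Phi v M q j m ⊤ ≤ (q : ℝ) ^ j * p ^ m * (2 * Real.exp (1 / (1 - σ) ^ 2)) := by
  classical
  have hs1 : 1 ≤ s := by
    by_contra hcon
    push Not at hcon
    have hs0 : 0 < s := by
      by_contra hcon'
      push Not at hcon'
      nlinarith
    nlinarith
  have hι : 0 < Fintype.card ι := by
    obtain ⟨i, _⟩ := Function.ne_iff.mp hx
    exact Fintype.card_pos_iff.mpr ⟨i⟩
  have hle := Phi_le v (fun i => ZMod.castHom hqN (ZMod q) (v i)) j hM h0 h1 hs hp hx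
    (fun r hr => by rw [walk_castHom, hr, map_zero]) hp1 hp2 m ⊤ (Fintype.card ι - 1)
    Submodule.mem_top (by rw [finrank_top, Module.finrank_fintype_fun_eq_card]; omega)
  refine hle.trans ?_
  have := SS_le (N := (q : ℝ) ^ j) (by positivity) h0.le h1 hs1 m (Fintype.card ι - 1) hnum
  gcongr

/-- `Phi` at the top level. -/
theorem Phi_top [NeZero N] (h2N : 2 ∣ N) (v : ι → ZMod N) (j m : ℕ) {η : ℝ} (hη0 : 0 ≤ η)
    (hη : η ≤ 1 / 200) (hZ : Zf 32 v ≤ 1 + η)
    (hs : ((1 : ℝ) / 2) ^ wt (fun i => ZMod.castHom h2N (ZMod 2) (v i)) ≤ 1 / 400)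
    (hnum : (2 : ℝ) ^ j * (7 / 8) ^ m * (8 / 7) ^ (Fintype.card ι - 1) ≤ 1 / 2) :
    Phi v 8 2 j m ⊤ ≤ (2 : ℝ) ^ j * ((1 + η) / N) ^ m * (2 * Real.exp 64) := by
  have : Fact (Nat.Prime 2) := ⟨Nat.prime_two⟩
  have hN : (0 : ℝ) < N := by exact_mod_cast Nat.pos_of_ne_zero (NeZero.ne N)
  have hx : (fun i => ZMod.castHom h2N (ZMod 2) (v i)) ≠ 0 := by
    intro h
    rw [h] at hs
    have : wt (0 : ι → ZMod 2) = 0 := by simp [wt]
    rw [this] at hs
    norm_num at hs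
  have := Phi_bound (q := 2) (M := 8) h2N v j m (p := (1 + η) / N) (σ := 7 / 8) (s := 8 / 7)
    (by norm_num) (by norm_num) (by norm_num) (by norm_num) (by positivity) hx
    ((pr_8_le_Zf_32 v).trans (by gcongr))
    (fun K k hxK hK => by
      refine (hp2_top v hx hs hη hZ K k hxK hK).trans ?_
      gcongr
      linarith) (by exact_mod_cast hnum)
  have e : (1 : ℝ) / (1 - 7 / 8) ^ 2 = 64 := by norm_num
  rw [e] at this
  exact_mod_cast this

/-- `Phi` for a structured class. -/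
theorem Phi_class [NeZero N] (h2N : 2 ∣ N) (v : ι → ZMod N) (j m : ℕ) {Z : ℝ} (hZ1 : 1 ≤ Z)
    (hZ : Zf 32 v ≤ Z) (hx : (fun i => ZMod.castHom h2N (ZMod 2) (v i)) ≠ 0)
    (hnum : (2 : ℝ) ^ j * (7 / 8) ^ m * (8 / 7) ^ (Fintype.card ι - 1) ≤ 1 / 2) :
    Phi v 8 2 j m ⊤ ≤ (2 : ℝ) ^ j * (2 * Z / N) ^ m * (2 * Real.exp 64) := by
  have : Fact (Nat.Prime 2) := ⟨Nat.prime_two⟩
  have hN : (0 : ℝ) < N := by exact_mod_cast Nat.pos_of_ne_zero (NeZero.ne N)
  have := Phi_bound (q := 2) (M := 8) h2N v j m (p := 2 * Z / N) (σ := 7 / 8) (s := 8 / 7)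
    (by norm_num) (by norm_num) (by norm_num) (by norm_num) (by positivity) hx
    ((pr_8_le_Zf_32 v).trans (by gcongr; linarith))
    (fun K k hxK hK => hp2_class v hZ1 hZ K k hK) (by exact_mod_cast hnum)
  have e : (1 : ℝ) / (1 - 7 / 8) ^ 2 = 64 := by norm_num
  rw [e] at this
  exact_mod_cast this

end final

end Vale.Agent.P160
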