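import Vale.Agent.P160.PI3

set_option linter.unusedSectionVars false

namespace Vale.Agent.P160

open Finset

section perp

variable {ι : Type*} [Fintype ι] [DecidableEq ι]

/-- The pairing of the whole space with a subspace. -/
def pairing (K : Submodule (ZMod 2) (ι → ZMod 2)) :
    (ι → ZMod 2) →ₗ[ZMod 2] (↥K →ₗ[ZMod 2] ZMod 2) where
  toFun a :=
    { toFun := fun u => ∑ i, a i * u.1 i
      map_add' := fun u w => by
        simp only [Submodule.coe_add, Pi.add_apply, mul_add, sum_add_distrib]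
      map_smul' := fun c u => by
        simp only [Submodule.coe_smul, Pi.smul_apply, smul_eq_mul, RingHom.id_apply, mul_sum]
        exact sum_congr rfl fun i _ => by ring }
  map_add' a b := by
    ext u
    simp only [LinearMap.coe_mk, AddHom.coe_mk, LinearMap.add_apply, Pi.add_apply, add_mul,
      sum_add_distrib]
  map_smul' c a := by
    ext u
    simp only [LinearMap.coe_mk, AddHom.coe_mk, LinearMap.smul_apply, Pi.smul_apply, smul_eq_mul,
      RingHom.id_apply, mul_sum]
    exact sum_congr rfl fun i _ => by ring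

lemma pairing_surjective (K : Submodule (ZMod 2) (ι → ZMod 2)) :
    Function.Surjective (pairing K) := by
  have : Fact (Nat.Prime 2) := ⟨Nat.prime_two⟩
  intro φ
  obtain ⟨ψ, hψ⟩ := LinearMap.exists_extend φ
  refine ⟨fun i => ψ (Pi.single i 1), ?_⟩
  ext u
  have h1 : φ u = ψ u.1 := by
    rw [← hψ]; rfl
  rw [h1]
  show ∑ i, ψ (Pi.single i 1) * u.1 i = ψ u.1
  conv_rhs => rw [← Finset.univ_sum_single u.1, map_sum]
  refine sum_congr rfl fun i _ => ?_
  have h2 : (Pi.single i (u.1 i) : ι → ZMod 2) = u.1 i • Pi.single i 1 := by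
    rw [← Pi.single_smul, smul_eq_mul, mul_one]
  rw [h2, map_smul, smul_eq_mul, mul_comm]

/-- The orthogonal complement as a finset. -/
def Kperp (K : Submodule (ZMod 2) (ι → ZMod 2)) : Submodule (ZMod 2) (ι → ZMod 2) :=
  LinearMap.ker (pairing K)

lemma mem_Kperp (K : Submodule (ZMod 2) (ι → ZMod 2)) (a : ι → ZMod 2) :
    a ∈ Kperp K ↔ ∀ u ∈ K, ∑ i, a i * u i = 0 := by
  unfold Kperp
  rw [LinearMap.mem_ker, LinearMap.ext_iff]
  constructor
  · intro h u hu
    exact h ⟨u, hu⟩
  · rintro h ⟨u, hu⟩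
    exact h u hu

lemma card_Kperp (K : Submodule (ZMod 2) (ι → ZMod 2)) :
    Nat.card ↥(Kperp K) * 2 ^ Module.finrank (ZMod 2) ↥K = 2 ^ Fintype.card ι := by
  have : Fact (Nat.Prime 2) := ⟨Nat.prime_two⟩
  have h1 := LinearMap.finrank_range_add_finrank_ker (pairing K)
  have h2 : LinearMap.range (pairing K) = ⊤ := LinearMap.range_eq_top.2 (pairing_surjective K)
  rw [h2, finrank_top] at h1
  have h3 : Module.finrank (ZMod 2) (↥K →ₗ[ZMod 2] ZMod 2) = Module.finrank (ZMod 2) ↥K :=
    Subspace.dual_finrank_eq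
  rw [h3, Module.finrank_fintype_fun_eq_card] at h1
  have h4 : Nat.card ↥(Kperp K) = 2 ^ Module.finrank (ZMod 2) ↥(Kperp K) :=
    card_submodule (Kperp K)
  rw [h4, ← pow_add]
  congr 1
  unfold Kperp
  omega

end perp

section fourier

variable {ι : Type*} [Fintype ι] [DecidableEq ι] {N : ℕ} [NeZero N]

lemma pair_factor {z w : ℂ} (hz : ‖z‖ = 1) (hw : ‖w‖ = 1) :
    ∑ p : Fin 4 × Fin 4, (if (st p.1 : ZMod 2) = (st p.2 : ZMod 2) then
      z ^ st p.1 * w ^ st p.2 else 0) = ((4 + 4 * z.re * w.re : ℝ) : ℂ) := by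
  rw [Fintype.sum_prod_type]
  have hst : (st (0 : Fin 4) = 1) ∧ (st (1 : Fin 4) = -1) ∧ (st (2 : Fin 4) = 0) ∧
      (st (3 : Fin 4) = 0) := by
    refine ⟨?_, ?_, ?_, ?_⟩ <;> rfl
  obtain ⟨h0, h1, h2, h3⟩ := hst
  simp only [Fin.sum_univ_four, h0, h1, h2, h3]
  have e1 : ((1 : ℤ) : ZMod 2) = 1 := by norm_num
  have e2 : ((-1 : ℤ) : ZMod 2) = 1 := by decide
  have e3 : ((0 : ℤ) : ZMod 2) = 0 := by norm_num
  have e4 : (1 : ZMod 2) ≠ 0 := by decide
  have e5 : (0 : ZMod 2) ≠ 1 := by decide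
  simp only [e1, e2, e3, if_true, if_neg e4, if_neg e5, zpow_one, zpow_neg, zpow_zero]
  have hz2 := add_inv_of_norm_one hz
  have hw2 := add_inv_of_norm_one hw
  have h5 : (z + z⁻¹) * (w + w⁻¹) = ((2 * z.re : ℝ) : ℂ) * ((2 * w.re : ℝ) : ℂ) := by
    rw [hz2, hw2]
  push_cast at h5 ⊢
  linear_combination h5

/-- Number of matched pairs of walks returning to `0`. -/
noncomputable def MP (v : ι → ZMod N) : Finset (ι → Fin 4 × Fin 4) :=
  univ.filter (fun ω => (∀ i, (st (ω i).1 : ZMod 2) = (st (ω i).2 : ZMod 2)) ∧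
    walk (fun i => (ω i).1) v = 0 ∧ walk (fun i => (ω i).2) v = 0)

lemma card_MP (v : ι → ZMod N) :
    (N : ℝ) ^ 2 * ((MP v).card : ℝ) =
      ∑ s : ZMod N, ∑ t : ZMod N, ∏ i, (4 + 4 * (ee (s * v i)).re * (ee (t * v i)).re) := by
  have key : (((N : ℝ) ^ 2 * ((MP v).card : ℝ) : ℝ) : ℂ) =
      ((∑ s : ZMod N, ∑ t : ZMod N, ∏ i, (4 + 4 * (ee (s * v i)).re * (ee (t * v i)).re) : ℝ) :
        ℂ) := by
    have h1 : (((N : ℝ) ^ 2 * ((MP v).card : ℝ) : ℝ) : ℂ) =
        ∑ ω : ι → Fin 4 × Fin 4,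
          if (∀ i, (st (ω i).1 : ZMod 2) = (st (ω i).2 : ZMod 2)) then
            (∑ s : ZMod N, ee (s * walk (fun i => (ω i).1) v)) *
            (∑ t : ZMod N, ee (t * walk (fun i => (ω i).2) v)) else 0 := by
      simp only [sum_ee_mul]
      unfold MP
      rw [Finset.card_filter]
      push_cast
      rw [mul_sum]
      refine sum_congr rfl fun ω _ => ?_
      by_cases ha : ∀ i, (st (ω i).1 : ZMod 2) = (st (ω i).2 : ZMod 2)
      · rw [if_pos ha]
        by_cases hb : walk (fun i => (ω i).1) v = 0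
        · by_cases hc : walk (fun i => (ω i).2) v = 0
          · rw [if_pos ⟨ha, hb, hc⟩, if_pos hb, if_pos hc]; push_cast; ring
          · rw [if_neg (fun h => hc h.2.2), if_neg hc]; push_cast; ring
        · rw [if_neg (fun h => hb h.2.1), if_neg hb]; push_cast; ring
      · rw [if_neg ha, if_neg (fun h => ha h.1)]; push_cast; ring
    rw [h1]
    have h2 : ∀ ω : ι → Fin 4 × Fin 4,
        (if (∀ i, (st (ω i).1 : ZMod 2) = (st (ω i).2 : ZMod 2)) then
            (∑ s : ZMod N, ee (s * walk (fun i => (ω i).1) v)) *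
            (∑ t : ZMod N, ee (t * walk (fun i => (ω i).2) v)) else 0) =
        ∑ s : ZMod N, ∑ t : ZMod N, ∏ i,
          (if (st (ω i).1 : ZMod 2) = (st (ω i).2 : ZMod 2) then
            ee (s * v i) ^ st (ω i).1 * ee (t * v i) ^ st (ω i).2 else 0) := by
      intro ω
      split_ifs with ha
      · rw [sum_mul_sum]
        refine sum_congr rfl fun s _ => sum_congr rfl fun t _ => ?_
        rw [ee_walk, ee_walk, ← prod_mul_distrib]
        refine prod_congr rfl fun i _ => ?_
        rw [if_pos (ha i)]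
      · push Not at ha
        obtain ⟨i, hi⟩ := ha
        symm
        apply sum_eq_zero
        intro s _
        apply sum_eq_zero
        intro t _
        apply Finset.prod_eq_zero (mem_univ i)
        rw [if_neg hi]
    rw [sum_congr rfl fun ω _ => h2 ω, sum_comm]
    push_cast
    refine sum_congr rfl fun s _ => ?_
    rw [sum_comm]
    refine sum_congr rfl fun t _ => ?_
    have h3 := Finset.prod_univ_sum (fun _ : ι => (univ : Finset (Fin 4 × Fin 4)))
      (fun i p => (if (st p.1 : ZMod 2) = (st p.2 : ZMod 2) then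
            ee (s * v i) ^ st p.1 * ee (t * v i) ^ st p.2 else 0))
    rw [Fintype.piFinset_univ] at h3
    rw [← h3]
    refine prod_congr rfl fun i _ => ?_
    rw [pair_factor (norm_ee _) (norm_ee _)]
    push_cast
    ring
  exact_mod_cast key

lemma pair_le {z w : ℂ} (hz : ‖z‖ = 1) (hw : ‖w‖ = 1) :
    4 + 4 * z.re * w.re ≤ 8 * (cf 8 (z * w) * cf 8 (z * w⁻¹)) := by
  have hw' : w⁻¹ = (starRingEnd ℂ) w := by
    rw [Complex.inv_def]
    have : Complex.normSq w = 1 := by
      rw [Complex.normSq_eq_norm_sq, hw]; norm_num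
    rw [this]; simp
  have h1 : z.re * z.re + z.im * z.im = 1 := by
    rw [← Complex.normSq_apply, Complex.normSq_eq_norm_sq, hz]; norm_num
  have h2 : w.re * w.re + w.im * w.im = 1 := by
    rw [← Complex.normSq_apply, Complex.normSq_eq_norm_sq, hw]; norm_num
  have h3 : z.re * w.re - z.im * w.im ≤ 1 := by
    nlinarith [sq_nonneg (z.re - w.re), sq_nonneg (z.im + w.im)]
  have h4 : z.re * w.re + z.im * w.im ≤ 1 := by
    nlinarith [sq_nonneg (z.re - w.re), sq_nonneg (z.im - w.im)]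
  rw [hw']
  unfold cf
  simp only [Complex.mul_re, Complex.conj_re, Complex.conj_im]
  push_cast
  nlinarith [mul_nonneg (sub_nonneg.2 h3) (sub_nonneg.2 h4)]

lemma card_MP_le (v : ι → ZMod N) :
    ((MP v).card : ℝ) ≤ 2 * 8 ^ Fintype.card ι * (pr 8 v 0) ^ 2 := by
  have hN : (0 : ℝ) < N := by exact_mod_cast Nat.pos_of_ne_zero (NeZero.ne N)
  have h1 : ∀ s t : ZMod N, ∏ i, (4 + 4 * (ee (s * v i)).re * (ee (t * v i)).re) ≤
      8 ^ Fintype.card ι * (PP 8 v (s + t) * PP 8 v (s - t)) := by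
    intro s t
    unfold PP
    rw [← prod_mul_distrib, ← Finset.card_univ, ← Finset.prod_const, ← prod_mul_distrib]
    refine prod_le_prod (fun i _ => ?_) fun i _ => ?_
    · have h2 := Complex.abs_re_le_norm (ee (s * v i))
      have h3 := Complex.abs_re_le_norm (ee (t * v i))
      rw [norm_ee] at h2 h3
      have h4 : |(ee (s * v i)).re * (ee (t * v i)).re| ≤ 1 := by
        rw [abs_mul]
        nlinarith [abs_nonneg (ee (s * v i)).re, abs_nonneg (ee (t * v i)).re]
      have := (abs_le.1 h4).1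
      nlinarith
    · have h2 := pair_le (norm_ee (s * v i)) (norm_ee (t * v i))
      have e1 : ee (s * v i) * ee (t * v i) = ee ((s + t) * v i) := by
        rw [← ee_add]; congr 1; ring
      have e2 : ee (s * v i) * (ee (t * v i))⁻¹ = ee ((s - t) * v i) := by
        have h5 : ee ((s - t) * v i) * ee (t * v i) = ee (s * v i) := by
          rw [← ee_add]; congr 1; ring
        have h6 : ee (t * v i) ≠ 0 := by
          intro h0
          have := norm_ee (t * v i)
          rw [h0, norm_zero] at this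
          norm_num at this
        rw [← h5]
        field_simp
      rw [e1, e2] at h2
      exact h2
  have h2 : ∑ s : ZMod N, ∑ t : ZMod N, PP 8 v (s + t) * PP 8 v (s - t) ≤
      2 * (∑ s : ZMod N, PP 8 v s) ^ 2 := by
    have e1 : ∑ s : ZMod N, ∑ t : ZMod N, PP 8 v (s + t) * PP 8 v (s - t) =
        ∑ a : ZMod N, PP 8 v a * ∑ t : ZMod N, PP 8 v (a + 2 * t) := by
      rw [sum_comm]
      simp only [mul_sum]
      rw [sum_comm (s := univ) (t := univ) (f := fun a t => PP 8 v a * PP 8 v (a + 2 * t))]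
      refine sum_congr rfl fun t _ => ?_
      refine Fintype.sum_equiv (Equiv.subRight t) _ _ fun s => ?_
      rw [Equiv.subRight_apply]
      have : s - t + 2 * t = s + t := by ring
      rw [this, mul_comm]
    rw [e1]
    have h3 : ∀ a : ZMod N, ∑ t : ZMod N, PP 8 v (a + 2 * t) ≤ 2 * ∑ s : ZMod N, PP 8 v s := by
      intro a
      have := sum_two_mul_le (fun y => PP 8 v (a + y)) (fun y => PP_nonneg (by norm_num) v _)
      refine this.trans (le_of_eq ?_)
      congr 1
      exact Fintype.sum_equiv (Equiv.addLeft a) _ _ fun s => rfl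
    calc ∑ a : ZMod N, PP 8 v a * ∑ t : ZMod N, PP 8 v (a + 2 * t)
        ≤ ∑ a : ZMod N, PP 8 v a * (2 * ∑ s : ZMod N, PP 8 v s) :=
          sum_le_sum fun a _ => mul_le_mul_of_nonneg_left (h3 a) (PP_nonneg (by norm_num) v a)
      _ = _ := by rw [← sum_mul]; ring
  have h3 : (N : ℝ) ^ 2 * ((MP v).card : ℝ) ≤
      (N : ℝ) ^ 2 * (2 * 8 ^ Fintype.card ι * (pr 8 v 0) ^ 2) := by
    rw [card_MP]
    calc _ ≤ ∑ s : ZMod N, ∑ t : ZMod N, 8 ^ Fintype.card ι * (PP 8 v (s + t) * PP 8 v (s - t)) :=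
          sum_le_sum fun s _ => sum_le_sum fun t _ => h1 s t
      _ = 8 ^ Fintype.card ι * ∑ s : ZMod N, ∑ t : ZMod N, PP 8 v (s + t) * PP 8 v (s - t) := by
          simp only [mul_sum]
      _ ≤ 8 ^ Fintype.card ι * (2 * (∑ s : ZMod N, PP 8 v s) ^ 2) :=
          mul_le_mul_of_nonneg_left h2 (by positivity)
      _ = _ := by
          rw [← Zf_eq_sum_PP (by norm_num) v]
          unfold Zf
          ring
  exact le_of_mul_le_mul_left h3 (by positivity)

end fourier

section cs

variable {ι : Type*} [Fintype ι] [DecidableEq ι] {N : ℕ} [NeZero N]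

open Classical in
/-- Cauchy-Schwarz bound for the rows orthogonal to a subspace. -/
theorem card_row_sq_le (v : ι → ZMod N) (K : Submodule (ZMod 2) (ι → ZMod 2)) :
    (((univ.filter (fun r : ι → Fin 4 => walk r v = 0 ∧ K ≤ KerR 2 r)).card : ℝ) /
      4 ^ Fintype.card ι) ^ 2 ≤ 2 * (pr 8 v 0) ^ 2 * (1 / 2) ^ Module.finrank (ZMod 2) ↥K := by
  set T := univ.filter (fun r : ι → Fin 4 => walk r v = 0 ∧ K ≤ KerR 2 r) with hT
  set π : (ι → Fin 4) → (ι → ZMod 2) := fun r i => (st (r i) : ZMod 2) with hπ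
  set W : Finset (ι → ZMod 2) := univ.filter (fun a => a ∈ Kperp K) with hW
  have hmaps : ∀ r ∈ T, π r ∈ W := by
    intro r hr
    rw [hT, mem_filter] at hr
    rw [hW, mem_filter, mem_Kperp]
    refine ⟨mem_univ _, fun u hu => ?_⟩
    exact mem_KerR.1 (hr.2.2 hu)
  have h1 : T.card = ∑ a ∈ W, (T.filter (fun r => π r = a)).card :=
    Finset.card_eq_sum_card_fiberwise hmaps
  have h2 : ((T.card : ℝ)) ^ 2 ≤ W.card * ∑ a ∈ W, ((T.filter (fun r => π r = a)).card : ℝ) ^ 2 := by
    rw [h1]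
    push_cast
    exact sq_sum_le_card_mul_sum_sq
  have h3 : ∑ a ∈ W, ((T.filter (fun r => π r = a)).card) ^ 2 ≤ (MP v).card := by
    have h4 : ∀ a ∈ W, ((T.filter (fun r => π r = a)).card) ^ 2 =
        ((T.filter (fun r => π r = a)) ×ˢ (T.filter (fun r => π r = a))).card := by
      intro a _
      rw [card_product, sq]
    rw [sum_congr rfl h4, ← Finset.card_sigma]
    refine Finset.card_le_card_of_injOn (fun p i => (p.2.1 i, p.2.2 i)) ?_ ?_
    · rintro ⟨a, r, r'⟩ hp
      rw [Finset.mem_coe, mem_sigma, mem_product, mem_filter, mem_filter] at hp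
      simp only [hT, mem_filter, mem_univ, true_and] at hp
      rw [Finset.mem_coe]
      unfold MP
      rw [mem_filter]
      refine ⟨mem_univ _, fun i => ?_, hp.2.1.1.1, hp.2.2.1.1⟩
      have e1 := congrFun hp.2.1.2 i
      have e2 := congrFun hp.2.2.2 i
      rw [hπ] at e1 e2
      simp only at e1 e2
      rw [e1, e2]
    · rintro ⟨a, r, r'⟩ hp ⟨a', s, s'⟩ hp' h
      rw [Finset.mem_coe, mem_sigma, mem_product, mem_filter, mem_filter] at hp hp'
      simp only at h
      have e1 : r = s := funext fun i => congrArg Prod.fst (congrFun h i)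
      have e2 : r' = s' := funext fun i => congrArg Prod.snd (congrFun h i)
      subst e1; subst e2
      have e3 : a = a' := hp.2.1.2.symm.trans hp'.2.1.2
      subst e3
      rfl
  have h4 : (W.card : ℝ) = 2 ^ Fintype.card ι * (1 / 2) ^ Module.finrank (ZMod 2) ↥K := by
    have h5 := card_Kperp K
    have h6 : Nat.card ↥(Kperp K) = W.card := by
      rw [Nat.card_eq_fintype_card, Fintype.card_subtype]
    rw [h6] at h5
    have h7 : (W.card : ℝ) * 2 ^ Module.finrank (ZMod 2) ↥K = 2 ^ Fintype.card ι := by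
      exact_mod_cast h5
    rw [← h7, mul_assoc, ← mul_pow]
    norm_num
  have h5 := card_MP_le v
  have h6 : (∑ a ∈ W, ((T.filter (fun r => π r = a)).card : ℝ) ^ 2) ≤ (MP v).card := by
    exact_mod_cast h3
  rw [div_pow, div_le_iff₀ (by positivity)]
  calc (T.card : ℝ) ^ 2 ≤ W.card * ∑ a ∈ W, ((T.filter (fun r => π r = a)).card : ℝ) ^ 2 := h2
    _ ≤ (2 ^ Fintype.card ι * (1 / 2) ^ Module.finrank (ZMod 2) ↥K) *
        (2 * 8 ^ Fintype.card ι * (pr 8 v 0) ^ 2) := by
        rw [h4]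
        exact mul_le_mul_of_nonneg_left (h6.trans h5) (by positivity)
    _ = _ := by
        have : ((4 : ℝ) ^ Fintype.card ι) ^ 2 = 2 ^ Fintype.card ι * 8 ^ Fintype.card ι := by
          rw [← pow_mul, mul_comm (Fintype.card ι) 2, pow_mul, ← mul_pow]
          norm_num
        rw [this]
        ring

/-- The ratio of the row recursion. -/
noncomputable def sg : ℝ := 1 / Real.sqrt 2

lemma sg_sq : sg ^ 2 = 1 / 2 := by
  unfold sg
  rw [div_pow, one_pow, Real.sq_sqrt (by norm_num)]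

lemma sg_pos : 0 < sg := by unfold sg; positivity

lemma sg_lt_one : sg < 1 := by
  by_contra h
  push Not at h
  have : 1 ≤ sg ^ 2 := one_le_pow₀ h
  rw [sg_sq] at this
  norm_num at this

open Classical in
/-- `Phi` for half-lazy rows. -/
theorem Phi_four (h2N : 2 ∣ N) (v : ι → ZMod N) (j m : ℕ) {p : ℝ} (hp : pr 8 v 0 ≤ p)
    (hx : (fun i => ZMod.castHom h2N (ZMod 2) (v i)) ≠ 0)
    (hnum : (2 : ℝ) ^ j * sg ^ m * (Real.sqrt 2) ^ (Fintype.card ι - 1) ≤ 1 / 2) :
    Phi v 4 2 j m ⊤ ≤ (2 : ℝ) ^ j * p ^ m * (2 * Real.exp (1 / (1 - sg) ^ 2)) := by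
  have : Fact (Nat.Prime 2) := ⟨Nat.prime_two⟩
  have hp0 : 0 ≤ p := (pr_nonneg 8 v 0).trans hp
  have hs2 : sg * Real.sqrt 2 = 1 := by
    unfold sg
    have : Real.sqrt 2 ≠ 0 := by positivity
    field_simp
  have h1 : pr 4 v 0 ≤ p := by
    have hN : (0 : ℝ) < N := by exact_mod_cast Nat.pos_of_ne_zero (NeZero.ne N)
    have h2 : Zf 4 v ≤ Zf 8 v := by
      rw [Zf_eq (by norm_num), Zf_eq (by norm_num)]
      refine sum_le_sum fun t _ => prod_le_prod (fun i _ => cf_nonneg le_rfl (norm_ee _))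
        fun i _ => ?_
      have h3 : (ee (t * v i)).re ≤ 1 := by
        have := Complex.abs_re_le_norm (ee (t * v i))
        rw [norm_ee] at this
        exact (abs_le.mp this).2
      unfold cf
      push_cast
      nlinarith
    unfold Zf at h2
    exact (le_of_mul_le_mul_left h2 hN).trans hp
  have := Phi_bound (q := 2) (M := 4) h2N v j m (p := p) (σ := sg) (s := Real.sqrt 2)
    (by norm_num) sg_pos sg_lt_one hs2 hp0 hx h1
    (fun K k _ hK => by
      have h2 := card_row_sq_le v K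
      rw [hK] at h2
      have h3 : 2 * (pr 8 v 0) ^ 2 * (1 / 2) ^ (k + 2) ≤ (p * sg ^ (k + 1)) ^ 2 := by
        have e1 : (p * sg ^ (k + 1)) ^ 2 = p ^ 2 * (1 / 2) ^ (k + 1) := by
          rw [mul_pow, ← pow_mul, mul_comm (k + 1) 2, pow_mul, sg_sq]
        rw [e1]
        have e2 : 2 * (pr 8 v 0) ^ 2 * (1 / 2) ^ (k + 2) = (pr 8 v 0) ^ 2 * (1 / 2) ^ (k + 1) := by
          rw [pow_succ (1 / 2 : ℝ) (k + 1)]
          ring
        rw [e2]
        have := pr_nonneg 8 v 0
        gcongr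
      have h4 := h2.trans h3
      have h5 := (pow_le_pow_iff_left₀ (by positivity)
        (by have := sg_pos; positivity) (two_ne_zero)).1 h4
      exact_mod_cast h5) (by exact_mod_cast hnum)
  exact_mod_cast this

end cs

end Vale.Agent.P160
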