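import Vale.Agent.P160.Dom

set_option linter.unusedSectionVars false

namespace Vale.Agent.P160

open Finset

section amgm

variable {T E : Type*} [Fintype T] [Nonempty T] [Fintype E]

lemma prod_le_mean_pow (z : T → ℝ) (hz : ∀ t, 0 ≤ z t) :
    ∏ t, z t ≤ ((∑ t, z t) / Fintype.card T) ^ Fintype.card T := by
  classical
  have hT : (0 : ℝ) < Fintype.card T := by exact_mod_cast Fintype.card_pos
  have h := Real.geom_mean_le_arith_mean_weighted (univ : Finset T)
    (fun _ => 1 / (Fintype.card T : ℝ)) z (fun _ _ => by (clear z hz hT; positivity))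
    (by rw [sum_const, card_univ, nsmul_eq_mul]; (clear z hz hT; field_simp)) (fun t _ => hz t)
  have h1 : ∑ t, 1 / (Fintype.card T : ℝ) * z t = (∑ t, z t) / Fintype.card T := by
    rw [← mul_sum]; ring
  rw [h1] at h
  have h2 : (∏ t, z t ^ (1 / (Fintype.card T : ℝ))) ^ Fintype.card T = ∏ t, z t := by
    rw [← Finset.prod_pow]
    refine prod_congr rfl fun t _ => ?_
    rw [← Real.rpow_natCast, ← Real.rpow_mul (hz t)]
    rw [one_div, inv_mul_cancel₀ hT.ne', Real.rpow_one]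
  rw [← h2]
  exact pow_le_pow_left₀ (prod_nonneg fun t _ => Real.rpow_nonneg (hz t) _) h _

/-- The weighted arithmetic-geometric inequality over a family of patterns. -/
lemma amgm_core (k : E → ℝ) (hk0 : ∀ e, 0 ≤ k e) (w : T → ℝ) (hw : ∀ t, 0 ≤ w t)
    (hw1 : 1 ≤ ∏ t, w t) (y : T → E → ℝ) (hy : ∀ t e, 0 ≤ y t e)
    (hky : ∀ e, k e ^ Fintype.card T ≤ ∏ t, y t e) :
    ∏ e, k e ≤ (∑ t, w t * ∏ e, y t e) / Fintype.card T := by
  classical
  have hT : (0 : ℝ) < Fintype.card T := by exact_mod_cast Fintype.card_pos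
  have h1 : (∏ e, k e) ^ Fintype.card T ≤ ∏ t, (w t * ∏ e, y t e) := by
    rw [← Finset.prod_pow, prod_mul_distrib, Finset.prod_comm (s := (univ : Finset T))]
    have h2 : ∏ e, k e ^ Fintype.card T ≤ ∏ e, ∏ t, y t e :=
      prod_le_prod (fun e _ => pow_nonneg (hk0 e) _) (fun e _ => hky e)
    have h3 : 0 ≤ ∏ e, ∏ t, y t e := prod_nonneg fun e _ => prod_nonneg fun t _ => hy t e
    nlinarith only [h2, hw1, h3]
  have h2 := prod_le_mean_pow (fun t => w t * ∏ e, y t e)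
    (fun t => mul_nonneg (hw t) (prod_nonneg fun e _ => hy t e))
  have h3 : 0 ≤ (∑ t, w t * ∏ e, y t e) / Fintype.card T :=
    div_nonneg (sum_nonneg fun t _ => mul_nonneg (hw t) (prod_nonneg fun e _ => hy t e)) hT.le
  exact le_of_pow_le_pow_left₀ (Fintype.card_ne_zero) h3 (h1.trans h2)

end amgm

section mixed

variable {G : Type*} [AddCommGroup G] [Fintype G] [DecidableEq G]
variable {E₁ E₂ : Type*} [Fintype E₁] [DecidableEq E₁] [Fintype E₂] [DecidableEq E₂]

/-- Return probability of a mixed walk: half-lazy steps on `E₁`, lazier steps on `E₂`. -/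
noncomputable def prM (c₁ : E₁ → G) (c₂ : E₂ → G) (g : G) : ℝ :=
  ((univ.filter (fun p : (E₁ → Fin 4) × (E₂ → Fin 8) =>
    gwalk p.1 c₁ + gwalk p.2 c₂ = g)).card : ℝ) /
      ((4 : ℝ) ^ Fintype.card E₁ * (8 : ℝ) ^ Fintype.card E₂)

lemma prM_nonneg (c₁ : E₁ → G) (c₂ : E₂ → G) (g : G) : 0 ≤ prM c₁ c₂ g := by
  unfold prM; positivity

/-- Fourier formula for the mixed walk. -/
lemma prM_eq (c₁ : E₁ → G) (c₂ : E₂ → G) (g : G) :
    ((Fintype.card G * prM c₁ c₂ g : ℝ) : ℂ) =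
      ∑ ψ : AddChar G ℂ, ψ (-g) * (((∏ e, cf 4 (ψ (c₁ e))) * ∏ e, cf 8 (ψ (c₂ e)) : ℝ) : ℂ) := by
  have hA : ((((4 : ℝ) ^ Fintype.card E₁ * (8 : ℝ) ^ Fintype.card E₂) : ℝ) : ℂ) ≠ 0 := by
    norm_cast
    (clear * -; positivity)
  have h := card_filter_eq_sum (fun p : (E₁ → Fin 4) × (E₂ → Fin 8) =>
    gwalk p.1 c₁ + gwalk p.2 c₂) g
  rw [← mul_right_inj' hA]
  have e1 : ((((4 : ℝ) ^ Fintype.card E₁ * (8 : ℝ) ^ Fintype.card E₂) : ℝ) : ℂ) *
      ((Fintype.card G * prM c₁ c₂ g : ℝ) : ℂ) =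
      (Fintype.card G : ℂ) * ((univ.filter (fun p : (E₁ → Fin 4) × (E₂ → Fin 8) =>
        gwalk p.1 c₁ + gwalk p.2 c₂ = g)).card : ℂ) := by
    unfold prM
    push_cast
    field_simp
  rw [e1, h, mul_sum]
  refine sum_congr rfl fun ψ _ => ?_
  have h2 : ∑ p : (E₁ → Fin 4) × (E₂ → Fin 8), ψ (gwalk p.1 c₁ + gwalk p.2 c₂) =
      (∑ ω : E₁ → Fin 4, ψ (gwalk ω c₁)) * ∑ ω : E₂ → Fin 8, ψ (gwalk ω c₂) := by
    rw [Fintype.sum_prod_type, sum_mul_sum]
    refine sum_congr rfl fun a _ => sum_congr rfl fun b _ => ?_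
    rw [AddChar.map_add_eq_mul]
  rw [h2, sum_addChar_gwalk (by norm_num), sum_addChar_gwalk (by norm_num)]
  push_cast
  ring

lemma prM_zero_eq (c₁ : E₁ → G) (c₂ : E₂ → G) :
    Fintype.card G * prM c₁ c₂ 0 =
      ∑ ψ : AddChar G ℂ, (∏ e, cf 4 (ψ (c₁ e))) * ∏ e, cf 8 (ψ (c₂ e)) := by
  have h := prM_eq c₁ c₂ 0
  simp only [neg_zero, AddChar.map_zero_eq_one, one_mul] at h
  exact_mod_cast h

lemma norm_half_sq {z : ℂ} (hz : ‖z‖ = 1) : ‖(1 + z) / 2‖ ^ 2 = cf 4 z := by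
  rw [norm_div, div_pow, ← Complex.normSq_eq_norm_sq (1 + z), Complex.normSq_apply]
  have h2 : z.re * z.re + z.im * z.im = 1 := by
    rw [← Complex.normSq_apply, Complex.normSq_eq_norm_sq, hz]; norm_num
  unfold cf
  simp only [Complex.add_re, Complex.one_re, Complex.add_im, Complex.one_im, zero_add, Complex.norm_ofNat, Nat.cast_ofNat]
  linarith

lemma norm_half_le_one {z : ℂ} (hz : ‖z‖ = 1) : ‖(1 + z) / 2‖ ≤ 1 :=
  (norm_half_le_cf hz).trans (cf_le_one hz)

end mixed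

section family

variable {G : Type*} [AddCommGroup G] [Fintype G] [DecidableEq G]
variable {E T : Type*} [Fintype E] [DecidableEq E] [Fintype T] [Nonempty T]
variable {E₁ E₂ : T → Type*} [∀ t, Fintype (E₁ t)] [∀ t, DecidableEq (E₁ t)]
  [∀ t, Fintype (E₂ t)] [∀ t, DecidableEq (E₂ t)]

omit [DecidableEq E] in
lemma prod_comp_eq {E' : Type*} [Fintype E'] (f : E' → E) (hf : Function.Injective f)
    (a : E → ℝ) [DecidablePred fun e => ∃ e', f e' = e] :
    ∏ e', a (f e') = ∏ e, if ∃ e', f e' = e then a e else 1 := by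
  classical
  rw [Finset.prod_ite, Finset.prod_const_one, mul_one]
  have h : (univ.filter fun e => ∃ e', f e' = e) = (univ : Finset E').map ⟨f, hf⟩ := by
    ext e
    simp only [univ_filter_exists, mem_image, mem_univ, true_and, mem_map, Function.Embedding.coeFn_mk]
  rw [h, prod_map]
  rfl

open Classical in
/-- Domination of a random subset sum by a weighted family of mixed walks. -/
theorem bpr_le_family (c : E → G) (g : G) (w : T → ℝ) (hw : ∀ t, 0 ≤ w t)
    (hw1 : 1 ≤ ∏ t, w t) (f₁ : ∀ t, E₁ t → E) (hf₁ : ∀ t, Function.Injective (f₁ t))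
    (f₂ : ∀ t, E₂ t → E) (hf₂ : ∀ t, Function.Injective (f₂ t))
    (hE : ∀ e, 2 * (univ.filter (fun t => ∃ e₁, f₁ t e₁ = e)).card +
      (univ.filter (fun t => ∃ e₂, f₂ t e₂ = e)).card ≤ Fintype.card T) :
    bpr c g ≤ (∑ t, w t * prM (fun e => c (f₁ t e)) (fun e => c (f₂ t e)) 0) /
      Fintype.card T := by
  have hG : (0 : ℝ) < Fintype.card G := by exact_mod_cast Fintype.card_pos
  have hT : (0 : ℝ) < Fintype.card T := by exact_mod_cast Fintype.card_pos
  have h := card_filter_eq_sum (fun b : E → Bool => bwalk b c) g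
  have h2E : (0 : ℝ) < (2 : ℝ) ^ Fintype.card E := by positivity
  have hb : (Fintype.card G * bpr c g : ℝ) * (2 : ℝ) ^ Fintype.card E =
      ‖(Fintype.card G : ℂ) *
        ((univ.filter (fun b : E → Bool => bwalk b c = g)).card : ℂ)‖ := by
    rw [norm_mul, Complex.norm_natCast, Complex.norm_natCast]
    unfold bpr
    (clear * -; field_simp)
  -- the bound for every character
  have key : ∀ ψ : AddChar G ℂ, ∏ e, ‖(1 + ψ (c e)) / 2‖ ≤
      (∑ t, w t * ((∏ e, cf 4 (ψ (c (f₁ t e)))) * ∏ e, cf 8 (ψ (c (f₂ t e))))) /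
        Fintype.card T := by
    intro ψ
    have hk0 : ∀ e, 0 ≤ ‖(1 + ψ (c e)) / 2‖ := fun e => norm_nonneg _
    have hk1 : ∀ e, ‖(1 + ψ (c e)) / 2‖ ≤ 1 := fun e => norm_half_le_one (norm_addChar _ _)
    set y : T → E → ℝ := fun t e =>
      (if ∃ e₁, f₁ t e₁ = e then cf 4 (ψ (c e)) else 1) *
        (if ∃ e₂, f₂ t e₂ = e then cf 8 (ψ (c e)) else 1) with hy
    have hy0 : ∀ t e, 0 ≤ y t e := by
      intro t e
      rw [hy]
      have h4 := cf_nonneg (M := 4) le_rfl (norm_addChar ψ (c e))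
      have h8 := cf_nonneg (M := 8) (by norm_num) (norm_addChar ψ (c e))
      (clear * - h4 h8; positivity)
    have h3 := amgm_core (fun e => ‖(1 + ψ (c e)) / 2‖) hk0 w hw hw1 y hy0 (by
      intro e
      have h8 := cf_nonneg (M := 8) (by norm_num) (norm_addChar ψ (c e))
      have hA : ∏ t, (if ∃ e₁, f₁ t e₁ = e then cf 4 (ψ (c e)) else 1) =
          ‖(1 + ψ (c e)) / 2‖ ^ (2 * (univ.filter (fun t => ∃ e₁, f₁ t e₁ = e)).card) := by
        rw [pow_mul, norm_half_sq (norm_addChar _ _), ← Finset.prod_const, Finset.prod_filter]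
      have hB : ‖(1 + ψ (c e)) / 2‖ ^ (univ.filter (fun t => ∃ e₂, f₂ t e₂ = e)).card ≤
          ∏ t, (if ∃ e₂, f₂ t e₂ = e then cf 8 (ψ (c e)) else 1) := by
        rw [← Finset.prod_const, Finset.prod_filter]
        refine prod_le_prod (fun t _ => ?_) fun t _ => ?_
        · split_ifs
          · exact hk0 e
          · exact zero_le_one
        · split_ifs
          · exact norm_half_le_cf (norm_addChar _ _)
          · exact le_rfl
      rw [hy, prod_mul_distrib, hA]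
      refine le_trans ?_ (mul_le_mul_of_nonneg_left hB (pow_nonneg (hk0 e) _))
      rw [← pow_add]
      exact pow_le_pow_of_le_one (hk0 e) (hk1 e) (hE e))
    refine h3.trans (le_of_eq ?_)
    congr 1
    refine sum_congr rfl fun t _ => ?_
    rw [hy, prod_mul_distrib, ← prod_comp_eq (f₁ t) (hf₁ t) (fun e => cf 4 (ψ (c e))),
      ← prod_comp_eq (f₂ t) (hf₂ t) (fun e => cf 8 (ψ (c e)))]
  refine le_of_mul_le_mul_left ?_ hG
  refine le_of_mul_le_mul_right ?_ h2E
  rw [hb, h]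
  have h4 : (Fintype.card G : ℝ) * ((∑ t, w t * prM (fun e => c (f₁ t e))
      (fun e => c (f₂ t e)) 0) / Fintype.card T) =
      ∑ ψ : AddChar G ℂ, (∑ t, w t * ((∏ e, cf 4 (ψ (c (f₁ t e)))) *
        ∏ e, cf 8 (ψ (c (f₂ t e))))) / Fintype.card T := by
    rw [← sum_div, sum_comm, mul_div_assoc', mul_sum]
    congr 1
    refine sum_congr rfl fun t _ => ?_
    rw [← mul_sum, ← prM_zero_eq]
    ring
  rw [h4, sum_mul]
  refine (norm_sum_le _ _).trans (sum_le_sum fun ψ _ => ?_)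
  rw [norm_mul, norm_addChar, one_mul, sum_addChar_bwalk, norm_prod]
  have h3 : ∏ e, ‖1 + ψ (c e)‖ = (∏ e, ‖(1 + ψ (c e)) / 2‖) * (2 : ℝ) ^ Fintype.card E := by
    rw [← Finset.card_univ, ← Finset.prod_const, ← Finset.prod_mul_distrib]
    refine prod_congr rfl fun e _ => ?_
    rw [norm_div]
    simp only [Complex.norm_ofNat, isUnit_iff_ne_zero, ne_eq, OfNat.ofNat_ne_zero, not_false_eq_true, IsUnit.div_mul_cancel]
  rw [h3]
  exact mul_le_mul_of_nonneg_right (key ψ) h2E.le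

end family

end Vale.Agent.P160
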