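import Vale.Agent.P160.QSum
import Vale.Agent.P160.QCS
import Vale.Agent.P160.Asm2

set_option linter.unusedSectionVars false

namespace Vale.Agent.P160

open Finset

section quadlift

variable {n : ℕ}

lemma smul2_add {R : Type*} [Ring R] (b : Sym2 (Fin n) → Bool) (x y : Fin n → R) (a : R)
    (i : Fin n) : smul2 b (fun k => x k + a * y k) i = smul2 b x i + a * smul2 b y i := by
  unfold smul2
  rw [mul_sum, ← sum_add_distrib]
  refine sum_congr rfl fun j _ => ?_
  split_ifs <;> simp

lemma smul2_symm {R : Type*} [CommRing R] (b : Sym2 (Fin n) → Bool) (x y : Fin n → R) :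
    ∑ i, x i * smul2 b y i = ∑ i, y i * smul2 b x i := by
  unfold smul2
  simp only [mul_sum]
  rw [sum_comm]
  refine sum_congr rfl fun i _ => sum_congr rfl fun j _ => ?_
  rw [Sym2.eq_swap]
  split_ifs
  · ring
  · ring

/-- The quadratic form of a kernel vector vanishes mod `N * N` for every lift. -/
lemma quad_int (b : Sym2 (Fin n) → Bool) (g w : Fin n → ℤ) (c N : ℤ)
    (h1 : smul2 b g = fun _ => c) (h2 : 2 * c = ∑ i, g i) :
    2 * ∑ i, (g i + N * w i) * smul2 b (fun k => g k + N * w k) i -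
      (∑ i, (g i + N * w i)) ^ 2 =
      N * N * (2 * ∑ i, w i * smul2 b w i - (∑ i, w i) ^ 2) := by
  have h3 : ∀ i, smul2 b g i = c := fun i => congrFun h1 i
  have h4 : ∑ i, g i * smul2 b w i = ∑ i, w i * smul2 b g i := smul2_symm b g w
  have h5 : ∑ i, w i * smul2 b g i = (∑ i, w i) * c := by
    rw [sum_mul]
    exact sum_congr rfl fun i _ => by rw [h3]
  have h6 : ∑ i, g i * smul2 b g i = (∑ i, g i) * c := by
    rw [sum_mul]
    exact sum_congr rfl fun i _ => by rw [h3]
  have h7 : ∑ i, (g i + N * w i) * smul2 b (fun k => g k + N * w k) i =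
      ∑ i, g i * smul2 b g i + N * ∑ i, g i * smul2 b w i + N * ∑ i, w i * smul2 b g i +
        N * N * ∑ i, w i * smul2 b w i := by
    simp only [smul2_add, mul_sum]
    rw [← sum_add_distrib, ← sum_add_distrib, ← sum_add_distrib]
    refine sum_congr rfl fun i _ => ?_
    ring
  have h8 : ∑ i, (g i + N * w i) = (∑ i, g i) + N * ∑ i, w i := by
    rw [mul_sum, ← sum_add_distrib]
  rw [h7, h8, h4, h5, h6, ← h2]
  ring

/-- The event that `v` is a kernel vector mod `N`, with the quadratic condition mod `N * N`. -/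
def Kev {N : ℕ} (v : Fin n → ZMod N) (c : ZMod N) (b : Sym2 (Fin n) → Bool) : Prop :=
  smul2 b v = (fun _ => c) ∧
    2 * ∑ i, lft (v i) * smul2 b (fun i => lft (v i)) i = (∑ i, lft (v i)) ^ 2

lemma smul2_intCast {N : ℕ} (b : Sym2 (Fin n) → Bool) (h : Fin n → ℤ) (i : Fin n) :
    smul2 b (fun k => ((h k : ℤ) : ZMod N)) i = ((smul2 b h i : ℤ) : ZMod N) := by
  unfold smul2
  push_cast
  refine sum_congr rfl fun j _ => ?_
  split_ifs <;> simp

lemma Kev_of_int {N : ℕ} [NeZero N] (b : Sym2 (Fin n) → Bool) (g : Fin n → ℤ) (c : ℤ)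
    (h1 : smul2 b g = fun _ => c) (h2 : 2 * c = ∑ i, g i) :
    Kev (fun i => (g i : ZMod N)) (c : ZMod N) b := by
  refine ⟨smul2_cast b g c h1, ?_⟩
  -- the lift
  have hdvd : ∀ i, (N : ℤ) ∣ (((g i : ZMod N).val : ℕ) : ℤ) - g i := by
    intro i
    rw [← ZMod.intCast_zmod_eq_zero_iff_dvd]
    push_cast
    rw [ZMod.natCast_zmod_val, sub_self]
  choose w hw using hdvd
  have hl : ∀ i, lft (g i : ZMod N) = ((g i + N * w i : ℤ) : ZMod (N * N)) := by
    intro i
    unfold lft
    rw [← hw i]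
    push_cast
    ring
  simp only [hl]
  have h3 := quad_int b g w c N h1 h2
  have h4 := congrArg (Int.cast : ℤ → ZMod (N * N)) h3
  have h5 : ((N : ZMod (N * N)) * N) = 0 := by
    have := ZMod.natCast_self (N * N)
    push_cast at this
    exact this
  have h6 : smul2 b (fun i => ((g i + N * w i : ℤ) : ZMod (N * N))) =
      fun i => ((smul2 b (fun k => g k + N * w k) i : ℤ) : ZMod (N * N)) := by
    funext i
    exact smul2_intCast b (fun k => g k + N * w k) i
  rw [h6]
  push_cast at h4 ⊢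
  rw [h5, zero_mul, sub_eq_zero] at h4
  exact h4

lemma Pb_Kev {N : ℕ} [NeZero N] (v : Fin n → ZMod N) (c : ZMod N) :
    Pb (Kev v c) = bpr (cq v) ((fun _ => c), (∑ i, lft (v i)) ^ 2) := by
  classical
  unfold Pb bpr
  congr 2
  congr 1
  ext b
  simp only [mem_filter, mem_univ, true_and]
  rw [bwalk_cq, Prod.mk.injEq]
  rfl

end quadlift

section events

variable {n : ℕ} {T : Type} [Fintype T] [DecidableEq T] [Nonempty T] (D : T → Finset (Fin n))

/-- The structured event at level `j` for the pattern `t₀`. -/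
def EvA (u : ℕ) (η : ℝ) (j : ℕ) (t₀ : T) (b : Sym2 (Fin n) → Bool) : Prop :=
  ∃ (v : Fin n → ZMod (2 ^ (j + 1))) (c : ZMod (2 ^ (j + 1))),
    ((∀ t, u ≤ nu (fun i : {i // i ∈ D t} => v i)) ∧
    1 + η < Zf 8 (fun i : {i // i ∈ D t₀} => v i) ∧
    ∀ t, Zf 8 (fun i : {i // i ∈ D t} => ((v i).cast : ZMod (2 ^ j))) ≤ 1 + η) ∧
    smul2 b v = fun _ => c

/-- The unstructured event at the top level. -/
def EvB (u : ℕ) (η : ℝ) (J : ℕ) (b : Sym2 (Fin n) → Bool) : Prop :=
  ∃ (g : Fin n → ℤ) (c : ℤ), smul2 b g = (fun _ => c) ∧ 2 * c = ∑ i, g i ∧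
    ∀ t, u ≤ nu (fun i : {i // i ∈ D t} => (g i : ZMod (2 ^ (J + 1)))) ∧
      Zf 8 (fun i : {i // i ∈ D t} => (g i : ZMod (2 ^ (J + 1)))) ≤ 1 + η

/-- The case distinction. -/
lemma sing_casesQ (u : ℕ) {η : ℝ} (hη : 0 ≤ η) (J : ℕ)
    (b : Sym2 (Fin n) → Bool) (h : (signM b).det = 0) :
    (∃ t ∈ (univ : Finset T), Ev0 (D t) u b) ∨
      (∃ p ∈ range (J + 1) ×ˢ (univ : Finset T), EvA D u η p.1 p.2 b) ∨ EvB D u η J b := by
  classical
  obtain ⟨g, c, ⟨i₀, hi₀⟩, hgc, hc⟩ := exists_kernel b h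
  by_cases hsp : ∃ t, (univ.filter fun i : {i // i ∈ D t} => Odd (g i)).card < u
  · left
    obtain ⟨t, ht⟩ := hsp
    refine ⟨t, mem_univ _, fun i => (g i : ZMod 2), (c : ZMod 2), ?_, ?_, ?_⟩
    · intro h0
      have h1 := congrFun h0 i₀
      have h2 : ((g i₀ : ℤ) : ZMod 2) = 0 := h1
      rw [ZMod.intCast_zmod_eq_zero_iff_dvd] at h2
      exact (Int.not_even_iff_odd.2 hi₀) (even_iff_two_dvd.2 (by exact_mod_cast h2))
    · have h3 := nu_intCast (fun i : {i // i ∈ D t} => g i) 0
      rw [zero_add, pow_one] at h3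
      rw [h3]; exact ht
    · exact smul2_cast b g c hgc
  · right
    push Not at hsp
    by_cases hbad : ∃ j, j ∈ range (J + 1) ∧ ∃ t,
        1 + η < Zf 8 (fun i : {i // i ∈ D t} => (g i : ZMod (2 ^ (j + 1))))
    · left
      have hj := Nat.find_spec hbad
      have hmin := fun m => Nat.find_min hbad (m := m)
      set j := Nat.find hbad with hjdef
      obtain ⟨hj1, t₀, hj2⟩ := hj
      refine ⟨(j, t₀), mem_product.2 ⟨hj1, mem_univ _⟩,
        fun i => (g i : ZMod (2 ^ (j + 1))), (c : ZMod (2 ^ (j + 1))),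
        ⟨?_, hj2, ?_⟩, smul2_cast b g c hgc⟩
      · intro t
        rw [nu_intCast (fun i : {i // i ∈ D t} => g i) j]; exact hsp t
      · intro t
        have hcast : ∀ i : {i // i ∈ D t}, (((g i : ZMod (2 ^ (j + 1)))).cast : ZMod (2 ^ j)) =
            (g i : ZMod (2 ^ j)) := fun i =>
          ZMod.cast_intCast (pow_dvd_pow 2 (Nat.le_succ j)) (g i)
        simp only [hcast]
        rcases Nat.eq_zero_or_pos j with h0 | h0
        · rw [h0]
          rw [Zf_one (by norm_num)]; linarith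
        · obtain ⟨k, hk⟩ : ∃ k, j = k + 1 := ⟨j - 1, by omega⟩
          have h1 := hmin k (by omega)
          rw [not_and] at h1
          have h2 := h1 (by
            have := mem_range.1 hj1
            rw [mem_range]; omega)
          rw [hk]
          push Not at h2
          exact h2 t
    · right
      push Not at hbad
      refine ⟨g, c, hgc, hc, fun t => ⟨?_, ?_⟩⟩
      · rw [nu_intCast (fun i : {i // i ∈ D t} => g i) J]; exact hsp t
      · exact hbad J (by rw [mem_range]; omega) t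

open Classical in
/-- Distinct star centers. -/
lemma exists_centers {N : ℕ} (v : Fin n → ZMod N) {u : ℕ} (hu : Fintype.card T ≤ u)
    (h : ∀ t, u ≤ nu (fun i : {i // i ∈ D t} => v i)) :
    ∃ l₀ : ∀ t, {i // i ∈ D t}, Function.Injective (fun t => (l₀ t).1) ∧
      ∀ t, IsUnit (v (l₀ t)) := by
  set O : T → Finset (Fin n) := fun t => (univ.filter (fun i : {i // i ∈ D t} =>
    IsUnit (v i))).map (Function.Embedding.subtype _) with hO
  have hcard : ∀ t, u ≤ (O t).card := by
    intro t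
    rw [hO]
    simp only [card_map]
    exact (h t).trans (le_of_eq (nu_eq _))
  have hall : ∀ s : Finset T, s.card ≤ (s.biUnion O).card := by
    intro s
    rcases s.eq_empty_or_nonempty with hs | ⟨t, ht⟩
    · rw [hs]; simp
    · calc s.card ≤ Fintype.card T := Finset.card_le_univ s
        _ ≤ u := hu
        _ ≤ (O t).card := hcard t
        _ ≤ _ := Finset.card_le_card (Finset.subset_biUnion_of_mem O ht)
  obtain ⟨f, hf1, hf2⟩ := (Finset.all_card_le_biUnion_card_iff_exists_injective O).1 hall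
  have hf3 : ∀ t, ∃ hmem : f t ∈ D t, IsUnit (v (f t)) := by
    intro t
    have := hf2 t
    rw [hO] at this
    simp only [mem_map, mem_filter, mem_univ, true_and] at this
    obtain ⟨a, ha, hfa⟩ := this
    have hfa' : a.1 = f t := hfa
    rw [← hfa']
    exact ⟨a.2, ha⟩
  refine ⟨fun t => ⟨f t, (hf3 t).1⟩, hf1, fun t => (hf3 t).2⟩

end events

end Vale.Agent.P160
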