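import Vale.Agent.P160.QEv

set_option linter.unusedSectionVars false

namespace Vale.Agent.P160

open Finset

/-- The constant of the row recursion. -/
noncomputable def Csg : ℝ := 2 * Real.exp (1 / (1 - sg) ^ 2)

lemma Csg_pos : 0 < Csg := by unfold Csg; positivity

section blocks

variable {α β : Type} [Fintype α] [Fintype β] [DecidableEq α] [DecidableEq β]

lemma castHom_ne {j : ℕ} (x : α → ZMod (2 ^ (j + 1))) (h : 0 < nu x) :
    (fun i => ZMod.castHom (dvd_pow_self 2 (Nat.succ_ne_zero j)) (ZMod 2) (x i)) ≠ 0 := by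
  intro h0
  have h1 := wt_eq_nu (Nat.succ_ne_zero j) x
  rw [h0] at h1
  have h2 : wt (0 : α → ZMod 2) = 0 := by simp [wt]
  omega

lemma RowE_le {j k : ℕ} (x : α → ZMod (2 ^ (j + 1))) (hnu : 0 < nu x) {Z : ℝ}
    (hZ : Zf 8 x ≤ Z)
    (hnum : (2 : ℝ) ^ k * sg ^ Fintype.card β * (Real.sqrt 2) ^ (Fintype.card α - 1) ≤ 1 / 2) :
    RowE β 4 k x ≤ (2 : ℝ) ^ k * (Z / 2 ^ (j + 1)) ^ Fintype.card β * Csg := by
  have hNZ : NeZero (2 ^ (j + 1)) := ⟨by positivity⟩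
  rw [RowE_eq_Phi]
  have hp : pr 8 x 0 ≤ Z / 2 ^ (j + 1) := by
    rw [le_div_iff₀ (by positivity), mul_comm]
    unfold Zf at hZ
    push_cast at hZ
    exact hZ
  exact Phi_four (dvd_pow_self 2 (Nat.succ_ne_zero j)) x k (Fintype.card β) hp
    (castHom_ne x hnu) hnum

lemma sumz_le {j : ℕ} (x : α → ZMod (2 ^ (j + 1))) (hnu : 0 < nu x) {Z : ℝ} (hZ : Zf 8 x ≤ Z)
    (hnum : (2 : ℝ) ^ (j + 1) * sg ^ Fintype.card β * (Real.sqrt 2) ^ (Fintype.card α - 1) ≤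
      1 / 2) :
    ((2 : ℝ) ^ (j + 1)) ^ Fintype.card α * ∑ z : β → ZMod (2 ^ (j + 1)), Bpr 4 x z ≤
      (2 : ℝ) ^ (j + 1) * Z ^ Fintype.card β * Csg := by
  have h1 := sum_Bpr_le (β := β) (M := 4) (by norm_num) x
  have h2 := RowE_le (β := β) x hnu hZ hnum
  refine h1.trans ((mul_le_mul_of_nonneg_left h2 (by positivity)).trans (le_of_eq ?_))
  rw [div_pow]
  have : ((2 : ℝ) ^ (j + 1)) ^ Fintype.card β ≠ 0 := by positivity
  field_simp

lemma sumA_le {j : ℕ} (C : Finset (α → ZMod (2 ^ (j + 1)))) {Z κ : ℝ} (hZ0 : 0 ≤ Z)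
    (hC : ∀ x ∈ C, 0 < nu x ∧ Zf 8 x ≤ Z)
    (hcard : (C.card : ℝ) ≤ κ * ((2 : ℝ) ^ (j + 1)) ^ Fintype.card α)
    (hnum : (2 : ℝ) ^ (j + 1) * sg ^ Fintype.card β * (Real.sqrt 2) ^ (Fintype.card α - 1) ≤
      1 / 2) :
    ∑ x ∈ C, ∑ z : β → ZMod (2 ^ (j + 1)), Bpr 4 x z ≤
      κ * ((2 : ℝ) ^ (j + 1) * Z ^ Fintype.card β * Csg) := by
  have hpos : (0 : ℝ) < ((2 : ℝ) ^ (j + 1)) ^ Fintype.card α := by positivity
  have hC0 := Csg_pos
  refine le_of_mul_le_mul_left ?_ hpos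
  rw [mul_sum]
  refine (sum_le_sum fun x hx => sumz_le (β := β) x (hC x hx).1 (hC x hx).2 hnum).trans ?_
  rw [sum_const, nsmul_eq_mul]
  calc (C.card : ℝ) * ((2 : ℝ) ^ (j + 1) * Z ^ Fintype.card β * Csg)
      ≤ (κ * ((2 : ℝ) ^ (j + 1)) ^ Fintype.card α) *
        ((2 : ℝ) ^ (j + 1) * Z ^ Fintype.card β * Csg) :=
        mul_le_mul_of_nonneg_right hcard (by positivity)
    _ = _ := by ring

end blocks

section evA

variable {n : ℕ} {T : Type} [Fintype T] [DecidableEq T] [Nonempty T] (D : T → Finset (Fin n))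

lemma sum_restrict_le {R : Type} [Fintype R] [DecidableEq R] (D₁ : Finset (Fin n))
    (C : Finset (Fin n → R)) (C₁ : Finset ({i // i ∈ D₁} → R))
    (h : ∀ v ∈ C, (fun j : {i // i ∈ D₁} => v j) ∈ C₁)
    (F : ({i // i ∈ D₁} → R) → ({i // i ∉ D₁} → R) → ℝ) (hF : ∀ x z, 0 ≤ F x z) :
    ∑ v ∈ C, F (fun j => v j) (fun i => v i) ≤ ∑ x ∈ C₁, ∑ z, F x z := by
  classical
  rw [← sum_filter_split D₁ C₁ F]
  apply Finset.sum_le_sum_of_subset_of_nonneg
  · intro v hv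
    rw [mem_filter]
    exact ⟨mem_univ _, h v hv⟩
  · intro v _ _
    exact hF _ _

lemma prod_weights {Λ : ℝ} (hΛ : 1 ≤ Λ) (t₀ : T) :
    1 ≤ ∏ t, (if t = t₀ then Λ ^ Fintype.card T else Λ⁻¹) := by
  have hΛ0 : 0 < Λ := by linarith
  have h1 : ∏ t, (if t = t₀ then Λ ^ Fintype.card T else Λ⁻¹) =
      Λ ^ Fintype.card T * (Λ⁻¹) ^ (Fintype.card T - 1) := by
    rw [← Finset.mul_prod_erase univ _ (mem_univ t₀), if_pos rfl]
    congr 1
    rw [Finset.prod_congr rfl (g := fun _ => Λ⁻¹) (fun t ht => by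
      rw [if_neg (Finset.ne_of_mem_erase ht)]), prod_const, card_erase_of_mem (mem_univ _),
      card_univ]
  rw [h1]
  have hT : 0 < Fintype.card T := Fintype.card_pos
  have h2 : (Λ⁻¹) ^ Fintype.card T ≤ (Λ⁻¹) ^ (Fintype.card T - 1) :=
    pow_le_pow_of_le_one (by positivity) (inv_le_one_of_one_le₀ hΛ) (Nat.sub_le _ _)
  calc (1 : ℝ) = Λ ^ Fintype.card T * (Λ⁻¹) ^ Fintype.card T := by
        rw [← mul_pow, mul_inv_cancel₀ hΛ0.ne', one_pow]
    _ ≤ _ := mul_le_mul_of_nonneg_left h2 (by positivity)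

open Classical in
/-- The structured event for the family. -/
theorem Pb_EvA_le (hD : Sep D) {u : ℕ} (hu : 0 < u) {η : ℝ} (hη : 0 ≤ η) (j : ℕ) (t₀ : T)
    {d m : ℕ} (hd : ∀ t, Fintype.card {i // i ∈ D t} = d)
    (hm : ∀ t, Fintype.card {i // i ∉ D t} = m) {κ Λ : ℝ} (hκ0 : 0 ≤ κ) (hΛ : 1 ≤ Λ)
    (hκ : ((univ.filter (fun x : {i // i ∈ D t₀} → ZMod (2 ^ (j + 1)) =>
      u ≤ nu x ∧ 1 + η < Zf 8 x)).card : ℝ) ≤ κ * ((2 : ℝ) ^ (j + 1)) ^ d)
    (hnum : (2 : ℝ) ^ (j + 1) * sg ^ m * (Real.sqrt 2) ^ (d - 1) ≤ 1 / 2) :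
    Pb (EvA D u η j t₀) ≤ (2 : ℝ) ^ (j + 1) * ((Λ ^ Fintype.card T * κ + Λ⁻¹) *
      ((2 : ℝ) ^ (j + 1) * (2 * (1 + η)) ^ m * Csg)) := by
  have hC0 := Csg_pos
  have hΛ0 : 0 < Λ := by linarith
  set C : Finset (Fin n → ZMod (2 ^ (j + 1))) := univ.filter (fun v =>
    (∀ t, u ≤ nu (fun i : {i // i ∈ D t} => v i)) ∧
    1 + η < Zf 8 (fun i : {i // i ∈ D t₀} => v i) ∧
    ∀ t, Zf 8 (fun i : {i // i ∈ D t} => ((v i).cast : ZMod (2 ^ j))) ≤ 1 + η) with hC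
  set s : Finset ((Fin n → ZMod (2 ^ (j + 1))) × ZMod (2 ^ (j + 1))) := C ×ˢ univ with hs
  set w : T → ℝ := fun t => if t = t₀ then Λ ^ Fintype.card T else Λ⁻¹ with hw
  have hw0 : ∀ t, 0 ≤ w t := by
    intro t
    rw [hw]
    simp only
    split_ifs <;> positivity
  have h1 : Pb (EvA D u η j t₀) ≤ Pb (fun b => ∃ p ∈ s, smul2 b p.1 = fun _ => p.2) := by
    apply Pb_mono
    rintro b ⟨v, c, hv, h⟩
    refine ⟨(v, c), ?_, h⟩
    rw [hs, mem_product]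
    refine ⟨?_, mem_univ _⟩
    rw [hC, mem_filter]
    exact ⟨mem_univ _, hv⟩
  have h2 : ∀ p ∈ s, Pb (fun b => smul2 b p.1 = fun _ => p.2) ≤
      (∑ t, w t * Bpr 4 (fun j : {i // i ∈ D t} => p.1 j) (fun i : {i // i ∉ D t} => p.1 i)) /
        Fintype.card T := by
    intro p _
    rw [Pb_eq_Spr, Spr_eq_bpr]
    exact bpr_symc_le D hD p.1 w hw0 (prod_weights hΛ t₀) _
  have h3 := (h1.trans (Pb_exists s _)).trans (sum_le_sum h2)
  refine h3.trans ?_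
  rw [hs, sum_product]
  simp only [sum_const, nsmul_eq_mul, card_univ, ZMod.card]
  rw [← mul_sum]
  push_cast
  refine mul_le_mul_of_nonneg_left ?_ (by positivity)
  rw [← sum_div, sum_comm]
  have hT : (0 : ℝ) < Fintype.card T := by exact_mod_cast Fintype.card_pos
  rw [div_le_iff₀ hT]
  have hX : 0 ≤ (2 : ℝ) ^ (j + 1) * (2 * (1 + η)) ^ m * Csg := by positivity
  have h4 : ∀ t, ∑ v ∈ C, w t * Bpr 4 (fun j : {i // i ∈ D t} => v j)
      (fun i : {i // i ∉ D t} => v i) ≤ (Λ ^ Fintype.card T * κ + Λ⁻¹) *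
      ((2 : ℝ) ^ (j + 1) * (2 * (1 + η)) ^ m * Csg) := by
    intro t
    rw [← mul_sum]
    have hnum' : (2 : ℝ) ^ (j + 1) * sg ^ Fintype.card {i // i ∉ D t} *
        (Real.sqrt 2) ^ (Fintype.card {i // i ∈ D t} - 1) ≤ 1 / 2 := by
      rw [hd, hm]; exact hnum
    by_cases ht : t = t₀
    · subst ht
      set C₁ : Finset ({i // i ∈ D t} → ZMod (2 ^ (j + 1))) := univ.filter (fun x =>
        u ≤ nu x ∧ 1 + η < Zf 8 x ∧ Zf 8 (fun i => ((x i).cast : ZMod (2 ^ j))) ≤ 1 + η) with hC₁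
      have h5 := sum_restrict_le (D t) C C₁ (fun v hv => by
        rw [hC, mem_filter] at hv
        rw [hC₁, mem_filter]
        exact ⟨mem_univ _, hv.2.1 t, hv.2.2.1, hv.2.2.2 t⟩) (fun x z => Bpr 4 x z)
        (fun x z => Bpr_nonneg 4 x z)
      have h6 := sumA_le (β := {i // i ∉ D t}) C₁ (Z := 2 * (1 + η)) (κ := κ) (by positivity)
        (fun x hx => by
          rw [hC₁, mem_filter] at hx
          exact ⟨by omega, (Zf_le_two_mul_cast (by norm_num) x).trans (by linarith [hx.2.2.2])⟩)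
        (by
          rw [hd]
          refine le_trans ?_ hκ
          exact_mod_cast card_le_card fun x hx => by
            rw [hC₁, mem_filter] at hx
            rw [mem_filter]
            exact ⟨mem_univ _, hx.2.1, hx.2.2.1⟩) hnum'
      rw [hm] at h6
      have hwt : w t = Λ ^ Fintype.card T := by rw [hw]; simp
      rw [hwt]
      calc Λ ^ Fintype.card T * ∑ v ∈ C, Bpr 4 (fun j : {i // i ∈ D t} => v j)
            (fun i : {i // i ∉ D t} => v i)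
          ≤ Λ ^ Fintype.card T * (κ * ((2 : ℝ) ^ (j + 1) * (2 * (1 + η)) ^ m * Csg)) :=
            mul_le_mul_of_nonneg_left (h5.trans h6) (by positivity)
        _ = Λ ^ Fintype.card T * κ * ((2 : ℝ) ^ (j + 1) * (2 * (1 + η)) ^ m * Csg) := by ring
        _ ≤ _ := mul_le_mul_of_nonneg_right (by linarith [inv_pos.2 hΛ0]) hX
    · set C₁ : Finset ({i // i ∈ D t} → ZMod (2 ^ (j + 1))) := univ.filter (fun x =>
        u ≤ nu x ∧ Zf 8 (fun i => ((x i).cast : ZMod (2 ^ j))) ≤ 1 + η) with hC₁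
      have h5 := sum_restrict_le (D t) C C₁ (fun v hv => by
        rw [hC, mem_filter] at hv
        rw [hC₁, mem_filter]
        exact ⟨mem_univ _, hv.2.1 t, hv.2.2.2 t⟩) (fun x z => Bpr 4 x z)
        (fun x z => Bpr_nonneg 4 x z)
      have h6 := sumA_le (β := {i // i ∉ D t}) C₁ (Z := 2 * (1 + η)) (κ := 1) (by positivity)
        (fun x hx => by
          rw [hC₁, mem_filter] at hx
          exact ⟨by omega, (Zf_le_two_mul_cast (by norm_num) x).trans (by linarith [hx.2.2])⟩)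
        (by
          rw [one_mul]
          have : C₁.card ≤ (2 ^ (j + 1)) ^ Fintype.card {i // i ∈ D t} := by
            refine (card_le_univ _).trans (le_of_eq ?_)
            rw [Fintype.card_fun, ZMod.card]
          exact_mod_cast this) hnum'
      rw [hm, one_mul] at h6
      have hwt : w t = Λ⁻¹ := by rw [hw]; simp [ht]
      rw [hwt]
      calc Λ⁻¹ * ∑ v ∈ C, Bpr 4 (fun j : {i // i ∈ D t} => v j)
            (fun i : {i // i ∉ D t} => v i)
          ≤ Λ⁻¹ * ((2 : ℝ) ^ (j + 1) * (2 * (1 + η)) ^ m * Csg) :=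
            mul_le_mul_of_nonneg_left (h5.trans h6) (by positivity)
        _ ≤ _ := mul_le_mul_of_nonneg_right (by
            have : 0 ≤ Λ ^ Fintype.card T * κ := by positivity
            linarith) hX
  refine (sum_le_sum fun t _ => h4 t).trans (le_of_eq ?_)
  rw [sum_const, card_univ, nsmul_eq_mul, mul_comm]

end evA

end Vale.Agent.P160
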