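import Vale.Agent.P160.QEvA

set_option linter.unusedSectionVars false

namespace Vale.Agent.P160

open Finset

section blocks

variable {α β : Type} [Fintype α] [Fintype β] [DecidableEq α] [DecidableEq β]

lemma nu_cast {j : ℕ} (x : α → ZMod (2 ^ (j + 2))) :
    nu (fun i => ((x i).cast : ZMod (2 ^ (j + 1)))) = nu x := by
  rw [← wt_eq_nu (j := j + 1) (by omega), ← wt_eq_nu (j := j + 2) (by omega)]
  congr 1
  funext i
  have h : ((x i).cast : ZMod (2 ^ (j + 1))) =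
      ZMod.castHom (pow_dvd_pow 2 (by omega : j + 1 ≤ j + 2)) (ZMod (2 ^ (j + 1))) (x i) := rfl
  rw [h, ← RingHom.comp_apply]
  congr 1
  exact Subsingleton.elim _ _

open Classical in
/-- The sum over the unstructured vectors of a block. -/
lemma sumB_le {J : ℕ} {u : ℕ} (hu : 0 < u) {η κ : ℝ} (hη : 0 ≤ η)
    (hκ : ((univ.filter (fun x : α → ZMod (2 ^ (J + 2)) =>
      u ≤ nu x ∧ 1 + η < Zf 8 x)).card : ℝ) ≤ κ * ((2 : ℝ) ^ (J + 2)) ^ Fintype.card α)
    (hnum : (2 : ℝ) ^ (J + 1) * sg ^ Fintype.card β * (Real.sqrt 2) ^ (Fintype.card α - 1) ≤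
      1 / 2)
    (h1 : (2 : ℝ) ^ (J + 1) * 2 ^ Fintype.card α ≤ 2 ^ Fintype.card β)
    (h2 : (2 : ℝ) ^ (J + 1) * 2 ^ Fintype.card α * κ ≤ 1) :
    ∑ x ∈ univ.filter (fun x : α → ZMod (2 ^ (J + 1)) => u ≤ nu x ∧ Zf 8 x ≤ 1 + η),
      ∑ z : β → ZMod (2 ^ (J + 1)), Bq x z ≤ 12 * Csg * (1 + η) ^ Fintype.card β := by
  obtain ⟨a, ha⟩ : ∃ a, a = Fintype.card α := ⟨_, rfl⟩
  obtain ⟨m, hm⟩ : ∃ m, m = Fintype.card β := ⟨_, rfl⟩
  rw [← ha] at hκ hnum h1 h2
  rw [← hm] at hnum h1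
  rw [← hm]
  have hC0 := Csg_pos
  set C : Finset (α → ZMod (2 ^ (J + 1))) :=
    univ.filter (fun x : α → ZMod (2 ^ (J + 1)) => u ≤ nu x ∧ Zf 8 x ≤ 1 + η) with hC
  set C₂ : Finset (α → ZMod (2 ^ (J + 2))) := univ.filter (fun x₂ =>
    u ≤ nu x₂ ∧ Zf 8 (fun j => ((x₂ j).cast : ZMod (2 ^ (J + 1)))) ≤ 1 + η) with hC₂
  have hpos : (0 : ℝ) < ((2 : ℝ) ^ (J + 1)) ^ (a + 1) := by positivity
  -- bounds for the two kinds of sums
  have hcard : (C.card : ℝ) ≤ ((2 : ℝ) ^ (J + 1)) ^ a := by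
    have : C.card ≤ (2 ^ (J + 1)) ^ a := by
      refine (card_le_univ _).trans (le_of_eq ?_)
      rw [Fintype.card_fun, ZMod.card, ha]
    exact_mod_cast this
  have hcard₂ : (C₂.card : ℝ) ≤ ((2 : ℝ) ^ (J + 2)) ^ a := by
    have : C₂.card ≤ (2 ^ (J + 2)) ^ a := by
      refine (card_le_univ _).trans (le_of_eq ?_)
      rw [Fintype.card_fun, ZMod.card, ha]
    exact_mod_cast this
  have hnum' : (2 : ℝ) ^ (J + 1) * sg ^ Fintype.card β *
      (Real.sqrt 2) ^ (Fintype.card α - 1) ≤ 1 / 2 := by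
    rw [← ha, ← hm]; exact hnum
  have hA : ∑ x ∈ C, RowE β 4 (J + 1) x ≤ ((2 : ℝ) ^ (J + 1)) ^ a *
      ((2 : ℝ) ^ (J + 1) * ((1 + η) / 2 ^ (J + 1)) ^ m * Csg) := by
    have : ∀ x ∈ C, RowE β 4 (J + 1) x ≤
        (2 : ℝ) ^ (J + 1) * ((1 + η) / 2 ^ (J + 1)) ^ m * Csg := by
      intro x hx
      rw [hC, mem_filter] at hx
      have := RowE_le (β := β) (j := J) (k := J + 1) x (by omega) hx.2.2 hnum'
      rw [← hm] at this
      exact this
    refine (sum_le_sum this).trans ?_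
    rw [sum_const, nsmul_eq_mul]
    exact mul_le_mul_of_nonneg_right hcard (by positivity)
  have hB : ∑ x₂ ∈ C₂, RowE β 4 (J + 1) x₂ ≤
      ((2 : ℝ) ^ (J + 2)) ^ a * ((2 : ℝ) ^ (J + 1) * ((1 + η) / 2 ^ (J + 2)) ^ m * Csg) +
      (κ * ((2 : ℝ) ^ (J + 2)) ^ a) *
        ((2 : ℝ) ^ (J + 1) * ((1 + η) / 2 ^ (J + 1)) ^ m * Csg) := by
    rw [← Finset.sum_filter_add_sum_filter_not C₂ (fun x₂ => Zf 8 x₂ ≤ 1 + η)]
    refine add_le_add ?_ ?_
    · have : ∀ x₂ ∈ C₂.filter (fun x₂ => Zf 8 x₂ ≤ 1 + η), RowE β 4 (J + 1) x₂ ≤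
          (2 : ℝ) ^ (J + 1) * ((1 + η) / 2 ^ (J + 2)) ^ m * Csg := by
        intro x₂ hx
        rw [mem_filter, hC₂, mem_filter] at hx
        have := RowE_le (β := β) (j := J + 1) (k := J + 1) x₂ (by omega) hx.2 hnum'
        rw [← hm] at this
        exact this
      refine (sum_le_sum this).trans ?_
      rw [sum_const, nsmul_eq_mul]
      refine mul_le_mul_of_nonneg_right ?_ (by positivity)
      refine le_trans ?_ hcard₂
      exact_mod_cast card_le_card (Finset.filter_subset _ _)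
    · have : ∀ x₂ ∈ C₂.filter (fun x₂ => ¬ Zf 8 x₂ ≤ 1 + η), RowE β 4 (J + 1) x₂ ≤
          (2 : ℝ) ^ (J + 1) * ((1 + η) / 2 ^ (J + 1)) ^ m * Csg := by
        intro x₂ hx
        rw [mem_filter, hC₂, mem_filter] at hx
        have h3 : Zf 8 x₂ ≤ 2 * (1 + η) :=
          (Zf_le_two_mul_cast (by norm_num) x₂).trans (by linarith [hx.1.2.2])
        have := RowE_le (β := β) (j := J + 1) (k := J + 1) x₂ (by omega) h3 hnum'
        rw [← hm] at this
        refine this.trans (le_of_eq ?_)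
        congr 3
        rw [pow_succ (2 : ℝ) (J + 1), mul_comm (2 : ℝ) (1 + η),
          mul_div_mul_right _ _ (two_ne_zero)]
      refine (sum_le_sum this).trans ?_
      rw [sum_const, nsmul_eq_mul]
      refine mul_le_mul_of_nonneg_right ?_ (by positivity)
      refine le_trans ?_ hκ
      exact_mod_cast card_le_card fun x₂ hx => by
        rw [mem_filter, hC₂, mem_filter] at hx
        rw [mem_filter]
        exact ⟨mem_univ _, hx.1.2.1, not_le.1 hx.2⟩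
  have hsum : ((2 : ℝ) ^ (J + 1)) ^ (a + 1) *
      ∑ x ∈ C, ∑ z : β → ZMod (2 ^ (J + 1)), Bq x z ≤
      4 * ((2 : ℝ) ^ (J + 1)) ^ m *
        (∑ x ∈ C, RowE β 4 (J + 1) x + 2 ^ (J + 1) * ∑ x₂ ∈ C₂, RowE β 4 (J + 1) x₂) := by
    have h3 := sum_RowA_le (β := β) C C₂ (fun x₂ hx₂ => by
      rw [hC, mem_filter] at hx₂
      rw [hC₂, mem_filter]
      refine ⟨mem_univ _, ?_, hx₂.2.2⟩
      rw [← nu_cast]; exact hx₂.2.1)
    rw [mul_sum]
    calc ∑ x ∈ C, ((2 : ℝ) ^ (J + 1)) ^ (a + 1) * ∑ z : β → ZMod (2 ^ (J + 1)), Bq x z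
        ≤ ∑ x ∈ C, 4 * ((2 : ℝ) ^ (J + 1)) ^ m *
          (RowE β 4 (J + 1) x + 2 ^ (J + 1) * RowA β J x) := by
          refine sum_le_sum fun x _ => ?_
          have := sum_Bq_le (β := β) x
          rw [← ha, ← hm] at this
          exact this
      _ = 4 * ((2 : ℝ) ^ (J + 1)) ^ m *
          (∑ x ∈ C, RowE β 4 (J + 1) x + 2 ^ (J + 1) * ∑ x ∈ C, RowA β J x) := by
          rw [← mul_sum, sum_add_distrib, ← mul_sum]
      _ ≤ _ := by gcongr
  refine le_of_mul_le_mul_left ?_ hpos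
  refine hsum.trans ?_
  -- final computation
  set N : ℝ := (2 : ℝ) ^ (J + 1) with hN
  have hNpos : 0 < N := by positivity
  have e2 : (2 : ℝ) ^ (J + 2) = 2 * N := by rw [hN]; ring
  rw [e2] at hB
  have h2m : (0 : ℝ) < 2 ^ m := by positivity
  have hX : (0 : ℝ) < N ^ a * (N * ((1 + η) / N) ^ m * Csg) := by positivity
  -- express the three terms through X
  have t2 : N * ((2 * N) ^ a * (N * ((1 + η) / (2 * N)) ^ m * Csg)) ≤
      N ^ a * (N * ((1 + η) / N) ^ m * Csg) := by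
    have e3 : (1 + η) / (2 * N) = (1 / 2) * ((1 + η) / N) := by field_simp
    rw [e3, mul_pow, mul_pow (1 / 2 : ℝ)]
    have e4 : N * (2 ^ a * N ^ a * (N * ((1 / 2) ^ m * ((1 + η) / N) ^ m) * Csg)) =
        (N * 2 ^ a * (1 / 2) ^ m) * (N ^ a * (N * ((1 + η) / N) ^ m * Csg)) := by ring
    rw [e4]
    have e5 : N * 2 ^ a * (1 / 2) ^ m ≤ 1 := by
      rw [one_div, inv_pow, ← div_eq_mul_inv, div_le_one h2m]
      exact h1
    calc _ ≤ 1 * (N ^ a * (N * ((1 + η) / N) ^ m * Csg)) :=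
          mul_le_mul_of_nonneg_right e5 hX.le
      _ = _ := one_mul _
  have t3 : N * ((κ * (2 * N) ^ a) * (N * ((1 + η) / N) ^ m * Csg)) ≤
      N ^ a * (N * ((1 + η) / N) ^ m * Csg) := by
    rw [mul_pow]
    have e4 : N * ((κ * (2 ^ a * N ^ a)) * (N * ((1 + η) / N) ^ m * Csg)) =
        (N * 2 ^ a * κ) * (N ^ a * (N * ((1 + η) / N) ^ m * Csg)) := by ring
    rw [e4]
    calc _ ≤ 1 * (N ^ a * (N * ((1 + η) / N) ^ m * Csg)) :=
          mul_le_mul_of_nonneg_right h2 hX.le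
      _ = _ := one_mul _
  have t4 : ∑ x ∈ C, RowE β 4 (J + 1) x + N * ∑ x₂ ∈ C₂, RowE β 4 (J + 1) x₂ ≤
      3 * (N ^ a * (N * ((1 + η) / N) ^ m * Csg)) := by
    have := mul_le_mul_of_nonneg_left hB hNpos.le
    rw [mul_add] at this
    linarith
  calc 4 * N ^ m * (∑ x ∈ C, RowE β 4 (J + 1) x + N * ∑ x₂ ∈ C₂, RowE β 4 (J + 1) x₂)
      ≤ 4 * N ^ m * (3 * (N ^ a * (N * ((1 + η) / N) ^ m * Csg))) :=
        mul_le_mul_of_nonneg_left t4 (by positivity)
    _ = N ^ (a + 1) * (12 * Csg * (N ^ m * ((1 + η) / N) ^ m)) := by ring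
    _ = _ := by
        rw [← mul_pow, mul_div_cancel₀ _ hNpos.ne']

end blocks

section evB

variable {n : ℕ} {T : Type} [Fintype T] [DecidableEq T] [Nonempty T] (D : T → Finset (Fin n))

lemma smul2_mul_left {R : Type*} [Ring R] (b : Sym2 (Fin n) → Bool) (g : Fin n → R) (τ : R) :
    smul2 b (fun i => τ * g i) = fun i => τ * smul2 b g i := by
  funext i
  unfold smul2
  rw [mul_sum]
  refine sum_congr rfl fun j _ => ?_
  split_ifs <;> simp

lemma Bq_nonneg {α β : Type*} [Fintype α] [Fintype β] [DecidableEq α] [DecidableEq β] {N : ℕ}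
    (x : α → ZMod N) (z : β → ZMod N) : 0 ≤ Bq x z := by
  unfold Bq; positivity

open Classical in
/-- The unstructured event for the family. -/
theorem Pb_EvB_le (hD : Sep D) {u : ℕ} (hu : Fintype.card T ≤ u) {η : ℝ} (hη : 0 ≤ η) (J : ℕ)
    {d m : ℕ} (hd : ∀ t, Fintype.card {i // i ∈ D t} = d)
    (hm : ∀ t, Fintype.card {i // i ∉ D t} = m) {κ : ℝ}
    (hκ : ∀ t, ((univ.filter (fun x : {i // i ∈ D t} → ZMod (2 ^ (J + 2)) =>
      u ≤ nu x ∧ 1 + η < Zf 8 x)).card : ℝ) ≤ κ * ((2 : ℝ) ^ (J + 2)) ^ d)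
    (hnum : (2 : ℝ) ^ (J + 1) * sg ^ m * (Real.sqrt 2) ^ (d - 1) ≤ 1 / 2)
    (h1 : (2 : ℝ) ^ (J + 1) * 2 ^ d ≤ 2 ^ m)
    (h2 : (2 : ℝ) ^ (J + 1) * 2 ^ d * κ ≤ 1) :
    Pb (EvB D u η J) ≤ 192 * Csg * (1 + η) ^ (m + 1) / ((2 : ℝ) ^ (J + 1)) ^ 2 := by
  have hT0 : 0 < Fintype.card T := Fintype.card_pos
  have hu0 : 0 < u := by omega
  have hC0 := Csg_pos
  set V : Finset (Fin n → ZMod (2 ^ (J + 1))) := univ.filter (fun v =>
    ∀ t, u ≤ nu (fun i : {i // i ∈ D t} => v i) ∧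
      Zf 8 (fun i : {i // i ∈ D t} => v i) ≤ 1 + η) with hV
  set s : Finset (Σ _v : Fin n → ZMod (2 ^ (J + 1)), ZMod (2 ^ (J + 1))) :=
    V.sigma (fun v => univ.filter (fun c => 2 * c = ∑ i, v i)) with hs
  have hmem : ∀ (v : Fin n → ZMod (2 ^ (J + 1))) (c : ZMod (2 ^ (J + 1))),
      (⟨v, c⟩ : Σ _v : Fin n → ZMod (2 ^ (J + 1)), ZMod (2 ^ (J + 1))) ∈ s ↔
      (∀ t, u ≤ nu (fun i : {i // i ∈ D t} => v i) ∧
      Zf 8 (fun i : {i // i ∈ D t} => v i) ≤ 1 + η) ∧ 2 * c = ∑ i, v i := by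
    intro v c
    rw [hs, mem_sigma, hV, mem_filter, mem_filter]
    simp
  have t₁ : T := Classical.arbitrary T
  have h3 := Pb_markov s (fun p b => Kev p.1 p.2 b) (2 ^ J) (EvB D u η J) (by
    rintro b ⟨g, c, hg, hc, hv⟩
    obtain ⟨i₀, hi₀⟩ := exists_unit_of_nu_pos
      (fun i : {i // i ∈ D t₁} => (g i : ZMod (2 ^ (J + 1)))) (by have := (hv t₁).1; omega)
    refine ⟨univ.image (fun τ : (ZMod (2 ^ (J + 1)))ˣ =>
      (⟨fun i => (τ : ZMod (2 ^ (J + 1))) * (g i : ZMod (2 ^ (J + 1))),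
        (τ : ZMod (2 ^ (J + 1))) * (c : ZMod (2 ^ (J + 1)))⟩ :
        Σ _v : Fin n → ZMod (2 ^ (J + 1)), ZMod (2 ^ (J + 1)))), ?_, ?_, ?_⟩
    · intro p hp
      rw [mem_image] at hp
      obtain ⟨τ, _, rfl⟩ := hp
      rw [hmem]
      refine ⟨fun t => ⟨?_, ?_⟩, ?_⟩
      · rw [nu_unit_mul τ.isUnit (fun i : {i // i ∈ D t} => (g i : ZMod (2 ^ (J + 1))))]
        exact (hv t).1
      · have h4 := (hv t).2
        unfold Zf at h4 ⊢
        rw [pr_unit_mul τ.isUnit (fun i : {i // i ∈ D t} => (g i : ZMod (2 ^ (J + 1))))]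
        exact h4
      · rw [← mul_sum, ← Int.cast_sum, ← hc]
        push_cast
        ring
    · rw [Finset.card_image_of_injective, card_univ, card_units_two_pow]
      intro τ τ' ht
      simp only [Sigma.mk.injEq] at ht
      have h4 : (τ : ZMod (2 ^ (J + 1))) * (g i₀ : ZMod (2 ^ (J + 1))) =
          τ' * (g i₀ : ZMod (2 ^ (J + 1))) := congrFun (by simpa using ht.1) i₀.1
      exact Units.ext (hi₀.mul_right_cancel h4)
    · intro p hp
      rw [mem_image] at hp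
      obtain ⟨τ, _, rfl⟩ := hp
      have h4 := Kev_of_int (N := 2 ^ (J + 1)) b
        (fun i => ((τ : ZMod (2 ^ (J + 1))).val : ℤ) * g i)
        (((τ : ZMod (2 ^ (J + 1))).val : ℤ) * c) (by
          rw [smul2_mul_left, hg]) (by
          rw [← mul_sum, ← hc]; ring)
      have h5 : (((τ : ZMod (2 ^ (J + 1))).val : ℤ) : ZMod (2 ^ (J + 1))) =
          (τ : ZMod (2 ^ (J + 1))) := by
        rw [Int.cast_natCast, ZMod.natCast_zmod_val]
      simp only [Int.cast_mul, h5] at h4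
      exact h4)
  have hκV : ∀ p ∈ s, Pb (fun b => Kev p.1 p.2 b) ≤
      (∑ t, Bq (fun j : {i // i ∈ D t} => p.1 j) (fun i : {i // i ∉ D t} => p.1 i) *
        (4 * ((1 + η) / 2 ^ (J + 1)))) / Fintype.card T := by
    rintro ⟨v, c⟩ hp
    rw [hmem] at hp
    obtain ⟨l₀, hl₀, hunit⟩ := exists_centers D v hu (fun t => (hp.1 t).1)
    have h4 := Pb_Kev v c
    have h5 := bpr_cq_le D hD v l₀ hl₀ hunit ((fun _ => c), (∑ i, lft (v i)) ^ 2)
    have e1 : Pb (fun b => Kev v c b) = Pb (Kev v c) := rfl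
    simp only
    rw [e1, h4]
    refine h5.trans ?_
    have hT : (0 : ℝ) < Fintype.card T := by exact_mod_cast hT0
    rw [div_le_div_iff_of_pos_right hT]
    refine sum_le_sum fun t _ => ?_
    rw [gpr_cq_offp]
    refine mul_le_mul_of_nonneg_left ?_ (Bq_nonneg _ _)
    have h6 := (hp.1 t).2
    have h7 : pr 8 (fun j : {i // i ∈ D t} => v j) 0 ≤ (1 + η) / 2 ^ (J + 1) := by
      rw [le_div_iff₀ (by positivity), mul_comm]
      unfold Zf at h6
      push_cast at h6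
      exact h6
    linarith
  have h4 := h3.trans (sum_le_sum hκV)
  push_cast at h4
  have h5 : ∑ p ∈ s, (∑ t, Bq (fun j : {i // i ∈ D t} => p.1 j)
      (fun i : {i // i ∉ D t} => p.1 i) * (4 * ((1 + η) / 2 ^ (J + 1)))) / Fintype.card T ≤
      8 * ((1 + η) / 2 ^ (J + 1)) * (12 * Csg * (1 + η) ^ m) := by
    rw [hs, sum_sigma]
    have h6 : ∀ v ∈ V, ∑ _c ∈ univ.filter (fun c : ZMod (2 ^ (J + 1)) => 2 * c = ∑ i, v i),
        (∑ t, Bq (fun j : {i // i ∈ D t} => v j) (fun i : {i // i ∉ D t} => v i) *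
        (4 * ((1 + η) / 2 ^ (J + 1)))) / Fintype.card T ≤
        2 * ((∑ t, Bq (fun j : {i // i ∈ D t} => v j) (fun i : {i // i ∉ D t} => v i) *
        (4 * ((1 + η) / 2 ^ (J + 1)))) / Fintype.card T) := by
      intro v _
      rw [sum_const, nsmul_eq_mul]
      have h7 : ((univ.filter (fun c : ZMod (2 ^ (J + 1)) => 2 * c = ∑ i, v i)).card : ℝ) ≤ 2 := by
        exact_mod_cast card_two_mul_eq_le _
      refine mul_le_mul_of_nonneg_right h7 ?_
      apply div_nonneg _ (by positivity)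
      apply sum_nonneg
      intro t _
      have := Bq_nonneg (fun j : {i // i ∈ D t} => v j) (fun i : {i // i ∉ D t} => v i)
      positivity
    refine (sum_le_sum h6).trans ?_
    rw [← mul_sum, ← sum_div, sum_comm]
    have hT : (0 : ℝ) < Fintype.card T := by exact_mod_cast hT0
    rw [mul_div_assoc', div_le_iff₀ hT]
    have h8 : ∀ t, ∑ v ∈ V, Bq (fun j : {i // i ∈ D t} => v j)
        (fun i : {i // i ∉ D t} => v i) * (4 * ((1 + η) / 2 ^ (J + 1))) ≤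
        (12 * Csg * (1 + η) ^ m) * (4 * ((1 + η) / 2 ^ (J + 1))) := by
      intro t
      rw [← sum_mul]
      refine mul_le_mul_of_nonneg_right ?_ (by positivity)
      have h9 := sum_restrict_le (D t) V (univ.filter (fun x :
        {i // i ∈ D t} → ZMod (2 ^ (J + 1)) => u ≤ nu x ∧ Zf 8 x ≤ 1 + η)) (fun v hv => by
        rw [hV, mem_filter] at hv
        rw [mem_filter]
        exact ⟨mem_univ _, (hv.2 t).1, (hv.2 t).2⟩) (fun x z => Bq x z)
        (fun x z => Bq_nonneg x z)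
      have h10 := sumB_le (α := {i // i ∈ D t}) (β := {i // i ∉ D t}) (J := J) hu0 hη (κ := κ)
        (by rw [hd]; exact hκ t) (by rw [hd, hm]; exact hnum) (by rw [hd, hm]; exact h1)
        (by rw [hd]; exact h2)
      rw [hm] at h10
      exact h9.trans h10
    refine (mul_le_mul_of_nonneg_left (sum_le_sum fun t _ => h8 t) (by norm_num)).trans
      (le_of_eq ?_)
    rw [sum_const, card_univ, nsmul_eq_mul]
    ring
  have h6 := h4.trans h5
  rw [le_div_iff₀ (by positivity)]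
  have e1 : ((2 : ℝ) ^ (J + 1)) ^ 2 = 2 * (2 : ℝ) ^ (J + 1) * 2 ^ J := by ring
  rw [e1]
  have hN : (0 : ℝ) < 2 ^ (J + 1) := by positivity
  calc Pb (EvB D u η J) * (2 * (2 : ℝ) ^ (J + 1) * 2 ^ J)
      = 2 * (2 : ℝ) ^ (J + 1) * (2 ^ J * Pb (EvB D u η J)) := by ring
    _ ≤ 2 * (2 : ℝ) ^ (J + 1) * (8 * ((1 + η) / 2 ^ (J + 1)) * (12 * Csg * (1 + η) ^ m)) :=
        mul_le_mul_of_nonneg_left h6 (by positivity)
    _ = _ := by
        field_simp
        ring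

end evB

end Vale.Agent.P160
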