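import Vale.Agent.P160.QTop
import Vale.Agent.P160.Asm1

set_option linter.unusedSectionVars false

namespace Vale.Agent.P160

open Finset

section bq

variable {α β : Type*} [Fintype α] [Fintype β] [DecidableEq α] [DecidableEq β]

/-- Probability, over an iid half-lazy matrix `H`, that `H x = 0`, `Hᵀ z = 0` mod `N` and
`4 zᵀ H x = 0` mod `N * N`. -/
noncomputable def Bq {N : ℕ} (x : α → ZMod N) (z : β → ZMod N) : ℝ :=
  ((univ.filter (fun ω : β → α → Fin 4 =>
    ((∀ i, walk (ω i) x = 0) ∧ ∀ j, walk (fun i => ω i j) z = 0) ∧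
    4 * ∑ i, lft (z i) * walk (ω i) (fun j => lft (x j)) = 0)).card : ℝ) /
      (4 : ℝ) ^ (Fintype.card β * Fintype.card α)

end bq

section model

variable {ι : Type*} [Fintype ι] [DecidableEq ι] (D : Finset ι)

lemma cq_offp_snd {N : ℕ} (v : ι → ZMod N) (p : {i // i ∉ D} × {i // i ∈ D}) :
    (cq v (offp D p)).2 = 4 * (lft (v p.1) * lft (v p.2)) := by
  have hne : p.1.1 ≠ p.2.1 := fun h => p.1.2 (h ▸ p.2.2)
  unfold cq offp
  simp only
  rw [symc_ne _ hne]
  simp only [Pi.add_apply, mul_add, sum_add_distrib]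
  have h1 : ∑ i, lft (v i) * (Pi.single p.1.1 (lft (v p.2.1)) : ι → ZMod (N * N)) i =
      lft (v p.1.1) * lft (v p.2.1) := by
    rw [Finset.sum_eq_single p.1.1]
    · rw [Pi.single_eq_same]
    · intro j _ hj
      rw [Pi.single_eq_of_ne hj, mul_zero]
    · simp
  have h2 : ∑ i, lft (v i) * (Pi.single p.2.1 (lft (v p.1.1)) : ι → ZMod (N * N)) i =
      lft (v p.2.1) * lft (v p.1.1) := by
    rw [Finset.sum_eq_single p.2.1]
    · rw [Pi.single_eq_same]
    · intro j _ hj
      rw [Pi.single_eq_of_ne hj, mul_zero]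
    · simp
  rw [h1, h2]
  ring

lemma gwalk_cq_offp_eq_zero {N : ℕ} [NeZero N] (v : ι → ZMod N)
    (ω : {i // i ∉ D} × {i // i ∈ D} → Fin 4) :
    gwalk ω (fun p => cq v (offp D p)) = 0 ↔
      ((∀ i : {i // i ∉ D}, walk (fun j => ω (i, j)) (fun j : {i // i ∈ D} => v j) = 0) ∧
      ∀ j : {i // i ∈ D}, walk (fun i => ω (i, j)) (fun i : {i // i ∉ D} => v i) = 0) ∧
      4 * ∑ i : {i // i ∉ D}, lft (v i) *
        walk (fun j => ω (i, j)) (fun j : {i // i ∈ D} => lft (v j)) = 0 := by
  rw [← gwalk_offp_eq_zero D v ω, Prod.ext_iff]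
  have h1 : (gwalk ω (fun p => cq v (offp D p))).1 = gwalk ω (fun p => symc v (offp D p)) :=
    gwalk_map (AddMonoidHom.fst (ι → ZMod N) (ZMod (N * N))) ω (fun p => cq v (offp D p))
  have h2 : (gwalk ω (fun p => cq v (offp D p))).2 =
      4 * ∑ i : {i // i ∉ D}, lft (v i) *
        walk (fun j => ω (i, j)) (fun j : {i // i ∈ D} => lft (v j)) := by
    have h3 : (gwalk ω (fun p => cq v (offp D p))).2 =
        gwalk ω (fun p => (cq v (offp D p)).2) := by
      unfold gwalk
      rw [Prod.snd_sum]
      rfl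
    rw [h3]
    unfold gwalk walk
    simp only [cq_offp_snd, zsmul_eq_mul]
    rw [Fintype.sum_prod_type, mul_sum]
    refine sum_congr rfl fun i _ => ?_
    rw [mul_sum, mul_sum]
    refine sum_congr rfl fun j _ => ?_
    ring
  rw [h1, h2]
  rfl

lemma gpr_cq_offp {N : ℕ} [NeZero N] (v : ι → ZMod N) :
    gpr 4 (fun p => cq v (offp D p)) 0 =
      Bq (fun j : {i // i ∈ D} => v j) (fun i : {i // i ∉ D} => v i) := by
  unfold gpr Bq
  congr 1
  · congr 1
    apply Finset.card_bij (fun ω _ => fun i j => ω (i, j))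
    · intro ω hω
      simp only [mem_filter, mem_univ, true_and] at hω ⊢
      exact (gwalk_cq_offp_eq_zero D v ω).1 hω
    · intro ω _ ω' _ h
      funext p
      exact congrFun (congrFun h p.1) p.2
    · intro ω hω
      refine ⟨fun p => ω p.1 p.2, ?_, rfl⟩
      simp only [mem_filter, mem_univ, true_and] at hω ⊢
      exact (gwalk_cq_offp_eq_zero D v _).2 hω
  · rw [Fintype.card_prod]
    norm_num

end model

section aug

variable {α β : Type*} [Fintype α] [Fintype β] [DecidableEq α] [DecidableEq β]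

/-- The integer `(h · x) / N` for the standard lift of `x`. -/
def augI {N : ℕ} (x : α → ZMod N) (h : α → Fin 4) : ℤ :=
  (∑ j, st (h j) * ((x j).val : ℤ)) / (N : ℤ)

lemma cast_walk {N : ℕ} [NeZero N] (x : α → ZMod N) (h : α → Fin 4) :
    ((∑ j, st (h j) * ((x j).val : ℤ) : ℤ) : ZMod N) = walk h x := by
  unfold walk
  push_cast
  refine sum_congr rfl fun j _ => ?_
  rw [ZMod.natCast_zmod_val]

lemma augI_mul {N : ℕ} [NeZero N] (x : α → ZMod N) (h : α → Fin 4) (hx : walk h x = 0) :
    (N : ℤ) * augI x h = ∑ j, st (h j) * ((x j).val : ℤ) := by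
  unfold augI
  apply Int.mul_ediv_cancel'
  rw [← cast_walk] at hx
  exact (ZMod.intCast_zmod_eq_zero_iff_dvd _ N).1 hx

lemma walk_lft {N : ℕ} [NeZero N] (x : α → ZMod N) (h : α → Fin 4) (hx : walk h x = 0) :
    walk h (fun j => lft (x j)) = (((N : ℤ) * augI x h : ℤ) : ZMod (N * N)) := by
  rw [augI_mul x h hx]
  unfold walk lft
  push_cast
  rfl

/-- The matrix `[a | H]`. -/
def augM {N : ℕ} (x : α → ZMod N) (ω : β → α → Fin 4) (i : β) (o : Option α) : ℤ :=
  o.elim (augI x (ω i)) (fun l => st (ω i l))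

lemma card_four_le {N : ℕ} [NeZero N] :
    (univ.filter (fun t : ZMod N => 4 * t = 0)).card ≤ 4 := by
  have h1 := IsAddCyclic.card_nsmul_eq_zero_le (α := ZMod N) (n := 4) (by omega)
  refine le_trans (le_of_eq ?_) h1
  congr 1
  ext t
  simp only [mem_filter, mem_univ, true_and]
  rw [nsmul_eq_mul]
  norm_num

/-- Counting `z` for a fixed matrix. -/
lemma card_z_le {N : ℕ} [NeZero N] (x : α → ZMod N) (ω : β → α → Fin 4)
    (hx : ∀ i, walk (ω i) x = 0) :
    (univ.filter (fun z : β → ZMod N => (∀ j, walk (fun i => ω i j) z = 0) ∧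
      4 * ∑ i, lft (z i) * walk (ω i) (fun j => lft (x j)) = 0)).card ≤
      4 * (kerT N (augM x ω)).card := by
  classical
  set S : ZMod N → Finset (β → ZMod N) := fun t => univ.filter (fun z : β → ZMod N =>
    ∀ l : Option α, ∑ i, (augM x ω i l : ZMod N) * z i = l.elim t (fun _ => 0)) with hS
  have hsub : univ.filter (fun z : β → ZMod N => (∀ j, walk (fun i => ω i j) z = 0) ∧
      4 * ∑ i, lft (z i) * walk (ω i) (fun j => lft (x j)) = 0) ⊆
      (univ.filter (fun t : ZMod N => 4 * t = 0)).biUnion S := by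
    intro z hz
    simp only [mem_filter, mem_univ, true_and] at hz
    obtain ⟨hz1, hz2⟩ := hz
    rw [mem_biUnion]
    refine ⟨∑ i, (augI x (ω i) : ZMod N) * z i, ?_, ?_⟩
    · simp only [mem_filter, mem_univ, true_and]
      have h1 : ((4 * ∑ i, ((z i).val : ℤ) * ((N : ℤ) * augI x (ω i)) : ℤ) : ZMod (N * N)) = 0 := by
        rw [← hz2]
        push_cast
        congr 1
        refine sum_congr rfl fun i _ => ?_
        rw [walk_lft x (ω i) (hx i)]
        unfold lft
        push_cast
        rfl
      rw [ZMod.intCast_zmod_eq_zero_iff_dvd] at h1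
      have h2 : (4 * ∑ i, ((z i).val : ℤ) * ((N : ℤ) * augI x (ω i)) : ℤ) =
          (N : ℤ) * (4 * ∑ i, ((z i).val : ℤ) * augI x (ω i)) := by
        rw [mul_left_comm, mul_sum, mul_sum]
        congr 1
        rw [mul_sum]
        refine sum_congr rfl fun i _ => ?_
        ring
      rw [h2] at h1
      push_cast at h1
      have hN : (N : ℤ) ≠ 0 := by exact_mod_cast NeZero.ne N
      have h3 : (N : ℤ) ∣ 4 * ∑ i, ((z i).val : ℤ) * augI x (ω i) :=
        Int.dvd_of_mul_dvd_mul_left hN h1
      have h4 := (ZMod.intCast_zmod_eq_zero_iff_dvd _ N).2 h3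
      rw [← h4]
      push_cast
      congr 1
      refine sum_congr rfl fun i _ => ?_
      rw [ZMod.natCast_zmod_val, mul_comm]
    · rw [hS]
      simp only [mem_filter, mem_univ, true_and]
      intro l
      cases l with
      | none => rfl
      | some l => exact hz1 l
  refine (Finset.card_le_card hsub).trans (Finset.card_biUnion_le.trans ?_)
  have h2 : ∀ t ∈ univ.filter (fun t : ZMod N => 4 * t = 0), (S t).card ≤
      (kerT N (augM x ω)).card := fun t _ => card_affine_le (augM x ω) _
  refine (sum_le_sum h2).trans ?_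
  rw [sum_const, smul_eq_mul]
  exact Nat.mul_le_mul_right _ card_four_le

/-- Solutions mod 2 of `a + H u = 0`. -/
def affS (a : β → ℤ) (H : β → α → ℤ) : Finset (α → ZMod 2) :=
  univ.filter (fun u => ∀ i, (a i : ZMod 2) + ∑ l, (H i l : ZMod 2) * u l = 0)

lemma card_affS_le (a : β → ℤ) (H : β → α → ℤ) : (affS a H).card ≤ (kerS 2 H).card := by
  by_cases hne : (affS a H).Nonempty
  · obtain ⟨u₀, hu₀⟩ := hne
    refine Finset.card_le_card_of_injOn (fun u => u - u₀) ?_ ?_
    · intro u hu
      rw [Finset.mem_coe] at hu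
      rw [Finset.mem_coe, mem_kerS]
      unfold affS at hu hu₀
      simp only [mem_filter, mem_univ, true_and] at hu hu₀
      intro i
      have h1 := hu i
      have h2 := hu₀ i
      simp only [Pi.sub_apply, mul_sub, sum_sub_distrib]
      rw [← h2] at h1
      have h3 := add_left_cancel h1
      rw [h3, sub_self]
    · intro z _ z' _ h
      exact sub_left_injective h
  · rw [Finset.not_nonempty_iff_eq_empty] at hne
    rw [hne]; simp

lemma card_kerS_option (a : β → ℤ) (H : β → α → ℤ) :
    (kerS 2 (fun i (o : Option α) => o.elim (a i) (H i))).card ≤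
      (kerS 2 H).card + (affS a H).card := by
  classical
  set S := kerS 2 (fun i (o : Option α) => o.elim (a i) (H i)) with hS
  have hsum : ∀ (u : Option α → ZMod 2) (i : β),
      ∑ o, (((fun i (o : Option α) => o.elim (a i) (H i)) i o : ℤ) : ZMod 2) * u o =
      (a i : ZMod 2) * u none + ∑ l, (H i l : ZMod 2) * u (some l) := by
    intro u i
    rw [Fintype.sum_option]
    rfl
  rw [← Finset.card_filter_add_card_filter_not (s := S) (fun u => u none = 0)]
  refine add_le_add ?_ ?_
  · refine Finset.card_le_card_of_injOn (fun u l => u (some l)) ?_ ?_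
    · intro u hu
      rw [Finset.mem_coe, mem_filter, hS, mem_kerS] at hu
      rw [Finset.mem_coe, mem_kerS]
      intro i
      have h1 := hu.1 i
      rw [hsum, hu.2, mul_zero, zero_add] at h1
      exact h1
    · intro u hu u' hu' h
      rw [Finset.mem_coe, mem_filter] at hu hu'
      funext o
      cases o with
      | none => rw [hu.2, hu'.2]
      | some l => exact congrFun h l
  · refine Finset.card_le_card_of_injOn (fun u l => u (some l)) ?_ ?_
    · intro u hu
      rw [Finset.mem_coe, mem_filter, hS, mem_kerS] at hu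
      rw [Finset.mem_coe]
      unfold affS
      rw [mem_filter]
      refine ⟨mem_univ _, fun i => ?_⟩
      have h1 := hu.1 i
      have h2 : u none = 1 := (zmod_two_cases (u none)).resolve_left hu.2
      rw [hsum, h2, mul_one] at h1
      exact h1
    · intro u hu u' hu' h
      rw [Finset.mem_coe, mem_filter] at hu hu'
      funext o
      cases o with
      | none =>
        rw [(zmod_two_cases (u none)).resolve_left hu.2,
          (zmod_two_cases (u' none)).resolve_left hu'.2]
      | some l => exact congrFun h l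

lemma pow_kerS_aug_le {N : ℕ} (x : α → ZMod N) (ω : β → α → Fin 4) (J : ℕ) :
    (kerS 2 (augM x ω)).card ^ J ≤ (kerS 2 (fun i l => st (ω i l))).card ^ J +
      (affS (fun i => augI x (ω i)) (fun i l => st (ω i l))).card *
        (2 * (kerS 2 (fun i l => st (ω i l))).card) ^ J := by
  set k := (kerS 2 (fun i l => st (ω i l))).card with hk
  set s := (affS (fun i => augI x (ω i)) (fun i l => st (ω i l))).card with hs
  have h1 : (kerS 2 (augM x ω)).card ≤ k + s :=
    card_kerS_option (fun i => augI x (ω i)) (fun i l => st (ω i l))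
  have h2 : s ≤ k := card_affS_le (fun i => augI x (ω i)) (fun i l => st (ω i l))
  rcases Nat.eq_zero_or_pos s with h0 | h0
  · rw [h0, zero_mul, add_zero]
    exact Nat.pow_le_pow_left (by omega) J
  · calc (kerS 2 (augM x ω)).card ^ J ≤ (2 * k) ^ J := Nat.pow_le_pow_left (by omega) J
      _ = 1 * (2 * k) ^ J := (one_mul _).symm
      _ ≤ s * (2 * k) ^ J := Nat.mul_le_mul_right _ h0
      _ ≤ _ := Nat.le_add_left _ _

end aug

end Vale.Agent.P160
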