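import Vale.Agent.P160.Model

set_option linter.unusedSectionVars false

namespace Vale.Agent.P160

open Finset

section cond

variable {G H' : Type*} [AddCommGroup G] [Fintype G] [DecidableEq G]
  [AddCommGroup H'] [Fintype H'] [DecidableEq H']
variable {E₁ E₂ : Type*} [Fintype E₁] [DecidableEq E₁] [Fintype E₂] [DecidableEq E₂]

lemma gwalk_map {M : ℕ} (l : G →+ H') (ω : E₁ → Fin M) (c : E₁ → G) :
    l (gwalk ω c) = gwalk ω (fun e => l (c e)) := by
  unfold gwalk
  rw [map_sum]
  refine sum_congr rfl fun e _ => ?_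
  rw [map_zsmul]

/-- Conditioning on the second family, using a linear form that vanishes on the first one. -/
lemma gpr_sum_le {M : ℕ} (hM : 4 ≤ M) (c₁ : E₁ → G) (c₂ : E₂ → G) (l : G →+ H')
    (hl : ∀ e, l (c₁ e) = 0) :
    gpr M (Sum.elim c₁ c₂) 0 ≤ gpr M c₁ 0 * gpr M (fun e => l (c₂ e)) 0 := by
  have hMpos : (0 : ℝ) < M := by exact_mod_cast (by omega : 0 < M)
  have key : ∀ a : E₂ → Fin M,
      ((univ.filter (fun ω : E₁ → Fin M => gwalk ω c₁ + gwalk a c₂ = 0)).card : ℝ) ≤
        if gwalk a (fun e => l (c₂ e)) = 0 then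
          ((univ.filter (fun ω : E₁ → Fin M => gwalk ω c₁ = 0)).card : ℝ) else 0 := by
    intro a
    split_ifs with h
    · have := gpr_le_gpr hM le_rfl (id : E₁ → E₁) Function.injective_id c₁ (-gwalk a c₂)
      unfold gpr at this
      rw [div_le_div_iff_of_pos_right (by positivity)] at this
      simpa only [add_eq_zero_iff_eq_neg, Nat.cast_le, ge_iff_le, id_eq] using this
    · have : (univ.filter (fun ω : E₁ → Fin M => gwalk ω c₁ + gwalk a c₂ = 0)) = ∅ := by
        apply Finset.filter_eq_empty_iff.2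
        intro ω _ hω
        apply h
        have h1 : l (gwalk ω c₁) = 0 := by
          rw [gwalk_map]
          unfold gwalk
          apply sum_eq_zero
          intro e _
          show st (ω e) • l (c₁ e) = 0
          rw [hl e, smul_zero]
        have h2 := congrArg l hω
        rw [map_add, h1, zero_add, map_zero, gwalk_map] at h2
        exact h2
      rw [this]
      simp
  have hcount : ((univ.filter (fun ω : E₁ ⊕ E₂ → Fin M =>
      gwalk ω (Sum.elim c₁ c₂) = 0)).card : ℝ) =
      ∑ a : E₂ → Fin M,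
        ((univ.filter (fun ω : E₁ → Fin M => gwalk ω c₁ + gwalk a c₂ = 0)).card : ℝ) := by
    have h1 : ∀ ω : E₁ ⊕ E₂ → Fin M, gwalk ω (Sum.elim c₁ c₂) =
        gwalk (fun e => ω (Sum.inl e)) c₁ + gwalk (fun e => ω (Sum.inr e)) c₂ := by
      intro ω
      unfold gwalk
      rw [Fintype.sum_sum_type]
      simp only [Sum.elim_inl, Sum.elim_inr]
    rw [← Nat.cast_sum]
    congr 1
    rw [← Finset.card_sigma]
    refine Finset.card_bij (fun ω _ => ⟨fun e => ω (Sum.inr e), fun e => ω (Sum.inl e)⟩)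
      ?_ ?_ ?_
    · intro ω hω
      simp only [mem_filter, mem_univ, true_and, mem_sigma] at hω ⊢
      rw [← h1]; exact hω
    · intro ω _ ω' _ h
      simp only [Sigma.mk.injEq, heq_eq_eq] at h
      funext e
      cases e with
      | inl e => exact congrFun h.2 e
      | inr e => exact congrFun h.1 e
    · rintro ⟨a, w⟩ h
      refine ⟨Sum.elim w a, ?_, rfl⟩
      simp only [mem_filter, mem_univ, true_and, mem_sigma] at h ⊢
      rw [h1]
      exact h
  unfold gpr
  rw [hcount, Fintype.card_sum, pow_add, div_mul_div_comm,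
    div_le_div_iff_of_pos_right (by positivity)]
  refine (sum_le_sum fun a _ => key a).trans ?_
  rw [← sum_filter, sum_const, nsmul_eq_mul, mul_comm]

end cond

section zmod

lemma two_mul_eq_zero_iff {J : ℕ} (x : ZMod (2 ^ (J + 1))) :
    2 * x = 0 ↔ x = 0 ∨ x = ((2 ^ J : ℕ) : ZMod (2 ^ (J + 1))) := by
  have hx : ((x.val : ℕ) : ZMod (2 ^ (J + 1))) = x := ZMod.natCast_zmod_val x
  constructor
  · intro h
    have h1 : ((2 * x.val : ℕ) : ZMod (2 ^ (J + 1))) = 0 := by
      push_cast
      rw [hx]; exact h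
    rw [ZMod.natCast_eq_zero_iff] at h1
    have h1' : ∃ k, x.val = 2 ^ J * k := by
      obtain ⟨k, hk⟩ := h1
      refine ⟨k, ?_⟩
      have h2 : 2 ^ (J + 1) * k = 2 * (2 ^ J * k) := by ring
      rw [h2] at hk
      exact Nat.eq_of_mul_eq_mul_left (by norm_num) hk
    obtain ⟨k, hk⟩ := h1'
    have hlt : x.val < 2 ^ (J + 1) := ZMod.val_lt x
    have hk2 : k < 2 := by
      by_contra hcon
      have : 2 ≤ k := by omega
      have h3 : 2 ^ J * 2 ≤ 2 ^ J * k := Nat.mul_le_mul_left _ this
      have h4 : 2 ^ (J + 1) = 2 ^ J * 2 := pow_succ 2 J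
      have h5 : x.val < 2 ^ J * 2 := lt_of_lt_of_eq hlt h4
      omega
    interval_cases k
    · left
      rw [← hx, hk]; simp
    · right
      rw [← hx, hk]; simp
  · rintro (h | h)
    · rw [h, mul_zero]
    · rw [h]
      have : (2 : ZMod (2 ^ (J + 1))) * ((2 ^ J : ℕ) : ZMod (2 ^ (J + 1))) =
          ((2 ^ (J + 1) : ℕ) : ZMod (2 ^ (J + 1))) := by
        push_cast; ring
      rw [this]
      exact ZMod.natCast_self _

variable {α : Type*} [Fintype α] [DecidableEq α]

/-- `P(2 * walk = 0) ≤ 2 P(walk = 0)`. -/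
lemma gpr_two_mul_le {J M : ℕ} (hM : 4 ≤ M) (v : α → ZMod (2 ^ (J + 1))) :
    gpr M (fun i => 2 * v i) 0 ≤ 2 * pr M v 0 := by
  have hw : ∀ ω : α → Fin M, gwalk ω (fun i => 2 * v i) = 2 * walk ω v := by
    intro ω
    unfold gwalk walk
    rw [mul_sum]
    refine sum_congr rfl fun i _ => ?_
    rw [zsmul_eq_mul]; ring
  have h1 := pr_le_pr_zero hM v ((2 ^ J : ℕ) : ZMod (2 ^ (J + 1)))
  have hMpos : (0 : ℝ) < M := by exact_mod_cast (by omega : 0 < M)
  have h2 : (univ.filter (fun ω : α → Fin M => gwalk ω (fun i => 2 * v i) = 0)).card ≤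
      (univ.filter (fun ω : α → Fin M => walk ω v = 0)).card +
      (univ.filter (fun ω : α → Fin M =>
        walk ω v = ((2 ^ J : ℕ) : ZMod (2 ^ (J + 1))))).card := by
    refine le_trans (Finset.card_le_card ?_) (Finset.card_union_le _ _)
    intro ω hω
    simp only [mem_filter, mem_univ, true_and, mem_union] at hω ⊢
    rw [hw] at hω
    exact (two_mul_eq_zero_iff _).1 hω
  have h3 : gpr M (fun i => 2 * v i) 0 ≤
      pr M v 0 + pr M v ((2 ^ J : ℕ) : ZMod (2 ^ (J + 1))) := by
    unfold gpr pr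
    rw [← add_div, div_le_div_iff_of_pos_right (by positivity)]
    exact_mod_cast h2
  linarith only [h1, h3]

lemma half_le_cf {M : ℕ} (hM : 8 ≤ M) {z : ℂ} (hz : ‖z‖ = 1) : 1 / 2 ≤ cf M z := by
  have h1 : -1 ≤ z.re := by
    have := Complex.abs_re_le_norm z
    rw [hz] at this
    exact (abs_le.mp this).1
  have hM' : (8 : ℝ) ≤ M := by exact_mod_cast hM
  have h2 : 2 / (M : ℝ) ≤ 1 / 4 := by
    rw [div_le_div_iff₀ (by positivity) (by norm_num)]; linarith only [hM']
  have h3 : 0 ≤ 2 / (M : ℝ) := by positivity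
  unfold cf
  nlinarith only [h2, h1, h3]

/-- Removing one coordinate costs at most a factor `2`. -/
lemma pr_remove_le {N M : ℕ} [NeZero N] (hM : 8 ≤ M) (v : α → ZMod N) (a : α) :
    pr M (fun i : {i // i ≠ a} => v i) 0 ≤ 2 * pr M v 0 := by
  have hN : (0 : ℝ) < N := by exact_mod_cast Nat.pos_of_ne_zero (NeZero.ne N)
  have h1 := Zf_eq (by omega : 2 ≤ M) v
  have h2 := Zf_eq (by omega : 2 ≤ M) (fun i : {i // i ≠ a} => v i)
  have h3 : Zf M (fun i : {i // i ≠ a} => v i) ≤ 2 * Zf M v := by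
    rw [h1, h2, mul_sum]
    refine sum_le_sum fun t _ => ?_
    rw [Fintype.prod_eq_mul_prod_subtype_ne _ a]
    have h4 := half_le_cf hM (norm_ee (t * v a))
    have h5 : 0 ≤ ∏ i : {i // i ≠ a}, cf M (ee (t * v i)) :=
      prod_nonneg fun i _ => cf_nonneg (by omega) (norm_ee _)
    (clear hN h1 h2; nlinarith)
  unfold Zf at h3
  have : N * pr M (fun i : {i // i ≠ a} => v i) 0 ≤ N * (2 * pr M v 0) := by linarith only [h3]
  exact le_of_mul_le_mul_left this hN

end zmod

section top

variable {ι : Type*} [Fintype ι] [DecidableEq ι] (D : Finset ι)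

/-- The linear form `g ↦ ∑_{i ∉ D} v i g i - ∑_{j ∈ D} v j g j`. -/
def formD {N : ℕ} (v : ι → ZMod N) : (ι → ZMod N) →+ ZMod N where
  toFun g := ∑ i, (if i ∈ D then -(v i) else v i) * g i
  map_zero' := by simp
  map_add' g h := by
    simp only [Pi.add_apply, mul_add, sum_add_distrib]

lemma formD_single {N : ℕ} (v : ι → ZMod N) (i : ι) (a : ZMod N) :
    formD D v (Pi.single i a) = (if i ∈ D then -(v i) else v i) * a := by
  unfold formD
  simp only [AddMonoidHom.coe_mk, ZeroHom.coe_mk]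
  rw [Finset.sum_eq_single i]
  · rw [Pi.single_eq_same]
  · intro j _ hj
    rw [Pi.single_eq_of_ne hj, mul_zero]
  · simp only [mem_univ, not_true_eq_false, Pi.single_eq_same, ite_mul, neg_mul, IsEmpty.forall_iff]

lemma formD_offp {N : ℕ} (v : ι → ZMod N) (p : {i // i ∉ D} × {i // i ∈ D}) :
    formD D v (symc v (offp D p)) = 0 := by
  have hne : p.1.1 ≠ p.2.1 := fun h => p.1.2 (h ▸ p.2.2)
  unfold offp
  rw [symc_ne v hne, map_add, formD_single, formD_single, if_neg p.1.2, if_pos p.2.2]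
  ring

/-- The star pairs `(l₀, l)` inside `D`. -/
def starp (l₀ : {i // i ∈ D}) (l : {l : {i // i ∈ D} // l ≠ l₀}) : Sym2 ι := s(l₀.1, l.1.1)

lemma formD_starp {N : ℕ} (v : ι → ZMod N) (l₀ : {i // i ∈ D})
    (l : {l : {i // i ∈ D} // l ≠ l₀}) :
    formD D v (symc v (starp D l₀ l)) = 2 * (-(v l₀) * v l.1) := by
  have hne : l₀.1 ≠ l.1.1 := fun h => l.2 (Subtype.ext h.symm)
  unfold starp
  rw [symc_ne v hne, map_add, formD_single, formD_single, if_pos l₀.2, if_pos l.1.2]
  ring

lemma topp_injective (l₀ : {i // i ∈ D}) :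
    Function.Injective (Sum.elim (offp D) (starp D l₀)) := by
  intro e e' h
  cases e with
  | inl p =>
    cases e' with
    | inl p' =>
      simp only [Sum.elim_inl] at h
      rw [offp_injective D h]
    | inr l' =>
      exfalso
      simp only [Sum.elim_inl, Sum.elim_inr] at h
      unfold offp starp at h
      simp only [Sym2.eq_iff] at h
      rcases h with h | h
      · exact p.1.2 (h.1 ▸ l₀.2)
      · exact p.1.2 (h.1 ▸ l'.1.2)
  | inr l =>
    cases e' with
    | inl p' =>
      exfalso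
      simp only [Sum.elim_inl, Sum.elim_inr] at h
      unfold offp starp at h
      simp only [Sym2.eq_iff] at h
      rcases h with h | h
      · exact p'.1.2 (h.1 ▸ l₀.2)
      · exact p'.1.2 (h.2 ▸ l.1.2)
    | inr l' =>
      simp only [Sum.elim_inr] at h
      unfold starp at h
      simp only [Sym2.eq_iff] at h
      rcases h with h | h
      · congr 1
        exact Subtype.ext (Subtype.ext h.2)
      · exfalso
        exact l'.2 (Subtype.ext h.1.symm)

/-- The top level estimate: one extra factor `4 P(walk = 0)`. -/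
lemma Spr_le_top {J : ℕ} {M : ℕ} (hM : 8 ≤ M) (v w : ι → ZMod (2 ^ (J + 1)))
    (l₀ : {i // i ∈ D}) (hl : IsUnit (v l₀)) :
    Spr v w ≤ 4 * pr M (fun j : {i // i ∈ D} => v j) 0 *
      Bpr M (fun j : {i // i ∈ D} => v j) (fun i : {i // i ∉ D} => v i) := by
  have h1 := bpr_le_gpr hM (Sum.elim (offp D) (starp D l₀)) (topp_injective D l₀) (symc v) w
  rw [← Spr_eq_bpr] at h1
  have h2 : (fun e => symc v (Sum.elim (offp D) (starp D l₀) e)) =
      Sum.elim (fun p => symc v (offp D p)) (fun l => symc v (starp D l₀ l)) := by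
    funext e
    cases e <;> rfl
  rw [h2] at h1
  have h3 := gpr_sum_le (by omega : 4 ≤ M) (fun p => symc v (offp D p))
    (fun l => symc v (starp D l₀ l)) (formD D v) (formD_offp D v)
  rw [gpr_offp] at h3
  simp only [formD_starp] at h3
  have h4 := gpr_two_mul_le (by omega : 4 ≤ M)
    (fun l : {l : {i // i ∈ D} // l ≠ l₀} => -(v l₀) * v l.1)
  have h5 : pr M (fun l : {l : {i // i ∈ D} // l ≠ l₀} => -(v l₀) * v l.1) 0 =
      pr M (fun l : {l : {i // i ∈ D} // l ≠ l₀} => v l.1) 0 := by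
    unfold pr
    congr 2
    congr 1
    ext ω
    simp only [mem_filter, mem_univ, true_and]
    have : walk ω (fun l : {l : {i // i ∈ D} // l ≠ l₀} => -(v l₀) * v l.1) =
        -(v l₀) * walk ω (fun l : {l : {i // i ∈ D} // l ≠ l₀} => v l.1) := by
      unfold walk
      rw [mul_sum]
      refine sum_congr rfl fun l _ => ?_
      ring
    rw [this]
    exact hl.neg.mul_right_eq_zero
  have h6 := pr_remove_le hM (fun j : {i // i ∈ D} => v j) l₀
  have hB : 0 ≤ Bpr M (fun j : {i // i ∈ D} => v j) (fun i : {i // i ∉ D} => v i) := by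
    unfold Bpr
    (clear * - hM; positivity)
  calc Spr v w ≤ _ := h1
    _ ≤ _ := h3
    _ ≤ Bpr M (fun j : {i // i ∈ D} => v j) (fun i : {i // i ∉ D} => v i) *
        (4 * pr M (fun j : {i // i ∈ D} => v j) 0) := by
        apply mul_le_mul_of_nonneg_left _ hB
        rw [h5] at h4
        linarith only [h4, h6]
    _ = _ := by ring

end top

end Vale.Agent.P160
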