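import Vale.Agent.P160.QDom
import Vale.Agent.P160.Top

set_option linter.unusedSectionVars false

namespace Vale.Agent.P160

open Finset

section mixed

variable {G : Type*} [AddCommGroup G] [Fintype G] [DecidableEq G]
variable {H' : Type*} [AddCommGroup H'] [Fintype H'] [DecidableEq H']
variable {E₁ E₂ : Type*} [Fintype E₁] [DecidableEq E₁] [Fintype E₂] [DecidableEq E₂]

/-- A linear form that kills all steps kills the walk. -/
lemma map_gwalk_eq_zero {M : ℕ} (ω : E₁ → Fin M) (c : E₁ → G) (l : G →+ H')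
    (hc : ∀ e, l (c e) = 0) : l (gwalk ω c) = 0 := by
  rw [gwalk_map]
  unfold gwalk
  apply sum_eq_zero
  intro e _
  show st (ω e) • l (c e) = 0
  rw [hc e, smul_zero]

/-- Conditioning on the second family, using a linear form that vanishes on the first one. -/
lemma prM_le (c₁ : E₁ → G) (c₂ : E₂ → G) (l : G →+ H') (hl₁ : ∀ e, l (c₁ e) = 0) :
    prM c₁ c₂ 0 ≤ gpr 4 c₁ 0 * gpr 8 (fun e => l (c₂ e)) 0 := by
  classical
  have key : ∀ a : E₂ → Fin 8,
      ((univ.filter (fun ω : E₁ → Fin 4 => gwalk ω c₁ = -gwalk a c₂)).card : ℝ) ≤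
        if gwalk a (fun e => l (c₂ e)) = 0 then
          ((univ.filter (fun ω : E₁ → Fin 4 => gwalk ω c₁ = 0)).card : ℝ) else 0 := by
    intro a
    split_ifs with h
    · have := gpr_le_gpr (M := 4) le_rfl le_rfl (id : E₁ → E₁) Function.injective_id c₁
        (-gwalk a c₂)
      unfold gpr at this
      rw [div_le_div_iff_of_pos_right (by positivity)] at this
      exact this
    · have : (univ.filter (fun ω : E₁ → Fin 4 => gwalk ω c₁ = -gwalk a c₂)) = ∅ := by
        apply Finset.filter_eq_empty_iff.2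
        intro ω _ hω
        apply h
        have h2 := congrArg l hω
        rw [map_gwalk_eq_zero ω c₁ l hl₁, map_neg, gwalk_map] at h2
        exact neg_eq_zero.1 h2.symm
      rw [this]
      simp
  have hcount : ((univ.filter (fun p : (E₁ → Fin 4) × (E₂ → Fin 8) =>
      gwalk p.1 c₁ + gwalk p.2 c₂ = 0)).card : ℝ) =
      ∑ a : E₂ → Fin 8,
        ((univ.filter (fun ω : E₁ → Fin 4 => gwalk ω c₁ = -gwalk a c₂)).card : ℝ) := by
    rw [← Nat.cast_sum]
    congr 1
    rw [← Finset.card_sigma]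
    refine Finset.card_bij (fun p _ => ⟨p.2, p.1⟩) ?_ ?_ ?_
    · intro p hp
      simp only [mem_filter, mem_univ, true_and, mem_sigma] at hp ⊢
      exact add_eq_zero_iff_eq_neg.1 hp
    · intro p _ p' _ h
      simp only [Sigma.mk.injEq, heq_eq_eq] at h
      exact Prod.ext h.2 h.1
    · rintro ⟨a, p⟩ h
      refine ⟨(p, a), ?_, rfl⟩
      simp only [mem_filter, mem_univ, true_and, mem_sigma] at h ⊢
      exact add_eq_zero_iff_eq_neg.2 h
  unfold prM gpr
  rw [hcount, div_mul_div_comm]
  have e1 : (4 : ℝ) ^ Fintype.card E₁ * 8 ^ Fintype.card E₂ =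
      ((4 : ℕ) : ℝ) ^ Fintype.card E₁ * ((8 : ℕ) : ℝ) ^ Fintype.card E₂ := by
    push_cast; ring
  rw [e1, div_le_div_iff_of_pos_right (by positivity)]
  refine (sum_le_sum fun a _ => key a).trans ?_
  rw [← sum_filter, sum_const, nsmul_eq_mul, mul_comm]

/-- Without second family the mixed walk is the half-lazy walk. -/
lemma prM_empty [IsEmpty E₂] (c₁ : E₁ → G) (c₂ : E₂ → G) (g : G) :
    prM c₁ c₂ g = gpr 4 c₁ g := by
  unfold prM gpr
  have h1 : (univ.filter (fun p : (E₁ → Fin 4) × (E₂ → Fin 8) =>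
      gwalk p.1 c₁ + gwalk p.2 c₂ = g)).card =
      (univ.filter (fun ω : E₁ → Fin 4 => gwalk ω c₁ = g)).card := by
    refine Finset.card_bij (fun p _ => p.1) ?_ ?_ ?_
    · intro p hp
      simp only [mem_filter, mem_univ, true_and] at hp ⊢
      have h2 : gwalk p.2 c₂ = 0 := by
        unfold gwalk; exact Finset.sum_of_isEmpty _
      rwa [h2, add_zero] at hp
    · intro p _ p' _ h
      exact Prod.ext h (Subsingleton.elim _ _)
    · intro ω hω
      refine ⟨(ω, fun e => isEmptyElim e), ?_, rfl⟩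
      simp only [mem_filter, mem_univ, true_and] at hω ⊢
      have h2 : gwalk (fun e : E₂ => (isEmptyElim e : Fin 8)) c₂ = 0 := by
        unfold gwalk; exact Finset.sum_of_isEmpty _
      rw [h2, add_zero, hω]
  rw [h1, Fintype.card_eq_zero (α := E₂), pow_zero, mul_one]
  norm_num

end mixed

end Vale.Agent.P160
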