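import Vale.Agent.P160.Top
import Vale.Agent.P160.Rank
import Vale.Agent.P160.Kernel
import Vale.Agent.P160.Count2

set_option linter.unusedSectionVars false

namespace Vale.Agent.P160

open Finset

section rowE

variable {α β : Type*} [Fintype α] [Fintype β] [DecidableEq α] [DecidableEq β]

/-- `E[1(H x = 0) * #(ker H mod 2) ^ j]` for the lazy random matrix `H`. -/
noncomputable def RowE (β : Type*) [Fintype β] [DecidableEq β] (M : ℕ) {N : ℕ} (j : ℕ)
    (x : α → ZMod N) : ℝ :=
  (∑ ω : β → α → Fin M, if (∀ i, walk (ω i) x = 0) then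
    ((kerS 2 (fun i l => st (ω i l))).card : ℝ) ^ j else 0) /
      (M : ℝ) ^ (Fintype.card β * Fintype.card α)

lemma RowE_nonneg (M : ℕ) {N : ℕ} (j : ℕ) (x : α → ZMod N) : 0 ≤ RowE β M j x := by
  unfold RowE
  apply div_nonneg _ (by positivity)
  apply sum_nonneg
  intro ω _
  split_ifs <;> positivity

lemma Bpr_nonneg (M : ℕ) {N : ℕ} (x : α → ZMod N) (z : β → ZMod N) : 0 ≤ Bpr M x z := by
  unfold Bpr
  positivity

lemma sum_Bpr_le {M j : ℕ} (hM : 0 < M) (x : α → ZMod (2 ^ j)) :
    ((2 : ℝ) ^ j) ^ Fintype.card α * ∑ z : β → ZMod (2 ^ j), Bpr M x z ≤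
      ((2 : ℝ) ^ j) ^ Fintype.card β * RowE β M j x := by
  have hMpos : (0 : ℝ) < M := by exact_mod_cast hM
  unfold Bpr RowE
  rw [← sum_div, mul_div_assoc', mul_div_assoc', div_le_div_iff_of_pos_right (by positivity)]
  have h1 : ∀ z : β → ZMod (2 ^ j), ((univ.filter (fun ω : β → α → Fin M =>
      (∀ i, walk (ω i) x = 0) ∧ ∀ l, walk (fun i => ω i l) z = 0)).card : ℝ) =
      ∑ ω : β → α → Fin M, if (∀ i, walk (ω i) x = 0) then
        (if z ∈ kerT (2 ^ j) (fun i l => st (ω i l)) then (1 : ℝ) else 0) else 0 := by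
    intro z
    rw [Finset.card_filter]
    push_cast
    refine sum_congr rfl fun ω _ => ?_
    by_cases h : ∀ i, walk (ω i) x = 0
    · rw [if_pos h]
      by_cases h' : ∀ l, walk (fun i => ω i l) z = 0
      · rw [if_pos ⟨h, h'⟩, if_pos]
        rw [mem_kerT]; exact h'
      · rw [if_neg (fun hh => h' hh.2), if_neg]
        rw [mem_kerT]; exact h'
    · rw [if_neg (fun hh => h hh.1), if_neg h]
  rw [sum_congr rfl fun z _ => h1 z, sum_comm, mul_sum, mul_sum]
  refine sum_le_sum fun ω _ => ?_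
  by_cases h : ∀ i, walk (ω i) x = 0
  · simp only [if_pos h]
    rw [sum_boole]
    have h2 : univ.filter (fun z : β → ZMod (2 ^ j) =>
        z ∈ kerT (2 ^ j) (fun i l => st (ω i l))) = kerT (2 ^ j) (fun i l => st (ω i l)) := by
      ext z; simp
    rw [h2]
    have h3 := card_kerT_rank 2 (fun i l => st (ω i l)) j
    have h4 : (((kerT (2 ^ j) (fun i l => st (ω i l))).card *
        (2 ^ j) ^ Fintype.card α : ℕ) : ℝ) ≤
        (((2 ^ j) ^ Fintype.card β * (kerS 2 (fun i l => st (ω i l))).card ^ j : ℕ) : ℝ) := by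
      exact_mod_cast h3
    push_cast at h4
    linarith
  · simp only [if_neg h]
    simp

end rowE

section union

variable {ι : Type*} [Fintype ι] [DecidableEq ι] (D : Finset ι)

lemma sum_split {R : Type*} [Fintype R] (F : ({i // i ∈ D} → R) → ({i // i ∉ D} → R) → ℝ) :
    ∑ v : ι → R, F (fun j => v j) (fun i => v i) = ∑ x, ∑ z, F x z := by
  classical
  rw [← Fintype.sum_prod_type' (f := F)]
  exact Equiv.sum_comp (Equiv.piEquivPiSubtypeProd (fun i => i ∈ D) (fun _ => R))
    (fun p => F p.1 p.2)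

lemma pr_unit_mul {α : Type*} [Fintype α] [DecidableEq α] {M N : ℕ} {t : ZMod N} (ht : IsUnit t)
    (v : α → ZMod N) : pr M (fun i => t * v i) 0 = pr M v 0 := by
  unfold pr
  congr 2
  congr 1
  ext ω
  simp only [mem_filter, mem_univ, true_and]
  have : walk ω (fun i => t * v i) = t * walk ω v := by
    unfold walk
    rw [mul_sum]
    refine sum_congr rfl fun l _ => ?_
    ring
  rw [this]
  exact ht.mul_right_eq_zero

lemma nu_unit_mul {α : Type*} [Fintype α] {N : ℕ} {t : ZMod N} (ht : IsUnit t)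
    (v : α → ZMod N) : nu (fun i => t * v i) = nu v := by
  classical
  unfold nu
  congr 1
  ext i
  simp only [mem_filter, mem_univ, true_and]
  exact ⟨fun h => isUnit_of_mul_isUnit_right h, fun h => ht.mul h⟩

end union

end Vale.Agent.P160
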