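import Vale.Agent.P160.QKer
import Vale.Agent.P160.Union

set_option linter.unusedSectionVars false

namespace Vale.Agent.P160

open Finset

section sumz

variable {α β : Type*} [Fintype α] [Fintype β] [DecidableEq α] [DecidableEq β]

/-- Like `RowE`, with the number of affine solutions as an extra weight. -/
noncomputable def RowA (β : Type*) [Fintype β] [DecidableEq β] (J : ℕ)
    (x : α → ZMod (2 ^ (J + 1))) : ℝ :=
  (∑ ω : β → α → Fin 4, if (∀ i, walk (ω i) x = 0) then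
    ((affS (fun i => augI x (ω i)) (fun i l => st (ω i l))).card : ℝ) *
    ((kerS 2 (fun i l => st (ω i l))).card : ℝ) ^ (J + 1) else 0) /
      (4 : ℝ) ^ (Fintype.card β * Fintype.card α)

lemma sum_Bq_le {J : ℕ} (x : α → ZMod (2 ^ (J + 1))) :
    ((2 : ℝ) ^ (J + 1)) ^ (Fintype.card α + 1) * ∑ z : β → ZMod (2 ^ (J + 1)), Bq x z ≤
      4 * ((2 : ℝ) ^ (J + 1)) ^ Fintype.card β *
        (RowE β 4 (J + 1) x + 2 ^ (J + 1) * RowA β J x) := by
  have e4 : ((4 : ℕ) : ℝ) = 4 := by norm_num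
  unfold Bq RowE RowA
  rw [← sum_div, e4, mul_div_assoc', mul_div_assoc', ← add_div, mul_div_assoc',
    div_le_div_iff_of_pos_right (by positivity)]
  have h1 : ∀ z : β → ZMod (2 ^ (J + 1)), ((univ.filter (fun ω : β → α → Fin 4 =>
      ((∀ i, walk (ω i) x = 0) ∧ ∀ j, walk (fun i => ω i j) z = 0) ∧
      4 * ∑ i, lft (z i) * walk (ω i) (fun j => lft (x j)) = 0)).card : ℝ) =
      ∑ ω : β → α → Fin 4, if (∀ i, walk (ω i) x = 0) then
        (if (∀ j, walk (fun i => ω i j) z = 0) ∧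
      4 * ∑ i, lft (z i) * walk (ω i) (fun j => lft (x j)) = 0 then (1 : ℝ) else 0) else 0 := by
    intro z
    rw [Finset.card_filter]
    push_cast
    refine sum_congr rfl fun ω _ => ?_
    by_cases h : ∀ i, walk (ω i) x = 0
    · rw [if_pos h]
      by_cases h' : (∀ j, walk (fun i => ω i j) z = 0) ∧
        4 * ∑ i, lft (z i) * walk (ω i) (fun j => lft (x j)) = 0
      · rw [if_pos ⟨⟨h, h'.1⟩, h'.2⟩, if_pos h']
      · rw [if_neg (fun hh => h' ⟨hh.1.2, hh.2⟩), if_neg h']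
    · rw [if_neg (fun hh => h hh.1.1), if_neg h]
  rw [sum_congr rfl fun z _ => h1 z, sum_comm, mul_sum, mul_sum, ← sum_add_distrib, mul_sum]
  refine sum_le_sum fun ω _ => ?_
  by_cases h : ∀ i, walk (ω i) x = 0
  · simp only [if_pos h]
    rw [sum_boole]
    have h2 := card_z_le x ω h
    have h3 := card_kerT_rank 2 (augM x ω) (J + 1)
    have h4 := pow_kerS_aug_le x ω (J + 1)
    rw [Fintype.card_option] at h3
    set c1 := (univ.filter (fun z : β → ZMod (2 ^ (J + 1)) => (∀ j, walk (fun i => ω i j) z = 0) ∧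
      4 * ∑ i, lft (z i) * walk (ω i) (fun j => lft (x j)) = 0)).card with hc1
    set c2 := (kerT (2 ^ (J + 1)) (augM x ω)).card with hc2
    set c3 := (kerS 2 (augM x ω)).card with hc3
    set k := (kerS 2 (fun i l => st (ω i l))).card with hk
    set s := (affS (fun i => augI x (ω i)) (fun i l => st (ω i l))).card with hs
    have h5 : (2 ^ (J + 1)) ^ (Fintype.card α + 1) * c1 ≤
        4 * (2 ^ (J + 1)) ^ Fintype.card β * (k ^ (J + 1) + 2 ^ (J + 1) * (s * k ^ (J + 1))) := by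
      calc (2 ^ (J + 1)) ^ (Fintype.card α + 1) * c1
          ≤ (2 ^ (J + 1)) ^ (Fintype.card α + 1) * (4 * c2) := Nat.mul_le_mul_left _ h2
        _ = 4 * (c2 * (2 ^ (J + 1)) ^ (Fintype.card α + 1)) := by ring
        _ ≤ 4 * ((2 ^ (J + 1)) ^ Fintype.card β * c3 ^ (J + 1)) := Nat.mul_le_mul_left _ h3
        _ ≤ 4 * ((2 ^ (J + 1)) ^ Fintype.card β * (k ^ (J + 1) + s * (2 * k) ^ (J + 1))) :=
            Nat.mul_le_mul_left _ (Nat.mul_le_mul_left _ h4)
        _ = _ := by rw [mul_pow]; ring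
    exact_mod_cast h5
  · simp only [if_neg h]
    simp

/-- Lifting a pair (vector mod `2 ^ (J + 1)`, vector mod 2) to a vector mod `2 ^ (J + 2)`. -/
def up {J : ℕ} (x : α → ZMod (2 ^ (J + 1))) (u : α → ZMod 2) : α → ZMod (2 ^ (J + 2)) :=
  fun j => (((x j).val + 2 ^ (J + 1) * (u j).val : ℕ) : ZMod (2 ^ (J + 2)))

lemma up_cast {J : ℕ} (x : α → ZMod (2 ^ (J + 1))) (u : α → ZMod 2) :
    (fun j => ((up x u j).cast : ZMod (2 ^ (J + 1)))) = x := by
  funext j
  unfold up
  rw [ZMod.cast_natCast (pow_dvd_pow 2 (by omega))]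
  push_cast
  rw [ZMod.natCast_zmod_val]
  have : ((2 : ZMod (2 ^ (J + 1))) ^ (J + 1)) = 0 := by
    have := ZMod.natCast_self (2 ^ (J + 1))
    push_cast at this
    exact this
  rw [this, zero_mul, add_zero]

lemma up_lt {J : ℕ} (x : ZMod (2 ^ (J + 1))) (u : ZMod 2) :
    x.val + 2 ^ (J + 1) * u.val < 2 ^ (J + 2) := by
  have h1 : x.val < 2 ^ (J + 1) := ZMod.val_lt x
  have h2 : u.val < 2 := ZMod.val_lt u
  have h3 : 2 ^ (J + 2) = 2 ^ (J + 1) * 2 := pow_succ 2 (J + 1)
  rw [h3]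
  have h4 : 2 ^ (J + 1) * u.val ≤ 2 ^ (J + 1) * 1 := Nat.mul_le_mul_left _ (by omega)
  omega

lemma up_injective {J : ℕ} :
    Function.Injective (fun p : (α → ZMod (2 ^ (J + 1))) × (α → ZMod 2) => up p.1 p.2) := by
  rintro ⟨x, u⟩ ⟨x', u'⟩ h
  simp only at h
  have h1 : x = x' := by
    rw [← up_cast x u, h, up_cast]
  subst h1
  congr 1
  funext j
  have h2 := congrFun h j
  unfold up at h2
  have h3 := congrArg ZMod.val h2
  rw [ZMod.val_cast_of_lt (up_lt _ _), ZMod.val_cast_of_lt (up_lt _ _)] at h3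
  have h4 : 2 ^ (J + 1) * (u j).val = 2 ^ (J + 1) * (u' j).val := by omega
  exact ZMod.val_injective _ (Nat.eq_of_mul_eq_mul_left (by positivity) h4)

lemma walk_up {J : ℕ} (x : α → ZMod (2 ^ (J + 1))) (u : α → ZMod 2) (h : α → Fin 4)
    (hx : walk h x = 0) (hu : (augI x h : ZMod 2) + ∑ l, (st (h l) : ZMod 2) * u l = 0) :
    walk h (up x u) = 0 := by
  have h1 : ((2 : ℕ) : ℤ) ∣ augI x h + ∑ l, st (h l) * ((u l).val : ℤ) := by
    rw [← ZMod.intCast_zmod_eq_zero_iff_dvd]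
    push_cast
    rw [← hu]
    congr 1
    refine sum_congr rfl fun l _ => ?_
    rw [ZMod.natCast_zmod_val]
  have h2 : walk h (up x u) = (((((2 ^ (J + 1) : ℕ) : ℤ)) *
      (augI x h + ∑ l, st (h l) * ((u l).val : ℤ)) : ℤ) : ZMod (2 ^ (J + 2))) := by
    rw [mul_add, augI_mul x h hx]
    unfold walk up
    push_cast
    rw [mul_sum, ← sum_add_distrib]
    refine sum_congr rfl fun l _ => ?_
    ring
  rw [h2, ZMod.intCast_zmod_eq_zero_iff_dvd]
  have h3 : ((2 ^ (J + 2) : ℕ) : ℤ) = ((2 ^ (J + 1) : ℕ) : ℤ) * ((2 : ℕ) : ℤ) := by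
    push_cast; ring
  rw [h3]
  exact mul_dvd_mul_left _ h1

lemma sum_RowA_le {J : ℕ} (C : Finset (α → ZMod (2 ^ (J + 1))))
    (C₂ : Finset (α → ZMod (2 ^ (J + 2))))
    (hC : ∀ x₂ : α → ZMod (2 ^ (J + 2)),
      (fun j => ((x₂ j).cast : ZMod (2 ^ (J + 1)))) ∈ C → x₂ ∈ C₂) :
    ∑ x ∈ C, RowA β J x ≤ ∑ x₂ ∈ C₂, RowE β 4 (J + 1) x₂ := by
  classical
  have e4 : ((4 : ℕ) : ℝ) = 4 := by norm_num
  unfold RowA RowE
  rw [← sum_div, ← sum_div, e4, div_le_div_iff_of_pos_right (by positivity)]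
  set G : (α → ZMod (2 ^ (J + 2))) → ℝ := fun x₂ => ∑ ω : β → α → Fin 4,
    if (∀ i, walk (ω i) x₂ = 0) then
    ((kerS 2 (fun i l => st (ω i l))).card : ℝ) ^ (J + 1) else 0 with hG
  have hGnn : ∀ x₂, 0 ≤ G x₂ := by
    intro x₂
    rw [hG]
    apply sum_nonneg
    intro ω _
    split_ifs <;> positivity
  have h1 : ∀ x ∈ C, (∑ ω : β → α → Fin 4, if (∀ i, walk (ω i) x = 0) then
      ((affS (fun i => augI x (ω i)) (fun i l => st (ω i l))).card : ℝ) *
      ((kerS 2 (fun i l => st (ω i l))).card : ℝ) ^ (J + 1) else 0) ≤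
      ∑ u : α → ZMod 2, G (up x u) := by
    intro x _
    rw [hG]
    simp only
    rw [sum_comm]
    refine sum_le_sum fun ω _ => ?_
    split_ifs with h
    · have h2 : ((affS (fun i => augI x (ω i)) (fun i l => st (ω i l))).card : ℝ) =
          ∑ u : α → ZMod 2, if u ∈ affS (fun i => augI x (ω i)) (fun i l => st (ω i l))
            then (1 : ℝ) else 0 := by
        rw [sum_boole]
        congr 2
        ext u
        simp
      rw [h2, sum_mul]
      refine sum_le_sum fun u _ => ?_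
      by_cases hu : u ∈ affS (fun i => augI x (ω i)) (fun i l => st (ω i l))
      · rw [if_pos hu, one_mul, if_pos]
        intro i
        unfold affS at hu
        rw [mem_filter] at hu
        exact walk_up x u (ω i) (h i) (hu.2 i)
      · rw [if_neg hu, zero_mul]
        split_ifs <;> positivity
    · apply sum_nonneg
      intro u _
      split_ifs <;> positivity
  refine (sum_le_sum h1).trans ?_
  rw [← Finset.sum_product']
  have h3 : ∑ p ∈ C ×ˢ (univ : Finset (α → ZMod 2)), G (up p.1 p.2) =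
      ∑ x₂ ∈ (C ×ˢ (univ : Finset (α → ZMod 2))).map ⟨fun p => up p.1 p.2, up_injective⟩,
        G x₂ := by
    rw [sum_map]
    rfl
  rw [h3]
  apply Finset.sum_le_sum_of_subset_of_nonneg
  · intro x₂ hx₂
    rw [mem_map] at hx₂
    obtain ⟨p, hp, rfl⟩ := hx₂
    rw [mem_product] at hp
    apply hC
    have := up_cast p.1 p.2
    simp only [Function.Embedding.coeFn_mk]
    rw [this]
    exact hp.1
  · intro x₂ _ _
    exact hGnn x₂

lemma RowE_eq_Phi {M j N : ℕ} (x : α → ZMod N) :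
    RowE β M j x = Phi x M 2 j (Fintype.card β) ⊤ := by
  classical
  have : Fact (Nat.Prime 2) := ⟨Nat.prime_two⟩
  set e := Fintype.equivFin β with he
  unfold RowE Phi
  rw [← pow_mul, mul_comm (Fintype.card α)]
  congr 1
  refine Fintype.sum_equiv (Equiv.arrowCongr e (Equiv.refl _)) _ _ ?_
  intro ω
  have hiff : (∀ i, walk (ω i) x = 0) ↔
      ∀ i, walk ((Equiv.arrowCongr e (Equiv.refl (α → Fin M))) ω i) x = 0 := by
    constructor
    · intro h i
      exact h (e.symm i)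
    · intro h i
      have := h (e i)
      simpa using this
  by_cases hω : ∀ i, walk (ω i) x = 0
  · rw [if_pos hω, if_pos (hiff.mp hω), ← kerS_card_eq _ e]
    congr 4
    funext i l
    simp
  · rw [if_neg hω, if_neg (fun h => hω (hiff.mpr h))]

end sumz

end Vale.Agent.P160
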