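import Vale.Agent.P160.MathlibUsed
attribute [-instance] ProperSMul.toContinuousSMul IsTopologicalTorsor.toContinuousSMul IdemSemiring.toCanonicallyOrderedAdd IdemSemiring.toMulLeftMono IdemSemiring.toMulRightMono AddQuantale.instAddLeftMono AddQuantale.instAddRightMono Quantale.instMulLeftMono Quantale.instMulRightMono FiniteDimensional.rclike_to_real IsScalarTower.complexToReal FiniteDimensional.complexToReal

namespace Vale.Agent.P160

open Finset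

/-- `∏_{l=1}^{n} 1/(1-σ^l)`. -/
noncomputable def DD (σ : ℝ) (n : ℕ) : ℝ := ∏ l ∈ range n, (1 / (1 - σ ^ (l + 1)))

lemma DD_zero (σ : ℝ) : DD σ 0 = 1 := by simp [DD]

lemma DD_succ (σ : ℝ) (n : ℕ) : DD σ (n + 1) = DD σ n * (1 / (1 - σ ^ (n + 1))) := by
  unfold DD
  rw [prod_range_succ]

lemma DD_nonneg {σ : ℝ} (h0 : 0 ≤ σ) (h1 : σ < 1) (n : ℕ) : 0 ≤ DD σ n := by
  unfold DD
  refine prod_nonneg fun l _ => ?_
  have : σ ^ (l + 1) ≤ 1 := pow_le_one₀ h0 h1.le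
  exact div_nonneg zero_le_one (by linarith)

lemma DD_le {σ : ℝ} (h0 : 0 ≤ σ) (h1 : σ < 1) (n : ℕ) :
    DD σ n ≤ Real.exp (1 / (1 - σ) ^ 2) := by
  have h1' : 0 < 1 - σ := by linarith
  have hterm : ∀ l ∈ range n, 1 / (1 - σ ^ (l + 1)) ≤ Real.exp (σ ^ l / (1 - σ)) := by
    intro l _
    have hx0 : 0 ≤ σ ^ (l + 1) := pow_nonneg h0 _
    have hx1 : σ ^ (l + 1) ≤ σ := by
      calc σ ^ (l + 1) ≤ σ ^ 1 := pow_le_pow_of_le_one h0 h1.le (by omega)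
        _ = σ := pow_one _
    have hpos : 0 < 1 - σ ^ (l + 1) := by linarith
    have hle : σ ^ (l + 1) ≤ σ ^ l := pow_le_pow_of_le_one h0 h1.le (by omega)
    calc 1 / (1 - σ ^ (l + 1)) = 1 + σ ^ (l + 1) / (1 - σ ^ (l + 1)) := by
          field_simp; ring
      _ ≤ 1 + σ ^ l / (1 - σ) := by
          gcongr
      _ ≤ Real.exp (σ ^ l / (1 - σ)) := by
          have := Real.add_one_le_exp (σ ^ l / (1 - σ))
          linarith
  calc DD σ n ≤ ∏ l ∈ range n, Real.exp (σ ^ l / (1 - σ)) := by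
        refine prod_le_prod (fun l _ => ?_) hterm
        have : σ ^ (l + 1) ≤ 1 := pow_le_one₀ h0 h1.le
        exact div_nonneg zero_le_one (by linarith)
    _ = Real.exp (∑ l ∈ range n, σ ^ l / (1 - σ)) := by rw [Real.exp_sum]
    _ ≤ Real.exp (1 / (1 - σ) ^ 2) := by
        refine Real.exp_le_exp.mpr ?_
        rw [← sum_div, div_le_div_iff₀ h1' (by positivity)]
        have hg : (∑ l ∈ range n, σ ^ l) * (1 - σ) ≤ 1 := by
          have := geom_sum_mul_neg σ n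
          rw [this]
          have : 0 ≤ σ ^ n := pow_nonneg h0 _
          linarith
        nlinarith

/-- Terms of the supersolution. -/
noncomputable def TT (N σ s : ℝ) (m i n : ℕ) : ℝ := (N * σ ^ m * s ^ n) ^ i * DD σ n

/-- The supersolution of the row recursion. -/
noncomputable def SS (N σ s : ℝ) (m k : ℕ) : ℝ := ∑ x ∈ antidiagonal k, TT N σ s m x.1 x.2

lemma TT_nonneg {N σ s : ℝ} (hN : 0 ≤ N) (h0 : 0 ≤ σ) (h1 : σ < 1) (hs : 0 ≤ s) (m i n : ℕ) :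
    0 ≤ TT N σ s m i n := by
  unfold TT
  exact mul_nonneg (by positivity) (DD_nonneg h0 h1 n)

lemma TT_rec {N σ s : ℝ} (h0 : 0 < σ) (h1 : σ < 1) (hs : σ * s = 1) (m i n : ℕ) :
    TT N σ s (m + 1) i (n + 1) = σ ^ (i + n + 1) * TT N σ s m i (n + 1) + TT N σ s m i n := by
  unfold TT
  have hne : 1 - σ ^ (n + 1) ≠ 0 := by
    have : σ ^ (n + 1) < 1 := pow_lt_one₀ h0.le h1 (by omega)
    have : 0 < 1 - σ ^ (n + 1) := by linarith
    exact this.ne'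
  have hD : DD σ n = (1 - σ ^ (n + 1)) * DD σ (n + 1) := by
    rw [DD_succ]
    field_simp
  rw [hD]
  have e1 : (N * σ ^ (m + 1) * s ^ (n + 1)) ^ i = (N * σ ^ m * s ^ n) ^ i := by
    congr 1
    calc N * σ ^ (m + 1) * s ^ (n + 1) = N * σ ^ m * s ^ n * (σ * s) := by ring
      _ = _ := by rw [hs, mul_one]
  have e2 : σ ^ (i + n + 1) * (N * σ ^ m * s ^ (n + 1)) ^ i =
      σ ^ (n + 1) * (N * σ ^ m * s ^ n) ^ i := by
    calc σ ^ (i + n + 1) * (N * σ ^ m * s ^ (n + 1)) ^ i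
        = σ ^ (n + 1) * (σ * (N * σ ^ m * s ^ (n + 1))) ^ i := by
          rw [mul_pow σ]; ring
      _ = σ ^ (n + 1) * (N * σ ^ m * s ^ n * (σ * s)) ^ i := by ring_nf
      _ = _ := by rw [hs, mul_one]
  rw [e1]
  calc (N * σ ^ m * s ^ n) ^ i * DD σ (n + 1)
      = (σ ^ (n + 1) * (N * σ ^ m * s ^ n) ^ i) * DD σ (n + 1) +
        (N * σ ^ m * s ^ n) ^ i * ((1 - σ ^ (n + 1)) * DD σ (n + 1)) := by ring
    _ = _ := by rw [← e2]; ring

lemma TT_rec0 {N σ s : ℝ} (m i : ℕ) :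
    TT N σ s (m + 1) i 0 = σ ^ i * TT N σ s m i 0 := by
  unfold TT
  simp only [pow_zero, mul_one, DD_zero]
  rw [pow_succ, ← mul_pow]
  ring

lemma SS_rec {N σ s : ℝ} (h0 : 0 < σ) (h1 : σ < 1) (hs : σ * s = 1) (m k : ℕ) :
    σ ^ (k + 1) * SS N σ s m (k + 1) + SS N σ s m k = SS N σ s (m + 1) (k + 1) := by
  unfold SS
  rw [Finset.Nat.antidiagonal_succ', sum_cons, sum_cons, sum_map, sum_map, TT_rec0, mul_add,
    add_assoc, mul_sum]
  congr 1
  rw [← sum_add_distrib]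
  refine sum_congr rfl fun x hx => ?_
  rw [HasAntidiagonal.mem_antidiagonal] at hx
  have := TT_rec (N := N) h0 h1 hs m x.1 x.2
  simp only [Function.Embedding.prodMap, Function.Embedding.coeFn_mk, Prod.map,
    Function.Embedding.refl_apply, Nat.succ_eq_add_one]
  rw [this, hx]

lemma SS_zero (N σ s : ℝ) (m : ℕ) : SS N σ s m 0 = 1 := by
  simp [SS, TT, DD_zero]

lemma SS_nonneg {N σ s : ℝ} (hN : 0 ≤ N) (h0 : 0 ≤ σ) (h1 : σ < 1) (hs : 0 ≤ s) (m k : ℕ) :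
    0 ≤ SS N σ s m k := sum_nonneg fun _ _ => TT_nonneg hN h0 h1 hs _ _ _

lemma le_SS_zero {N σ s : ℝ} (hN : 0 ≤ N) (h0 : 0 ≤ σ) (h1 : σ < 1) (hs : 0 ≤ s) (k : ℕ) :
    N ^ k ≤ SS N σ s 0 k := by
  unfold SS
  calc N ^ k = TT N σ s 0 (k, 0).1 (k, 0).2 := by simp [TT, DD_zero]
    _ ≤ _ := single_le_sum (f := fun x : ℕ × ℕ => TT N σ s 0 x.1 x.2)
        (fun x _ => TT_nonneg hN h0 h1 hs _ _ _) (by simp)

lemma SS_le {N σ s : ℝ} (hN : 0 ≤ N) (h0 : 0 ≤ σ) (h1 : σ < 1) (hs : 1 ≤ s) (m k : ℕ)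
    (h : N * σ ^ m * s ^ k ≤ 1 / 2) : SS N σ s m k ≤ 2 * Real.exp (1 / (1 - σ) ^ 2) := by
  unfold SS
  have hterm : ∀ x ∈ antidiagonal k, TT N σ s m x.1 x.2 ≤
      (1 / 2) ^ x.1 * Real.exp (1 / (1 - σ) ^ 2) := by
    intro x hx
    rw [HasAntidiagonal.mem_antidiagonal] at hx
    unfold TT
    have h2 : N * σ ^ m * s ^ x.2 ≤ 1 / 2 := by
      refine le_trans ?_ h
      gcongr
      omega
    have h3 : 0 ≤ N * σ ^ m * s ^ x.2 := by positivity
    gcongr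
    · exact DD_nonneg h0 h1 _
    · exact DD_le h0 h1 _
  refine (sum_le_sum hterm).trans ?_
  rw [← sum_mul]
  gcongr
  rw [Finset.Nat.sum_antidiagonal_eq_sum_range_succ (fun i _ => (1 / 2 : ℝ) ^ i)]
  have hgeom := geom_sum_eq (show (1 / 2 : ℝ) ≠ 1 by norm_num) k.succ
  rw [hgeom]
  have : 0 ≤ (1 / 2 : ℝ) ^ k.succ := by positivity
  rw [div_le_iff_of_neg (by norm_num)]
  linarith

end Vale.Agent.P160
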