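import Vale.Agent.P160.Count1
import Vale.Agent.P160.RowsAux

namespace Vale.Agent.P160

open Finset

section
variable {ι : Type*} [Fintype ι] {M q : ℕ}

lemma walk_add {N : ℕ} (r : ι → Fin M) (u w : ι → ZMod N) :
    walk r (u + w) = walk r u + walk r w := by
  unfold walk
  rw [← sum_add_distrib]
  exact sum_congr rfl fun i _ => by rw [Pi.add_apply]; ring

lemma walk_smul {N : ℕ} (r : ι → Fin M) (c : ZMod N) (u : ι → ZMod N) :
    walk r (c • u) = c * walk r u := by
  unfold walk
  rw [mul_sum]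
  exact sum_congr rfl fun i _ => by rw [Pi.smul_apply, smul_eq_mul]; ring

/-- The linear functional of a row modulo `q`. -/
def rowFun (q : ℕ) (r : ι → Fin M) : (ι → ZMod q) →ₗ[ZMod q] ZMod q where
  toFun u := walk r u
  map_add' := walk_add r
  map_smul' c u := by rw [walk_smul]; rfl

@[simp] lemma rowFun_apply (r : ι → Fin M) (u : ι → ZMod q) : rowFun q r u = walk r u := rfl

/-- Vectors modulo `q` orthogonal to a row. -/
def KerR (q : ℕ) (r : ι → Fin M) : Submodule (ZMod q) (ι → ZMod q) := LinearMap.ker (rowFun q r)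

lemma mem_KerR {r : ι → Fin M} {u : ι → ZMod q} : u ∈ KerR q r ↔ walk r u = 0 := by
  unfold KerR
  rw [LinearMap.mem_ker, rowFun_apply]

end

section
variable {ι : Type*} [Fintype ι] [DecidableEq ι] {M q N : ℕ}

open Classical in
/-- Average over `m` lazy rows of `1(all rows orthogonal to v) * |K ∩ kernel|^j`. -/
noncomputable def Phi (v : ι → ZMod N) (M q j m : ℕ) (K : Submodule (ZMod q) (ι → ZMod q)) : ℝ :=
  (∑ ω : Fin m → ι → Fin M, if ∀ i, walk (ω i) v = 0 then
    ((Nat.card ↥(K ⊓ ⨅ i, KerR q (ω i)) : ℕ) : ℝ) ^ j else 0) / ((M : ℝ) ^ Fintype.card ι) ^ m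

lemma Phi_zero (v : ι → ZMod N) (j : ℕ) (K : Submodule (ZMod q) (ι → ZMod q)) :
    Phi v M q j 0 K = ((Nat.card ↥K : ℕ) : ℝ) ^ j := by
  unfold Phi
  simp only [univ_unique, IsEmpty.forall_iff, ↓reduceIte, le_iInf_iff, inf_of_le_left, sum_const, card_singleton, one_smul, pow_zero, div_one]

open Classical in
lemma Phi_succ (v : ι → ZMod N) (j m : ℕ) (K : Submodule (ZMod q) (ι → ZMod q)) :
    Phi v M q j (m + 1) K = (∑ r : ι → Fin M, if walk r v = 0 then
      Phi v M q j m (K ⊓ KerR q r) else 0) / (M : ℝ) ^ Fintype.card ι := by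
  unfold Phi
  rw [sum_fin_succ_fun, pow_succ, ← div_div]
  congr 1
  rw [sum_div]
  refine sum_congr rfl fun r _ => ?_
  by_cases hr : walk r v = 0
  · rw [if_pos hr]
    congr 1
    refine sum_congr rfl fun ω _ => ?_
    have hiff : (∀ i, walk ((Fin.cons r ω : Fin (m + 1) → ι → Fin M) i) v = 0) ↔
        ∀ i, walk (ω i) v = 0 := by
      rw [Fin.forall_fin_succ]
      simp only [Fin.cons_zero, hr, Fin.cons_succ, true_and]
    have hinf : (K ⊓ ⨅ i, KerR q ((Fin.cons r ω : Fin (m + 1) → ι → Fin M) i)) =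
        (K ⊓ KerR q r) ⊓ ⨅ i, KerR q (ω i) := by
      ext u
      simp only [Submodule.mem_inf, Submodule.mem_iInf, Fin.forall_fin_succ, Fin.cons_zero,
        Fin.cons_succ]
      (clear * - hiff; tauto)
    by_cases hω : ∀ i, walk (ω i) v = 0
    · rw [if_pos hω, if_pos (hiff.mpr hω), hinf]
    · rw [if_neg hω, if_neg (fun h => hω (hiff.mp h))]
  · rw [if_neg hr]
    rw [div_eq_zero_iff]
    left
    refine sum_eq_zero fun ω _ => ?_
    rw [if_neg]
    intro h
    exact hr (by simpa using h 0)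

lemma Phi_nonneg (v : ι → ZMod N) (j m : ℕ) (K : Submodule (ZMod q) (ι → ZMod q)) :
    0 ≤ Phi v M q j m K := by
  unfold Phi
  refine div_nonneg (sum_nonneg fun ω _ => ?_) (by positivity)
  split_ifs <;> positivity

lemma finrank_inf_ker [Fact q.Prime] (K : Submodule (ZMod q) (ι → ZMod q)) (r : ι → Fin M)
    (h : ¬ K ≤ KerR q r) :
    Module.finrank (ZMod q) ↥(K ⊓ KerR q r) + 1 = Module.finrank (ZMod q) ↥K := by
  have h1 := LinearMap.finrank_range_add_finrank_ker ((rowFun q r).domRestrict K)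
  have h2 : Module.finrank (ZMod q) ↥(LinearMap.range ((rowFun q r).domRestrict K)) = 1 := by
    have hne : LinearMap.range ((rowFun q r).domRestrict K) = ⊤ := by
      rw [LinearMap.range_eq_top]
      have hnz : (rowFun q r).domRestrict K ≠ 0 := by
        intro h0
        apply h
        intro u hu
        have := LinearMap.congr_fun h0 ⟨u, hu⟩
        simpa only [KerR, LinearMap.mem_ker, rowFun_apply, LinearMap.domRestrict_apply, LinearMap.zero_apply] using     this
      exact LinearMap.surjective hnz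
    rw [hne, finrank_top, Module.finrank_self]
  have h3 : Module.finrank (ZMod q) ↥(LinearMap.ker ((rowFun q r).domRestrict K)) =
      Module.finrank (ZMod q) ↥(K ⊓ KerR q r) := by
    have hk : LinearMap.ker ((rowFun q r).domRestrict K) = (KerR q r).comap K.subtype := by
      ext u
      simp only [LinearMap.mem_ker, LinearMap.domRestrict_apply, rowFun_apply, KerR, Submodule.mem_comap, Submodule.subtype_apply]
    rw [hk, ← Submodule.map_comap_subtype, Submodule.finrank_map_subtype_eq]
  omega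

lemma card_submodule [Fact q.Prime] (K : Submodule (ZMod q) (ι → ZMod q)) :
    Nat.card ↥K = q ^ Module.finrank (ZMod q) ↥K := by
  have := Module.natCard_eq_pow_finrank (K := ZMod q) (V := ↥K)
  rw [this, Nat.card_zmod]

open Classical in
/-- The row recursion. -/
theorem Phi_le [Fact q.Prime] (v : ι → ZMod N) (vbar : ι → ZMod q) (j : ℕ) {p σ s : ℝ}
    (hM : 0 < M) (h0 : 0 < σ) (h1 : σ < 1) (hs : σ * s = 1) (hp : 0 ≤ p)
    (hvbar : vbar ≠ 0) (hcompat : ∀ r : ι → Fin M, walk r v = 0 → walk r vbar = 0)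
    (hp1 : pr M v 0 ≤ p)
    (hp2 : ∀ (K : Submodule (ZMod q) (ι → ZMod q)) (k : ℕ), vbar ∈ K →
      Module.finrank (ZMod q) ↥K = k + 2 →
      ((univ.filter (fun r : ι → Fin M => walk r v = 0 ∧ K ≤ KerR q r)).card : ℝ) /
        (M : ℝ) ^ Fintype.card ι ≤ p * σ ^ (k + 1)) (m : ℕ) :
    ∀ (K : Submodule (ZMod q) (ι → ZMod q)) (k : ℕ), vbar ∈ K →
      Module.finrank (ZMod q) ↥K = k + 1 →
      Phi v M q j m K ≤ (q : ℝ) ^ j * p ^ m * SS ((q : ℝ) ^ j) σ s m k := by
  have hs0 : 0 < s := by
    by_contra hcon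
    push Not at hcon
    nlinarith only [hs, h0, hcon]
  have hMpos : (0 : ℝ) < (M : ℝ) ^ Fintype.card ι := by
    have : (0 : ℝ) < M := by exact_mod_cast hM
    positivity
  induction m with
  | zero =>
    intro K k _ hk
    rw [Phi_zero, card_submodule, hk]
    have := le_SS_zero (N := (q : ℝ) ^ j) (σ := σ) (s := s) (by (clear * -; positivity)) h0.le h1 hs0.le k
    calc (((q ^ (k + 1) : ℕ) : ℕ) : ℝ) ^ j = (q : ℝ) ^ j * 1 * ((q : ℝ) ^ j) ^ k := by
          push_cast; ring
      _ ≤ (q : ℝ) ^ j * p ^ 0 * SS ((q : ℝ) ^ j) σ s 0 k := by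
          rw [pow_zero]
          (clear * - this; gcongr)
  | succ m ih =>
    intro K k hvK hk
    rw [Phi_succ]
    set G : ℕ → ℝ := fun k => (q : ℝ) ^ j * p ^ m * SS ((q : ℝ) ^ j) σ s m k with hG
    have hGnn : ∀ k, 0 ≤ G k := fun k => by
      rw [hG]
      have := SS_nonneg (N := (q : ℝ) ^ j) (by (clear * -; positivity)) h0.le h1 hs0.le m k
      (clear * - hp this; positivity)
    -- pointwise bound
    set A := univ.filter (fun r : ι → Fin M => walk r v = 0 ∧ K ≤ KerR q r) with hA
    set B := univ.filter (fun r : ι → Fin M => walk r v = 0) with hB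
    have hinf : ∀ r : ι → Fin M, walk r v = 0 → K ≤ KerR q r →
        Phi v M q j m (K ⊓ KerR q r) ≤ G k := by
      intro r _ hr2
      rw [inf_eq_left.mpr hr2]
      exact ih K k hvK hk
    have hpt : ∀ r : ι → Fin M, walk r v = 0 → ¬ K ≤ KerR q r →
        ∃ k', k = k' + 1 ∧ Phi v M q j m (K ⊓ KerR q r) ≤ G k' := by
      intro r hr1 hr2
      have hfr := finrank_inf_ker K r hr2
      have hvr : vbar ∈ K ⊓ KerR q r := ⟨hvK, mem_KerR.mpr (hcompat r hr1)⟩
      have hpos : 0 < Module.finrank (ZMod q) ↥(K ⊓ KerR q r) := by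
        rw [Module.finrank_pos_iff_exists_ne_zero]
        exact ⟨⟨vbar, hvr⟩, fun h => hvbar (congrArg Subtype.val h)⟩
      obtain ⟨k', hk'⟩ : ∃ k', Module.finrank (ZMod q) ↥(K ⊓ KerR q r) = k' + 1 :=
        ⟨Module.finrank (ZMod q) ↥(K ⊓ KerR q r) - 1, by omega⟩
      exact ⟨k', by omega, ih _ k' hvr hk'⟩
    have hBp : ((B.card : ℕ) : ℝ) / (M : ℝ) ^ Fintype.card ι ≤ p := hp1
    rcases Nat.eq_zero_or_pos k with hk0 | hkpos
    · subst hk0
      have hle : ∑ r : ι → Fin M, (if walk r v = 0 then Phi v M q j m (K ⊓ KerR q r) else 0) ≤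
          B.card * G 0 := by
        rw [← nsmul_eq_mul, ← sum_const, ← sum_filter]
        refine sum_le_sum fun r hr => ?_
        rw [mem_filter] at hr
        by_cases hKr : K ≤ KerR q r
        · exact hinf r hr.2 hKr
        · obtain ⟨k', hk', _⟩ := hpt r hr.2 hKr
          omega
      rw [div_le_iff₀ hMpos]
      refine hle.trans ?_
      rw [div_le_iff₀ hMpos] at hBp
      calc (B.card : ℝ) * G 0 ≤ (p * (M : ℝ) ^ Fintype.card ι) * G 0 :=
            mul_le_mul_of_nonneg_right hBp (hGnn 0)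
        _ = _ := by
            rw [hG]
            simp only [SS_zero]
            ring
    · obtain ⟨k', rfl⟩ : ∃ k', k = k' + 1 := ⟨k - 1, by omega⟩
      have hle : ∑ r : ι → Fin M, (if walk r v = 0 then Phi v M q j m (K ⊓ KerR q r) else 0) ≤
          A.card * G (k' + 1) + B.card * G k' := by
        have hterm : ∀ r : ι → Fin M,
            (if walk r v = 0 then Phi v M q j m (K ⊓ KerR q r) else 0) ≤
            (if walk r v = 0 ∧ K ≤ KerR q r then G (k' + 1) else 0) +
              (if walk r v = 0 then G k' else 0) := by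
          intro r
          by_cases hr : walk r v = 0
          · by_cases hKr : K ≤ KerR q r
            · rw [if_pos hr, if_pos ⟨hr, hKr⟩, if_pos hr]
              have := hinf r hr hKr
              have := hGnn k'
              (clear vbar hM hvbar hcompat hp1 hp2 hMpos ih hvK A hA B hB hBp hk hpt hkpos; linarith)
            · rw [if_pos hr, if_neg (fun h => hKr h.2), if_pos hr, zero_add]
              obtain ⟨k'', hk'', hle⟩ := hpt r hr hKr
              have : k'' = k' := by omega
              rw [this] at hle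
              exact hle
          · rw [if_neg hr, if_neg (fun h => hr h.1), if_neg hr, zero_add]
        refine (sum_le_sum fun r _ => hterm r).trans ?_
        rw [sum_add_distrib, ← sum_filter, ← sum_filter, sum_const, sum_const, nsmul_eq_mul,
          nsmul_eq_mul]
      have hA' := hp2 K k' hvK (by omega)
      rw [div_le_iff₀ hMpos] at hA' hBp ⊢
      refine hle.trans ?_
      have hrec := SS_rec (N := (q : ℝ) ^ j) h0 h1 hs m k'
      calc (A.card : ℝ) * G (k' + 1) + B.card * G k'
          ≤ (p * σ ^ (k' + 1) * (M : ℝ) ^ Fintype.card ι) * G (k' + 1) +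
            (p * (M : ℝ) ^ Fintype.card ι) * G k' :=
            add_le_add (mul_le_mul_of_nonneg_right hA' (hGnn _))
              (mul_le_mul_of_nonneg_right hBp (hGnn _))
        _ = (q : ℝ) ^ j * p ^ (m + 1) * (σ ^ (k' + 1) * SS ((q : ℝ) ^ j) σ s m (k' + 1) +
              SS ((q : ℝ) ^ j) σ s m k') * (M : ℝ) ^ Fintype.card ι := by
            rw [hG]; ring
        _ = _ := by rw [hrec]

end

end Vale.Agent.P160
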