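import Vale.Agent.P160.Rank
import Vale.Agent.P160.Count4

set_option linter.unusedSectionVars false

/-!
Definitions for the bound `limsup q_n ^ (1/n) ≤ 1 / sqrt 2`.
-/

namespace Vale.Agent.P160

open Finset

section defs

variable {α β : Type*} [Fintype α] [Fintype β] [DecidableEq α] [DecidableEq β]

/-- The half-lazy integer matrix with seeds `ω`. -/
def hm (ω : β → α → Fin 4) : β → α → ℤ := fun i l => st (ω i l)

/-- The kernel of `H` mod `N` (column vectors). -/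
def kerN (N : ℕ) [NeZero N] (H : β → α → ℤ) : Finset (α → ZMod N) :=
  univ.filter (fun u => ∀ i, ∑ l, (H i l : ZMod N) * u l = 0)

/-- Reductions mod 2 of the kernel vectors mod `2 ^ κ`. -/
def redN (κ : ℕ) (H : β → α → ℤ) : Finset (α → ZMod 2) :=
  (kerN (2 ^ κ) H).image (fun u i => ((u i).cast : ZMod 2))

/-- Unstructured vectors: at every level `j` with `I < j ≤ J`, all shifts of `x` by multiples of
`2 ^ (j - I)` have a flat lazy walk. -/
def GoodX (I : ℕ) (τ : ℝ) {J : ℕ} (x : α → ZMod (2 ^ J)) : Prop :=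
  ∀ j, I < j → j ≤ J → ∀ k : α → ZMod (2 ^ j),
    Zf 6 (fun i => ((x i).cast : ZMod (2 ^ j)) + 2 ^ (j - I) * k i) ≤ 1 + τ

/-- Two seed vectors are adjacent with respect to the square matrix `P` mod `2 ^ κ`. -/
def AdjP {κ r : ℕ} (P : Matrix (Fin r) (Fin r) (ZMod (2 ^ κ))) (ρ q : Fin r → Fin 4) : Prop :=
  ∃ lam y : Fin r → ZMod (2 ^ κ),
    P.transpose.mulVec lam = (fun j => ((st (ρ j) : ℤ) : ZMod (2 ^ κ))) ∧
    P.mulVec y = (fun j => ((st (q j) : ℤ) : ZMod (2 ^ κ))) ∧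
    (∑ j, lam j * ((st (q j) : ℤ) : ZMod (2 ^ κ)) = 0 ∨
      ∑ j, lam j * ((st (q j) : ℤ) : ZMod (2 ^ κ)) = 1 ∨
      ∑ j, lam j * ((st (q j) : ℤ) : ZMod (2 ^ κ)) = -1)

end defs

end Vale.Agent.P160
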