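import Vale.Agent.P160.SDefs
import Vale.Agent.P160.QEvB

set_option linter.unusedSectionVars false

namespace Vale.Agent.P160

open Finset

/-- Structured vectors at level `j`: some shift by a multiple of `2 ^ (j - I)` is concentrated. -/
def BadL {α : Type*} [Fintype α] [DecidableEq α] (I : ℕ) (τ : ℝ) {j : ℕ}
    (x : α → ZMod (2 ^ j)) : Prop :=
  ∃ k : α → ZMod (2 ^ j), 1 + τ < Zf 6 (fun i => x i + 2 ^ (j - I) * k i)

/-- A family of blocks such that every pair is separated by less than half of the blocks. -/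
def Sep4 {ι T : Type} [Fintype ι] [DecidableEq ι] [Fintype T] [DecidableEq T]
    (D : T → Finset ι) : Prop :=
  ∀ i j : ι, i ≠ j → 2 * (univ.filter (fun t => (i ∈ D t ∧ j ∉ D t) ∨ (i ∉ D t ∧ j ∈ D t))).card
    + 4 ≤ Fintype.card T

lemma Sep4.sep {ι T : Type} [Fintype ι] [DecidableEq ι] [Fintype T] [DecidableEq T] [Nonempty T]
    {D : T → Finset ι} (h : Sep4 D) : Sep D := by
  intro i j hij
  have := h i j hij
  omega

section events

variable {n : ℕ} {T : Type} [Fintype T] [DecidableEq T] [Nonempty T] (D : T → Finset (Fin n))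

/-- The structured event at level `j + 1` for the pattern `t₀`. -/
def EvA6 (I u : ℕ) (τ : ℝ) (j : ℕ) (t₀ : T) (b : Sym2 (Fin n) → Bool) : Prop :=
  ∃ (v : Fin n → ZMod (2 ^ (j + 1))) (c : ZMod (2 ^ (j + 1))),
    ((∀ t, u ≤ nu (fun i : {i // i ∈ D t} => v i)) ∧
    BadL I τ (fun i : {i // i ∈ D t₀} => v i) ∧
    ∀ t, GoodX I τ (fun i : {i // i ∈ D t} => ((v i).cast : ZMod (2 ^ j)))) ∧
    smul2 b v = fun _ => c

/-- The unstructured event at the top level. -/
def EvB6 (I u : ℕ) (τ : ℝ) (J : ℕ) (b : Sym2 (Fin n) → Bool) : Prop :=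
  ∃ (g : Fin n → ℤ) (c : ℤ), smul2 b g = (fun _ => c) ∧ 2 * c = ∑ i, g i ∧
    ∀ t, u ≤ nu (fun i : {i // i ∈ D t} => (g i : ZMod (2 ^ (J + 1)))) ∧
      GoodX I τ (fun i : {i // i ∈ D t} => (g i : ZMod (2 ^ (J + 1))))

end events

end Vale.Agent.P160
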