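import Vale.Agent.P160.SM4a
import Vale.Agent.P160.ST0

set_option linter.unusedSectionVars false

namespace Vale.Agent.P160

open Finset

section
variable {α β : Type*} [Fintype α] [Fintype β] [DecidableEq α] [DecidableEq β]

lemma sk1_redN_pos (H : β → α → ℤ) (κ : ℕ) : 1 ≤ (redN κ H).card := by
  rw [Nat.one_le_iff_ne_zero, Ne, Finset.card_eq_zero, ← Ne, ← Finset.nonempty_iff_ne_empty]
  refine Finset.Nonempty.image ⟨0, ?_⟩ _
  rw [sm4a_mem_kerN]
  intro i
  simp only [Pi.zero_apply, mul_zero, sum_const_zero]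

lemma sk1_redN_le (H : β → α → ℤ) (κ : ℕ) : (redN κ H).card ≤ 2 ^ Fintype.card α := by
  refine (Finset.card_le_univ _).trans (le_of_eq ?_)
  rw [Fintype.card_fun, ZMod.card]

lemma sk1_kerN_zero_le (H : β → α → ℤ) : (kerN (2 ^ 0) H).card ≤ 1 := by
  apply Finset.card_le_one.2
  intro a _ b _
  funext i
  apply ZMod.val_injective
  have h1 : (a i).val < 1 := lt_of_lt_of_eq (ZMod.val_lt (a i)) (pow_zero 2)
  have h2 : (b i).val < 1 := lt_of_lt_of_eq (ZMod.val_lt (b i)) (pow_zero 2)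
  omega

lemma sk1_kerN_pos (N : ℕ) [NeZero N] (H : β → α → ℤ) : 1 ≤ (kerN N H).card := by
  rw [Nat.one_le_iff_ne_zero, Ne, Finset.card_eq_zero, ← Ne, ← Finset.nonempty_iff_ne_empty]
  refine ⟨0, ?_⟩
  rw [sm4a_mem_kerN]
  intro i
  simp only [Pi.zero_apply, mul_zero, sum_const_zero]

/-- Task K1 -/
theorem card_kerN_mono (H : β → α → ℤ) {i j : ℕ} (hij : i ≤ j) :
    (kerN (2 ^ i) H).card ≤ (kerN (2 ^ j) H).card := by
  obtain ⟨m, rfl⟩ := Nat.exists_eq_add_of_le hij
  clear hij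
  induction m with
  | zero => exact le_rfl
  | succ m ih =>
    rw [← add_assoc, card_kerN_succ]
    exact ih.trans (Nat.le_mul_of_pos_right _ (sk1_redN_pos H _))

lemma sk1_add (H : β → α → ℤ) (i I : ℕ) :
    (kerN (2 ^ (i + I)) H).card ≤ (kerN (2 ^ i) H).card * (kerN (2 ^ I) H).card := by
  induction I with
  | zero => exact Nat.le_mul_of_pos_right _ (sk1_kerN_pos _ H)
  | succ I ih =>
    rw [← add_assoc, card_kerN_succ, card_kerN_succ H I, ← mul_assoc]
    exact Nat.mul_le_mul ih (Finset.card_le_card (redN_antitone H (by omega) (by omega)))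

/-- Task K1 -/
theorem card_kerN_pow_le (H : β → α → ℤ) {I J b : ℕ} (hI : 1 ≤ I) (hJ : J ≤ b * I) :
    (kerN (2 ^ J) H).card ≤ (kerN (2 ^ I) H).card ^ b := by
  refine (card_kerN_mono H hJ).trans ?_
  clear hJ
  induction b with
  | zero =>
    rw [zero_mul, pow_zero (kerN (2 ^ I) H).card]
    exact sk1_kerN_zero_le H
  | succ b ih =>
    rw [add_mul, one_mul, pow_succ (kerN (2 ^ I) H).card]
    exact (sk1_add H (b * I) I).trans (Nat.mul_le_mul_right _ ih)

/-- Task K1 -/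
theorem card_kerN_succ_le (H : β → α → ℤ) (j : ℕ) :
    (kerN (2 ^ (j + 1)) H).card ≤ 2 ^ Fintype.card α * (kerN (2 ^ j) H).card := by
  rw [card_kerN_succ, mul_comm]
  exact Nat.mul_le_mul_right _ (sk1_redN_le H _)

/-- Task K1: summing over `z`. -/
theorem sum_Bpr_eq6 {j : ℕ} (x : α → ZMod (2 ^ j)) :
    ((2 : ℝ) ^ j) ^ Fintype.card α * ∑ z : β → ZMod (2 ^ j), Bpr 4 x z =
      ((2 : ℝ) ^ j) ^ Fintype.card β * ((∑ ω : β → α → Fin 4, if (∀ i, walk (ω i) x = 0) then
        ((kerN (2 ^ j) (hm ω)).card : ℝ) else 0) / 4 ^ (Fintype.card β * Fintype.card α)) := by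
  have e4 : ((4 : ℕ) : ℝ) = 4 := by norm_num
  have h1 : ∑ z : β → ZMod (2 ^ j), Bpr 4 x z =
      (∑ ω : β → α → Fin 4, if ∀ i, walk (ω i) x = 0 then
        ((kerT (2 ^ j) (hm ω)).card : ℝ) else 0) /
        (4 : ℝ) ^ (Fintype.card β * Fintype.card α) := by
    unfold Bpr
    rw [← sum_div, e4]
    congr 1
    have : ∀ z : β → ZMod (2 ^ j), ((univ.filter (fun ω : β → α → Fin 4 =>
        (∀ i, walk (ω i) x = 0) ∧ ∀ l, walk (fun i => ω i l) z = 0)).card : ℝ) =
        ∑ ω : β → α → Fin 4, if (∀ i, walk (ω i) x = 0) ∧ ∀ l, walk (fun i => ω i l) z = 0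
          then (1 : ℝ) else 0 := by
      intro z
      rw [card_filter]
      push_cast
      rfl
    simp only [this]
    rw [sum_comm]
    refine sum_congr rfl fun ω _ => ?_
    by_cases hω : ∀ i, walk (ω i) x = 0
    · rw [if_pos hω]
      unfold kerT
      rw [card_filter]
      push_cast
      refine sum_congr rfl fun z _ => ?_
      by_cases hz : ∀ l, walk (fun i => ω i l) z = 0
      · have hz' : ∀ l, ∑ i, ((hm ω i l : ℤ) : ZMod (2 ^ j)) * z i = 0 := hz
        rw [if_pos ⟨hω, hz⟩, if_pos hz']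
      · have hz' : ¬ ∀ l, ∑ i, ((hm ω i l : ℤ) : ZMod (2 ^ j)) * z i = 0 := hz
        rw [if_neg (fun h => hz h.2), if_neg hz']
    · rw [if_neg hω]
      refine sum_eq_zero fun z _ => ?_
      rw [if_neg (fun h => hω h.1)]
  rw [h1, mul_div_assoc', mul_div_assoc', mul_sum, mul_sum]
  congr 1
  refine sum_congr rfl fun ω _ => ?_
  split_ifs with h
  · have h2 := card_kerT_kerN (2 ^ j) (hm ω)
    have h3 : ((2 : ℝ) ^ j) ^ Fintype.card α * ((kerT (2 ^ j) (hm ω)).card : ℝ) =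
        (((kerT (2 ^ j) (hm ω)).card * (2 ^ j) ^ Fintype.card α : ℕ) : ℝ) := by
      push_cast
      ring
    rw [h3, h2]
    push_cast
    ring
  · rw [mul_zero, mul_zero]

/-- Task K1: summing over `z`, with the quadratic condition. -/
theorem sum_Bq_le6 {j : ℕ} (x : α → ZMod (2 ^ j)) :
    ((2 : ℝ) ^ j) ^ (Fintype.card α + 1) * ∑ z : β → ZMod (2 ^ j), Bq x z ≤
      4 * ((2 : ℝ) ^ j) ^ Fintype.card β * ((∑ ω : β → α → Fin 4,
        if (∀ i, walk (ω i) x = 0) then
        ((kerN (2 ^ j) (augM x ω)).card : ℝ) else 0) / 4 ^ (Fintype.card β * Fintype.card α)) := by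
  unfold Bq
  rw [← sum_div, mul_div_assoc', mul_div_assoc',
    div_le_div_iff_of_pos_right (by positivity)]
  have h1 : ∀ z : β → ZMod (2 ^ j), ((univ.filter (fun ω : β → α → Fin 4 =>
      ((∀ i, walk (ω i) x = 0) ∧ ∀ j, walk (fun i => ω i j) z = 0) ∧
      4 * ∑ i, lft (z i) * walk (ω i) (fun j => lft (x j)) = 0)).card : ℝ) =
      ∑ ω : β → α → Fin 4, if (∀ i, walk (ω i) x = 0) then
        (if (∀ j, walk (fun i => ω i j) z = 0) ∧
      4 * ∑ i, lft (z i) * walk (ω i) (fun j => lft (x j)) = 0 then (1 : ℝ) else 0) else 0 := by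
    intro z
    rw [Finset.card_filter]
    push_cast
    refine sum_congr rfl fun ω _ => ?_
    by_cases h : ∀ i, walk (ω i) x = 0
    · rw [if_pos h]
      by_cases h' : (∀ j, walk (fun i => ω i j) z = 0) ∧
        4 * ∑ i, lft (z i) * walk (ω i) (fun j => lft (x j)) = 0
      · rw [if_pos ⟨⟨h, h'.1⟩, h'.2⟩, if_pos h']
      · rw [if_neg (fun hh => h' ⟨hh.1.2, hh.2⟩), if_neg h']
    · rw [if_neg (fun hh => h hh.1.1), if_neg h]
  rw [sum_congr rfl fun z _ => h1 z, sum_comm, mul_sum, mul_sum]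
  refine sum_le_sum fun ω _ => ?_
  by_cases h : ∀ i, walk (ω i) x = 0
  · simp only [if_pos h]
    rw [sum_boole]
    have h2 := card_z_le x ω h
    have h3 := card_kerT_kerN (2 ^ j) (augM x ω)
    rw [Fintype.card_option] at h3
    set c1 := (univ.filter (fun z : β → ZMod (2 ^ j) => (∀ j, walk (fun i => ω i j) z = 0) ∧
      4 * ∑ i, lft (z i) * walk (ω i) (fun j => lft (x j)) = 0)).card with hc1
    set c2 := (kerT (2 ^ j) (augM x ω)).card with hc2
    set c3 := (kerN (2 ^ j) (augM x ω)).card with hc3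
    have h5 : (2 ^ j) ^ (Fintype.card α + 1) * c1 ≤ 4 * (2 ^ j) ^ Fintype.card β * c3 := by
      calc (2 ^ j) ^ (Fintype.card α + 1) * c1
          ≤ (2 ^ j) ^ (Fintype.card α + 1) * (4 * c2) := Nat.mul_le_mul_left _ h2
        _ = 4 * (c2 * (2 ^ j) ^ (Fintype.card α + 1)) := by ring
        _ = 4 * (c3 * (2 ^ j) ^ Fintype.card β) := by rw [h3]
        _ = _ := by ring
    exact_mod_cast h5
  · simp only [if_neg h]
    simp

end

end Vale.Agent.P160
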