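import Vale.Agent.P160.SDefs
import Mathlib.Analysis.SpecialFunctions.Trigonometric.Bounds

namespace Vale.Agent.P160

open Finset

/-- Tangent bound for powers: `a ^ p ≥ a + (p - 1) a log a`. -/
private theorem sm1a_rpow_ge {a p : ℝ} (ha : 0 ≤ a) (hp : 1 ≤ p) :
    a + (p - 1) * (a * Real.log a) ≤ a ^ p := by
  rcases ha.eq_or_lt with h | h
  · rw [← h, Real.zero_rpow (by linarith)]
    simp
  · have h1 : a ^ p = a * Real.exp ((p - 1) * Real.log a) := by
      rw [Real.rpow_def_of_pos h]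
      have h2 : Real.log a * p = Real.log a + (p - 1) * Real.log a := by ring
      rw [h2, Real.exp_add, Real.exp_log h]
    rw [h1]
    have h3 := Real.add_one_le_exp ((p - 1) * Real.log a)
    have h4 := mul_le_mul_of_nonneg_left h3 h.le
    linarith

/-- `a log a ≥ 2 a - 2 sqrt a`. -/
private theorem sm1a_mul_log_ge {a : ℝ} (ha : 0 ≤ a) :
    2 * a - 2 * Real.sqrt a ≤ a * Real.log a := by
  rcases ha.eq_or_lt with h | h
  · rw [← h]
    simp
  · have h1 : 0 < Real.sqrt a := Real.sqrt_pos.2 h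
    have h2 := Real.one_sub_inv_le_log_of_pos h1
    rw [Real.log_sqrt h.le] at h2
    have h3 : a * (2 * (1 - (Real.sqrt a)⁻¹)) ≤ a * Real.log a :=
      mul_le_mul_of_nonneg_left (by linarith) h.le
    have h4 : a * (Real.sqrt a)⁻¹ = Real.sqrt a := by
      have h5 := Real.mul_self_sqrt h.le
      field_simp
      linarith
    have h6 : a * (2 * (1 - (Real.sqrt a)⁻¹)) = 2 * a - 2 * (a * (Real.sqrt a)⁻¹) := by ring
    rw [h6, h4] at h3
    exact h3

/-- `b log b ≥ b - 1`. -/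
private theorem sm1a_mul_log_ge' {b : ℝ} (hb : 0 ≤ b) : b - 1 ≤ b * Real.log b := by
  rcases hb.eq_or_lt with h | h
  · rw [← h]
    simp
  · have h2 := Real.one_sub_inv_le_log_of_pos h
    have h3 := mul_le_mul_of_nonneg_left h2 h.le
    have h4 : b * (1 - b⁻¹) = b - 1 := by
      field_simp
    linarith

/-- lower bound for the power sum near the boundary -/
private theorem sm1a_low {a b p : ℝ} (ha : 0 ≤ a) (hb : 0 ≤ b) (hab : a + b = 1) (hp : 1 ≤ p) :
    1 - (p - 1) * (2 * Real.sqrt a) ≤ a ^ p + b ^ p := by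
  have h1 := sm1a_rpow_ge ha hp
  have h2 := sm1a_rpow_ge hb hp
  have h3 := sm1a_mul_log_ge ha
  have h4 := sm1a_mul_log_ge' hb
  have h5 : -(2 * Real.sqrt a) ≤ a * Real.log a + b * Real.log b := by linarith
  have h6 := mul_le_mul_of_nonneg_left h5 (by linarith : (0 : ℝ) ≤ p - 1)
  linarith

/-- lower bound for the power sum by convexity -/
private theorem sm1a_conv {a b p : ℝ} (ha : 0 ≤ a) (hb : 0 ≤ b) (hab : a + b = 1) (hp : 1 ≤ p) :
    1 ≤ (2 : ℝ) ^ (p - 1) * (a ^ p + b ^ p) := by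
  have h1 := one_add_mul_self_le_rpow_one_add (s := 2 * a - 1) (by linarith) hp
  have h2 := one_add_mul_self_le_rpow_one_add (s := 2 * b - 1) (by linarith) hp
  have e1 : (1 + (2 * a - 1)) = 2 * a := by ring
  have e2 : (1 + (2 * b - 1)) = 2 * b := by ring
  rw [e1, Real.mul_rpow (by norm_num) ha] at h1
  rw [e2, Real.mul_rpow (by norm_num) hb] at h2
  have e3 : (2 : ℝ) ^ p = 2 ^ (p - 1) * 2 := by
    rw [Real.rpow_sub (by norm_num), Real.rpow_one]
    field_simp
  rw [e3] at h1 h2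
  have e4 : p * (2 * a - 1) + p * (2 * b - 1) = 0 := by
    have : b = 1 - a := by linarith
    rw [this]; ring
  nlinarith

/-- `1 - cos (2 π θ / m) ≥ 8 / m²`. -/
private theorem sm1a_cos {m θ : ℝ} (h1 : 1 ≤ θ) (h2 : θ ≤ m - 1) :
    8 / m ^ 2 ≤ 1 - Real.cos (2 * Real.pi * θ / m) := by
  have hm : 0 < m := by linarith
  have hpi := Real.pi_pos
  set x := Real.pi * θ / m with hx
  have e1 : 2 * Real.pi * θ / m = 2 * x := by rw [hx]; ring
  have hx0 : 0 ≤ x := by positivity
  have hs : 2 / m ≤ Real.sin x := by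
    by_cases hc : x ≤ Real.pi / 2
    · have h3 := Real.mul_le_sin hx0 hc
      have h4 : 2 / Real.pi * x = 2 * θ / m := by
        rw [hx]; field_simp
      rw [h4] at h3
      refine le_trans ?_ h3
      rw [div_le_div_iff_of_pos_right hm]
      linarith
    · push Not at hc
      have h5 : x ≤ Real.pi := by
        rw [hx, div_le_iff₀ hm]
        exact mul_le_mul_of_nonneg_left (by linarith) hpi.le
      have h3 := Real.mul_le_sin (x := Real.pi - x) (by linarith) (by linarith)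
      rw [Real.sin_pi_sub] at h3
      have h4 : 2 / Real.pi * (Real.pi - x) = 2 * (m - θ) / m := by
        rw [hx]; field_simp
      rw [h4] at h3
      refine le_trans ?_ h3
      rw [div_le_div_iff_of_pos_right hm]
      linarith
  rw [e1, Real.cos_two_mul, ← Real.sin_sq_add_cos_sq x]
  have h6 : (2 / m) ^ 2 ≤ Real.sin x ^ 2 := by
    have : 0 ≤ 2 / m := by positivity
    exact pow_le_pow_left₀ this hs 2
  have h7 : 8 / m ^ 2 = 2 * (2 / m) ^ 2 := by ring
  have h8 := Real.sin_sq_add_cos_sq x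
  rw [h7]
  nlinarith

/-- Task M1a: the one dimensional real inequality. -/
theorem avg_pow_le (κ : ℕ) : ∃ t0 : ℕ, κ < t0 ∧ ∀ t ≥ t0, ∀ κ' ≤ κ, ∀ a b : ℝ, 0 ≤ a → 0 ≤ b →
    a + b = 1 →
    ∑ θ ∈ range (2 ^ κ'), (1 - 2 * (a * b) * (1 - Real.cos (2 * Real.pi * θ / 2 ^ κ'))) ^ (2 * t) ≤
      2 ^ κ' * (2 * (a ^ (((4 * t : ℕ) : ℝ) / ((4 * t - κ' : ℕ) : ℝ)) +
        b ^ (((4 * t : ℕ) : ℝ) / ((4 * t - κ' : ℕ) : ℝ))) ^ (4 * t - κ')) := by
  refine ⟨100 * (κ + 1) ^ 3 * 4 ^ κ, ?_, ?_⟩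
  · have h1 : 1 ≤ 4 ^ κ := Nat.one_le_pow _ _ (by norm_num)
    have h2 : κ + 1 ≤ (κ + 1) ^ 3 := Nat.le_self_pow (by norm_num) _
    nlinarith
  intro t ht k hk a b ha hb hab
  have hkt : k < t := by
    have h1 : 1 ≤ 4 ^ κ := Nat.one_le_pow _ _ (by norm_num)
    have h2 : κ + 1 ≤ (κ + 1) ^ 3 := Nat.le_self_pow (by norm_num) _
    nlinarith
  obtain ⟨N, hN⟩ : ∃ N, 4 * t = N + k := ⟨4 * t - k, by omega⟩
  have hN' : 4 * t - k = N := by omega
  have hN0 : 0 < N := by omega
  rw [hN']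
  have hNr : (0 : ℝ) < N := by exact_mod_cast hN0
  set p : ℝ := ((4 * t : ℕ) : ℝ) / ((N : ℕ) : ℝ) with hp
  have hpN : (p - 1) * N = k := by
    rw [hp, hN]
    push_cast
    field_simp
    ring
  have hp1 : 1 ≤ p := by
    rw [hp, one_le_div hNr]
    exact_mod_cast (by omega : N ≤ 4 * t)
  set m : ℝ := 2 ^ k with hm
  have hm1 : 1 ≤ m := one_le_pow₀ (by norm_num)
  have hm0 : 0 < m := by linarith
  have hs0 : 0 ≤ a * b := mul_nonneg ha hb
  have hs1 : a * b ≤ 1 / 4 := by nlinarith [sq_nonneg (a - b)]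
  have hS0 : 0 ≤ a ^ p + b ^ p := add_nonneg (Real.rpow_nonneg ha p) (Real.rpow_nonneg hb p)
  -- all bases are in `[0, 1]`
  have hbase0 : ∀ θ : ℕ, 0 ≤ 1 - 2 * (a * b) * (1 - Real.cos (2 * Real.pi * θ / m)) := by
    intro θ
    have h1 := Real.neg_one_le_cos (2 * Real.pi * θ / m)
    nlinarith
  have hbase1 : ∀ θ : ℕ, 1 - 2 * (a * b) * (1 - Real.cos (2 * Real.pi * θ / m)) ≤ 1 := by
    intro θ
    have h1 := Real.cos_le_one (2 * Real.pi * θ / m)
    nlinarith
  by_cases hcase : m ^ 2 * k ≤ (a * b) * (4 * t)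
  · -- first case
    have hR : 2 ≤ m * (2 * (a ^ p + b ^ p) ^ N) := by
      have h1 := sm1a_conv ha hb hab hp1
      have h2 := pow_le_pow_left₀ (by norm_num : (0 : ℝ) ≤ 1) h1 N
      rw [one_pow, mul_pow, ← Real.rpow_natCast ((2 : ℝ) ^ (p - 1)) N,
        ← Real.rpow_mul (by norm_num), hpN, Real.rpow_natCast, ← hm] at h2
      linarith
    refine le_trans ?_ hR
    have hT : ∀ θ ∈ range (2 ^ k), θ ≠ 0 →
        (1 - 2 * (a * b) * (1 - Real.cos (2 * Real.pi * θ / m))) ^ (2 * t) ≤ 1 / m := by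
      intro θ hθ hne
      have h1 : (1 : ℝ) ≤ θ := by exact_mod_cast Nat.one_le_iff_ne_zero.2 hne
      have h2 : (θ : ℝ) ≤ m - 1 := by
        have h3 : θ + 1 ≤ 2 ^ k := Finset.mem_range.1 hθ
        have h4 : (θ : ℝ) + 1 ≤ 2 ^ k := by exact_mod_cast h3
        rw [hm]
        linarith
      have h3 := sm1a_cos h1 h2
      have h4 : 1 - 2 * (a * b) * (1 - Real.cos (2 * Real.pi * θ / m)) ≤
          Real.exp (-(16 * (a * b) / m ^ 2)) := by
        have h5 := Real.add_one_le_exp (-(16 * (a * b) / m ^ 2))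
        have h6 : 2 * (a * b) * (8 / m ^ 2) ≤
            2 * (a * b) * (1 - Real.cos (2 * Real.pi * θ / m)) :=
          mul_le_mul_of_nonneg_left h3 (by positivity)
        have h7 : 2 * (a * b) * (8 / m ^ 2) = 16 * (a * b) / m ^ 2 := by ring
        linarith
      refine (pow_le_pow_left₀ (hbase0 θ) h4 (2 * t)).trans ?_
      rw [← Real.exp_nat_mul]
      have h8 : ((2 * t : ℕ) : ℝ) * -(16 * (a * b) / m ^ 2) ≤ -((k : ℝ) * 8) := by
        push_cast
        have h9 : (k : ℝ) ≤ (a * b) * (4 * t) / m ^ 2 := by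
          rw [le_div_iff₀ (by positivity)]
          linarith
        have h10 : 2 * (t : ℝ) * -(16 * (a * b) / m ^ 2) = -((a * b) * (4 * t) / m ^ 2 * 8) := by
          ring
        rw [h10]
        linarith
      refine (Real.exp_le_exp.2 h8).trans ?_
      rw [Real.exp_neg, one_div]
      apply inv_anti₀ hm0
      rw [Real.exp_nat_mul, hm]
      refine pow_le_pow_left₀ (by norm_num) ?_ k
      have := Real.add_one_le_exp (8 : ℝ)
      linarith
    have hpos : 0 < 2 ^ k := by positivity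
    have h0 : (0 : ℕ) ∈ range (2 ^ k) := Finset.mem_range.2 hpos
    rw [← Finset.add_sum_erase _ _ h0]
    have hA : (1 - 2 * (a * b) * (1 - Real.cos (2 * Real.pi * ((0 : ℕ) : ℝ) / m))) ^ (2 * t) ≤
        1 := pow_le_one₀ (hbase0 0) (hbase1 0)
    have hB : ∑ θ ∈ (range (2 ^ k)).erase 0,
        (1 - 2 * (a * b) * (1 - Real.cos (2 * Real.pi * θ / m))) ^ (2 * t) ≤ 1 := by
      have h1 : ∑ θ ∈ (range (2 ^ k)).erase 0,
          (1 - 2 * (a * b) * (1 - Real.cos (2 * Real.pi * θ / m))) ^ (2 * t) ≤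
          ∑ θ ∈ (range (2 ^ k)).erase 0, 1 / m :=
        Finset.sum_le_sum fun θ hθ => hT θ (Finset.mem_of_mem_erase hθ)
          (Finset.ne_of_mem_erase hθ)
      refine h1.trans ?_
      rw [Finset.sum_const, nsmul_eq_mul]
      have h2 : (((range (2 ^ k)).erase 0).card : ℝ) ≤ m := by
        have h3 : ((range (2 ^ k)).erase 0).card ≤ 2 ^ k := by
          refine (Finset.card_erase_le).trans ?_
          rw [Finset.card_range]
        rw [hm]
        exact_mod_cast h3
      rw [mul_one_div]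
      exact (div_le_one hm0).2 h2
    linarith
  · -- second case
    push Not at hcase
    have hL : ∑ θ ∈ range (2 ^ k),
        (1 - 2 * (a * b) * (1 - Real.cos (2 * Real.pi * θ / m))) ^ (2 * t) ≤ m := by
      have h1 : ∑ θ ∈ range (2 ^ k),
          (1 - 2 * (a * b) * (1 - Real.cos (2 * Real.pi * θ / m))) ^ (2 * t) ≤
          ∑ θ ∈ range (2 ^ k), (1 : ℝ) :=
        Finset.sum_le_sum fun θ _ => pow_le_one₀ (hbase0 θ) (hbase1 θ)
      refine h1.trans ?_
      rw [Finset.sum_const, nsmul_eq_mul, Finset.card_range, mul_one, hm]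
      push_cast
      exact le_rfl
    refine hL.trans ?_
    -- the smaller of the two numbers
    have key : ∀ a b : ℝ, 0 ≤ a → 0 ≤ b → a + b = 1 → a ≤ b → (a * b) * (4 * t) < m ^ 2 * k →
        1 / 2 ≤ (a ^ p + b ^ p) ^ N := by
      intro a b ha hb hab hle hc
      have ha2 : a ≤ 2 * (a * b) := by nlinarith
      have hkk : (k : ℝ) ≤ κ := by exact_mod_cast hk
      have hk0 : (0 : ℝ) ≤ k := Nat.cast_nonneg k
      have hκ0 : (0 : ℝ) ≤ κ := Nat.cast_nonneg κ
      have ht' : (100 * (κ + 1) ^ 3 * 4 ^ κ : ℝ) ≤ t := by exact_mod_cast ht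
      have hm4 : m ^ 2 ≤ 4 ^ κ := by
        rw [hm, ← pow_mul, mul_comm, pow_mul]
        norm_num
        exact pow_le_pow_right₀ (by norm_num) hk
      have h4 : (0 : ℝ) < 4 ^ κ := by positivity
      have hb1 : a * t ≤ 4 ^ κ * κ := by
        have h1 : a * (4 * t) ≤ 2 * ((a * b) * (4 * t)) := by
          have := mul_le_mul_of_nonneg_right ha2 (by positivity : (0 : ℝ) ≤ 4 * t)
          linarith
        have h2 : m ^ 2 * k ≤ 4 ^ κ * κ := mul_le_mul hm4 hkk hk0 h4.le
        have h3 : (0 : ℝ) ≤ 4 ^ κ * κ := by positivity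
        linarith
      have hb2 : a * (100 * (κ + 1) ^ 3) ≤ κ := by
        have h1 : a * (100 * (κ + 1) ^ 3 * 4 ^ κ) ≤ a * t := mul_le_mul_of_nonneg_left ht' ha
        have h2 : a * (100 * (κ + 1) ^ 3) * 4 ^ κ ≤ κ * 4 ^ κ := by linarith
        exact le_of_mul_le_mul_right h2 h4
      have hb3 : a ≤ (1 / (4 * (κ + 1))) ^ 2 := by
        have h1 : (0 : ℝ) < κ + 1 := by linarith
        rw [div_pow, one_pow, le_div_iff₀ (by positivity)]
        have h2 : a * (100 * (κ + 1) ^ 3) = a * (4 * (κ + 1)) ^ 2 * (25 / 4 * (κ + 1)) := by ring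
        rw [h2] at hb2
        have h3 : (0 : ℝ) ≤ a * (4 * (κ + 1)) ^ 2 := by positivity
        by_contra hcon
        push Not at hcon
        nlinarith
      have hb4 : Real.sqrt a ≤ 1 / (4 * (κ + 1)) := by
        rw [Real.sqrt_le_iff]
        exact ⟨by positivity, hb3⟩
      have hb5 : (k : ℝ) * (2 * Real.sqrt a) ≤ 1 / 2 := by
        have h1 : (0 : ℝ) < κ + 1 := by linarith
        have h2 : (k : ℝ) * (2 * Real.sqrt a) ≤ κ * (2 * (1 / (4 * (κ + 1)))) :=
          mul_le_mul hkk (by linarith) (by positivity) hκ0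
        refine h2.trans ?_
        have h3 : (κ : ℝ) * (2 * (1 / (4 * (κ + 1)))) = κ / (κ + 1) * (1 / 2) := by
          field_simp
          ring
        rw [h3]
        have h5 : (κ : ℝ) / (κ + 1) ≤ 1 := (div_le_one h1).2 (by linarith)
        linarith
      have h1 := sm1a_low ha hb hab hp1
      have hS : 0 ≤ a ^ p + b ^ p := add_nonneg (Real.rpow_nonneg ha p) (Real.rpow_nonneg hb p)
      have h2 := one_add_mul_le_pow (a := a ^ p + b ^ p - 1) (by linarith) N
      have e1 : 1 + (a ^ p + b ^ p - 1) = a ^ p + b ^ p := by ring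
      rw [e1] at h2
      refine le_trans ?_ h2
      have h3 : (N : ℝ) * (-((p - 1) * (2 * Real.sqrt a))) ≤ N * (a ^ p + b ^ p - 1) :=
        mul_le_mul_of_nonneg_left (by linarith) hNr.le
      have h4' : (N : ℝ) * (-((p - 1) * (2 * Real.sqrt a))) = -(((p - 1) * N) * (2 * Real.sqrt a)) := by
        ring
      rw [h4', hpN] at h3
      linarith
    have hhalf : 1 / 2 ≤ (a ^ p + b ^ p) ^ N := by
      rcases le_total a b with h | h
      · exact key a b ha hb hab h hcase
      · have h1 := key b a hb ha (by linarith) h (by rw [mul_comm b a]; exact hcase)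
        rwa [add_comm] at h1
    have h2 := mul_le_mul_of_nonneg_left hhalf (by linarith : (0 : ℝ) ≤ 2)
    have h3 := mul_le_mul_of_nonneg_left h2 hm0.le
    linarith

end Vale.Agent.P160
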