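import Vale.Agent.P160.SM1a

namespace Vale.Agent.P160

open Finset

lemma sm1b_norm_sq (w : ℂ) (hw : ‖w‖ = 1) (s : ℤ) (hs : s = 1 ∨ s = -1) (φ : Fin 4 → ℝ)
    (hφ : ∀ a, 0 ≤ φ a) :
    ‖∑ a : Fin 4, (φ a : ℂ) * w ^ (s * st a)‖ ^ 2 ≤
      ((φ 0 + φ 1) + (φ 2 + φ 3)) ^ 2 - 2 * ((φ 0 + φ 1) * (φ 2 + φ 3)) * (1 - w.re) := by
  have hw0 : w ≠ 0 := by
    intro h
    rw [h, norm_zero] at hw
    exact zero_ne_one hw
  have hinv : w⁻¹ = (starRingEnd ℂ) w := by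
    rw [Complex.inv_def, Complex.normSq_eq_norm_sq, hw]
    simp
  have hxy : w.re * w.re + w.im * w.im = 1 := by
    have h := Complex.normSq_eq_norm_sq w
    rw [hw, Complex.normSq_apply] at h
    linarith only [h]
  have e0 : st (0 : Fin 4) = 1 := by decide
  have e1 : st (1 : Fin 4) = -1 := by decide
  have e2 : st (2 : Fin 4) = 0 := by decide
  have e3 : st (3 : Fin 4) = 0 := by decide
  rw [← Complex.normSq_eq_norm_sq, Complex.normSq_apply, Fin.sum_univ_four, e0, e1, e2, e3]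
  have h0 := hφ 0
  have h1 := hφ 1
  have h2 := hφ 2
  have h3 := hφ 3
  have hb : (φ 0 - φ 1) ^ 2 ≤ (φ 0 + φ 1) ^ 2 := by nlinarith only [mul_nonneg h0 h1]
  have hy : 0 ≤ w.im ^ 2 := sq_nonneg _
  have key : (φ 0 - φ 1) ^ 2 * w.im ^ 2 ≤ (φ 0 + φ 1) ^ 2 * w.im ^ 2 :=
    mul_le_mul_of_nonneg_right hb hy
  rcases hs with rfl | rfl
  · simp only [mul_one, zpow_one, mul_neg, zpow_neg, hinv, mul_zero, zpow_zero,
      Complex.add_re, Complex.add_im, Complex.mul_re, Complex.mul_im, Complex.ofReal_re,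
      Complex.ofReal_im, Complex.conj_re, Complex.conj_im, zero_mul, sub_zero, add_zero]
    nlinarith only [key, hxy]
  · simp only [mul_one, zpow_one, mul_neg, zpow_neg, hinv, mul_zero, zpow_zero, neg_neg,
      neg_zero, Complex.add_re, Complex.add_im, Complex.mul_re, Complex.mul_im,
      Complex.ofReal_re,
      Complex.ofReal_im, Complex.conj_re, Complex.conj_im, zero_mul, sub_zero, add_zero]
    nlinarith only [key, hxy]

lemma sm1b_ee_re {N : ℕ} [NeZero N] (θ : ZMod N) :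
    (ee θ).re = Real.cos (2 * Real.pi * (θ.val : ℝ) / (N : ℝ)) := by
  have h : (ee θ : ℂ) = Complex.exp (2 * Real.pi * Complex.I * (θ.val : ℤ) / N) := by
    unfold ee
    rw [← ZMod.stdAddChar_coe]
    congr 1
    simp
  rw [h]
  have h2 : (2 * Real.pi * Complex.I * ((θ.val : ℤ) : ℂ) / N : ℂ) =
      ((2 * Real.pi * (θ.val : ℝ) / (N : ℝ) : ℝ) : ℂ) * Complex.I := by
    push_cast
    ring
  rw [h2, Complex.exp_ofReal_mul_I_re]

lemma sm1b_sum_zmod {N : ℕ} [NeZero N] (f : ℕ → ℝ) :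
    ∑ θ : ZMod N, f θ.val = ∑ θ ∈ range N, f θ := by
  refine Finset.sum_bij (fun θ _ => θ.val) (fun θ _ => ?_) (fun a _ b _ h => ?_)
    (fun b hb => ?_) (fun a _ => rfl)
  · exact Finset.mem_range.2 (ZMod.val_lt θ)
  · exact ZMod.val_injective N h
  · exact ⟨(b : ZMod N), Finset.mem_univ _, ZMod.val_cast_of_lt (Finset.mem_range.1 hb)⟩

lemma sm1b_convex (x y p : ℝ) (hx : 0 ≤ x) (hy : 0 ≤ y) (hp : 1 ≤ p) :
    (x + y) ^ p ≤ 2 ^ (p - 1) * (x ^ p + y ^ p) := by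
  have h := NNReal.rpow_add_le_mul_rpow_add_rpow ⟨x, hx⟩ ⟨y, hy⟩ hp
  have h2 := NNReal.coe_le_coe.2 h
  push_cast at h2
  exact h2

lemma sm1b_pow_sum (κ' t : ℕ) (hκt : κ' < t)
    (havg : ∀ a b : ℝ, 0 ≤ a → 0 ≤ b → a + b = 1 →
      ∑ θ ∈ range (2 ^ κ'), (1 - 2 * (a * b) * (1 - Real.cos (2 * Real.pi * θ / 2 ^ κ'))) ^ (2 * t) ≤
      2 ^ κ' * (2 * (a ^ (((4 * t : ℕ) : ℝ) / ((4 * t - κ' : ℕ) : ℝ)) +
        b ^ (((4 * t : ℕ) : ℝ) / ((4 * t - κ' : ℕ) : ℝ))) ^ (4 * t - κ')))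
    (s : ℤ) (hs : s = 1 ∨ s = -1) (φ : Fin 4 → ℝ) (hφ : ∀ a, 0 ≤ φ a) :
    ∑ θ : ZMod (2 ^ κ'), ‖∑ a : Fin 4, (φ a : ℂ) * (ee θ) ^ (s * st a)‖ ^ (4 * t) ≤
      2 ^ κ' * (2 ^ (κ' + 1) *
        (∑ a, φ a ^ (((4 * t : ℕ) : ℝ) / ((4 * t - κ' : ℕ) : ℝ))) ^ (4 * t - κ')) := by
  set p : ℝ := ((4 * t : ℕ) : ℝ) / ((4 * t - κ' : ℕ) : ℝ) with hp
  set D : ℕ := 4 * t - κ' with hD
  have hDpos : 0 < D := by omega
  have hDR : (0 : ℝ) < (D : ℝ) := by exact_mod_cast hDpos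
  have hTD : ((4 * t : ℕ) : ℝ) = (D : ℝ) + κ' := by
    have : 4 * t = D + κ' := by omega
    rw [this]; push_cast; ring
  have hpD : p * D = ((4 * t : ℕ) : ℝ) := by
    rw [hp]; field_simp
  have hp1 : 1 ≤ p := by
    rw [hp, le_div_iff₀ hDR, hTD]
    have : (0 : ℝ) ≤ κ' := Nat.cast_nonneg _
    linarith only [this]
  have hp0 : 0 ≤ p := by linarith only [hp1]
  have hpne : p ≠ 0 := by intro h; linarith only [h, hp1]
  have hσ : 0 ≤ ∑ a, φ a ^ p := Finset.sum_nonneg (fun a _ => Real.rpow_nonneg (hφ a) _)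
  set b : ℝ := φ 0 + φ 1 with hb
  set c : ℝ := φ 2 + φ 3 with hc
  have hb0 : 0 ≤ b := add_nonneg (hφ 0) (hφ 1)
  have hc0 : 0 ≤ c := add_nonneg (hφ 2) (hφ 3)
  set S : ℝ := b + c with hS
  have hS0 : 0 ≤ S := add_nonneg hb0 hc0
  have hsq : ∀ θ : ZMod (2 ^ κ'), ‖∑ a : Fin 4, (φ a : ℂ) * (ee θ) ^ (s * st a)‖ ^ (4 * t) ≤
      (S ^ 2 - 2 * (b * c) * (1 - Real.cos (2 * Real.pi * (θ.val : ℝ) / 2 ^ κ'))) ^ (2 * t) := by
    intro θ
    have h := sm1b_norm_sq (ee θ) (norm_ee θ) s hs φ hφ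
    have hre : (ee θ).re = Real.cos (2 * Real.pi * (θ.val : ℝ) / 2 ^ κ') := by
      rw [sm1b_ee_re θ]; push_cast; rfl
    rw [hre] at h
    have e : 4 * t = 2 * (2 * t) := by ring
    rw [e, pow_mul]
    exact pow_le_pow_left₀ (sq_nonneg _) h _
  have hbc : b ^ p + c ^ p ≤ 2 ^ (p - 1) * ∑ a, φ a ^ p := by
    have h1 := sm1b_convex (φ 0) (φ 1) p (hφ 0) (hφ 1) hp1
    have h2 := sm1b_convex (φ 2) (φ 3) p (hφ 2) (hφ 3) hp1
    rw [Fin.sum_univ_four]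
    calc b ^ p + c ^ p ≤ 2 ^ (p - 1) * (φ 0 ^ p + φ 1 ^ p) + 2 ^ (p - 1) * (φ 2 ^ p + φ 3 ^ p) :=
          add_le_add h1 h2
      _ = _ := by ring
  have hbcD : (b ^ p + c ^ p) ^ D ≤ 2 ^ κ' * (∑ a, φ a ^ p) ^ D := by
    have h1 : (b ^ p + c ^ p) ^ D ≤ (2 ^ (p - 1) * ∑ a, φ a ^ p) ^ D :=
      pow_le_pow_left₀ (add_nonneg (Real.rpow_nonneg hb0 _) (Real.rpow_nonneg hc0 _)) hbc _
    have h2 : ((2 : ℝ) ^ (p - 1)) ^ D = 2 ^ κ' := by
      rw [← Real.rpow_natCast, ← Real.rpow_mul (by norm_num : (0:ℝ) ≤ 2), sub_mul, hpD, hTD,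
        one_mul, add_sub_cancel_left, Real.rpow_natCast]
    rw [mul_pow, h2] at h1
    exact h1
  rcases hS0.eq_or_lt with h0 | hSpos
  · have hb00 : b = 0 := by linarith only [h0, hb0, hc0, hS]
    have hc00 : c = 0 := by linarith only [h0, hb0, hc0, hS]
    have hz : ∑ θ : ZMod (2 ^ κ'), ‖∑ a : Fin 4, (φ a : ℂ) * (ee θ) ^ (s * st a)‖ ^ (4 * t) ≤ 0 := by
      refine Finset.sum_nonpos (fun θ _ => ?_)
      refine (hsq θ).trans ?_
      rw [← h0, hb00]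
      have : 2 * t ≠ 0 := by omega
      simp [this]
    refine hz.trans ?_
    positivity
  · have hSne : S ≠ 0 := hSpos.ne'
    have ha : b / S + c / S = 1 := by rw [← add_div, ← hS, div_self hSne]
    have h := havg (b / S) (c / S) (div_nonneg hb0 hS0) (div_nonneg hc0 hS0) ha
    have hsum : ∑ θ : ZMod (2 ^ κ'), ‖∑ a : Fin 4, (φ a : ℂ) * (ee θ) ^ (s * st a)‖ ^ (4 * t) ≤
        S ^ (4 * t) * ∑ θ ∈ range (2 ^ κ'), (1 - 2 * (b / S * (c / S)) *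
          (1 - Real.cos (2 * Real.pi * θ / 2 ^ κ'))) ^ (2 * t) := by
      rw [← sm1b_sum_zmod (N := 2 ^ κ') (fun θ => (1 - 2 * (b / S * (c / S)) *
          (1 - Real.cos (2 * Real.pi * (θ : ℝ) / 2 ^ κ'))) ^ (2 * t)), Finset.mul_sum]
      refine Finset.sum_le_sum (fun θ _ => (hsq θ).trans (le_of_eq ?_))
      have e : 4 * t = 2 * (2 * t) := by ring
      rw [e, pow_mul S, ← mul_pow]
      congr 1
      field_simp
    have hSp : S ^ (4 * t) * ((b / S) ^ p + (c / S) ^ p) ^ D = (b ^ p + c ^ p) ^ D := by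
      rw [Real.div_rpow hb0 hS0, Real.div_rpow hc0 hS0, ← add_div, div_pow]
      have h1 : (S ^ p) ^ D = S ^ (4 * t) := by
        rw [← Real.rpow_natCast (S ^ p), ← Real.rpow_mul hS0, hpD, Real.rpow_natCast]
      rw [h1]
      field_simp
    calc _ ≤ S ^ (4 * t) * ∑ θ ∈ range (2 ^ κ'), (1 - 2 * (b / S * (c / S)) *
          (1 - Real.cos (2 * Real.pi * θ / 2 ^ κ'))) ^ (2 * t) := hsum
      _ ≤ S ^ (4 * t) * (2 ^ κ' * (2 * ((b / S) ^ p + (c / S) ^ p) ^ D)) :=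
          mul_le_mul_of_nonneg_left h (pow_nonneg hS0 _)
      _ = 2 ^ κ' * (2 * (S ^ (4 * t) * ((b / S) ^ p + (c / S) ^ p) ^ D)) := by ring
      _ = 2 ^ κ' * (2 * (b ^ p + c ^ p) ^ D) := by rw [hSp]
      _ ≤ 2 ^ κ' * (2 * (2 ^ κ' * (∑ a, φ a ^ p) ^ D)) := by
          have h2 : (0 : ℝ) ≤ 2 ^ κ' := by positivity
          exact mul_le_mul_of_nonneg_left (mul_le_mul_of_nonneg_left hbcD (by norm_num)) h2
      _ = _ := by ring

lemma sm1b_fourier {N T : ℕ} [NeZero N] (σ : Fin T → ℤ) (φ : Fin T → Fin 4 → ℝ) :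
    (N : ℂ) * ((∑ a : Fin T → Fin 4,
      if ∑ i, ((σ i * st (a i) : ℤ) : ZMod N) = 0 then ∏ i, φ i (a i) else 0 : ℝ) : ℂ) =
    ∑ θ : ZMod N, ∏ i, ∑ a : Fin 4, (φ i a : ℂ) * (ee θ) ^ (σ i * st a) := by
  have h1 : ∀ θ : ZMod N, ∏ i, ∑ a : Fin 4, (φ i a : ℂ) * (ee θ) ^ (σ i * st a) =
      ∑ a : Fin T → Fin 4, (∏ i, (φ i (a i) : ℂ)) *
        ee (θ * ∑ i, ((σ i * st (a i) : ℤ) : ZMod N)) := by
    intro θ
    rw [Finset.prod_univ_sum, Fintype.piFinset_univ]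
    refine Finset.sum_congr rfl (fun a _ => ?_)
    rw [Finset.prod_mul_distrib, Finset.mul_sum, ee_sum]
    congr 1
    refine Finset.prod_congr rfl (fun i _ => ?_)
    rw [mul_comm θ, ee_intCast_mul]
  rw [Finset.sum_congr rfl (fun θ _ => h1 θ), Finset.sum_comm, Complex.ofReal_sum,
    Finset.mul_sum]
  refine Finset.sum_congr rfl (fun a _ => ?_)
  rw [← Finset.mul_sum]
  have h2 := sum_ee_mul (N := N) (∑ i, ((σ i * st (a i) : ℤ) : ZMod N))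
  rw [h2]
  split_ifs with h
  · push_cast
    ring
  · simp

lemma sm1b_core {T D κ' : ℕ} (hTpos : 0 < T) (hDpos : 0 < D) (σ : Fin T → ℤ)
    (φ : Fin T → Fin 4 → ℝ) (hφ : ∀ i a, 0 ≤ φ i a)
    (hpow : ∀ i, ∑ θ : ZMod (2 ^ κ'), ‖∑ a : Fin 4, (φ i a : ℂ) * (ee θ) ^ (σ i * st a)‖ ^ T ≤
      2 ^ κ' * (2 ^ (κ' + 1) * (∑ a, φ i a ^ ((T : ℝ) / (D : ℝ))) ^ D)) :
    (∑ a : Fin T → Fin 4,
      if ∑ i, ((σ i * st (a i) : ℤ) : ZMod (2 ^ κ')) = 0 then ∏ i, φ i (a i) else 0) ≤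
      2 ^ (κ' + 1) * ∏ i, (∑ a, φ i a ^ ((T : ℝ) / (D : ℝ))) ^ ((D : ℝ) / (T : ℝ)) := by
  have hfour := sm1b_fourier (N := 2 ^ κ') σ φ
  set p : ℝ := (T : ℝ) / (D : ℝ) with hp
  set L : ℝ := (∑ a : Fin T → Fin 4,
      if ∑ i, ((σ i * st (a i) : ℤ) : ZMod (2 ^ κ')) = 0 then ∏ i, φ i (a i) else 0) with hL
  have hDR : (0 : ℝ) < (D : ℝ) := by exact_mod_cast hDpos
  have hTR : (0 : ℝ) < (T : ℝ) := by exact_mod_cast hTpos
  have hσn : ∀ i, 0 ≤ ∑ a, φ i a ^ p :=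
    fun i => Finset.sum_nonneg (fun a _ => Real.rpow_nonneg (hφ i a) _)
  set n : Fin T → ℝ := fun i => (∑ a, φ i a ^ p) ^ ((D : ℝ) / (T : ℝ)) with hn
  have hn0 : ∀ i, 0 ≤ n i := fun i => Real.rpow_nonneg (hσn i) _
  have hnT : ∀ i, n i ^ T = (∑ a, φ i a ^ p) ^ D := by
    intro i
    rw [hn]
    simp only
    rw [← Real.rpow_natCast, ← Real.rpow_mul (hσn i), div_mul_cancel₀ _ hTR.ne',
      Real.rpow_natCast]
  have hp0 : p ≠ 0 := (div_pos hTR hDR).ne'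
  by_cases hz : ∃ i, n i = 0
  · obtain ⟨i, hi⟩ := hz
    have hsum0 : ∑ a, φ i a ^ p = 0 := by
      have h1 := hnT i
      rw [hi, zero_pow hTpos.ne'] at h1
      exact (pow_eq_zero_iff hDpos.ne').1 h1.symm
    have hφ0 : ∀ a, φ i a = 0 := by
      intro a
      have h1 := (Finset.sum_eq_zero_iff_of_nonneg
        (fun a _ => Real.rpow_nonneg (hφ i a) p)).1 hsum0 a (Finset.mem_univ a)
      exact (Real.rpow_eq_zero (hφ i a) hp0).1 h1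
    have hL0 : L = 0 := by
      rw [hL]
      refine Finset.sum_eq_zero (fun a _ => ?_)
      split_ifs
      · exact Finset.prod_eq_zero (Finset.mem_univ i) (hφ0 _)
      · rfl
    rw [hL0]
    exact mul_nonneg (by positivity) (Finset.prod_nonneg (fun i _ => hn0 i))
  · push Not at hz
    have hnpos : ∀ i, 0 < n i := fun i => lt_of_le_of_ne (hn0 i) (Ne.symm (hz i))
    have hL0 : 0 ≤ L := by
      rw [hL]
      refine Finset.sum_nonneg (fun a _ => ?_)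
      split_ifs
      · exact Finset.prod_nonneg (fun i _ => hφ i _)
      · exact le_rfl
    set F : Fin T → ZMod (2 ^ κ') → ℝ := fun i θ =>
      ‖∑ a : Fin 4, (φ i a : ℂ) * (ee θ) ^ (σ i * st a)‖ with hF
    have hF0 : ∀ i θ, 0 ≤ F i θ := fun i θ => norm_nonneg _
    have h1 : (2 : ℝ) ^ κ' * L ≤ ∑ θ : ZMod (2 ^ κ'), ∏ i, F i θ := by
      have h2 := congrArg norm hfour
      rw [norm_mul, Complex.norm_natCast, Complex.norm_real, Real.norm_of_nonneg hL0] at h2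
      push_cast at h2
      rw [h2]
      refine (norm_sum_le _ _).trans (le_of_eq ?_)
      refine Finset.sum_congr rfl (fun θ _ => ?_)
      rw [norm_prod]
    have hamgm : ∀ θ : ZMod (2 ^ κ'), ∏ i, (F i θ / n i) ≤ ∑ i, (1 / (T : ℝ)) * (F i θ / n i) ^ T := by
      intro θ
      have hw : ∑ i : Fin T, (1 / (T : ℝ)) = 1 := by
        rw [Finset.sum_const, Finset.card_univ, Fintype.card_fin, nsmul_eq_mul,
          mul_one_div_cancel hTR.ne']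
      have h2 := Real.geom_mean_le_arith_mean_weighted Finset.univ (fun _ : Fin T => 1 / (T : ℝ))
        (fun i => (F i θ / n i) ^ T) (fun i _ => (by positivity)) hw
        (fun i _ => pow_nonneg (div_nonneg (hF0 i θ) (hn0 i)) _)
      refine le_trans (le_of_eq ?_) h2
      refine Finset.prod_congr rfl (fun i _ => ?_)
      rw [← Real.rpow_natCast, ← Real.rpow_mul (div_nonneg (hF0 i θ) (hn0 i)),
        mul_one_div_cancel hTR.ne', Real.rpow_one]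
    have h3 : ∑ θ : ZMod (2 ^ κ'), ∏ i, (F i θ / n i) ≤ 2 ^ κ' * 2 ^ (κ' + 1) := by
      refine (Finset.sum_le_sum (fun θ _ => hamgm θ)).trans ?_
      rw [Finset.sum_comm]
      have h4 : ∀ i : Fin T, ∑ θ : ZMod (2 ^ κ'), (1 / (T : ℝ)) * (F i θ / n i) ^ T ≤
          (1 / (T : ℝ)) * (2 ^ κ' * 2 ^ (κ' + 1)) := by
        intro i
        rw [← Finset.mul_sum]
        refine mul_le_mul_of_nonneg_left ?_ (by positivity)
        have h5 : ∑ θ : ZMod (2 ^ κ'), (F i θ / n i) ^ T = (∑ θ : ZMod (2 ^ κ'), F i θ ^ T) / n i ^ T := by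
          rw [Finset.sum_div]
          exact Finset.sum_congr rfl (fun θ _ => div_pow _ _ _)
        rw [h5, div_le_iff₀ (pow_pos (hnpos i) _), hnT i, mul_assoc]
        exact hpow i
      refine (Finset.sum_le_sum (fun i _ => h4 i)).trans (le_of_eq ?_)
      rw [Finset.sum_const, Finset.card_univ, Fintype.card_fin, nsmul_eq_mul, ← mul_assoc,
        mul_one_div_cancel hTR.ne', one_mul]
    have hP : 0 < ∏ i, n i := Finset.prod_pos (fun i _ => hnpos i)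
    have h6 : ∑ θ : ZMod (2 ^ κ'), ∏ i, F i θ = (∏ i, n i) * ∑ θ : ZMod (2 ^ κ'), ∏ i, (F i θ / n i) := by
      rw [Finset.mul_sum]
      refine Finset.sum_congr rfl (fun θ _ => ?_)
      rw [← Finset.prod_mul_distrib]
      refine Finset.prod_congr rfl (fun i _ => ?_)
      rw [mul_div_cancel₀ _ (hnpos i).ne']
    have h7 : (2 : ℝ) ^ κ' * L ≤ 2 ^ κ' * (2 ^ (κ' + 1) * ∏ i, n i) := by
      calc (2 : ℝ) ^ κ' * L ≤ (∏ i, n i) * ∑ θ : ZMod (2 ^ κ'), ∏ i, (F i θ / n i) := by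
            rw [← h6]; exact h1
        _ ≤ (∏ i, n i) * (2 ^ κ' * 2 ^ (κ' + 1)) := mul_le_mul_of_nonneg_left h3 hP.le
        _ = _ := by ring
    exact le_of_mul_le_mul_left h7 (by positivity)

/-- Task M1b: the multilinear one dimensional inequality. -/
theorem one_dim (κ : ℕ) : ∃ t0 : ℕ, κ < t0 ∧ ∀ t ≥ t0, ∀ κ' ≤ κ, ∀ σ : Fin (4 * t) → ℤ,
    (∀ i, σ i = 1 ∨ σ i = -1) → ∀ φ : Fin (4 * t) → Fin 4 → ℝ, (∀ i a, 0 ≤ φ i a) →
    (∑ a : Fin (4 * t) → Fin 4,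
      if ∑ i, ((σ i * st (a i) : ℤ) : ZMod (2 ^ κ')) = 0 then ∏ i, φ i (a i) else 0) ≤
      2 ^ (κ' + 1) * ∏ i, (∑ a, φ i a ^ (((4 * t : ℕ) : ℝ) / ((4 * t - κ' : ℕ) : ℝ))) ^
        (((4 * t - κ' : ℕ) : ℝ) / ((4 * t : ℕ) : ℝ)) := by
  obtain ⟨t0, ht0, hmain⟩ := avg_pow_le κ
  refine ⟨t0, ht0, fun t ht κ' hκ' σ hσ φ hφ => ?_⟩
  have hκt : κ' < t := by omega
  exact sm1b_core (by omega) (by omega) σ φ hφ
    (fun i => sm1b_pow_sum κ' t hκt (hmain t ht κ' hκ') (σ i) (hσ i) (φ i) (hφ i))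

end Vale.Agent.P160
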