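import Vale.Agent.P160.SM1b

namespace Vale.Agent.P160

open Finset

/-- splitting off the first coordinate -/
def sm1c_e (T r : ℕ) : (Fin T → (Fin (r + 1) → Fin 4)) ≃
    (Fin T → Fin 4) × (Fin T → (Fin r → Fin 4)) where
  toFun ω := (fun i => ω i 0, fun i j => ω i j.succ)
  invFun p := fun i => Fin.cons (p.1 i) (p.2 i)
  left_inv ω := by
    funext i j
    refine Fin.cases ?_ (fun j' => ?_) j
    · simp
    · simp
  right_inv p := by
    ext i
    · simp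
    · simp

/-- the general inequality by induction on the number of coordinates -/
theorem sm1c_tens (T κ' : ℕ) (hT : κ' < T) (σ : Fin T → ℤ)
    (h1 : ∀ φ : Fin T → Fin 4 → ℝ, (∀ i a, 0 ≤ φ i a) →
      (∑ a : Fin T → Fin 4,
        if ∑ i, ((σ i * st (a i) : ℤ) : ZMod (2 ^ κ')) = 0 then ∏ i, φ i (a i) else 0) ≤
        2 ^ (κ' + 1) * ∏ i, (∑ a, φ i a ^ ((T : ℝ) / ((T - κ' : ℕ) : ℝ))) ^
          (((T - κ' : ℕ) : ℝ) / (T : ℝ))) (r : ℕ) :
    ∀ f : Fin T → (Fin r → Fin 4) → ℝ, (∀ i x, 0 ≤ f i x) →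
      (∑ ω : Fin T → (Fin r → Fin 4),
        if ∀ j, ∑ i, ((σ i * st (ω i j) : ℤ) : ZMod (2 ^ κ')) = 0 then ∏ i, f i (ω i) else 0) ≤
        (2 ^ (κ' + 1)) ^ r * ∏ i, (∑ x, f i x ^ ((T : ℝ) / ((T - κ' : ℕ) : ℝ))) ^
          (((T - κ' : ℕ) : ℝ) / (T : ℝ)) := by
  have hT0 : (0 : ℝ) < T := by exact_mod_cast Nat.lt_of_le_of_lt (Nat.zero_le _) hT
  have hTk : (0 : ℝ) < ((T - κ' : ℕ) : ℝ) := by exact_mod_cast Nat.sub_pos_of_lt hT
  have hpq : (T : ℝ) / ((T - κ' : ℕ) : ℝ) * (((T - κ' : ℕ) : ℝ) / (T : ℝ)) = 1 := by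
    field_simp
  have hqp : ((T - κ' : ℕ) : ℝ) / (T : ℝ) * ((T : ℝ) / ((T - κ' : ℕ) : ℝ)) = 1 := by
    field_simp
  set p : ℝ := (T : ℝ) / ((T - κ' : ℕ) : ℝ) with hp
  set q : ℝ := ((T - κ' : ℕ) : ℝ) / (T : ℝ) with hq
  induction r with
  | zero =>
    intro f hf
    rw [Fintype.sum_unique]
    rw [if_pos (fun j => j.elim0), pow_zero, one_mul]
    apply le_of_eq
    apply Finset.prod_congr rfl
    intro i _
    rw [Fintype.sum_unique, ← Real.rpow_mul (hf i _), hpq, Real.rpow_one]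
    congr 1
  | succ r ih =>
    intro f hf
    let g : Fin T → (Fin r → Fin 4) → ℝ := fun i y => (∑ a : Fin 4, f i (Fin.cons a y) ^ p) ^ q
    have hs0 : ∀ i y, 0 ≤ ∑ a : Fin 4, f i (Fin.cons a y) ^ p := fun i y =>
      Finset.sum_nonneg fun a _ => Real.rpow_nonneg (hf i _) _
    have hg : ∀ i y, 0 ≤ g i y := fun i y => Real.rpow_nonneg (hs0 i y) _
    have hgp : ∀ i y, g i y ^ p = ∑ a : Fin 4, f i (Fin.cons a y) ^ p := by
      intro i y
      simp only [g]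
      rw [← Real.rpow_mul (hs0 i y), hqp, Real.rpow_one]
    have hsum : ∀ i, ∑ y, g i y ^ p = ∑ x, f i x ^ p := by
      intro i
      rw [← (Fin.consEquiv (fun _ : Fin (r + 1) => Fin 4)).sum_comp, Fintype.sum_prod_type_right]
      exact Finset.sum_congr rfl fun y _ => hgp i y
    rw [← (sm1c_e T r).symm.sum_comp, Fintype.sum_prod_type_right]
    have key : ∀ y : Fin T → (Fin r → Fin 4),
        (∑ a : Fin T → Fin 4,
          if ∀ j, ∑ i, ((σ i * st ((sm1c_e T r).symm (a, y) i j) : ℤ) : ZMod (2 ^ κ')) = 0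
            then ∏ i, f i ((sm1c_e T r).symm (a, y) i) else 0) ≤
        2 ^ (κ' + 1) * (if ∀ j, ∑ i, ((σ i * st (y i j) : ℤ) : ZMod (2 ^ κ')) = 0
          then ∏ i, g i (y i) else 0) := by
      intro y
      by_cases hy : ∀ j, ∑ i, ((σ i * st (y i j) : ℤ) : ZMod (2 ^ κ')) = 0
      · rw [if_pos hy]
        refine le_trans (le_of_eq ?_) (h1 (fun i a => f i (Fin.cons a (y i))) fun i a => hf i _)
        apply Finset.sum_congr rfl
        intro a _
        have e1 : (∀ j, ∑ i, ((σ i * st ((sm1c_e T r).symm (a, y) i j) : ℤ) :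
            ZMod (2 ^ κ')) = 0) ↔ ∑ i, ((σ i * st (a i) : ℤ) : ZMod (2 ^ κ')) = 0 := by
          rw [Fin.forall_fin_succ]
          constructor
          · intro h
            exact h.1
          · intro h
            exact ⟨h, fun j => hy j⟩
        by_cases ha : ∑ i, ((σ i * st (a i) : ℤ) : ZMod (2 ^ κ')) = 0
        · rw [if_pos ha, if_pos (e1.2 ha)]
          rfl
        · rw [if_neg ha, if_neg (fun h => ha (e1.1 h))]
      · rw [if_neg hy, mul_zero]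
        apply le_of_eq
        apply Finset.sum_eq_zero
        intro a _
        rw [if_neg]
        intro h
        apply hy
        intro j
        exact h j.succ
    calc _ ≤ ∑ y : Fin T → (Fin r → Fin 4), 2 ^ (κ' + 1) *
          (if ∀ j, ∑ i, ((σ i * st (y i j) : ℤ) : ZMod (2 ^ κ')) = 0
            then ∏ i, g i (y i) else 0) := Finset.sum_le_sum fun y _ => key y
      _ = 2 ^ (κ' + 1) * ∑ y : Fin T → (Fin r → Fin 4),
          (if ∀ j, ∑ i, ((σ i * st (y i j) : ℤ) : ZMod (2 ^ κ')) = 0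
            then ∏ i, g i (y i) else 0) := by rw [Finset.mul_sum]
      _ ≤ 2 ^ (κ' + 1) * ((2 ^ (κ' + 1)) ^ r * ∏ i, (∑ x, g i x ^ p) ^ q) := by
          apply mul_le_mul_of_nonneg_left (ih g hg) (by positivity)
      _ = _ := by
          rw [← mul_assoc, ← pow_succ']
          congr 1
          apply Finset.prod_congr rfl
          intro i _
          rw [hsum i]

/-- Task M1c: tensorization. -/
theorem mult_count (κ : ℕ) : ∃ T0 : ℕ, κ < T0 ∧ ∀ t ≥ T0, ∀ κ' ≤ κ, ∀ (r : ℕ)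
    (σ : Fin (4 * t) → ℤ), (∀ i, σ i = 1 ∨ σ i = -1) → ∀ X : Finset (Fin r → Fin 4),
    ((univ.filter (fun ω : Fin (4 * t) → (Fin r → Fin 4) => (∀ i, ω i ∈ X) ∧
      ∀ j, ∑ i, ((σ i * st (ω i j) : ℤ) : ZMod (2 ^ κ')) = 0)).card : ℝ) ≤
      2 ^ ((κ' + 1) * r) * (X.card : ℝ) ^ (4 * t - κ') := by
  obtain ⟨t0, ht0, H⟩ := one_dim κ
  refine ⟨t0, ht0, ?_⟩
  intro t ht κ' hκ' r σ hσ X
  have hT : κ' < 4 * t := by omega
  have hT0 : (0 : ℝ) < ((4 * t : ℕ) : ℝ) := by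
    exact_mod_cast Nat.lt_of_le_of_lt (Nat.zero_le _) hT
  have hTk : (0 : ℝ) < ((4 * t - κ' : ℕ) : ℝ) := by exact_mod_cast Nat.sub_pos_of_lt hT
  have h := sm1c_tens (4 * t) κ' hT σ (fun φ hφ => H t ht κ' hκ' σ hσ φ hφ) r
    (fun _ x => if x ∈ X then 1 else 0) (fun _ x => by split_ifs <;> norm_num)
  have e1 : ((univ.filter (fun ω : Fin (4 * t) → (Fin r → Fin 4) => (∀ i, ω i ∈ X) ∧
      ∀ j, ∑ i, ((σ i * st (ω i j) : ℤ) : ZMod (2 ^ κ')) = 0)).card : ℝ) =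
      ∑ ω : Fin (4 * t) → (Fin r → Fin 4),
        if ∀ j, ∑ i, ((σ i * st (ω i j) : ℤ) : ZMod (2 ^ κ')) = 0 then
          ∏ i, (if ω i ∈ X then (1 : ℝ) else 0) else 0 := by
    rw [Finset.card_filter, Nat.cast_sum]
    apply Finset.sum_congr rfl
    intro ω _
    rw [Finset.prod_boole]
    by_cases h2 : ∀ j, ∑ i, ((σ i * st (ω i j) : ℤ) : ZMod (2 ^ κ')) = 0
    · by_cases h3 : ∀ i, ω i ∈ X
      · rw [if_pos ⟨h3, h2⟩, if_pos h2, if_pos (fun i _ => h3 i)]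
        simp
      · rw [if_neg (fun h4 => h3 h4.1), if_pos h2, if_neg (fun h4 => h3 fun i => h4 i (mem_univ i))]
        simp
    · rw [if_neg (fun h4 => h2 h4.2), if_neg h2]
      simp
  have e2 : ∑ x : Fin r → Fin 4, (if x ∈ X then (1 : ℝ) else 0) ^
      (((4 * t : ℕ) : ℝ) / ((4 * t - κ' : ℕ) : ℝ)) = X.card := by
    have e3 : ∀ x : Fin r → Fin 4, (if x ∈ X then (1 : ℝ) else 0) ^
      (((4 * t : ℕ) : ℝ) / ((4 * t - κ' : ℕ) : ℝ)) = if x ∈ X then (1 : ℝ) else 0 := by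
      intro x
      split_ifs
      · exact Real.one_rpow _
      · exact Real.zero_rpow (by positivity)
    simp only [e3]
    simp
  rw [e1]
  refine h.trans (le_of_eq ?_)
  rw [e2, Finset.prod_const, Finset.card_univ, Fintype.card_fin, ← pow_mul]
  congr 1
  rw [← Real.rpow_natCast, ← Real.rpow_mul (Nat.cast_nonneg _), ← Real.rpow_natCast]
  congr 1
  field_simp

end Vale.Agent.P160
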