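import Vale.Agent.P160.SM1c

namespace Vale.Agent.P160

open Finset

section sm2

variable {N : ℕ} [NeZero N]

private lemma sm2_ee_neg (x : ZMod N) : ee (-x) = (starRingEnd ℂ) (ee x) := by
  have h1 : ee (-x) * ee x = 1 := by rw [← ee_add]; simp
  have h2 : (starRingEnd ℂ) (ee x) * ee x = 1 := by
    rw [← Complex.normSq_eq_conj_mul_self, Complex.normSq_eq_norm_sq, norm_ee]; simp
  have h3 : ee x ≠ 0 := by
    intro h
    have := norm_ee x
    rw [h] at this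
    simp at this
  exact mul_right_cancel₀ h3 (h1.trans h2.symm)

/-- The signs: the first half plus, the second half minus. -/
private def sm2_sg (t : ℕ) : Fin t ⊕ Fin t → ℤ := Sum.elim (fun _ => 1) (fun _ => -1)

private lemma sm2_expand {β : Type*} [DecidableEq β] (B : Finset β) (g : β → ZMod N) (t : ℕ) :
    ((‖∑ b ∈ B, ee (g b)‖ ^ (2 * t) : ℝ) : ℂ) =
      ∑ b ∈ Fintype.piFinset (fun _ : Fin t ⊕ Fin t => B),
        ee (∑ i, (sm2_sg t i : ZMod N) * g (b i)) := by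
  have h := Finset.prod_univ_sum (fun _ : Fin t ⊕ Fin t => B)
    (fun i b => ee ((sm2_sg t i : ZMod N) * g b))
  have h2 : ∀ b : Fin t ⊕ Fin t → β, ee (∑ i, (sm2_sg t i : ZMod N) * g (b i)) =
      ∏ i, ee ((sm2_sg t i : ZMod N) * g (b i)) := fun b => ee_sum _ _
  simp only [h2]
  rw [← h, Fintype.prod_sum_type]
  simp only [sm2_sg, Sum.elim_inl, Sum.elim_inr, Int.cast_one, one_mul, Int.cast_neg, neg_mul,
    sm2_ee_neg, prod_const, card_univ, Fintype.card_fin]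
  rw [← map_sum, pow_mul, ← mul_pow, Complex.mul_conj, Complex.normSq_eq_norm_sq]
  push_cast
  rfl

/-- Power mean. -/
private lemma sm2_pow {α : Type*} (A : Finset α) (f : α → ℂ) (t : ℕ) (ht : 1 ≤ t) :
    ‖∑ a ∈ A, f a‖ ^ (2 * t) ≤ (A.card : ℝ) ^ (2 * t - 1) * ∑ a ∈ A, ‖f a‖ ^ (2 * t) := by
  obtain ⟨k, hk⟩ : ∃ k, 2 * t = k + 1 := ⟨2 * t - 1, by omega⟩
  rw [hk, Nat.add_sub_cancel]
  calc ‖∑ a ∈ A, f a‖ ^ (k + 1) ≤ (∑ a ∈ A, ‖f a‖) ^ (k + 1) :=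
        pow_le_pow_left₀ (norm_nonneg _) (norm_sum_le _ _) _
    _ ≤ _ := pow_sum_le_card_mul_sum_pow (fun i _ => norm_nonneg _) k

/-- Power mean and expansion. -/
private lemma sm2_step {α β : Type*} [DecidableEq β] (A : Finset α) (B : Finset β)
    (g : α → β → ZMod N) (t : ℕ) (ht : 1 ≤ t) :
    ‖∑ a ∈ A, ∑ b ∈ B, ee (g a b)‖ ^ (2 * t) ≤ (A.card : ℝ) ^ (2 * t - 1) *
      ‖∑ b ∈ Fintype.piFinset (fun _ : Fin t ⊕ Fin t => B), ∑ a ∈ A,
        ee (∑ i, (sm2_sg t i : ZMod N) * g a (b i))‖ := by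
  refine (sm2_pow A (fun a => ∑ b ∈ B, ee (g a b)) t ht).trans (le_of_eq ?_)
  congr 1
  rw [sum_comm]
  simp only [← sm2_expand]
  rw [← Complex.ofReal_sum, Complex.norm_real, Real.norm_eq_abs, abs_of_nonneg]
  exact sum_nonneg fun i _ => pow_nonneg (norm_nonneg _) _

variable {r : ℕ}

private lemma sm2_orth (c : ZMod N) (hc : IsUnit c) (v : Fin r → ZMod N) :
    ∑ l : Fin r → ZMod N, ee (c * ∑ j, l j * v j) = if v = 0 then (N : ℂ) ^ r else 0 := by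
  have h1 : ∀ l : Fin r → ZMod N, ee (c * ∑ j, l j * v j) = ∏ j, ee (l j * (c * v j)) := by
    intro l
    rw [← ee_sum]
    congr 1
    rw [mul_sum]
    exact sum_congr rfl fun j _ => by ring
  have h2 := Finset.prod_univ_sum (fun _ : Fin r => (univ : Finset (ZMod N)))
    (fun j x => ee (x * (c * v j)))
  rw [Fintype.piFinset_univ] at h2
  simp only [h1]
  rw [← h2]
  simp only [sum_ee_mul]
  split_ifs with hv
  · subst hv
    simp
  · obtain ⟨j, hj⟩ : ∃ j, v j ≠ 0 := by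
      by_contra hcon
      push Not at hcon
      exact hv (funext hcon)
    refine prod_eq_zero (mem_univ j) ?_
    rw [if_neg]
    intro h
    exact hj ((hc.mul_right_eq_zero).1 h)

private lemma sm2_parseval {β : Type*} (B : Finset β) (f : β → (Fin r → ZMod N))
    (c : ZMod N) (hc : IsUnit c) :
    ∑ l : Fin r → ZMod N, ‖∑ b ∈ B, ee (c * ∑ j, l j * f b j)‖ ^ 2 =
      (N : ℝ) ^ r * (((B ×ˢ B).filter (fun x => f x.1 = f x.2)).card : ℝ) := by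
  classical
  have h : ((∑ l : Fin r → ZMod N, ‖∑ b ∈ B, ee (c * ∑ j, l j * f b j)‖ ^ 2 : ℝ) : ℂ) =
      (((N : ℝ) ^ r * (((B ×ˢ B).filter (fun x => f x.1 = f x.2)).card : ℝ) : ℝ) : ℂ) := by
    have h1 : ∀ l : Fin r → ZMod N, ((‖∑ b ∈ B, ee (c * ∑ j, l j * f b j)‖ ^ 2 : ℝ) : ℂ) =
        ∑ x ∈ B ×ˢ B, ee (c * ∑ j, l j * (f x.1 - f x.2) j) := by
      intro l
      rw [← Complex.normSq_eq_norm_sq, ← Complex.mul_conj, map_sum, sum_mul_sum, sum_product]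
      refine sum_congr rfl fun a _ => sum_congr rfl fun b _ => ?_
      rw [← sm2_ee_neg, ← ee_add]
      congr 1
      simp only [Pi.sub_apply, mul_sub, sum_sub_distrib]
      ring
    rw [Complex.ofReal_sum]
    simp only [h1]
    rw [sum_comm]
    simp only [sm2_orth c hc, sub_eq_zero]
    rw [← sum_filter, sum_const, nsmul_eq_mul]
    push_cast
    ring
  exact_mod_cast h

private lemma sm2_cs {α β : Type*} (A : Finset α) (B : Finset β)
    (g : α → (Fin r → ZMod N)) (f : β → (Fin r → ZMod N)) (c : ZMod N) (hc : IsUnit c) :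
    ‖∑ a ∈ A, ∑ b ∈ B, ee (c * ∑ j, g a j * f b j)‖ ^ 2 ≤
      (((A ×ˢ A).filter (fun x => g x.1 = g x.2)).card : ℝ) *
      ((N : ℝ) ^ r * (((B ×ˢ B).filter (fun x => f x.1 = f x.2)).card : ℝ)) := by
  classical
  rw [← sm2_parseval B f c hc]
  set F : (Fin r → ZMod N) → ℂ := fun l => ∑ b ∈ B, ee (c * ∑ j, l j * f b j) with hF
  have h1 : ∑ a ∈ A, ∑ b ∈ B, ee (c * ∑ j, g a j * f b j) =
      ∑ l : Fin r → ZMod N, ((A.filter (fun a => g a = l)).card : ℂ) * F l := by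
    rw [← Finset.sum_fiberwise (s := A) (g := g)]
    refine sum_congr rfl fun l _ => ?_
    rw [← nsmul_eq_mul, ← sum_const]
    refine sum_congr rfl fun a ha => ?_
    rw [(mem_filter.1 ha).2]
  have h2 : (((A ×ˢ A).filter (fun x => g x.1 = g x.2)).card : ℝ) =
      ∑ l : Fin r → ZMod N, ((A.filter (fun a => g a = l)).card : ℝ) ^ 2 := by
    rw [card_eq_sum_card_fiberwise (f := fun x => g x.1) (t := univ)
      (fun x _ => by simp)]
    push_cast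
    refine sum_congr rfl fun l _ => ?_
    rw [sq, ← Nat.cast_mul, ← card_product]
    congr 2
    ext x
    simp only [mem_filter, mem_product]
    constructor
    · rintro ⟨⟨⟨h1, h2⟩, h3⟩, h4⟩
      exact ⟨⟨h1, h4⟩, h2, h3 ▸ h4⟩
    · rintro ⟨⟨h1, h4⟩, h2, h3⟩
      exact ⟨⟨⟨h1, h2⟩, h4.trans h3.symm⟩, h4⟩
  rw [h1, h2]
  calc ‖∑ l : Fin r → ZMod N, ((A.filter (fun a => g a = l)).card : ℂ) * F l‖ ^ 2
      ≤ (∑ l : Fin r → ZMod N, ((A.filter (fun a => g a = l)).card : ℝ) * ‖F l‖) ^ 2 := by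
        refine pow_le_pow_left₀ (norm_nonneg _) ?_ 2
        refine (norm_sum_le _ _).trans (le_of_eq (sum_congr rfl fun l _ => ?_))
        rw [norm_mul, Complex.norm_natCast]
    _ ≤ _ := sum_mul_sq_le_sq_mul_sq _ _ _

end sm2

section count

private lemma sm2_count (κ' r t : ℕ) (X : Finset (Fin r → Fin 4))
    (hT : ∀ σ : Fin (4 * t) → ℤ, (∀ i, σ i = 1 ∨ σ i = -1) →
      ((univ.filter (fun ω : Fin (4 * t) → (Fin r → Fin 4) => (∀ i, ω i ∈ X) ∧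
      ∀ j, ∑ i, ((σ i * st (ω i j) : ℤ) : ZMod (2 ^ κ')) = 0)).card : ℝ) ≤
      2 ^ ((κ' + 1) * r) * (X.card : ℝ) ^ (4 * t - κ')) :
    ((((Fintype.piFinset (fun _ : Fin t ⊕ Fin t => X)) ×ˢ
      (Fintype.piFinset (fun _ : Fin t ⊕ Fin t => X))).filter
      (fun x => (fun j => ∑ i, (sm2_sg t i : ZMod (2 ^ κ')) * ((st (x.1 i j) : ℤ) : ZMod (2 ^ κ'))) =
        (fun j => ∑ i, (sm2_sg t i : ZMod (2 ^ κ')) *
          ((st (x.2 i j) : ℤ) : ZMod (2 ^ κ'))))).card : ℝ) ≤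
      2 ^ ((κ' + 1) * r) * (X.card : ℝ) ^ (4 * t - κ') := by
  classical
  have hcard : Fintype.card ((Fin t ⊕ Fin t) ⊕ (Fin t ⊕ Fin t)) = 4 * t := by
    simp only [Fintype.card_sum, Fintype.card_fin]; ring
  let e : (Fin t ⊕ Fin t) ⊕ (Fin t ⊕ Fin t) ≃ Fin (4 * t) := Fintype.equivFinOfCardEq hcard
  let σ : Fin (4 * t) → ℤ := fun i => Sum.elim (sm2_sg t) (fun i => - sm2_sg t i) (e.symm i)
  have hσ : ∀ i, σ i = 1 ∨ σ i = -1 := by
    intro i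
    simp only [σ]
    rcases e.symm i with (a | a) | (a | a) <;> simp [sm2_sg]
  refine le_trans ?_ (hT σ hσ)
  rw [Nat.cast_le]
  refine card_le_card_of_injOn
    (fun x i => Sum.elim x.1 x.2 (e.symm i)) ?_ ?_
  · intro x hx
    simp only [coe_filter, mem_product, Fintype.mem_piFinset, Set.mem_ofPred_eq] at hx
    simp only [coe_filter, mem_univ, true_and, Set.mem_ofPred_eq]
    obtain ⟨⟨h1, h2⟩, h3⟩ := hx
    constructor
    · intro i
      rcases e.symm i with a | a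
      · exact h1 a
      · exact h2 a
    · intro j
      have h4 := congrFun h3 j
      rw [← e.sum_comp]
      simp only [σ, Equiv.symm_apply_apply, Fintype.sum_sum_type, Sum.elim_inl, Sum.elim_inr]
      rw [Fintype.sum_sum_type, Fintype.sum_sum_type] at h4
      push_cast
      simp only [neg_mul, sum_neg_distrib]
      linear_combination h4
  · intro x _ y _ hxy
    have h : ∀ s, Sum.elim x.1 x.2 s = Sum.elim y.1 y.2 s := by
      intro s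
      have := congrFun hxy (e s)
      simpa using this
    refine Prod.ext ?_ ?_
    · funext a
      exact h (Sum.inl a)
    · funext a
      exact h (Sum.inr a)

end count

private lemma sm2_final (κ' r t : ℕ) (ht1 : 1 ≤ t) (hκ1 : 1 ≤ κ')
    (hκ : κ' ≤ 4 * t) (x d b : ℝ) (hx0 : 0 ≤ x)
    (hd0 : 0 ≤ d) (hb : 0 ≤ b) (S S1 S2 : ℝ) (hS0 : 0 ≤ S) (hS10 : 0 ≤ S1) (_ : 0 ≤ S2)
    (hS : b * (x * d) ≤ S) (hs1 : S ^ (2 * t) ≤ d ^ (2 * t - 1) * S1)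
    (hs2 : S1 ^ (2 * t) ≤ (x ^ (2 * t)) ^ (2 * t - 1) * S2)
    (hs3 : S2 ^ 2 ≤ (2 ^ ((κ' + 1) * r) * d ^ (4 * t - κ')) *
        ((2 ^ κ') ^ r * (2 ^ ((κ' + 1) * r) * x ^ (4 * t - κ')))) :
    b ^ (8 * t ^ 2) * (x * d) ^ κ' ≤ 2 ^ ((3 * κ' + 2) * r) := by
  have hS2 : S2 ^ 2 ≤ 2 ^ ((3 * κ' + 2) * r) * (x * d) ^ (4 * t - κ') := by
    refine hs3.trans (le_of_eq ?_)
    rw [mul_pow, ← pow_mul, show (3 * κ' + 2) * r =
      (κ' + 1) * r + κ' * r + (κ' + 1) * r by ring, pow_add, pow_add]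
    ring
  have e1 : (b * (x * d)) ^ (8 * t ^ 2) ≤ ((S ^ (2 * t)) ^ (2 * t)) ^ 2 := by
    have : ((S ^ (2 * t)) ^ (2 * t)) ^ 2 = S ^ (8 * t ^ 2) := by
      rw [← pow_mul, ← pow_mul]
      congr 1
      ring
    rw [this]
    exact pow_le_pow_left₀ (by positivity) hS _
  have e2 : ((S ^ (2 * t)) ^ (2 * t)) ^ 2 ≤ (d ^ ((2 * t - 1) * (2 * t)) * S1 ^ (2 * t)) ^ 2 := by
    have : d ^ ((2 * t - 1) * (2 * t)) * S1 ^ (2 * t) = (d ^ (2 * t - 1) * S1) ^ (2 * t) := by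
      rw [mul_pow, ← pow_mul]
    rw [this]
    exact pow_le_pow_left₀ (by positivity) (pow_le_pow_left₀ (by positivity) hs1 _) _
  have e3 : (d ^ ((2 * t - 1) * (2 * t)) * S1 ^ (2 * t)) ^ 2 ≤
      (d ^ ((2 * t - 1) * (2 * t)) * ((x ^ (2 * t)) ^ (2 * t - 1) * S2)) ^ 2 :=
    pow_le_pow_left₀ (by positivity) (mul_le_mul_of_nonneg_left hs2 (by positivity)) _
  have e4 : (d ^ ((2 * t - 1) * (2 * t)) * ((x ^ (2 * t)) ^ (2 * t - 1) * S2)) ^ 2 =
      (x * d) ^ (2 * ((2 * t - 1) * (2 * t))) * S2 ^ 2 := by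
    rw [← pow_mul x, mul_pow x d, mul_pow, mul_pow, ← pow_mul, ← pow_mul]
    rw [show (2 * t - 1) * (2 * t) * 2 = 2 * ((2 * t - 1) * (2 * t)) by ring,
      show 2 * t * (2 * t - 1) * 2 = 2 * ((2 * t - 1) * (2 * t)) by ring]
    ring
  have h5 : 8 * t ^ 2 - κ' = 2 * ((2 * t - 1) * (2 * t)) + (4 * t - κ') := by
    obtain ⟨s, rfl⟩ : ∃ s, t = s + 1 := ⟨t - 1, by omega⟩
    have : 2 * (s + 1) - 1 = 2 * s + 1 := by omega
    rw [this]
    have h6 : 8 * (s + 1) ^ 2 = 2 * ((2 * s + 1) * (2 * (s + 1))) + 4 * (s + 1) := by ring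
    omega
  have hkey : (b * (x * d)) ^ (8 * t ^ 2) ≤
      2 ^ ((3 * κ' + 2) * r) * (x * d) ^ (8 * t ^ 2 - κ') := by
    have hxd : 0 ≤ (x * d) ^ (2 * ((2 * t - 1) * (2 * t))) := by positivity
    refine e1.trans (e2.trans (e3.trans (e4.le.trans
      ((mul_le_mul_of_nonneg_left hS2 hxd).trans (le_of_eq ?_)))))
    rw [h5, pow_add]
    ring
  have hle : κ' ≤ 8 * t ^ 2 := by nlinarith
  rcases eq_or_lt_of_le (mul_nonneg hx0 hd0) with h0 | h0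
  · rw [← h0, zero_pow (by omega), mul_zero]
    positivity
  · have h7 : (b * (x * d)) ^ (8 * t ^ 2) =
        (b ^ (8 * t ^ 2) * (x * d) ^ κ') * (x * d) ^ (8 * t ^ 2 - κ') := by
      rw [mul_pow, mul_assoc, ← pow_add]
      congr 2
      omega
    rw [h7] at hkey
    exact le_of_mul_le_mul_right hkey (pow_pos h0 _)

/-- Task M2: the two source lemma. -/
theorem two_source (κ : ℕ) : ∃ t : ℕ, 1 ≤ t ∧ ∀ κ', 1 ≤ κ' → κ' ≤ κ → ∀ (r : ℕ)
    (P : Matrix (Fin r) (Fin r) (ZMod (2 ^ κ'))) (X D : Finset (Fin r → Fin 4))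
    (y lam : (Fin r → Fin 4) → (Fin r → ZMod (2 ^ κ'))) (c : ZMod (2 ^ κ')),
    IsUnit c →
    (∀ q ∈ X, P.mulVec (y q) = fun j => ((st (q j) : ℤ) : ZMod (2 ^ κ'))) →
    (∀ ρ ∈ D, P.transpose.mulVec (lam ρ) = fun j => ((st (ρ j) : ℤ) : ZMod (2 ^ κ'))) →
    ∀ b : ℝ, 0 ≤ b →
    b * (X.card * D.card) ≤ ‖∑ ρ ∈ D, ∑ q ∈ X,
      ee (c * ∑ j, lam ρ j * ((st (q j) : ℤ) : ZMod (2 ^ κ')))‖ →
    b ^ (8 * t ^ 2) * ((X.card : ℝ) * D.card) ^ κ' ≤ 2 ^ ((3 * κ' + 2) * r) := by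
  classical
  obtain ⟨t, ht0, ht⟩ := mult_count κ
  have ht1 : 1 ≤ t := by omega
  refine ⟨t, ht1, ?_⟩
  intro κ' hκ1 hκ r P X D y lam c hc hy hlam b hb hS
  have hX := sm2_count κ' r t X (fun σ hσ => ht t le_rfl κ' hκ r σ hσ X)
  have hD := sm2_count κ' r t D (fun σ hσ => ht t le_rfl κ' hκ r σ hσ D)
  set XX := Fintype.piFinset (fun _ : Fin t ⊕ Fin t => X) with hXX
  set DD := Fintype.piFinset (fun _ : Fin t ⊕ Fin t => D) with hDD
  let u : (Fin t ⊕ Fin t → Fin r → Fin 4) → Fin r → ZMod (2 ^ κ') := fun q j =>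
    ∑ i, (sm2_sg t i : ZMod (2 ^ κ')) * ((st (q i j) : ℤ) : ZMod (2 ^ κ'))
  let l2 : (Fin t ⊕ Fin t → Fin r → Fin 4) → Fin r → ZMod (2 ^ κ') := fun ρ j =>
    ∑ i, (sm2_sg t i : ZMod (2 ^ κ')) * lam (ρ i) j
  let y2 : (Fin t ⊕ Fin t → Fin r → Fin 4) → Fin r → ZMod (2 ^ κ') := fun q j =>
    ∑ i, (sm2_sg t i : ZMod (2 ^ κ')) * y (q i) j
  have hpair : ∀ ρ ∈ D, ∀ q ∈ X, ∑ j, lam ρ j * ((st (q j) : ℤ) : ZMod (2 ^ κ')) =
      ∑ j, ((st (ρ j) : ℤ) : ZMod (2 ^ κ')) * y q j := by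
    intro ρ hρ q hq
    have h1 := Matrix.dotProduct_mulVec (lam ρ) P (y q)
    rw [← Matrix.mulVec_transpose, hy q hq, hlam ρ hρ] at h1
    exact h1
  have hpair2 : ∀ ρ ∈ D, ∀ q ∈ XX, ∑ j, lam ρ j * u q j =
      ∑ j, ((st (ρ j) : ℤ) : ZMod (2 ^ κ')) * y2 q j := by
    intro ρ hρ q hq
    have hq' : ∀ i, q i ∈ X := Fintype.mem_piFinset.1 hq
    calc ∑ j, lam ρ j * u q j
        = ∑ i, (sm2_sg t i : ZMod (2 ^ κ')) *
            ∑ j, lam ρ j * ((st (q i j) : ℤ) : ZMod (2 ^ κ')) := by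
          simp only [u, mul_sum]
          rw [sum_comm]
          exact sum_congr rfl fun i _ => sum_congr rfl fun j _ => by ring
      _ = ∑ i, (sm2_sg t i : ZMod (2 ^ κ')) *
            ∑ j, ((st (ρ j) : ℤ) : ZMod (2 ^ κ')) * y (q i) j :=
          sum_congr rfl fun i _ => by rw [hpair ρ hρ (q i) (hq' i)]
      _ = ∑ j, ((st (ρ j) : ℤ) : ZMod (2 ^ κ')) * y2 q j := by
          simp only [y2, mul_sum]
          rw [sum_comm]
          exact sum_congr rfl fun j _ => sum_congr rfl fun i _ => by ring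
  have hs1 := sm2_step D X
    (fun ρ q => c * ∑ j, lam ρ j * ((st (q j) : ℤ) : ZMod (2 ^ κ'))) t ht1
  have hr1 : ∑ q ∈ XX, ∑ ρ ∈ D, ee (∑ i, (sm2_sg t i : ZMod (2 ^ κ')) *
      (c * ∑ j, lam ρ j * ((st (q i j) : ℤ) : ZMod (2 ^ κ')))) =
      ∑ q ∈ XX, ∑ ρ ∈ D, ee (c * ∑ j, ((st (ρ j) : ℤ) : ZMod (2 ^ κ')) * y2 q j) := by
    refine sum_congr rfl fun q hq => sum_congr rfl fun ρ hρ => ?_
    rw [← hpair2 ρ hρ q hq]
    congr 1
    simp only [u, mul_sum]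
    rw [sum_comm]
    exact sum_congr rfl fun i _ => sum_congr rfl fun j _ => by ring
  have hs2 := sm2_step XX D
    (fun q ρ => c * ∑ j, ((st (ρ j) : ℤ) : ZMod (2 ^ κ')) * y2 q j) t ht1
  have hr2 : ∑ ρ ∈ DD, ∑ q ∈ XX, ee (∑ i, (sm2_sg t i : ZMod (2 ^ κ')) *
      (c * ∑ j, ((st (ρ i j) : ℤ) : ZMod (2 ^ κ')) * y2 q j)) =
      ∑ ρ ∈ DD, ∑ q ∈ XX, ee (c * ∑ j, l2 ρ j * u q j) := by
    refine sum_congr rfl fun ρ hρ => sum_congr rfl fun q hq => ?_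
    have hρ' : ∀ i, ρ i ∈ D := Fintype.mem_piFinset.1 hρ
    congr 1
    calc ∑ i, (sm2_sg t i : ZMod (2 ^ κ')) *
          (c * ∑ j, ((st (ρ i j) : ℤ) : ZMod (2 ^ κ')) * y2 q j)
        = ∑ i, (sm2_sg t i : ZMod (2 ^ κ')) * (c * ∑ j, lam (ρ i) j * u q j) :=
          sum_congr rfl fun i _ => by rw [hpair2 (ρ i) (hρ' i) q hq]
      _ = c * ∑ j, l2 ρ j * u q j := by
          simp only [l2, mul_sum, sum_mul]
          rw [sum_comm]
          exact sum_congr rfl fun j _ => sum_congr rfl fun i _ => by ring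
  rw [← hXX, hr1] at hs1
  rw [← hDD, hr2] at hs2
  have hs3 := sm2_cs DD XX l2 u c hc
  have hcD : ((((DD ×ˢ DD).filter (fun x => l2 x.1 = l2 x.2)).card : ℕ) : ℝ) ≤
      2 ^ ((κ' + 1) * r) * (D.card : ℝ) ^ (4 * t - κ') := by
    refine le_trans ?_ hD
    rw [Nat.cast_le]
    refine card_le_card ?_
    intro x hx
    rw [mem_filter] at hx ⊢
    refine ⟨hx.1, ?_⟩
    have hP : ∀ ρ ∈ DD, P.transpose.mulVec (l2 ρ) =
        fun j => ∑ i, (sm2_sg t i : ZMod (2 ^ κ')) * ((st (ρ i j) : ℤ) : ZMod (2 ^ κ')) := by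
      intro ρ hρ
      have hρ' : ∀ i, ρ i ∈ D := Fintype.mem_piFinset.1 hρ
      funext j
      have h1 : ∀ i, ∑ k, P.transpose j k * lam (ρ i) k =
          ((st (ρ i j) : ℤ) : ZMod (2 ^ κ')) := fun i => congrFun (hlam (ρ i) (hρ' i)) j
      calc P.transpose.mulVec (l2 ρ) j = ∑ k, P.transpose j k * l2 ρ k := rfl
        _ = ∑ i, (sm2_sg t i : ZMod (2 ^ κ')) * ∑ k, P.transpose j k * lam (ρ i) k := by
          simp only [l2, mul_sum]
          rw [sum_comm]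
          exact sum_congr rfl fun k _ => sum_congr rfl fun i _ => by ring
        _ = _ := sum_congr rfl fun i _ => by rw [h1 i]
    have h2 := hx.1
    rw [mem_product] at h2
    rw [← hP _ h2.1, ← hP _ h2.2, hx.2]
  have hcX : ((((XX ×ˢ XX).filter (fun x => u x.1 = u x.2)).card : ℕ) : ℝ) ≤
      2 ^ ((κ' + 1) * r) * (X.card : ℝ) ^ (4 * t - κ') := hX
  have hXc : (XX.card : ℝ) = (X.card : ℝ) ^ (2 * t) := by
    rw [hXX, Fintype.card_piFinset, prod_const, card_univ, Fintype.card_sum, Fintype.card_fin]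
    push_cast
    congr 1
    ring
  rw [hXc] at hs2
  have hm : (((2 ^ κ' : ℕ) : ℝ)) = 2 ^ κ' := by push_cast; rfl
  rw [hm] at hs3
  refine sm2_final κ' r t ht1 hκ1 (by omega) _ _ b (Nat.cast_nonneg _) (Nat.cast_nonneg _) hb _ _ _
    (norm_nonneg _) (norm_nonneg _) (norm_nonneg _) hS hs1 hs2 (hs3.trans ?_)
  have h9 : (0 : ℝ) ≤ (2 ^ κ') ^ r := by positivity
  have h10 := mul_le_mul hcD (mul_le_mul_of_nonneg_left hcX h9)
    (mul_nonneg h9 (Nat.cast_nonneg _)) (by positivity)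
  exact h10

end Vale.Agent.P160
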