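import Vale.Agent.P160.SM2

namespace Vale.Agent.P160

open Finset

/-- Scaling the standard character. -/
lemma sm3a_ee_scale {κ κ' : ℕ} (h : κ' ≤ κ) (x : ZMod (2 ^ κ)) :
    ee ((2 : ZMod (2 ^ κ)) ^ (κ - κ') * x) =
      ee (ZMod.castHom (pow_dvd_pow 2 h) (ZMod (2 ^ κ')) x) := by
  obtain ⟨j, rfl⟩ := ZMod.intCast_surjective x
  rw [map_intCast]
  have h1 : (2 : ZMod (2 ^ κ)) ^ (κ - κ') * (j : ZMod (2 ^ κ)) =
      ((2 ^ (κ - κ') * j : ℤ) : ZMod (2 ^ κ)) := by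
    push_cast; ring
  unfold ee
  rw [h1, ZMod.stdAddChar_coe, ZMod.stdAddChar_coe]
  congr 1
  have h2 : (2 : ℂ) ^ κ = 2 ^ (κ - κ') * 2 ^ κ' := by
    rw [← pow_add, Nat.sub_add_cancel h]
  push_cast
  rw [h2]
  field_simp

/-- The number of residues divisible by a high power of two. -/
lemma sm3a_card_small (κ k : ℕ) (hk : k ≤ κ) :
    ((univ : Finset (ZMod (2 ^ κ))).filter (fun a => 2 ^ (κ - k) ∣ a.val)).card ≤ 2 ^ k := by
  have : ((univ : Finset (ZMod (2 ^ κ))).filter (fun a => 2 ^ (κ - k) ∣ a.val)).card ≤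
      (range (2 ^ k)).card := by
    refine card_le_card_of_injOn (fun a => a.val / 2 ^ (κ - k)) ?_ ?_
    · intro a _
      have h1 : a.val < 2 ^ κ := ZMod.val_lt a
      have h2 : 2 ^ κ = 2 ^ (κ - k) * 2 ^ k := by
        rw [← pow_add, Nat.sub_add_cancel hk]
      simp only [coe_range, Set.mem_Iio]
      exact Nat.div_lt_of_lt_mul (h1.trans_eq h2)
    · intro a ha b hb hab
      simp only [coe_filter, mem_univ, true_and, Set.mem_ofPred_eq] at ha hb
      have h1 : a.val = b.val := by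
        rw [← Nat.div_mul_cancel ha, ← Nat.div_mul_cancel hb]
        simp only at hab
        rw [hab]
      exact ZMod.val_injective _ h1
  simpa using this

/-- Residues not divisible by a high power of two. -/
lemma sm3a_decomp (κ k : ℕ) (hk : k ≤ κ) (a : ZMod (2 ^ κ)) (ha : ¬ 2 ^ (κ - k) ∣ a.val) :
    ∃ κ' c : ℕ, k < κ' ∧ κ' ≤ κ ∧ Odd c ∧
      a = (2 : ZMod (2 ^ κ)) ^ (κ - κ') * (c : ZMod (2 ^ κ)) := by
  have h0 : a.val ≠ 0 := by
    intro h; rw [h] at ha; exact ha (dvd_zero _)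
  obtain ⟨e, c, hc, he⟩ := Nat.exists_eq_two_pow_mul_odd h0
  have h1 : e < κ - k := by
    by_contra hcon
    push Not at hcon
    exact ha (he ▸ (pow_dvd_pow 2 hcon).mul_right c)
  refine ⟨κ - e, c, by omega, by omega, hc, ?_⟩
  have h2 : κ - (κ - e) = e := by omega
  rw [h2]
  have h3 : a = ((a.val : ℕ) : ZMod (2 ^ κ)) := by simp
  rw [h3, he]
  push_cast
  rfl

/-- Duality: the pairing is computed by any pair of solutions. -/
lemma sm3a_pairing {N r : ℕ} (P : Matrix (Fin r) (Fin r) (ZMod N)) (u v : Fin r → ZMod N)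
    (l l' y : Fin r → ZMod N) (h1 : P.transpose.mulVec l = u) (h2 : P.transpose.mulVec l' = u)
    (h3 : P.mulVec y = v) : ∑ j, l j * v j = ∑ j, l' j * v j := by
  have key : ∀ l : Fin r → ZMod N, P.transpose.mulVec l = u → ∑ j, l j * v j = ∑ j, u j * y j := by
    intro l hl
    have e1 : ∑ j, l j * v j = l ⬝ᵥ P.mulVec y := by rw [h3]; rfl
    rw [e1, Matrix.dotProduct_mulVec, ← Matrix.mulVec_transpose, hl]
    rfl
  rw [key l h1, key l' h2]

/-- Fourier bound for the number of pairs with a given value. -/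
lemma sm3a_count {N : ℕ} [NeZero N] {α : Type*} (T : Finset α) (Z : α → ZMod N) (s : ZMod N)
    [DecidablePred (fun p => Z p = s)] :
    (N : ℝ) * ((T.filter (fun p => Z p = s)).card : ℝ) ≤
      ∑ a : ZMod N, ‖∑ p ∈ T, ee (a * Z p)‖ := by
  have h1 : ((N : ℝ) * ((T.filter (fun p => Z p = s)).card : ℝ) : ℂ) =
      ∑ a : ZMod N, ee (-(a * s)) * ∑ p ∈ T, ee (a * Z p) := by
    simp only [mul_sum]
    rw [sum_comm]
    have h2 : ∀ p ∈ T, ∑ a : ZMod N, ee (-(a * s)) * ee (a * Z p) =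
        if Z p = s then (N : ℂ) else 0 := by
      intro p _
      have h3 := sum_ee_mul (Z p - s)
      simp only [sub_eq_zero] at h3
      rw [← h3]
      refine sum_congr rfl fun a _ => ?_
      rw [← ee_add]
      congr 1
      ring
    rw [sum_congr rfl h2, ← sum_filter, sum_const, nsmul_eq_mul]
    push_cast
    ring
  have h4 : (N : ℝ) * ((T.filter (fun p => Z p = s)).card : ℝ) =
      ‖((N : ℝ) * ((T.filter (fun p => Z p = s)).card : ℝ) : ℂ)‖ := by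
    rw [← Complex.ofReal_mul, Complex.norm_real, Real.norm_eq_abs, abs_of_nonneg]
    positivity
  rw [h4, h1]
  refine (norm_sum_le _ _).trans (sum_le_sum fun a _ => ?_)
  rw [norm_mul, norm_ee, one_mul]

/-- The final numerical step. -/
lemma sm3a_num {K κ κ' t r : ℕ} {b N : ℝ} (hκ : 0 < κ) (hκ' : κ < 2 * κ') (hN : 0 ≤ N)
    (hb : b = 1 / (6 * 2 ^ K))
    (h : b ^ (8 * t ^ 2) * N ^ κ' ≤ 2 ^ ((3 * κ' + 2) * r)) :
    N ≤ (2 : ℝ) ^ ((3 + 4 / (κ : ℝ)) * r + ((8 * t ^ 2 * (K + 3) : ℕ) : ℝ)) := by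
  have hκ0 : (0 : ℝ) < κ := by exact_mod_cast hκ
  have hκ1 : (κ : ℝ) < 2 * κ' := by exact_mod_cast hκ'
  have hκ2 : (1 : ℝ) ≤ κ' := by
    have : 1 ≤ κ' := by omega
    exact_mod_cast this
  have hb0 : 0 < b := by rw [hb]; positivity
  have h1 : 1 ≤ b * 2 ^ (K + 3) := by
    rw [hb, pow_add, one_div, inv_mul_eq_div, le_div_iff₀ (by positivity)]
    have : (0 : ℝ) < 2 ^ K := by positivity
    nlinarith
  have h2 : (1 : ℝ) ≤ b ^ (8 * t ^ 2) * 2 ^ (8 * t ^ 2 * (K + 3)) := by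
    have : (2 : ℝ) ^ (8 * t ^ 2 * (K + 3)) = (2 ^ (K + 3)) ^ (8 * t ^ 2) := by
      rw [← pow_mul, mul_comm]
    rw [this, ← mul_pow]
    exact one_le_pow₀ h1
  have h3 : N ^ κ' ≤ 2 ^ ((3 * κ' + 2) * r) * 2 ^ (8 * t ^ 2 * (K + 3)) := by
    have h4 : N ^ κ' * 1 ≤ N ^ κ' * (b ^ (8 * t ^ 2) * 2 ^ (8 * t ^ 2 * (K + 3))) :=
      mul_le_mul_of_nonneg_left h2 (by positivity)
    have h5 : b ^ (8 * t ^ 2) * N ^ κ' * 2 ^ (8 * t ^ 2 * (K + 3)) ≤
        2 ^ ((3 * κ' + 2) * r) * 2 ^ (8 * t ^ 2 * (K + 3)) :=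
      mul_le_mul_of_nonneg_right h (by positivity)
    calc N ^ κ' = N ^ κ' * 1 := by ring
      _ ≤ _ := h4
      _ = b ^ (8 * t ^ 2) * N ^ κ' * 2 ^ (8 * t ^ 2 * (K + 3)) := by ring
      _ ≤ _ := h5
  have hk0 : κ' ≠ 0 := by omega
  refine le_of_pow_le_pow_left₀ hk0 (by positivity) (h3.trans ?_)
  rw [← Real.rpow_mul_natCast (by norm_num), ← pow_add, ← Real.rpow_natCast]
  refine Real.rpow_le_rpow_of_exponent_le (by norm_num) ?_
  push_cast
  have e1 : (2 : ℝ) ≤ 4 / κ * κ' := by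
    rw [div_mul_eq_mul_div, le_div_iff₀ hκ0]
    linarith
  have e2 : (0 : ℝ) ≤ r := by positivity
  have e3 : (0 : ℝ) ≤ 8 * (t : ℝ) ^ 2 * (K + 3) := by positivity
  nlinarith [mul_le_mul_of_nonneg_right e1 e2, mul_le_mul_of_nonneg_left hκ2 e3]

open Classical in
/-- Task M3a: dense pairs are small. -/
theorem dense_pairs (K : ℕ) {κ : ℕ} (hκ : 2 * K + 6 ≤ κ) : ∃ C : ℝ, ∀ (r : ℕ)
    (P : Matrix (Fin r) (Fin r) (ZMod (2 ^ κ))) (X D : Finset (Fin r → Fin 4)),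
    (∀ q ∈ X, ∃ y, P.mulVec y = fun j => ((st (q j) : ℤ) : ZMod (2 ^ κ))) →
    (∀ ρ ∈ D, ∃ lam, P.transpose.mulVec lam = fun j => ((st (ρ j) : ℤ) : ZMod (2 ^ κ))) →
    (X.card : ℝ) * D.card ≤ 2 ^ K * (((D ×ˢ X).filter (fun p => AdjP P p.1 p.2)).card : ℝ) →
    (X.card : ℝ) * D.card ≤ (2 : ℝ) ^ ((3 + 4 / (κ : ℝ)) * r + C) := by
  obtain ⟨t, ht, hts⟩ := two_source κ
  refine ⟨((8 * t ^ 2 * (K + 3) : ℕ) : ℝ), fun r P X D hX hD hdense => ?_⟩
  rcases (show (0 : ℝ) ≤ (X.card : ℝ) * D.card by positivity).eq_or_lt with hN | hN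
  · rw [← hN]; positivity
  choose! y hy using hX
  choose! lam hlam using hD
  set N : ℝ := (X.card : ℝ) * D.card with hNdef
  set Z : (Fin r → Fin 4) × (Fin r → Fin 4) → ZMod (2 ^ κ) :=
    fun p => ∑ j, lam p.1 j * ((st (p.2 j) : ℤ) : ZMod (2 ^ κ)) with hZ
  set S : ZMod (2 ^ κ) → ℝ := fun a => ‖∑ p ∈ D ×ˢ X, ee (a * Z p)‖ with hS
  have hcardT : ((D ×ˢ X).card : ℝ) = N := by
    rw [card_product, hNdef]; push_cast; ring
  have hSle : ∀ a, S a ≤ N := by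
    intro a
    rw [← hcardT]
    refine (norm_sum_le _ _).trans ?_
    simp only [norm_ee, sum_const, nsmul_eq_mul, mul_one, le_refl]
  have hadj : (((D ×ˢ X).filter (fun p => AdjP P p.1 p.2)).card : ℝ) ≤
      ((D ×ˢ X).filter (fun p => Z p = 0)).card + ((D ×ˢ X).filter (fun p => Z p = 1)).card +
        ((D ×ˢ X).filter (fun p => Z p = -1)).card := by
    have hsub : (D ×ˢ X).filter (fun p => AdjP P p.1 p.2) ⊆
        ((D ×ˢ X).filter (fun p => Z p = 0) ∪ (D ×ˢ X).filter (fun p => Z p = 1)) ∪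
          (D ×ˢ X).filter (fun p => Z p = -1) := by
      intro p hp
      rw [mem_filter, mem_product] at hp
      obtain ⟨⟨hp1, hp2⟩, l, yy, hl, hyy, hval⟩ := hp
      have hpair := sm3a_pairing P _ _ l (lam p.1) yy hl (hlam p.1 hp1) hyy
      rw [hpair] at hval
      simp only [mem_union, mem_filter, mem_product]
      rcases hval with h | h | h
      · exact Or.inl (Or.inl ⟨⟨hp1, hp2⟩, h⟩)
      · exact Or.inl (Or.inr ⟨⟨hp1, hp2⟩, h⟩)
      · exact Or.inr ⟨⟨hp1, hp2⟩, h⟩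
    have h1 := (card_le_card hsub).trans ((card_union_le _ _).trans
      (Nat.add_le_add_right (card_union_le _ _) _))
    exact_mod_cast h1
  have hm : ((2 ^ κ : ℕ) : ℝ) * (((D ×ˢ X).filter (fun p => AdjP P p.1 p.2)).card : ℝ) ≤
      3 * ∑ a, S a := by
    have h0 := sm3a_count (D ×ˢ X) Z 0
    have h1 := sm3a_count (D ×ˢ X) Z 1
    have h2 := sm3a_count (D ×ˢ X) Z (-1)
    have h3 : ((2 ^ κ : ℕ) : ℝ) * (((D ×ˢ X).filter (fun p => AdjP P p.1 p.2)).card : ℝ) ≤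
        ((2 ^ κ : ℕ) : ℝ) * (((D ×ˢ X).filter (fun p => Z p = 0)).card +
          ((D ×ˢ X).filter (fun p => Z p = 1)).card +
            ((D ×ˢ X).filter (fun p => Z p = -1)).card) :=
      mul_le_mul_of_nonneg_left hadj (by positivity)
    linarith
  have hk2 : κ / 2 ≤ κ := Nat.div_le_self _ _
  obtain ⟨a, ha, hSa⟩ : ∃ a : ZMod (2 ^ κ), ¬ 2 ^ (κ - κ / 2) ∣ a.val ∧
      1 / (6 * 2 ^ K) * N < S a := by
    by_contra hcon
    push Not at hcon
    have hsum : ∑ a, S a ≤ 2 ^ (κ / 2) * N + 2 ^ κ * (1 / (6 * 2 ^ K) * N) := by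
      rw [← sum_filter_add_sum_filter_not univ (fun a : ZMod (2 ^ κ) => 2 ^ (κ - κ / 2) ∣ a.val)]
      refine add_le_add ?_ ?_
      · refine (sum_le_card_nsmul _ _ N fun a _ => hSle a).trans ?_
        rw [nsmul_eq_mul]
        refine mul_le_mul_of_nonneg_right ?_ hN.le
        exact_mod_cast sm3a_card_small κ (κ / 2) hk2
      · refine (sum_le_card_nsmul _ _ (1 / (6 * 2 ^ K) * N) fun a ha => ?_).trans ?_
        · exact hcon a (mem_filter.mp ha).2
        · rw [nsmul_eq_mul]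
          refine mul_le_mul_of_nonneg_right ?_ (by positivity)
          have : ((univ : Finset (ZMod (2 ^ κ))).filter
              (fun a => ¬ 2 ^ (κ - κ / 2) ∣ a.val)).card ≤ 2 ^ κ := by
            refine (card_filter_le _ _).trans ?_
            rw [card_univ, ZMod.card]
          exact_mod_cast this
    have hp : (2 : ℝ) ^ κ = 2 ^ (κ / 2) * 2 ^ (κ - κ / 2) := by
      rw [← pow_add]; congr 1; omega
    have hq : (8 : ℝ) * 2 ^ K ≤ 2 ^ (κ - κ / 2) := by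
      have : (8 : ℝ) * 2 ^ K = 2 ^ (K + 3) := by rw [pow_add]; norm_num; ring
      rw [this]
      exact pow_le_pow_right₀ (by norm_num) (by omega)
    have hmul : ((2 ^ κ : ℕ) : ℝ) * N ≤ 2 ^ K * (((2 ^ κ : ℕ) : ℝ) *
        (((D ×ˢ X).filter (fun p => AdjP P p.1 p.2)).card : ℝ)) := by
      have := mul_le_mul_of_nonneg_left hdense (show (0 : ℝ) ≤ ((2 ^ κ : ℕ) : ℝ) by positivity)
      linarith
    have hfin : ((2 ^ κ : ℕ) : ℝ) * N ≤ 2 ^ K * (3 * (2 ^ (κ / 2) * N +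
        2 ^ κ * (1 / (6 * 2 ^ K) * N))) :=
      hmul.trans (mul_le_mul_of_nonneg_left (hm.trans (by linarith)) (by positivity))
    have hK : (0 : ℝ) < 2 ^ K := by positivity
    have he : (2 : ℝ) ^ K * (3 * (2 ^ (κ / 2) * N + 2 ^ κ * (1 / (6 * 2 ^ K) * N))) =
        3 * 2 ^ K * 2 ^ (κ / 2) * N + 2 ^ κ * N / 2 := by
      field_simp
      ring
    rw [he] at hfin
    push_cast at hfin
    rw [hp] at hfin
    have hA : (0 : ℝ) < 2 ^ (κ / 2) * N := by positivity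
    nlinarith [mul_le_mul_of_nonneg_left hq hA.le, mul_pos hA hK]
  obtain ⟨κ', c, hk', hκ'κ, hc, hac⟩ := sm3a_decomp κ (κ / 2) hk2 a ha
  set φ := ZMod.castHom (pow_dvd_pow 2 hκ'κ) (ZMod (2 ^ κ')) with hφ
  have hunit : IsUnit ((c : ℕ) : ZMod (2 ^ κ')) := by
    rw [ZMod.isUnit_iff_coprime]
    exact Nat.Coprime.pow_right _ (Nat.coprime_two_right.mpr hc)
  have hfinal := hts κ' (by omega) hκ'κ r (P.map φ) X D (fun q j => φ (y q j))
    (fun ρ j => φ (lam ρ j)) ((c : ℕ) : ZMod (2 ^ κ')) hunit ?_ ?_ (1 / (6 * 2 ^ K))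
    (by positivity) ?_
  · exact sm3a_num (by omega) (by omega) hN.le rfl hfinal
  · intro q hq
    have h1 := hy q hq
    funext i
    have h2 := congrFun h1 i
    have h3 := congrArg φ h2
    rw [map_intCast] at h3
    rw [← h3]
    simp only [Matrix.mulVec, dotProduct, map_sum, map_mul, Matrix.map_apply]
  · intro ρ hρ
    have h1 := hlam ρ hρ
    funext i
    have h2 := congrFun h1 i
    have h3 := congrArg φ h2
    rw [map_intCast] at h3
    rw [← h3]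
    simp only [Matrix.mulVec, dotProduct, map_sum, map_mul, Matrix.map_apply,
      Matrix.transpose_apply]
  · refine (le_of_lt hSa).trans (le_of_eq ?_)
    simp only [hS]
    congr 1
    rw [sum_product]
    refine sum_congr rfl fun ρ _ => sum_congr rfl fun q _ => ?_
    rw [hac, mul_assoc, sm3a_ee_scale hκ'κ]
    congr 1
    rw [map_mul, map_natCast]
    congr 1
    simp only [hZ, map_sum, map_mul, map_intCast]
    rfl

end Vale.Agent.P160
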