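import Vale.Agent.P160.SM3a

namespace Vale.Agent.P160

open Finset

open Classical in
/-- Common neighbours of the rows with index in `I`. -/
noncomputable def sm3b_X {κ r l : ℕ} (P : Matrix (Fin r) (Fin r) (ZMod (2 ^ κ)))
    (I : Finset (Fin l)) (ρ : Fin l → Fin r → Fin 4) : Finset (Fin r → Fin 4) :=
  univ.filter (fun q => (∃ y, P.mulVec y = fun j => ((st (q j) : ℤ) : ZMod (2 ^ κ))) ∧
    ∀ i ∈ I, AdjP P (ρ i) q)

open Classical in
/-- Seeds with many neighbours among the common neighbours. -/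
noncomputable def sm3b_D {κ r l : ℕ} (K : ℕ) (P : Matrix (Fin r) (Fin r) (ZMod (2 ^ κ)))
    (I : Finset (Fin l)) (ρ : Fin l → Fin r → Fin 4) : Finset (Fin r → Fin 4) :=
  univ.filter (fun σ => (∃ lam, P.transpose.mulVec lam =
      fun j => ((st (σ j) : ℤ) : ZMod (2 ^ κ))) ∧
    (sm3b_X P I ρ).card ≤ 2 ^ K * ((sm3b_X P I ρ).filter (fun q => AdjP P σ q)).card)

lemma sm3b_X_congr {κ r l : ℕ} (P : Matrix (Fin r) (Fin r) (ZMod (2 ^ κ)))
    (I : Finset (Fin l)) {ρ τ : Fin l → Fin r → Fin 4} (h : ∀ i ∈ I, ρ i = τ i) :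
    sm3b_X P I ρ = sm3b_X P I τ := by
  classical
  unfold sm3b_X
  refine filter_congr fun q _ => ?_
  refine and_congr_right fun _ => forall₂_congr fun i hi => ?_
  rw [h i hi]

lemma sm3b_D_congr {κ r l : ℕ} (K : ℕ) (P : Matrix (Fin r) (Fin r) (ZMod (2 ^ κ)))
    (I : Finset (Fin l)) {ρ τ : Fin l → Fin r → Fin 4} (h : ∀ i ∈ I, ρ i = τ i) :
    sm3b_D K P I ρ = sm3b_D K P I τ := by
  classical
  unfold sm3b_D
  rw [sm3b_X_congr P I h]

lemma sm3b_card_le {r : ℕ} (X : Finset (Fin r → Fin 4)) : X.card ≤ 4 ^ r := by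
  refine (card_le_univ X).trans ?_
  simp

open Classical in
/-- The fibres over the rows in `I`. -/
lemma sm3b_fiber {κ r l : ℕ} (K : ℕ) (P : Matrix (Fin r) (Fin r) (ZMod (2 ^ κ)))
    (I : Finset (Fin l)) (B : ℝ) (hB4 : (4 : ℝ) ^ r ≤ B) (hB1 : 1 ≤ B)
    (hB : ∀ τ : Fin l → Fin r → Fin 4,
      ((sm3b_X P I τ).card : ℝ) * (sm3b_D K P I τ).card ≤ B) :
    ((univ.filter (fun p : (Fin l → Fin r → Fin 4) × (Fin l → Fin r → Fin 4) =>
      (∀ i, i ∉ I → p.1 i ∈ sm3b_D K P I p.1) ∧ ∀ j, p.2 j ∈ sm3b_X P I p.1)).card : ℝ) ≤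
      B ^ l * 4 ^ (r * I.card) := by
  set E := univ.filter (fun p : (Fin l → Fin r → Fin 4) × (Fin l → Fin r → Fin 4) =>
      (∀ i, i ∉ I → p.1 i ∈ sm3b_D K P I p.1) ∧ ∀ j, p.2 j ∈ sm3b_X P I p.1) with hE
  set f : (Fin l → Fin r → Fin 4) × (Fin l → Fin r → Fin 4) → (Fin l → Fin r → Fin 4) :=
    fun p i => if i ∈ I then p.1 i else default with hf
  set T : Finset (Fin l → Fin r → Fin 4) :=
    Fintype.piFinset (fun i => if i ∈ I then univ else {default}) with hT
  have hTcard : T.card = 4 ^ (r * I.card) := by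
    rw [hT, Fintype.card_piFinset]
    have : ∀ i : Fin l, (if i ∈ I then (univ : Finset (Fin r → Fin 4)) else {default}).card =
        if i ∈ I then 4 ^ r else 1 := by
      intro i
      split_ifs <;> simp
    rw [prod_congr rfl fun i _ => this i, prod_ite, prod_const, prod_const_one, mul_one, ← pow_mul]
    congr 2
    congr 1
    ext i
    simp
  have hmaps : ∀ p ∈ E, f p ∈ T := by
    intro p _
    rw [hT, Fintype.mem_piFinset]
    intro i
    simp only [hf]
    split_ifs <;> simp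
  have hfib : ∀ τ ∈ T, (E.filter (fun p => f p = τ)).card ≤ ⌊B ^ l⌋₊ := by
    intro τ _
    refine Nat.le_floor ?_
    have hsub : E.filter (fun p => f p = τ) ⊆
        Fintype.piFinset (fun i => if i ∈ I then {τ i} else sm3b_D K P I τ) ×ˢ
          Fintype.piFinset (fun _ : Fin l => sm3b_X P I τ) := by
      intro p hp
      rw [mem_filter, hE, mem_filter] at hp
      obtain ⟨⟨-, h1, h2⟩, h3⟩ := hp
      have h4 : ∀ i ∈ I, p.1 i = τ i := by
        intro i hi
        rw [← h3]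
        simp [hf, hi]
      rw [sm3b_D_congr K P I h4] at h1
      rw [sm3b_X_congr P I h4] at h2
      rw [mem_product, Fintype.mem_piFinset, Fintype.mem_piFinset]
      refine ⟨fun i => ?_, h2⟩
      split_ifs with hi
      · rw [mem_singleton]; exact h4 i hi
      · exact h1 i hi
    have h1 := card_le_card hsub
    rw [card_product, Fintype.card_piFinset, Fintype.card_piFinset] at h1
    have h2 : ∀ i : Fin l, (if i ∈ I then ({τ i} : Finset (Fin r → Fin 4))
        else sm3b_D K P I τ).card = if i ∈ I then 1 else (sm3b_D K P I τ).card := by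
      intro i
      split_ifs <;> simp
    rw [prod_congr rfl fun i _ => h2 i, prod_ite, prod_const_one, one_mul, prod_const,
      prod_const, card_univ, Fintype.card_fin] at h1
    have h3 : (univ.filter (fun i : Fin l => i ∉ I)).card ≤ l := by
      refine (card_filter_le _ _).trans ?_
      simp
    have h1' : ((E.filter (fun p => f p = τ)).card : ℝ) ≤
        ((sm3b_D K P I τ).card : ℝ) ^ (univ.filter (fun i : Fin l => i ∉ I)).card *
          ((sm3b_X P I τ).card : ℝ) ^ l := by exact_mod_cast h1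
    refine h1'.trans ?_
    have hXr : ((sm3b_X P I τ).card : ℝ) ≤ 4 ^ r := by exact_mod_cast sm3b_card_le _
    rcases Nat.eq_zero_or_pos (sm3b_D K P I τ).card with hD | hD
    · rw [hD]
      rcases Nat.eq_zero_or_pos (univ.filter (fun i : Fin l => i ∉ I)).card with h0 | h0
      · rw [h0, pow_zero, one_mul]
        exact pow_le_pow_left₀ (by positivity) (hXr.trans hB4) _
      · rw [Nat.cast_zero, zero_pow h0.ne', zero_mul]
        positivity
    · have hD1 : (1 : ℝ) ≤ (sm3b_D K P I τ).card := by exact_mod_cast hD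
      calc ((sm3b_D K P I τ).card : ℝ) ^ (univ.filter (fun i : Fin l => i ∉ I)).card *
            ((sm3b_X P I τ).card : ℝ) ^ l
          ≤ ((sm3b_D K P I τ).card : ℝ) ^ l * ((sm3b_X P I τ).card : ℝ) ^ l :=
            mul_le_mul_of_nonneg_right (pow_le_pow_right₀ hD1 h3) (by positivity)
        _ = (((sm3b_X P I τ).card : ℝ) * (sm3b_D K P I τ).card) ^ l := by
            rw [← mul_pow, mul_comm]
        _ ≤ B ^ l := pow_le_pow_left₀ (by positivity) (hB τ) _
  have hmain := card_le_mul_card_image_of_maps_to hmaps _ hfib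
  have h5 : (E.card : ℝ) ≤ (⌊B ^ l⌋₊ : ℝ) * (T.card : ℝ) := by exact_mod_cast hmain
  refine h5.trans ?_
  rw [hTcard]
  push_cast
  exact mul_le_mul_of_nonneg_right (Nat.floor_le (by positivity)) (by positivity)

/-- Maximal index sets. -/
lemma sm3b_max {κ r l : ℕ} (K : ℕ) (P : Matrix (Fin r) (Fin r) (ZMod (2 ^ κ)))
    (ρ q : Fin l → Fin r → Fin 4) (hl : 0 < l) (h : ∀ i j, AdjP P (ρ i) (q j)) :
    ∃ I : Finset (Fin l), K * I.card ≤ 2 * r ∧ (∀ i, i ∉ I → ρ i ∈ sm3b_D K P I ρ) ∧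
      ∀ j, q j ∈ sm3b_X P I ρ := by
  classical
  have hq : ∀ I : Finset (Fin l), ∀ j, q j ∈ sm3b_X P I ρ := by
    intro I j
    unfold sm3b_X
    rw [mem_filter]
    obtain ⟨lam, y, h1, h2, h3⟩ := h ⟨0, hl⟩ j
    exact ⟨mem_univ _, ⟨y, h2⟩, fun i _ => h i j⟩
  set 𝒮 := (univ : Finset (Finset (Fin l))).filter
    (fun I => (sm3b_X P I ρ).card * 2 ^ (K * I.card) ≤ 4 ^ r) with h𝒮
  have hne : 𝒮.Nonempty := by
    refine ⟨∅, ?_⟩
    rw [h𝒮, mem_filter]
    refine ⟨mem_univ _, ?_⟩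
    simpa using sm3b_card_le (sm3b_X P (∅ : Finset (Fin l)) ρ)
  obtain ⟨I, hI, hmax⟩ := exists_max_image 𝒮 (fun I => I.card) hne
  have hI' := (mem_filter.mp hI).2
  have hXpos : 0 < (sm3b_X P I ρ).card := card_pos.mpr ⟨q ⟨0, hl⟩, hq I _⟩
  refine ⟨I, ?_, ?_, hq I⟩
  · have h1 : 2 ^ (K * I.card) ≤ 2 ^ (2 * r) := by
      calc 2 ^ (K * I.card) ≤ (sm3b_X P I ρ).card * 2 ^ (K * I.card) :=
            Nat.le_mul_of_pos_left _ hXpos
        _ ≤ 4 ^ r := hI'
        _ = 2 ^ (2 * r) := by rw [pow_mul]; norm_num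
    exact (Nat.pow_le_pow_iff_right (by norm_num)).mp h1
  · intro i hi
    unfold sm3b_D
    rw [mem_filter]
    obtain ⟨lam, y, h1, h2, h3⟩ := h i ⟨0, hl⟩
    refine ⟨mem_univ _, ⟨lam, h1⟩, ?_⟩
    have hnot : insert i I ∉ 𝒮 := by
      intro hcon
      have := hmax _ hcon
      simp only [card_insert_of_notMem hi] at this
      omega
    have hgt : 4 ^ r < (sm3b_X P (insert i I) ρ).card * 2 ^ (K * (insert i I).card) := by
      by_contra hcon
      push Not at hcon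
      exact hnot (by rw [h𝒮, mem_filter]; exact ⟨mem_univ _, hcon⟩)
    have hXi : sm3b_X P (insert i I) ρ = (sm3b_X P I ρ).filter (fun q => AdjP P (ρ i) q) := by
      unfold sm3b_X
      ext q
      simp only [mem_filter, mem_univ, true_and, mem_insert, forall_eq_or_imp]
      tauto
    rw [hXi, card_insert_of_notMem hi, mul_add, mul_one, pow_add] at hgt
    have h4 := hI'.trans_lt hgt
    have h5 : (sm3b_X P I ρ).card * 2 ^ (K * I.card) <
        (2 ^ K * ((sm3b_X P I ρ).filter (fun q => AdjP P (ρ i) q)).card) *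
          2 ^ (K * I.card) := by
      calc _ < _ := h4
        _ = _ := by ring
    exact (Nat.lt_of_mul_lt_mul_right h5).le

open Classical in
/-- Task M3b: the number of bicliques. -/
theorem biclique (e : ℝ) (he : 0 < e) : ∃ κ : ℕ, 2 ≤ κ ∧ ∃ d0 : ℕ, ∀ r l : ℕ, d0 ≤ r + l →
    ∀ P : Matrix (Fin r) (Fin r) (ZMod (2 ^ κ)),
    ((univ.filter (fun p : (Fin l → Fin r → Fin 4) × (Fin l → Fin r → Fin 4) =>
      ∀ i j, AdjP P (p.1 i) (p.2 j))).card : ℝ) ≤
      (2 : ℝ) ^ (e * ((r : ℝ) + l) ^ 2) * 2 ^ (3 * r * l) := by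
  obtain ⟨K, hK⟩ := exists_nat_ge (16 / e)
  have hK0 : (0 : ℝ) < K := lt_of_lt_of_le (by positivity) hK
  have hK4 : (4 : ℝ) / K ≤ e / 4 := by
    rw [div_le_iff₀ hK0]
    rw [div_le_iff₀ he] at hK
    nlinarith
  set κ := 2 * K + 6 with hκ
  have hκ4 : (4 : ℝ) / κ ≤ e / 4 := by
    refine le_trans ?_ hK4
    refine div_le_div_of_nonneg_left (by norm_num) hK0 ?_
    rw [hκ]; push_cast; linarith
  obtain ⟨C0, hC0⟩ := dense_pairs K (κ := κ) le_rfl
  set C : ℝ := max C0 0 with hC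
  have hCnn : 0 ≤ C := le_max_right _ _
  obtain ⟨d0, hd0⟩ := exists_nat_ge (4 * (C + 1) / e)
  refine ⟨κ, by omega, d0, fun r l hrl P => ?_⟩
  rcases Nat.eq_zero_or_pos l with rfl | hl
  · have h1 : (univ.filter (fun p : (Fin 0 → Fin r → Fin 4) × (Fin 0 → Fin r → Fin 4) =>
      ∀ i j, AdjP P (p.1 i) (p.2 j))).card ≤ 1 := by
      refine (card_filter_le _ _).trans ?_
      simp
    have h2 : ((univ.filter (fun p : (Fin 0 → Fin r → Fin 4) × (Fin 0 → Fin r → Fin 4) =>
      ∀ i j, AdjP P (p.1 i) (p.2 j))).card : ℝ) ≤ 1 := by exact_mod_cast h1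
    refine h2.trans ?_
    rw [mul_zero, pow_zero, mul_one]
    exact Real.one_le_rpow (by norm_num) (by positivity)
  set B : ℝ := (2 : ℝ) ^ ((3 + 4 / (κ : ℝ)) * r + C) with hBdef
  have hκpos : (0 : ℝ) < κ := by rw [hκ]; push_cast; positivity
  have hB4 : (4 : ℝ) ^ r ≤ B := by
    have : (4 : ℝ) ^ r = (2 : ℝ) ^ ((2 * r : ℕ) : ℝ) := by
      rw [Real.rpow_natCast, pow_mul]; norm_num
    rw [this, hBdef]
    refine Real.rpow_le_rpow_of_exponent_le (by norm_num) ?_
    push_cast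
    have : (0 : ℝ) ≤ 4 / κ * r := by positivity
    have : (0 : ℝ) ≤ (r : ℝ) := by positivity
    nlinarith
  have hB1 : 1 ≤ B := le_trans (one_le_pow₀ (by norm_num)) hB4
  have hBB : ∀ I : Finset (Fin l), ∀ τ : Fin l → Fin r → Fin 4,
      ((sm3b_X P I τ).card : ℝ) * (sm3b_D K P I τ).card ≤ B := by
    intro I τ
    have h1 := hC0 r P (sm3b_X P I τ) (sm3b_D K P I τ) ?_ ?_ ?_
    · refine h1.trans ?_
      rw [hBdef]
      refine Real.rpow_le_rpow_of_exponent_le (by norm_num) ?_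
      have := le_max_left C0 0
      linarith
    · intro q hq
      exact (mem_filter.mp hq).2.1
    · intro σ hσ
      exact (mem_filter.mp hσ).2.1
    · have h2 : ((sm3b_D K P I τ ×ˢ sm3b_X P I τ).filter (fun p => AdjP P p.1 p.2)).card =
          ∑ σ ∈ sm3b_D K P I τ, ((sm3b_X P I τ).filter (fun q => AdjP P σ q)).card := by
        rw [card_filter, sum_product]
        refine sum_congr rfl fun σ _ => ?_
        rw [card_filter]
      have h3 : (sm3b_X P I τ).card * (sm3b_D K P I τ).card ≤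
          2 ^ K * ((sm3b_D K P I τ ×ˢ sm3b_X P I τ).filter (fun p => AdjP P p.1 p.2)).card := by
        rw [h2, mul_sum, mul_comm, ← smul_eq_mul]
        refine card_nsmul_le_sum _ _ _ fun σ hσ => ?_
        exact (mem_filter.mp hσ).2.2
      exact_mod_cast h3
  set 𝒮 := (univ : Finset (Finset (Fin l))).filter (fun I => K * I.card ≤ 2 * r) with h𝒮
  have hsub : (univ.filter (fun p : (Fin l → Fin r → Fin 4) × (Fin l → Fin r → Fin 4) =>
      ∀ i j, AdjP P (p.1 i) (p.2 j))) ⊆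
      𝒮.biUnion (fun I => univ.filter
        (fun p : (Fin l → Fin r → Fin 4) × (Fin l → Fin r → Fin 4) =>
          (∀ i, i ∉ I → p.1 i ∈ sm3b_D K P I p.1) ∧ ∀ j, p.2 j ∈ sm3b_X P I p.1)) := by
    intro p hp
    obtain ⟨I, hI1, hI2, hI3⟩ := sm3b_max K P p.1 p.2 hl (mem_filter.mp hp).2
    rw [mem_biUnion]
    exact ⟨I, by rw [h𝒮, mem_filter]; exact ⟨mem_univ _, hI1⟩,
      mem_filter.mpr ⟨mem_univ _, hI2, hI3⟩⟩
  have hcard : ((univ.filter (fun p : (Fin l → Fin r → Fin 4) × (Fin l → Fin r → Fin 4) =>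
      ∀ i j, AdjP P (p.1 i) (p.2 j))).card : ℝ) ≤
      ∑ I ∈ 𝒮, ((univ.filter
        (fun p : (Fin l → Fin r → Fin 4) × (Fin l → Fin r → Fin 4) =>
          (∀ i, i ∉ I → p.1 i ∈ sm3b_D K P I p.1) ∧
            ∀ j, p.2 j ∈ sm3b_X P I p.1)).card : ℝ) := by
    exact_mod_cast (card_le_card hsub).trans card_biUnion_le
  refine hcard.trans ?_
  have hterm : ∀ I ∈ 𝒮, ((univ.filter
        (fun p : (Fin l → Fin r → Fin 4) × (Fin l → Fin r → Fin 4) =>
          (∀ i, i ∉ I → p.1 i ∈ sm3b_D K P I p.1) ∧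
            ∀ j, p.2 j ∈ sm3b_X P I p.1)).card : ℝ) ≤
      (2 : ℝ) ^ (((3 + 4 / (κ : ℝ)) * r + C) * l + 4 * (r : ℝ) ^ 2 / K) := by
    intro I hI
    refine (sm3b_fiber K P I B hB4 hB1 (hBB I)).trans ?_
    have hI' : (K : ℝ) * I.card ≤ 2 * r := by exact_mod_cast (mem_filter.mp hI).2
    have h1 : B ^ l = (2 : ℝ) ^ (((3 + 4 / (κ : ℝ)) * r + C) * l) := by
      rw [hBdef, ← Real.rpow_mul_natCast (by norm_num)]
    have h2 : (4 : ℝ) ^ (r * I.card) = (2 : ℝ) ^ ((2 * (r * I.card) : ℕ) : ℝ) := by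
      rw [Real.rpow_natCast, pow_mul (2 : ℝ) 2 (r * I.card)]; norm_num
    rw [h1, h2, ← Real.rpow_add (by norm_num)]
    refine Real.rpow_le_rpow_of_exponent_le (by norm_num) ?_
    refine add_le_add_right ?_ _
    rw [le_div_iff₀ hK0]
    push_cast
    have hr : (0 : ℝ) ≤ r := by positivity
    nlinarith [mul_le_mul_of_nonneg_left hI' hr]
  refine (sum_le_sum hterm).trans ?_
  rw [sum_const, nsmul_eq_mul]
  have hcS : (𝒮.card : ℝ) ≤ (2 : ℝ) ^ ((l : ℕ) : ℝ) := by
    rw [Real.rpow_natCast]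
    have : 𝒮.card ≤ 2 ^ l := by
      refine (card_filter_le _ _).trans ?_
      simp
    exact_mod_cast this
  refine (mul_le_mul_of_nonneg_right hcS (by positivity)).trans ?_
  rw [← Real.rpow_add (by norm_num), ← Real.rpow_natCast 2 (3 * r * l),
    ← Real.rpow_add (by norm_num)]
  refine Real.rpow_le_rpow_of_exponent_le (by norm_num) ?_
  push_cast
  have hd : (d0 : ℝ) ≤ r + l := by exact_mod_cast hrl
  have hd' : 4 * (C + 1) / e ≤ r + l := hd0.trans hd
  rw [div_le_iff₀ he] at hd'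
  have hr : (0 : ℝ) ≤ r := by positivity
  have hl0 : (0 : ℝ) ≤ l := by positivity
  have a1 : 4 * (r : ℝ) ^ 2 / K ≤ e / 4 * (r + l) ^ 2 := by
    have : 4 * (r : ℝ) ^ 2 / K = 4 / K * r ^ 2 := by ring
    rw [this]
    refine mul_le_mul hK4 ?_ (by positivity) (by positivity)
    nlinarith
  have a2 : 4 / (κ : ℝ) * r * l ≤ e / 4 * (r + l) ^ 2 := by
    rw [mul_assoc]
    refine mul_le_mul hκ4 ?_ (by positivity) (by positivity)
    nlinarith
  have a3 : (C + 1) * l ≤ e / 4 * (r + l) ^ 2 := by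
    have h1 : (C + 1) * l ≤ (C + 1) * (r + l) :=
      mul_le_mul_of_nonneg_left (by linarith) (by linarith)
    have h2 : (C + 1) * (r + l) ≤ e / 4 * (r + l) * (r + l) :=
      mul_le_mul_of_nonneg_right (by linarith) (by linarith)
    nlinarith
  nlinarith [a1, a2, a3, mul_nonneg hr hl0, he]

end Vale.Agent.P160
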