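import Vale.Agent.P160.SDefs

namespace Vale.Agent.P160

open Finset

section
variable {α β : Type*} [Fintype α] [Fintype β] [DecidableEq α] [DecidableEq β]

lemma sm4a_mem_kerN {N : ℕ} [NeZero N] {H : β → α → ℤ} {u : α → ZMod N} :
    u ∈ kerN N H ↔ ∀ i, ∑ l, (H i l : ZMod N) * u l = 0 := by
  simp only [kerN, mem_filter, mem_univ, true_and]

lemma sm4a_dvd {j : ℕ} {x : ZMod (2 ^ (j + 1))} (hx : (x.cast : ZMod 2) = 0) : 2 ∣ x.val := by
  have h1 : (ZMod.castHom (dvd_pow_self 2 (Nat.succ_ne_zero j)) (ZMod 2)) x = 0 := by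
    rw [ZMod.castHom_apply]; exact hx
  rw [← ZMod.natCast_zmod_val x, map_natCast, ZMod.natCast_eq_zero_iff] at h1
  exact h1

omit [DecidableEq α] in
lemma sm4a_iff (j : ℕ) (a : α → ℤ) (k : α → ℕ) :
    (∑ l, (a l : ZMod (2 ^ (j + 1))) * (2 * (k l : ZMod (2 ^ (j + 1)))) = 0) ↔
      ∑ l, (a l : ZMod (2 ^ j)) * (k l : ZMod (2 ^ j)) = 0 := by
  have e1 : ∑ l, (a l : ZMod (2 ^ (j + 1))) * (2 * (k l : ZMod (2 ^ (j + 1)))) =
      ((2 * ∑ l, a l * (k l : ℤ) : ℤ) : ZMod (2 ^ (j + 1))) := by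
    push_cast
    rw [mul_sum]
    exact sum_congr rfl fun l _ => by ring
  have e2 : ∑ l, (a l : ZMod (2 ^ j)) * (k l : ZMod (2 ^ j)) =
      ((∑ l, a l * (k l : ℤ) : ℤ) : ZMod (2 ^ j)) := by
    push_cast
    rfl
  have e3 : ((2 ^ (j + 1) : ℕ) : ℤ) = 2 * ((2 ^ j : ℕ) : ℤ) := by
    push_cast; ring
  rw [e1, e2, ZMod.intCast_zmod_eq_zero_iff_dvd, ZMod.intCast_zmod_eq_zero_iff_dvd, e3]
  exact mul_dvd_mul_iff_left two_ne_zero

lemma sm4a_cast_add {j : ℕ} (x y : ZMod (2 ^ (j + 1))) :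
    ((x + 2 * y).cast : ZMod 2) = (x.cast : ZMod 2) := by
  have h := map_add (ZMod.castHom (dvd_pow_self 2 (Nat.succ_ne_zero j)) (ZMod 2)) x (2 * y)
  rw [map_mul, map_ofNat] at h
  simp only [ZMod.castHom_apply] at h
  rw [h]
  have h2 : (2 : ZMod 2) = 0 := by decide
  rw [h2, zero_mul, add_zero]

lemma sm4a_cast_sub {j : ℕ} {x y : ZMod (2 ^ (j + 1))} (h : (x.cast : ZMod 2) = y.cast) :
    ((x - y).cast : ZMod 2) = 0 := by
  have h1 := map_sub (ZMod.castHom (dvd_pow_self 2 (Nat.succ_ne_zero j)) (ZMod 2)) x y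
  simp only [ZMod.castHom_apply] at h1
  rw [h1, h, sub_self]

lemma sm4a_half {j : ℕ} {x : ZMod (2 ^ (j + 1))} (hx : 2 ∣ x.val) :
    (2 : ZMod (2 ^ (j + 1))) * ((x.val / 2 : ℕ) : ZMod (2 ^ (j + 1))) = x := by
  have h : ((2 * (x.val / 2) : ℕ) : ZMod (2 ^ (j + 1))) = x := by
    rw [Nat.mul_div_cancel' hx, ZMod.natCast_zmod_val]
  rw [Nat.cast_mul, Nat.cast_ofNat] at h
  exact h

/-- Task M4a -/
theorem card_kerN_succ (H : β → α → ℤ) (j : ℕ) :
    (kerN (2 ^ (j + 1)) H).card = (kerN (2 ^ j) H).card * (redN (j + 1) H).card := by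
  have key : ∀ b ∈ redN (j + 1) H,
      ((kerN (2 ^ (j + 1)) H).filter (fun u => (fun i => ((u i).cast : ZMod 2)) = b)).card =
        (kerN (2 ^ j) H).card := by
    intro b hb
    obtain ⟨z₀, hz₀, rfl⟩ := mem_image.1 hb
    rw [sm4a_mem_kerN] at hz₀
    have hd : ∀ z : α → ZMod (2 ^ (j + 1)), (fun i => ((z i).cast : ZMod 2)) =
        (fun i => ((z₀ i).cast : ZMod 2)) → ∀ i, 2 ∣ (z i - z₀ i).val :=
      fun z hz i => sm4a_dvd (sm4a_cast_sub (congrFun hz i))
    have hlt : ∀ y : ZMod (2 ^ (j + 1)), y.val / 2 < 2 ^ j := by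
      intro y
      have := ZMod.val_lt y
      rw [Nat.div_lt_iff_lt_mul two_pos]
      exact lt_of_lt_of_eq this (pow_succ 2 j)
    refine Finset.card_nbij' (fun z i => (((z i - z₀ i).val / 2 : ℕ) : ZMod (2 ^ j)))
      (fun u i => z₀ i + 2 * ((u i).val : ZMod (2 ^ (j + 1)))) ?_ ?_ ?_ ?_
    · intro z hz
      rw [Finset.mem_coe, mem_filter, sm4a_mem_kerN] at hz
      rw [Finset.mem_coe, sm4a_mem_kerN]
      intro i
      rw [← sm4a_iff j (H i) (fun l => (z l - z₀ l).val / 2)]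
      have h1 : ∀ l, (2 : ZMod (2 ^ (j + 1))) *
          (((z l - z₀ l).val / 2 : ℕ) : ZMod (2 ^ (j + 1))) = z l - z₀ l :=
        fun l => sm4a_half (hd z hz.2 l)
      simp only [h1, mul_sub, sum_sub_distrib]
      rw [hz.1 i, hz₀ i, sub_self]
    · intro u hu
      rw [Finset.mem_coe, sm4a_mem_kerN] at hu
      rw [Finset.mem_coe, mem_filter, sm4a_mem_kerN]
      refine ⟨fun i => ?_, ?_⟩
      · simp only [mul_add, sum_add_distrib]
        rw [hz₀ i, zero_add]
        refine (sm4a_iff j (H i) (fun l => (u l).val)).2 ?_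
        simp only [ZMod.natCast_zmod_val]
        exact hu i
      · funext i
        exact sm4a_cast_add _ _
    · intro z hz
      rw [Finset.mem_coe, mem_filter] at hz
      funext i
      simp only
      rw [ZMod.val_cast_of_lt (hlt _), sm4a_half (hd z hz.2 i)]
      ring
    · intro u _
      funext i
      simp only
      rw [add_sub_cancel_left]
      have h1 : (2 : ZMod (2 ^ (j + 1))) * ((u i).val : ZMod (2 ^ (j + 1))) =
          ((2 * (u i).val : ℕ) : ZMod (2 ^ (j + 1))) := by push_cast; rfl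
      have h2 : 2 * (u i).val < 2 ^ (j + 1) := by
        have := ZMod.val_lt (u i)
        rw [pow_succ]; omega
      rw [h1, ZMod.val_cast_of_lt h2, Nat.mul_div_cancel_left _ two_pos, ZMod.natCast_zmod_val]
  calc (kerN (2 ^ (j + 1)) H).card
      = ∑ b ∈ redN (j + 1) H, ((kerN (2 ^ (j + 1)) H).filter
          (fun u => (fun i => ((u i).cast : ZMod 2)) = b)).card :=
        Finset.card_eq_sum_card_image _ _
    _ = ∑ _b ∈ redN (j + 1) H, (kerN (2 ^ j) H).card := sum_congr rfl key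
    _ = _ := by rw [sum_const, smul_eq_mul, mul_comm]

/-- Task M4a -/
theorem redN_antitone (H : β → α → ℤ) {i j : ℕ} (hi : 1 ≤ i) (hij : i ≤ j) :
    redN j H ⊆ redN i H := by
  intro b hb
  obtain ⟨u, hu, rfl⟩ := mem_image.1 hb
  rw [sm4a_mem_kerN] at hu
  have h1 : 2 ∣ 2 ^ i := dvd_pow_self 2 (by omega)
  have h2 : 2 ^ i ∣ 2 ^ j := pow_dvd_pow 2 hij
  refine mem_image.2 ⟨fun l => ZMod.castHom h2 (ZMod (2 ^ i)) (u l), ?_, ?_⟩
  · rw [sm4a_mem_kerN]
    intro k
    have := congrArg (ZMod.castHom h2 (ZMod (2 ^ i))) (hu k)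
    rw [map_sum, map_zero] at this
    rw [← this]
    refine sum_congr rfl fun l _ => ?_
    rw [map_mul, map_intCast]
  · funext l
    have h3 : (ZMod.castHom h1 (ZMod 2)).comp (ZMod.castHom h2 (ZMod (2 ^ i))) =
        ZMod.castHom (h1.trans h2) (ZMod 2) := Subsingleton.elim _ _
    have h4 := DFunLike.congr_fun h3 (u l)
    rw [RingHom.comp_apply] at h4
    simp only [ZMod.castHom_apply] at h4 ⊢
    exact h4

/-- Task M4a -/
theorem card_kerN_le (H : β → α → ℤ) (κ J : ℕ) (hκ : 1 ≤ κ) :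
    (kerN (2 ^ J) H).card ≤ 2 ^ (κ * Fintype.card α) * (redN κ H).card ^ J := by
  have hr : 1 ≤ (redN κ H).card := by
    rw [Nat.one_le_iff_ne_zero, Ne, Finset.card_eq_zero, ← Ne, ← Finset.nonempty_iff_ne_empty]
    refine Finset.Nonempty.image ⟨0, ?_⟩ _
    rw [sm4a_mem_kerN]
    intro i
    simp only [Pi.zero_apply, mul_zero, sum_const_zero]
  have h0 : (kerN (2 ^ 0) H).card ≤ 1 := by
    apply Finset.card_le_one.2
    intro a _ b _
    funext i
    apply ZMod.val_injective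
    have h1 : (a i).val < 1 := lt_of_lt_of_eq (ZMod.val_lt (a i)) (pow_zero 2)
    have h2 : (b i).val < 1 := lt_of_lt_of_eq (ZMod.val_lt (b i)) (pow_zero 2)
    omega
  have hall : ∀ j, (redN j H).card ≤ 2 ^ Fintype.card α := by
    intro j
    refine (Finset.card_le_univ _).trans (le_of_eq ?_)
    rw [Fintype.card_fun, ZMod.card]
  have h1 : ∀ J, (kerN (2 ^ J) H).card ≤ 2 ^ (J * Fintype.card α) := by
    intro J
    induction J with
    | zero => exact h0.trans (Nat.one_le_pow _ _ two_pos)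
    | succ J ih =>
      rw [card_kerN_succ, add_mul, one_mul, pow_add]
      exact Nat.mul_le_mul ih (hall _)
  have h2 : ∀ m, (kerN (2 ^ (κ + m)) H).card ≤
      2 ^ (κ * Fintype.card α) * (redN κ H).card ^ m := by
    intro m
    induction m with
    | zero => rw [pow_zero (redN κ H).card, mul_one]; exact h1 κ
    | succ m ih =>
      rw [← add_assoc, card_kerN_succ, pow_succ (redN κ H).card, ← mul_assoc]
      exact Nat.mul_le_mul ih (Finset.card_le_card (redN_antitone H hκ (by omega)))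
  rcases le_total J κ with h | h
  · refine (h1 J).trans ?_
    calc 2 ^ (J * Fintype.card α) ≤ 2 ^ (κ * Fintype.card α) :=
          Nat.pow_le_pow_right two_pos (Nat.mul_le_mul_right _ h)
      _ ≤ 2 ^ (κ * Fintype.card α) * (redN κ H).card ^ J :=
          Nat.le_mul_of_pos_right _ (Nat.pow_pos hr)
  · obtain ⟨m, rfl⟩ := Nat.exists_eq_add_of_le h
    refine (h2 m).trans (Nat.mul_le_mul_left _ ?_)
    exact Nat.pow_le_pow_right hr (by omega)

lemma sm4a_sum {γ : Type*} [Fintype γ] [DecidableEq γ] {N : ℕ} [NeZero N] (w : γ → ZMod N) :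
    ∑ z : γ → ZMod N, ee (∑ i, z i * w i) =
      if (∀ i, w i = 0) then (N : ℂ) ^ Fintype.card γ else 0 := by
  have h := Finset.prod_univ_sum (fun _ : γ => (univ : Finset (ZMod N)))
    (fun i t => ee (t * w i))
  rw [Fintype.piFinset_univ] at h
  simp only [ee_sum]
  rw [← h]
  simp only [sum_ee_mul]
  split_ifs with hw
  · rw [Finset.prod_congr rfl (fun i _ => if_pos (hw i)), prod_const, card_univ]
  · push Not at hw
    obtain ⟨i, hi⟩ := hw
    exact Finset.prod_eq_zero (mem_univ i) (if_neg hi)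

/-- Task M4a: double counting of characters. -/
theorem card_kerT_kerN (N : ℕ) [NeZero N] (H : β → α → ℤ) :
    (kerT N H).card * N ^ Fintype.card α = (kerN N H).card * N ^ Fintype.card β := by
  have h1 : ∑ u : α → ZMod N, ∑ z : β → ZMod N,
      ee (∑ i, z i * ∑ l, (H i l : ZMod N) * u l) = (kerN N H).card * (N : ℂ) ^ Fintype.card β := by
    simp only [sm4a_sum]
    rw [← sum_filter, sum_const, nsmul_eq_mul]
    rfl
  have h2 : ∑ z : β → ZMod N, ∑ u : α → ZMod N,
      ee (∑ l, u l * ∑ i, (H i l : ZMod N) * z i) = (kerT N H).card * (N : ℂ) ^ Fintype.card α := by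
    simp only [sm4a_sum]
    rw [← sum_filter, sum_const, nsmul_eq_mul]
    rfl
  have h3 : ∑ u : α → ZMod N, ∑ z : β → ZMod N,
      ee (∑ i, z i * ∑ l, (H i l : ZMod N) * u l) =
      ∑ z : β → ZMod N, ∑ u : α → ZMod N,
      ee (∑ l, u l * ∑ i, (H i l : ZMod N) * z i) := by
    rw [sum_comm]
    refine sum_congr rfl fun z _ => sum_congr rfl fun u _ => ?_
    congr 1
    simp only [mul_sum]
    rw [sum_comm]
    exact sum_congr rfl fun l _ => sum_congr rfl fun i _ => by ring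
  rw [h1, h2] at h3
  exact_mod_cast h3.symm
end

end Vale.Agent.P160
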