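import Vale.Agent.P160.SM4a

namespace Vale.Agent.P160

open Finset

section aux

/-- Columns in `S` are combinations of the columns outside `S`. -/
def sm4c_Spans {α β R : Type*} [Fintype α] [DecidableEq α] [CommRing R] (A : β → α → R)
    (S : Finset α) : Prop :=
  ∀ j ∈ S, ∃ y : α → R, ∀ i, A i j = ∑ k ∈ Sᶜ, A i k * y k

lemma sm4c_spans_insert {α β R : Type*} [Fintype α] [DecidableEq α] [CommRing R]
    {A : β → α → R} {S : Finset α} (hS : sm4c_Spans A S) {j : α} (hj : j ∉ S)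
    (y : α → R) (hy : ∀ i, A i j = ∑ k ∈ (insert j S)ᶜ, A i k * y k) :
    sm4c_Spans A (insert j S) := by
  intro j' hj'
  rw [mem_insert] at hj'
  rcases hj' with rfl | hj'
  · exact ⟨y, hy⟩
  · obtain ⟨y', hy'⟩ := hS j' hj'
    refine ⟨fun k => y k * y' j + y' k, fun i => ?_⟩
    have e : Sᶜ = insert j (insert j S)ᶜ := by
      ext k
      simp only [mem_compl, mem_insert, not_or]
      constructor
      · intro hk
        by_cases h : k = j
        · exact Or.inl h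
        · exact Or.inr ⟨h, hk⟩
      · rintro (rfl | ⟨_, hk⟩)
        · exact hj
        · exact hk
    rw [hy' i, e, sum_insert (by simp)]
    nth_rewrite 1 [hy i]
    rw [sum_mul, ← sum_add_distrib]
    refine sum_congr rfl fun k _ => ?_
    ring

lemma sm4c_cast_eq {κ : ℕ} (hκ : 1 ≤ κ) (a : ZMod (2 ^ κ)) :
    (a.cast : ZMod 2) = ZMod.castHom (dvd_pow_self 2 (by omega : κ ≠ 0)) (ZMod 2) a := by
  rw [ZMod.castHom_apply]

lemma sm4c_isUnit {κ : ℕ} (a : ZMod (2 ^ κ)) (ha : (a.cast : ZMod 2) ≠ 0) :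
    IsUnit a := by
  have h1 : (a.cast : ZMod 2) = ((a.val : ℕ) : ZMod 2) := ZMod.cast_eq_val a
  rw [h1] at ha
  have h2 : ¬ 2 ∣ a.val := by
    intro h
    exact ha ((ZMod.natCast_eq_zero_iff _ _).2 h)
  have h3 : Nat.Coprime a.val (2 ^ κ) := by
    apply Nat.Coprime.pow_right
    rw [Nat.coprime_comm]
    exact (Nat.Prime.coprime_iff_not_dvd Nat.prime_two).2 h2
  have h4 : IsUnit ((a.val : ℕ) : ZMod (2 ^ κ)) := (ZMod.isUnit_iff_coprime _ _).2 h3
  rwa [ZMod.natCast_zmod_val] at h4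

lemma sm4c_zmod2 (a : ZMod 2) (ha : a ≠ 0) : a = 1 := by
  revert a
  decide

variable {α β : Type*} [Fintype α] [Fintype β] [DecidableEq α] [DecidableEq β]

/-- Kernel vectors vanishing on `S`. -/
def sm4c_KS (κ : ℕ) (H : β → α → ℤ) (S : Finset α) : Finset (α → ZMod (2 ^ κ)) :=
  (kerN (2 ^ κ) H).filter (fun u => ∀ j ∈ S, u j = 0)

/-- Their reductions mod 2. -/
def sm4c_RS (κ : ℕ) (H : β → α → ℤ) (S : Finset α) : Finset (α → ZMod 2) :=
  (sm4c_KS κ H S).image (fun u i => ((u i).cast : ZMod 2))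

lemma sm4c_mem_KS {κ : ℕ} {H : β → α → ℤ} {S : Finset α} {u : α → ZMod (2 ^ κ)} :
    u ∈ sm4c_KS κ H S ↔ (∀ i, ∑ l, ((H i l : ℤ) : ZMod (2 ^ κ)) * u l = 0) ∧
      ∀ j ∈ S, u j = 0 := by
  simp only [sm4c_KS, kerN, mem_filter, mem_univ, true_and]

lemma sm4c_RS_empty (κ : ℕ) (H : β → α → ℤ) : sm4c_RS κ H ∅ = redN κ H := by
  unfold sm4c_RS sm4c_KS redN
  congr 1
  apply filter_true_of_mem
  simp

lemma sm4c_RS_step {κ : ℕ} (hκ : 1 ≤ κ) {H : β → α → ℤ} {S : Finset α}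
    {u : α → ZMod (2 ^ κ)} (hu : u ∈ sm4c_KS κ H S) {j : α}
    (hj : ((u j).cast : ZMod 2) ≠ 0) :
    (sm4c_RS κ H S).card ≤ (sm4c_RS κ H (insert j S)).card * 2 := by
  classical
  obtain ⟨c, hc⟩ := (sm4c_isUnit (u j) hj).exists_left_inv
  have hvj : ((u j).cast : ZMod 2) = 1 := sm4c_zmod2 _ hj
  rw [sm4c_mem_KS] at hu
  have h2 : (univ : Finset (ZMod 2)).card = 2 := by simp
  suffices hsuff : (sm4c_RS κ H S).card ≤
      ((sm4c_RS κ H (insert j S)) ×ˢ (univ : Finset (ZMod 2))).card by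
    rwa [card_product, h2] at hsuff
  refine card_le_card_of_injOn
    (fun w => ((fun i => w i - w j * ((u i).cast : ZMod 2)), w j)) ?_ ?_
  · intro w hw
    rw [mem_coe, sm4c_RS, mem_image] at hw
    obtain ⟨x, hx, rfl⟩ := hw
    rw [sm4c_mem_KS] at hx
    rw [mem_coe, mem_product]
    refine ⟨?_, mem_univ _⟩
    rw [sm4c_RS, mem_image]
    refine ⟨fun i => x i - x j * c * u i, ?_, ?_⟩
    · rw [sm4c_mem_KS]
      refine ⟨fun i => ?_, fun k hk => ?_⟩
      · have e : ∑ l, ((H i l : ℤ) : ZMod (2 ^ κ)) * (x l - x j * c * u l) =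
            ∑ l, ((H i l : ℤ) : ZMod (2 ^ κ)) * x l -
              x j * c * ∑ l, ((H i l : ℤ) : ZMod (2 ^ κ)) * u l := by
          rw [mul_sum, ← sum_sub_distrib]
          refine sum_congr rfl fun l _ => ?_
          ring
        rw [e, hx.1 i, hu.1 i]
        ring
      · rw [mem_insert] at hk
        rcases hk with rfl | hk
        · rw [mul_assoc, hc]; ring
        · rw [hx.2 k hk, hu.2 k hk]; ring
    · funext i
      simp only [sm4c_cast_eq hκ]
      rw [map_sub, map_mul, map_mul]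
      have hcu : ZMod.castHom (dvd_pow_self 2 (by omega : κ ≠ 0)) (ZMod 2) c *
          ZMod.castHom (dvd_pow_self 2 (by omega : κ ≠ 0)) (ZMod 2) (u j) = 1 := by
        rw [← map_mul, hc, map_one]
      rw [← sm4c_cast_eq hκ (u j), hvj, mul_one] at hcu
      rw [hcu, mul_one]
  · intro w hw w' hw' h
    simp only [Prod.mk.injEq] at h
    funext i
    have h3 : w i - w j * ((u i).cast : ZMod 2) = w' i - w' j * ((u i).cast : ZMod 2) :=
      congrFun h.1 i
    rw [h.2] at h3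
    exact sub_left_injective h3

lemma sm4c_main {κ : ℕ} (hκ : 1 ≤ κ) (H : β → α → ℤ) (l : ℕ) (h : 2 ^ l ≤ (redN κ H).card) :
    ∃ S : Finset α, S.card = l ∧
      sm4c_Spans (fun i j => ((H i j : ℤ) : ZMod (2 ^ κ))) S ∧
      (redN κ H).card ≤ (sm4c_RS κ H S).card * 2 ^ l := by
  classical
  induction l with
  | zero =>
    refine ⟨∅, rfl, fun j hj => absurd hj (notMem_empty j), ?_⟩
    rw [sm4c_RS_empty]
    simp
  | succ l ih =>
    have hl : 2 ^ l ≤ (redN κ H).card := le_trans (Nat.pow_le_pow_right (by norm_num) (by omega)) h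
    obtain ⟨S, hS1, hS2, hS3⟩ := ih hl
    have hcard : 2 ≤ (sm4c_RS κ H S).card := by
      have h1 : 2 ^ l * 2 ≤ 2 ^ l * (sm4c_RS κ H S).card := by
        calc 2 ^ l * 2 = 2 ^ (l + 1) := (pow_succ 2 l).symm
          _ ≤ (redN κ H).card := h
          _ ≤ (sm4c_RS κ H S).card * 2 ^ l := hS3
          _ = _ := mul_comm _ _
      exact Nat.le_of_mul_le_mul_left h1 (by positivity)
    obtain ⟨v, hv, hv0⟩ : ∃ v ∈ sm4c_RS κ H S, v ≠ 0 := by
      by_contra hcon
      push Not at hcon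
      have : (sm4c_RS κ H S).card ≤ 1 := card_le_one.2 fun a ha b hb => by
        rw [hcon a ha, hcon b hb]
      omega
    rw [sm4c_RS, mem_image] at hv
    obtain ⟨u, hu, rfl⟩ := hv
    obtain ⟨j, hj⟩ := Function.ne_iff.1 hv0
    simp only [Pi.zero_apply] at hj
    have hjS : j ∉ S := by
      intro hjS
      apply hj
      rw [((sm4c_mem_KS.1 hu).2 j hjS)]
      rw [sm4c_cast_eq hκ, map_zero]
    obtain ⟨c, hc⟩ := (sm4c_isUnit (u j) hj).exists_left_inv
    refine ⟨insert j S, by rw [card_insert_of_notMem hjS, hS1], ?_, ?_⟩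
    · refine sm4c_spans_insert hS2 hjS (fun k => -(c * u k)) fun i => ?_
      have h1 := (sm4c_mem_KS.1 hu).1 i
      have h0 := (sm4c_mem_KS.1 hu).2
      have e1 : ∑ k, ((H i k : ℤ) : ZMod (2 ^ κ)) * u k =
          ∑ k ∈ Sᶜ, ((H i k : ℤ) : ZMod (2 ^ κ)) * u k := by
        rw [← sum_add_sum_compl S]
        rw [sum_eq_zero fun k hk => by rw [h0 k hk, mul_zero], zero_add]
      have e : Sᶜ = insert j (insert j S)ᶜ := by
        ext k
        simp only [mem_compl, mem_insert, not_or]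
        constructor
        · intro hk
          by_cases h : k = j
          · exact Or.inl h
          · exact Or.inr ⟨h, hk⟩
        · rintro (rfl | ⟨_, hk⟩)
          · exact hjS
          · exact hk
      rw [e1, e, sum_insert (by simp)] at h1
      have h3 : ((H i j : ℤ) : ZMod (2 ^ κ)) =
          -(c * ∑ k ∈ (insert j S)ᶜ, ((H i k : ℤ) : ZMod (2 ^ κ)) * u k) := by
        have h4 : ∑ k ∈ (insert j S)ᶜ, ((H i k : ℤ) : ZMod (2 ^ κ)) * u k =
            -(((H i j : ℤ) : ZMod (2 ^ κ)) * u j) := by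
          rw [eq_neg_iff_add_eq_zero, add_comm]; exact h1
        rw [h4]
        calc ((H i j : ℤ) : ZMod (2 ^ κ)) = ((H i j : ℤ) : ZMod (2 ^ κ)) * (c * u j) := by
              rw [hc, mul_one]
          _ = _ := by ring
      show ((H i j : ℤ) : ZMod (2 ^ κ)) = _
      rw [h3, mul_sum, ← sum_neg_distrib]
      refine sum_congr rfl fun k _ => ?_
      ring
    · have hstep := sm4c_RS_step hκ hu hj
      calc (redN κ H).card ≤ (sm4c_RS κ H S).card * 2 ^ l := hS3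
        _ ≤ ((sm4c_RS κ H (insert j S)).card * 2) * 2 ^ l := Nat.mul_le_mul_right _ hstep
        _ = _ := by rw [pow_succ]; ring

end aux

/-- Task M4c (columns) -/
theorem exists_span_cols {α β : Type*} [Fintype α] [Fintype β] [DecidableEq α] [DecidableEq β]
    {κ : ℕ} (hκ : 1 ≤ κ) (H : β → α → ℤ) (l : ℕ) (h : 2 ^ l ≤ (redN κ H).card) :
    ∃ S : Finset α, S.card = l ∧ ∀ j ∈ S, ∃ y : α → ZMod (2 ^ κ),
      ∀ i, ((H i j : ℤ) : ZMod (2 ^ κ)) = ∑ k ∈ Sᶜ, ((H i k : ℤ) : ZMod (2 ^ κ)) * y k := by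
  obtain ⟨S, h1, h2, _⟩ := sm4c_main hκ H l h
  exact ⟨S, h1, h2⟩

/-- Task M4c -/
theorem card_redN_swap {d κ : ℕ} (hκ : 1 ≤ κ) (H : Fin d → Fin d → ℤ) :
    (redN κ (fun i j => H j i)).card = (redN κ H).card := by
  have hker : ∀ (N : ℕ) [NeZero N], (kerN N (fun i j => H j i)).card = (kerN N H).card := by
    intro N _
    have h1 := card_kerT_kerN N H
    have h2 : kerN N (fun i j => H j i) = kerT N H := rfl
    rw [h2]
    exact Nat.eq_of_mul_eq_mul_right (pow_pos (Nat.pos_of_ne_zero (NeZero.ne N)) _) h1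
  obtain ⟨j, rfl⟩ : ∃ j, κ = j + 1 := ⟨κ - 1, by omega⟩
  have h1 := card_kerN_succ H j
  have h2 := card_kerN_succ (fun i j => H j i) j
  rw [hker, hker, h1] at h2
  have hpos : 0 < (kerN (2 ^ j) H).card := by
    apply card_pos.2
    refine ⟨0, ?_⟩
    simp [kerN]
  exact (Nat.eq_of_mul_eq_mul_left hpos h2).symm

lemma sm4c_equiv {d r l : ℕ} (hd : d = r + l) (S : Finset (Fin d)) (hS : S.card = l) :
    ∃ e : Fin r ⊕ Fin l ≃ Fin d, (∀ j, e (Sum.inr j) ∈ S) ∧
      ∀ (M : Type) [AddCommMonoid M] (f : Fin d → M),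
        ∑ k ∈ Sᶜ, f k = ∑ k : Fin r, f (e (Sum.inl k)) := by
  have hc : Sᶜ.card = r := by
    rw [card_compl, Fintype.card_fin, hS]; omega
  have hcc : (Sᶜ)ᶜ.card = l := by rw [compl_compl]; exact hS
  refine ⟨finSumEquivOfFinset hc hcc, fun j => ?_, fun M _ f => ?_⟩
  · rw [finSumEquivOfFinset_inr]
    have := Finset.orderEmbOfFin_mem (Sᶜ)ᶜ hcc j
    rwa [mem_compl, mem_compl, not_not] at this
  · simp only [finSumEquivOfFinset_inl]
    conv_lhs => rw [← Finset.map_orderEmbOfFin_univ Sᶜ hc]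
    rw [sum_map]
    rfl

/-- Task M4c -/
theorem block_form {κ d l r : ℕ} (hκ : 1 ≤ κ) (hd : d = r + l) (H : Fin d → Fin d → ℤ)
    (h : 2 ^ l ≤ (redN κ H).card) :
    ∃ (eI eC : Fin r ⊕ Fin l ≃ Fin d) (Y L : Fin l → Fin r → ZMod (2 ^ κ)),
      (∀ i j, ((H i (eC (Sum.inr j)) : ℤ) : ZMod (2 ^ κ)) =
        ∑ k, ((H i (eC (Sum.inl k)) : ℤ) : ZMod (2 ^ κ)) * Y j k) ∧
      (∀ i j, ((H (eI (Sum.inr i)) j : ℤ) : ZMod (2 ^ κ)) =
        ∑ k, L i k * ((H (eI (Sum.inl k)) j : ℤ) : ZMod (2 ^ κ))) := by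
  obtain ⟨S, hS, hS'⟩ := exists_span_cols hκ H l h
  obtain ⟨T, hT, hT'⟩ := exists_span_cols hκ (fun i j => H j i) l
    (by rw [card_redN_swap hκ]; exact h)
  obtain ⟨eC, hC1, hC2⟩ := sm4c_equiv hd S hS
  obtain ⟨eI, hI1, hI2⟩ := sm4c_equiv hd T hT
  choose! y hy using hS'
  choose! z hz using hT'
  refine ⟨eI, eC, fun j k => y (eC (Sum.inr j)) (eC (Sum.inl k)),
    fun i k => z (eI (Sum.inr i)) (eI (Sum.inl k)), fun i j => ?_, fun i j => ?_⟩
  · rw [hy _ (hC1 j) i]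
    exact hC2 _ _
  · rw [hz _ (hI1 i) j]
    rw [hI2]
    exact sum_congr rfl fun k _ => mul_comm _ _

end Vale.Agent.P160
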