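import Vale.Agent.P160.SM4c
import Vale.Agent.P160.SM3b

namespace Vale.Agent.P160

open Finset

lemma sm5a_card_st (c : ℤ) : (univ.filter (fun a : Fin 4 => st a = c)).card ≤ 2 := by
  by_cases h : ∃ a : Fin 4, st a = c
  · obtain ⟨a, rfl⟩ := h
    revert a
    decide
  · push Not at h
    rw [Finset.filter_false_of_mem (fun a _ => h a)]
    simp

lemma sm5a_st_inj {κ : ℕ} (hκ : 2 ≤ κ) (a b : Fin 4)
    (h : ((st a : ℤ) : ZMod (2 ^ κ)) = ((st b : ℤ) : ZMod (2 ^ κ))) : st a = st b := by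
  rw [ZMod.intCast_eq_intCast_iff] at h
  have h4 : (4 : ℤ) ∣ ((2 ^ κ : ℕ) : ℤ) := by
    have : (4 : ℕ) ∣ 2 ^ κ := by
      have := pow_dvd_pow 2 hκ
      simpa using this
    exact_mod_cast this
  have h2 : st a ≡ st b [ZMOD 4] := h.of_dvd h4
  clear h h4
  revert a b
  decide

lemma sm5a_st_cases (a : Fin 4) : st a = 0 ∨ st a = 1 ∨ st a = -1 := by
  revert a
  decide

open Classical in
/-- Seeds which are possible in the corner. -/
noncomputable def sm5a_T {κ r : ℕ} (P : Matrix (Fin r) (Fin r) (ZMod (2 ^ κ)))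
    (ρ q : Fin r → Fin 4) : Finset (Fin 4) :=
  univ.filter (fun a => ∃ lam y : Fin r → ZMod (2 ^ κ),
    P.transpose.mulVec lam = (fun j => ((st (ρ j) : ℤ) : ZMod (2 ^ κ))) ∧
    P.mulVec y = (fun j => ((st (q j) : ℤ) : ZMod (2 ^ κ))) ∧
    ((st a : ℤ) : ZMod (2 ^ κ)) = ∑ j, lam j * ((st (q j) : ℤ) : ZMod (2 ^ κ)))

lemma sm5a_T_card {κ r : ℕ} (hκ : 2 ≤ κ) (P : Matrix (Fin r) (Fin r) (ZMod (2 ^ κ)))
    (ρ q : Fin r → Fin 4) : (sm5a_T P ρ q).card ≤ 2 := by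
  classical
  by_cases hne : (sm5a_T P ρ q).Nonempty
  · obtain ⟨a, ha⟩ := hne
    refine (Finset.card_le_card ?_).trans (sm5a_card_st (st a))
    intro b hb
    rw [sm5a_T, mem_filter] at ha hb
    obtain ⟨-, lam, y, h1, h2, h3⟩ := ha
    obtain ⟨-, lam', y', h1', h2', h3'⟩ := hb
    rw [mem_filter]
    refine ⟨mem_univ _, sm5a_st_inj hκ b a ?_⟩
    have key : ∀ lam'' : Fin r → ZMod (2 ^ κ),
        P.transpose.mulVec lam'' = (fun j => ((st (ρ j) : ℤ) : ZMod (2 ^ κ))) →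
        ∑ j, lam'' j * ((st (q j) : ℤ) : ZMod (2 ^ κ)) =
          ∑ j, ((st (ρ j) : ℤ) : ZMod (2 ^ κ)) * y j := by
      intro lam'' h
      have e1 : ∑ j, lam'' j * ((st (q j) : ℤ) : ZMod (2 ^ κ)) =
          dotProduct lam'' (P.mulVec y) := by rw [h2]; rfl
      rw [e1, Matrix.dotProduct_mulVec, ← Matrix.mulVec_transpose, h]
      rfl
    rw [h3', h3, key lam' h1', key lam h1]
  · rw [not_nonempty_iff_eq_empty] at hne
    rw [hne]
    simp

/-- The square block. -/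
def sm5a_P (κ : ℕ) {r : ℕ} (p : Fin r → Fin r → Fin 4) : Matrix (Fin r) (Fin r) (ZMod (2 ^ κ)) :=
  fun k k' => ((st (p k k') : ℤ) : ZMod (2 ^ κ))

open Classical in
lemma sm5a_A_card {κ : ℕ} (hκ : 2 ≤ κ) {d r l : ℕ} {K : ℝ}
    (hK : ∀ P : Matrix (Fin r) (Fin r) (ZMod (2 ^ κ)),
      ((univ.filter (fun p : (Fin l → Fin r → Fin 4) × (Fin l → Fin r → Fin 4) =>
        ∀ i j, AdjP P (p.1 i) (p.2 j))).card : ℝ) ≤ K)
    (eI eC : Fin r ⊕ Fin l ≃ Fin d) :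
    ((univ.filter (fun ω : Fin d → Fin d → Fin 4 =>
      ∃ (Y L : Fin l → Fin r → ZMod (2 ^ κ)),
        (∀ i j, ((hm ω i (eC (Sum.inr j)) : ℤ) : ZMod (2 ^ κ)) =
          ∑ k, ((hm ω i (eC (Sum.inl k)) : ℤ) : ZMod (2 ^ κ)) * Y j k) ∧
        (∀ i j, ((hm ω (eI (Sum.inr i)) j : ℤ) : ZMod (2 ^ κ)) =
          ∑ k, L i k * ((hm ω (eI (Sum.inl k)) j : ℤ) : ZMod (2 ^ κ))))).card : ℝ) ≤
      4 ^ (r * r) * (K * 2 ^ (l * l)) := by
  set Bic : (Fin r → Fin r → Fin 4) →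
      Finset ((Fin l → Fin r → Fin 4) × (Fin l → Fin r → Fin 4)) := fun p =>
    univ.filter (fun x => ∀ i j, AdjP (sm5a_P κ p) (x.1 i) (x.2 j)) with hBic
  set Sst : (Fin r → Fin r → Fin 4) → ((Fin l → Fin r → Fin 4) × (Fin l → Fin r → Fin 4)) →
      Finset (Fin l → Fin l → Fin 4) := fun p x =>
    Fintype.piFinset (fun i => Fintype.piFinset
      (fun j => sm5a_T (sm5a_P κ p) (x.1 i) (x.2 j))) with hSst
  have hS : ∀ p x, (Sst p x).card ≤ 2 ^ (l * l) := by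
    intro p x
    rw [hSst]
    simp only [Fintype.card_piFinset]
    calc ∏ i : Fin l, ∏ j : Fin l, (sm5a_T (sm5a_P κ p) (x.1 i) (x.2 j)).card
        ≤ ∏ _i : Fin l, ∏ _j : Fin l, 2 :=
          Finset.prod_le_prod' fun i _ => Finset.prod_le_prod' fun j _ => sm5a_T_card hκ _ _ _
      _ = 2 ^ (l * l) := by simp [← pow_mul]
  have h1 : (univ.filter (fun ω : Fin d → Fin d → Fin 4 =>
      ∃ (Y L : Fin l → Fin r → ZMod (2 ^ κ)),
        (∀ i j, ((hm ω i (eC (Sum.inr j)) : ℤ) : ZMod (2 ^ κ)) =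
          ∑ k, ((hm ω i (eC (Sum.inl k)) : ℤ) : ZMod (2 ^ κ)) * Y j k) ∧
        (∀ i j, ((hm ω (eI (Sum.inr i)) j : ℤ) : ZMod (2 ^ κ)) =
          ∑ k, L i k * ((hm ω (eI (Sum.inl k)) j : ℤ) : ZMod (2 ^ κ))))).card ≤
      ((univ : Finset (Fin r → Fin r → Fin 4)).sigma (fun p => (Bic p).sigma (Sst p))).card := by
    refine Finset.card_le_card_of_injOn (fun ω =>
      ⟨fun k k' => ω (eI (Sum.inl k)) (eC (Sum.inl k')),
        ⟨(fun i k => ω (eI (Sum.inr i)) (eC (Sum.inl k)),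
          fun j k => ω (eI (Sum.inl k)) (eC (Sum.inr j))),
          fun i j => ω (eI (Sum.inr i)) (eC (Sum.inr j))⟩⟩) ?_ ?_
    · intro ω hω
      rw [Finset.mem_coe, mem_filter] at hω
      obtain ⟨-, Y, L, r1, r2⟩ := hω
      have a1 : ∀ j, (sm5a_P κ fun k k' => ω (eI (Sum.inl k)) (eC (Sum.inl k'))).mulVec (Y j) =
          fun k => ((st (ω (eI (Sum.inl k)) (eC (Sum.inr j))) : ℤ) : ZMod (2 ^ κ)) := by
        intro j
        funext k
        exact (r1 (eI (Sum.inl k)) j).symm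
      have a2 : ∀ i, (sm5a_P κ fun k k' =>
            ω (eI (Sum.inl k)) (eC (Sum.inl k'))).transpose.mulVec (L i) =
          fun k => ((st (ω (eI (Sum.inr i)) (eC (Sum.inl k))) : ℤ) : ZMod (2 ^ κ)) := by
        intro i
        funext k
        refine Eq.trans ?_ (r2 i (eC (Sum.inl k))).symm
        change ∑ k' : Fin r, ((st (ω (eI (Sum.inl k')) (eC (Sum.inl k))) : ℤ) : ZMod (2 ^ κ)) *
            L i k' =
          ∑ k' : Fin r, L i k' * ((hm ω (eI (Sum.inl k')) (eC (Sum.inl k)) : ℤ) : ZMod (2 ^ κ))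
        exact Finset.sum_congr rfl fun k' _ => mul_comm _ _
      have a3 : ∀ i j, ((st (ω (eI (Sum.inr i)) (eC (Sum.inr j))) : ℤ) : ZMod (2 ^ κ)) =
          ∑ k, L i k * ((st (ω (eI (Sum.inl k)) (eC (Sum.inr j))) : ℤ) : ZMod (2 ^ κ)) :=
        fun i j => r2 i (eC (Sum.inr j))
      rw [Finset.mem_coe, Finset.mem_sigma, Finset.mem_sigma]
      refine ⟨mem_univ _, ?_, ?_⟩
      · rw [hBic]
        simp only [mem_filter, mem_univ, true_and]
        intro i j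
        refine ⟨L i, Y j, a2 i, a1 j, ?_⟩
        rw [← a3 i j]
        rcases sm5a_st_cases (ω (eI (Sum.inr i)) (eC (Sum.inr j))) with h | h | h
        · left; rw [h]; simp
        · right; left; rw [h]; simp
        · right; right; rw [h]; simp
      · rw [hSst]
        simp only [Fintype.mem_piFinset]
        intro i j
        rw [sm5a_T, mem_filter]
        exact ⟨mem_univ _, L i, Y j, a2 i, a1 j, a3 i j⟩
    · intro ω _ ω' _ h
      simp only [Sigma.mk.injEq, heq_eq_eq, Prod.mk.injEq] at h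
      obtain ⟨h1, ⟨h2, h3⟩, h4⟩ := h
      funext i j
      obtain ⟨a, rfl⟩ := eI.surjective i
      obtain ⟨b, rfl⟩ := eC.surjective j
      rcases a with a | a <;> rcases b with b | b
      · exact congrFun (congrFun h1 a) b
      · exact congrFun (congrFun h3 b) a
      · exact congrFun (congrFun h2 a) b
      · exact congrFun (congrFun h4 a) b
  have h2 : (((univ : Finset (Fin r → Fin r → Fin 4)).sigma
      (fun p => (Bic p).sigma (Sst p))).card : ℝ) ≤ 4 ^ (r * r) * (K * 2 ^ (l * l)) := by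
    rw [Finset.card_sigma]
    push_cast
    calc ∑ p : Fin r → Fin r → Fin 4, (((Bic p).sigma (Sst p)).card : ℝ)
        ≤ ∑ _p : Fin r → Fin r → Fin 4, (K * 2 ^ (l * l)) := by
          refine Finset.sum_le_sum fun p _ => ?_
          rw [Finset.card_sigma]
          push_cast
          calc ∑ x ∈ Bic p, ((Sst p x).card : ℝ) ≤ ∑ _x ∈ Bic p, (2 : ℝ) ^ (l * l) :=
                Finset.sum_le_sum fun x _ => by exact_mod_cast hS p x
            _ = (Bic p).card * 2 ^ (l * l) := by rw [Finset.sum_const, nsmul_eq_mul]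
            _ ≤ K * 2 ^ (l * l) := mul_le_mul_of_nonneg_right (hK _) (by positivity)
      _ = 4 ^ (r * r) * (K * 2 ^ (l * l)) := by
          rw [Finset.sum_const, nsmul_eq_mul, Finset.card_univ]
          congr 1
          simp [← pow_mul]
  exact (Nat.cast_le.2 h1).trans h2

/-- Task M5a: matrices of given corank. -/
theorem card_corank (e : ℝ) (he : 0 < e) : ∃ κ : ℕ, 2 ≤ κ ∧ ∃ d0 : ℕ, ∀ d l : ℕ, d0 ≤ d → l ≤ d →
    ((univ.filter (fun ω : Fin d → Fin d → Fin 4 => 2 ^ l ≤ (redN κ (hm ω)).card)).card : ℝ) *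
      2 ^ (l * d) ≤ (d : ℝ) ^ (2 * d) * (2 : ℝ) ^ (e * (d : ℝ) ^ 2) * 4 ^ (d * d) := by
  classical
  obtain ⟨κ, hκ, d0, hb⟩ := biclique e he
  refine ⟨κ, hκ, d0, fun d l hd hl => ?_⟩
  obtain ⟨r, rfl⟩ : ∃ r, d = r + l := ⟨d - l, by omega⟩
  set A : (Fin r ⊕ Fin l ≃ Fin (r + l)) × (Fin r ⊕ Fin l ≃ Fin (r + l)) →
      Finset (Fin (r + l) → Fin (r + l) → Fin 4) := fun E =>
    univ.filter (fun ω : Fin (r + l) → Fin (r + l) → Fin 4 =>
      ∃ (Y L : Fin l → Fin r → ZMod (2 ^ κ)),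
        (∀ i j, ((hm ω i (E.2 (Sum.inr j)) : ℤ) : ZMod (2 ^ κ)) =
          ∑ k, ((hm ω i (E.2 (Sum.inl k)) : ℤ) : ZMod (2 ^ κ)) * Y j k) ∧
        (∀ i j, ((hm ω (E.1 (Sum.inr i)) j : ℤ) : ZMod (2 ^ κ)) =
          ∑ k, L i k * ((hm ω (E.1 (Sum.inl k)) j : ℤ) : ZMod (2 ^ κ)))) with hA
  set K : ℝ := (2 : ℝ) ^ (e * ((r : ℝ) + l) ^ 2) * 2 ^ (3 * r * l) with hKdef
  have hK := fun E : (Fin r ⊕ Fin l ≃ Fin (r + l)) × (Fin r ⊕ Fin l ≃ Fin (r + l)) =>
    sm5a_A_card hκ (hb r l hd) E.1 E.2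
  have hsub : univ.filter (fun ω : Fin (r + l) → Fin (r + l) → Fin 4 =>
      2 ^ l ≤ (redN κ (hm ω)).card) ⊆ (univ : Finset _).biUnion A := by
    intro ω hω
    rw [mem_filter] at hω
    obtain ⟨eI, eC, Y, L, h1, h2⟩ := block_form (by omega : 1 ≤ κ) rfl (hm ω) hω.2
    rw [mem_biUnion]
    refine ⟨(eI, eC), mem_univ _, ?_⟩
    rw [hA]
    simp only [mem_filter, mem_univ, true_and]
    exact ⟨Y, L, h1, h2⟩
  have hcE : Fintype.card ((Fin r ⊕ Fin l ≃ Fin (r + l)) × (Fin r ⊕ Fin l ≃ Fin (r + l))) ≤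
      (r + l) ^ (2 * (r + l)) := by
    rw [Fintype.card_prod, Fintype.card_equiv finSumFinEquiv]
    have h1 : Fintype.card (Fin r ⊕ Fin l) = r + l := by simp
    rw [h1, two_mul, pow_add]
    exact Nat.mul_le_mul (Nat.factorial_le_pow _) (Nat.factorial_le_pow _)
  have hcard : ((univ.filter (fun ω : Fin (r + l) → Fin (r + l) → Fin 4 =>
      2 ^ l ≤ (redN κ (hm ω)).card)).card : ℝ) ≤
      ((r + l : ℕ) : ℝ) ^ (2 * (r + l)) * (4 ^ (r * r) * (K * 2 ^ (l * l))) := by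
    have h1 : (univ.filter (fun ω : Fin (r + l) → Fin (r + l) → Fin 4 =>
        2 ^ l ≤ (redN κ (hm ω)).card)).card ≤ ∑ E, (A E).card :=
      (Finset.card_le_card hsub).trans Finset.card_biUnion_le
    have hK0 : 0 ≤ K := by positivity
    calc ((univ.filter (fun ω : Fin (r + l) → Fin (r + l) → Fin 4 =>
        2 ^ l ≤ (redN κ (hm ω)).card)).card : ℝ) ≤ ((∑ E, (A E).card : ℕ) : ℝ) := by
          exact_mod_cast h1
      _ = ∑ E, ((A E).card : ℝ) := by push_cast; rfl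
      _ ≤ ∑ _E : (Fin r ⊕ Fin l ≃ Fin (r + l)) × (Fin r ⊕ Fin l ≃ Fin (r + l)),
          (4 ^ (r * r) * (K * 2 ^ (l * l)) : ℝ) := Finset.sum_le_sum fun E _ => hK E
      _ = (Fintype.card ((Fin r ⊕ Fin l ≃ Fin (r + l)) × (Fin r ⊕ Fin l ≃ Fin (r + l))) : ℝ) *
          (4 ^ (r * r) * (K * 2 ^ (l * l))) := by
          rw [Finset.sum_const, nsmul_eq_mul, Finset.card_univ]
      _ ≤ _ := by
          refine mul_le_mul_of_nonneg_right ?_ (by positivity)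
          exact_mod_cast hcE
  have hexp : (4 : ℝ) ^ (r * r) * (2 ^ (3 * r * l) * 2 ^ (l * l)) * 2 ^ (l * (r + l)) =
      4 ^ ((r + l) * (r + l)) := by
    have h4 : (4 : ℝ) = 2 ^ 2 := by norm_num
    rw [h4, ← pow_mul, ← pow_mul, ← pow_add, ← pow_add, ← pow_add]
    congr 1
    ring
  calc ((univ.filter (fun ω : Fin (r + l) → Fin (r + l) → Fin 4 =>
        2 ^ l ≤ (redN κ (hm ω)).card)).card : ℝ) * 2 ^ (l * (r + l))
      ≤ ((r + l : ℕ) : ℝ) ^ (2 * (r + l)) * (4 ^ (r * r) * (K * 2 ^ (l * l))) *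
        2 ^ (l * (r + l)) := mul_le_mul_of_nonneg_right hcard (by positivity)
    _ = ((r + l : ℕ) : ℝ) ^ (2 * (r + l)) * (2 : ℝ) ^ (e * ((r + l : ℕ) : ℝ) ^ 2) *
        ((4 : ℝ) ^ (r * r) * (2 ^ (3 * r * l) * 2 ^ (l * l)) * 2 ^ (l * (r + l))) := by
        rw [hKdef]
        push_cast
        ring
    _ = _ := by rw [hexp]

end Vale.Agent.P160
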