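import Vale.Agent.P160.SM5a
import Mathlib.Analysis.SpecialFunctions.Log.Base

namespace Vale.Agent.P160

open Finset

theorem sm5b_grow (e : ℝ) (he : 0 < e) (κ : ℕ) : ∃ d2 : ℕ, ∀ d : ℕ, d2 ≤ d →
    ((d : ℝ) + 1) * 4 ^ (κ * d) * 2 ^ d * (d : ℝ) ^ (2 * d) ≤ (2 : ℝ) ^ (e / 2 * (d : ℝ) ^ 2) := by
  have hl2 : 0 < Real.log 2 := Real.log_pos (by norm_num)
  have hc : 0 < e * Real.log 2 / 16 := by positivity
  have h1 := Real.isLittleO_log_id_atTop.bound hc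
  have h2 : ∀ᶠ x : ℝ in Filter.atTop, 8 * (2 + 2 * (κ : ℝ)) / e ≤ x :=
    Filter.eventually_ge_atTop _
  have h3 : ∀ᶠ x : ℝ in Filter.atTop, (1 : ℝ) ≤ x := Filter.eventually_ge_atTop _
  obtain ⟨d2, hd2⟩ := Filter.eventually_atTop.1
    (tendsto_natCast_atTop_atTop.eventually (h1.and (h2.and h3)) :
      ∀ᶠ n : ℕ in Filter.atTop, _)
  refine ⟨d2, fun d hd => ?_⟩
  obtain ⟨g1, g2, g3⟩ := hd2 d hd
  have hdpos : (0 : ℝ) < d := by linarith
  rw [id, Real.norm_eq_abs, Real.norm_eq_abs, abs_of_pos hdpos] at g1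
  have g1' : Real.log d ≤ e * Real.log 2 / 16 * d := le_trans (le_abs_self _) g1
  have g4 : Real.logb 2 d ≤ e / 16 * d := by
    rw [Real.logb, div_le_iff₀ hl2]
    linarith
  have g5 : 2 + 2 * (κ : ℝ) ≤ e / 8 * d := by
    rw [div_le_iff₀ he] at g2
    linarith
  have h5 : ((d : ℝ) + 1) ≤ 2 ^ d := by
    have : d + 1 ≤ 2 ^ d := Nat.lt_two_pow_self
    exact_mod_cast this
  have h6 : (d : ℝ) ^ (2 * d) = (2 : ℝ) ^ (2 * (d : ℝ) * Real.logb 2 d) := by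
    rw [mul_comm (2 * (d : ℝ)), Real.rpow_mul (by norm_num), Real.rpow_logb (by norm_num)
      (by norm_num) hdpos]
    rw [← Real.rpow_natCast]
    push_cast
    rfl
  have h7 : (4 : ℝ) ^ (κ * d) = (2 : ℝ) ^ (2 * (κ * d)) := by
    rw [pow_mul 2 2]
    norm_num
  calc ((d : ℝ) + 1) * 4 ^ (κ * d) * 2 ^ d * (d : ℝ) ^ (2 * d)
      ≤ 2 ^ d * 4 ^ (κ * d) * 2 ^ d * (d : ℝ) ^ (2 * d) := by gcongr
    _ = (2 : ℝ) ^ ((2 + 2 * (κ : ℝ)) * d + 2 * (d : ℝ) * Real.logb 2 d) := by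
        rw [Real.rpow_add (by norm_num), ← h6, h7, ← pow_add, ← pow_add, ← Real.rpow_natCast]
        congr 2
        push_cast
        ring
    _ ≤ (2 : ℝ) ^ (e / 2 * (d : ℝ) ^ 2) := by
        apply Real.rpow_le_rpow_of_exponent_le (by norm_num)
        nlinarith [mul_le_mul_of_nonneg_right g5 hdpos.le,
          mul_le_mul_of_nonneg_right g4 hdpos.le, mul_pos he (mul_pos hdpos hdpos)]

theorem sm5b_redN_card_le {d κ : ℕ} (H : Fin d → Fin d → ℤ) : (redN κ H).card ≤ 2 ^ d := by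
  refine (Finset.card_le_univ _).trans (le_of_eq ?_)
  rw [Fintype.card_fun, ZMod.card, Fintype.card_fin]

theorem sm5b_redN_pos {d κ : ℕ} (H : Fin d → Fin d → ℤ) : 0 < (redN κ H).card := by
  rw [Finset.card_pos]
  refine ⟨_, Finset.mem_image_of_mem _ (a := 0) ?_⟩
  simp [kerN]

/-- Task M5b: the second moment of the number of kernel vectors. -/
theorem W2 (e : ℝ) (he : 0 < e) : ∃ d0 : ℕ, ∀ d ≥ d0, ∀ J : ℕ, 2 * J ≤ d →
    (∑ ω : Fin d → Fin d → Fin 4, ((kerN (2 ^ J) (hm ω)).card : ℝ) ^ 2) ≤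
      (2 : ℝ) ^ (e * (d : ℝ) ^ 2) * 4 ^ (d * d) := by
  obtain ⟨κ, hκ, d1, hcor⟩ := card_corank (e / 2) (by positivity)
  obtain ⟨d2, hd2⟩ := sm5b_grow e he κ
  refine ⟨max d1 d2, fun d hd J hJ => ?_⟩
  have hd1 : d1 ≤ d := le_trans (le_max_left _ _) hd
  have hd2' : d2 ≤ d := le_trans (le_max_right _ _) hd
  have hterm : ∀ ω : Fin d → Fin d → Fin 4, ((kerN (2 ^ J) (hm ω)).card : ℝ) ^ 2 ≤
      4 ^ (κ * d) * 2 ^ d * ∑ l ∈ range (d + 1),
        if 2 ^ l ≤ (redN κ (hm ω)).card then (2 : ℝ) ^ (l * d) else 0 := by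
    intro ω
    set R := (redN κ (hm ω)).card with hR
    have hRpos : 0 < R := sm5b_redN_pos _
    have hRle : R ≤ 2 ^ d := sm5b_redN_card_le _
    set l := Nat.log 2 R with hl
    have hl1 : 2 ^ l ≤ R := Nat.pow_log_le_self 2 hRpos.ne'
    have hl2 : R ≤ 2 ^ (l + 1) := (Nat.lt_pow_succ_log_self (by norm_num) R).le
    have hld : l ≤ d := by
      rw [← Nat.pow_le_pow_iff_right (a := 2) (by norm_num)]
      exact hl1.trans hRle
    have h1 : (kerN (2 ^ J) (hm ω)).card ≤ 2 ^ (κ * d) * R ^ J := by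
      have := card_kerN_le (hm ω) κ J (by omega)
      rwa [Fintype.card_fin] at this
    have h2 : (kerN (2 ^ J) (hm ω)).card ^ 2 ≤ 4 ^ (κ * d) * 2 ^ d * 2 ^ (l * d) := by
      calc (kerN (2 ^ J) (hm ω)).card ^ 2 ≤ (2 ^ (κ * d) * R ^ J) ^ 2 :=
            Nat.pow_le_pow_left h1 2
        _ = 4 ^ (κ * d) * R ^ (2 * J) := by
            rw [mul_pow, ← pow_mul, mul_comm (κ * d) 2, pow_mul 2 2, ← pow_mul R, mul_comm J 2]
            norm_num
        _ ≤ 4 ^ (κ * d) * (2 ^ (l + 1)) ^ (2 * J) :=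
            Nat.mul_le_mul_left _ (Nat.pow_le_pow_left hl2 _)
        _ ≤ 4 ^ (κ * d) * (2 ^ (l + 1)) ^ d :=
            Nat.mul_le_mul_left _ (Nat.pow_le_pow_right (by positivity) hJ)
        _ = 4 ^ (κ * d) * 2 ^ d * 2 ^ (l * d) := by
            rw [← pow_mul, add_mul, one_mul, pow_add]
            ring
    have h3 : ((kerN (2 ^ J) (hm ω)).card : ℝ) ^ 2 ≤ 4 ^ (κ * d) * 2 ^ d * 2 ^ (l * d) := by
      exact_mod_cast h2
    refine h3.trans ?_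
    have h4 : (2 : ℝ) ^ (l * d) ≤ ∑ l' ∈ range (d + 1),
        if 2 ^ l' ≤ R then (2 : ℝ) ^ (l' * d) else 0 := by
      have h5 := Finset.single_le_sum (f := fun l' => if 2 ^ l' ≤ R then (2 : ℝ) ^ (l' * d) else 0)
        (s := range (d + 1)) (fun i _ => by split_ifs <;> positivity)
        (Finset.mem_range.2 (Nat.lt_succ_of_le hld))
      simpa only [if_pos hl1] using h5
    gcongr
  calc (∑ ω : Fin d → Fin d → Fin 4, ((kerN (2 ^ J) (hm ω)).card : ℝ) ^ 2)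
      ≤ ∑ ω : Fin d → Fin d → Fin 4, 4 ^ (κ * d) * 2 ^ d * ∑ l ∈ range (d + 1),
        (if 2 ^ l ≤ (redN κ (hm ω)).card then (2 : ℝ) ^ (l * d) else 0) :=
        Finset.sum_le_sum fun ω _ => hterm ω
    _ = 4 ^ (κ * d) * 2 ^ d * ∑ l ∈ range (d + 1),
        (((univ.filter (fun ω : Fin d → Fin d → Fin 4 =>
          2 ^ l ≤ (redN κ (hm ω)).card)).card : ℝ) * 2 ^ (l * d)) := by
        rw [← Finset.mul_sum, Finset.sum_comm]
        congr 1
        refine Finset.sum_congr rfl fun l _ => ?_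
        rw [← Finset.sum_filter, Finset.sum_const, nsmul_eq_mul]
    _ ≤ 4 ^ (κ * d) * 2 ^ d * ∑ l ∈ range (d + 1),
        ((d : ℝ) ^ (2 * d) * (2 : ℝ) ^ (e / 2 * (d : ℝ) ^ 2) * 4 ^ (d * d)) := by
        refine mul_le_mul_of_nonneg_left (Finset.sum_le_sum fun l hl => ?_) (by positivity)
        exact hcor d l hd1 (Nat.lt_succ_iff.1 (Finset.mem_range.1 hl))
    _ = (((d : ℝ) + 1) * 4 ^ (κ * d) * 2 ^ d * (d : ℝ) ^ (2 * d)) *
        (2 : ℝ) ^ (e / 2 * (d : ℝ) ^ 2) * 4 ^ (d * d) := by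
        rw [Finset.sum_const, Finset.card_range, nsmul_eq_mul]
        push_cast
        ring
    _ ≤ (2 : ℝ) ^ (e / 2 * (d : ℝ) ^ 2) * (2 : ℝ) ^ (e / 2 * (d : ℝ) ^ 2) * 4 ^ (d * d) := by
        have := hd2 d hd2'
        gcongr
    _ = (2 : ℝ) ^ (e * (d : ℝ) ^ 2) * 4 ^ (d * d) := by
        rw [← Real.rpow_add (by norm_num)]
        congr 2
        ring

end Vale.Agent.P160
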