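import Vale.Agent.P160.SDefs

namespace Vale.Agent.P160

open Finset

lemma sm6_Zf_comp {α β : Type*} [Fintype α] [Fintype β] [DecidableEq α] [DecidableEq β]
    {M N : ℕ} [NeZero N] (hM : 2 ≤ M) (e : α ≃ β) (v : β → ZMod N) :
    Zf M (fun i => v (e i)) = Zf M v := by
  rw [Zf_eq hM, Zf_eq hM]
  refine sum_congr rfl fun t _ => ?_
  exact Equiv.prod_comp e (fun i => cf M (ee (t * v i)))

lemma sm6_nu_comp {α β : Type*} [Fintype α] [Fintype β] [DecidableEq α] [DecidableEq β]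
    {N : ℕ} (e : α ≃ β) (v : β → ZMod N) : nu (fun i => v (e i)) = nu v := by
  classical
  unfold nu
  refine card_equiv e fun i => ?_
  simp

/-- elementary constants of the second term -/
lemma sm6_pow_eta {c D : ℝ} {k : ℕ} (hc : c ≤ 1 / ((k : ℝ) + 1)) (hD : 0 ≤ D) :
    (2 / Real.exp (-c * D)) ^ (k + 1) ≤ 2 ^ (k + 1) * Real.exp D := by
  have h1 : 2 / Real.exp (-c * D) = 2 * Real.exp (c * D) := by
    rw [neg_mul, Real.exp_neg]
    field_simp
  rw [h1, mul_pow, ← Real.exp_nat_mul]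
  have hk : (0 : ℝ) < (k : ℝ) + 1 := by positivity
  have h2 : c * ((k : ℝ) + 1) ≤ 1 := by
    rw [le_div_iff₀ hk] at hc
    exact hc
  have h3 : ((k + 1 : ℕ) : ℝ) * (c * D) ≤ D := by
    push_cast
    nlinarith only [h2, hD]
  exact mul_le_mul_of_nonneg_left (Real.exp_le_exp.mpr h3) (by positivity)

/-- elementary bound for the frequencies of small order -/
lemma sm6_small {c0 L δ D A c : ℝ} {u : ℕ} (hc0 : 0 < c0) (hL : L = -Real.log c0) (hL0 : 0 < L)
    (hδ : 0 < δ) (hA : 0 < A) (hu : δ * D ≤ u) (hc : c ≤ δ * L / 2) (hD : 0 ≤ D)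
    (hD2 : 2 / (δ * L) * Real.log (2 * A) ≤ D) :
    A * c0 ^ u ≤ Real.exp (-c * D) / 2 := by
  have h1 : c0 ^ u = Real.exp (-(L * u)) := by
    rw [hL]
    nth_rewrite 1 [← Real.exp_log hc0]
    rw [← Real.exp_nat_mul]
    congr 1
    ring
  have hδL : 0 < δ * L := mul_pos hδ hL0
  have h2 : Real.log (2 * A) ≤ δ * L / 2 * D := by
    have h3 := mul_le_mul_of_nonneg_left hD2 (show 0 ≤ δ * L / 2 by positivity)
    have h4 : δ * L / 2 * (2 / (δ * L) * Real.log (2 * A)) = Real.log (2 * A) := by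
      field_simp
    linarith only [h3, h4]
  have h5 : 2 * A ≤ Real.exp (δ * L / 2 * D) := by
    rw [← Real.exp_log (show 0 < 2 * A by positivity)]
    exact Real.exp_le_exp.mpr h2
  rw [h1]
  have h6 : Real.exp (-(L * u)) ≤ Real.exp (-(δ * L / 2 * D)) * Real.exp (-c * D) := by
    rw [← Real.exp_add]
    refine Real.exp_le_exp.mpr ?_
    nlinarith only [mul_le_mul_of_nonneg_left hu hL0.le, mul_le_mul_of_nonneg_right hc hD]
  have h7 : A * Real.exp (-(δ * L / 2 * D)) ≤ 1 / 2 := by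
    rw [Real.exp_neg, ← div_eq_mul_inv, div_le_iff₀ (Real.exp_pos _)]
    linarith only [h5]
  calc A * Real.exp (-(L * u)) ≤ A * (Real.exp (-(δ * L / 2 * D)) * Real.exp (-c * D)) :=
        mul_le_mul_of_nonneg_left h6 hA.le
    _ = A * Real.exp (-(δ * L / 2 * D)) * Real.exp (-c * D) := by ring
    _ ≤ 1 / 2 * Real.exp (-c * D) := mul_le_mul_of_nonneg_right h7 (Real.exp_pos _).le
    _ = Real.exp (-c * D) / 2 := by ring

open Classical in
/-- Counting lemma with exponentially small threshold, vectors indexed by `Fin d`. -/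
theorem sm6_count_fin {M : ℕ} (hM : 4 ≤ M) {ε δ : ℝ} (K : ℝ) (hε : 0 < ε) (hε1 : ε < 1)
    (hδ : 0 < δ) : ∃ c : ℝ, 0 < c ∧ ∃ d0 : ℕ, ∀ d ≥ d0, ∀ (N : ℕ) [NeZero N],
      Real.log N ≤ (1 - ε) * d * (-Real.log (1 - 2 / (M : ℝ))) →
      ((univ.filter (fun v : Fin d → ZMod N => δ * d ≤ nu v ∧
        1 + Real.exp (-c * d) < Zf M v)).card : ℝ) ≤
        Real.exp (-K * d) * (N : ℝ) ^ d := by
  have hM' : (4 : ℝ) ≤ M := by exact_mod_cast hM
  set K1 := max K 0 with hK1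
  have hK10 : 0 ≤ K1 := le_max_right _ _
  have hKK1 : K ≤ K1 := le_max_left _ _
  have hlog2 : 0 < Real.log 2 := Real.log_pos (by norm_num)
  have hlog2' : Real.log 2 ≤ 1 := by
    have := Real.log_two_lt_d9
    linarith only [this]
  set w := Real.log (((1 - 2 / (M : ℝ)) ^ (1 - ε / 4) - (1 - 2 / M)) * M / 2) with hw
  set X := 2 / ε * (K1 + 1 + Real.log 2) + |w| with hX
  have hXa : 2 / ε * (K1 + 1 + Real.log 2) ≤ X := by
    rw [hX]; linarith only [abs_nonneg w]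
  have hXw : w ≤ X := by
    have h1 : 0 ≤ 2 / ε * (K1 + 1 + Real.log 2) := by (clear * - hε; positivity)
    have h2 := le_abs_self w
    rw [hX]; linarith only [h1, h2]
  have hX0 : 0 ≤ X := by
    have h1 : 0 ≤ 2 / ε * (K1 + 1 + Real.log 2) := by (clear * - hε; positivity)
    linarith only [hXa, h1]
  have hXlog : Real.log 2 ≤ X := by
    refine le_trans ?_ hXa
    have h1 : (1 : ℝ) ≤ 2 / ε := by
      rw [le_div_iff₀ hε]; linarith only [hε1]
    nlinarith only [hK10, h1, hlog2]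
  obtain ⟨Λ, hΛ1, hΛ⟩ := card_large_exp hM hε hε1 hX0 hXw
  have hΛ0 : 0 < Λ := by linarith only [hΛ1]
  obtain ⟨K3, hK3⟩ : ∃ K3, K3 = K1 + 1 := ⟨_, rfl⟩
  have hK30 : 0 ≤ K3 := by rw [hK3]; linarith only [hK10]
  set τ := Real.exp (-(4 * (K3 + 2) / ε)) with hτ
  obtain ⟨k', hk', hrk⟩ := exists_rk_small hM (τ := τ) (Real.exp_pos _)
  obtain ⟨k, rfl⟩ : ∃ k, k' = k + 1 := ⟨k' - 1, by omega⟩
  set C := Λ ^ (k + 1) * 2 ^ (k + 1) * Real.exp (4 * (K3 + 2) / ε) with hC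
  have hC0 : 0 < C := by rw [hC]; positivity
  -- small order frequencies
  set c0 : ℝ := 1 - 1 / ((M : ℝ) * ((k : ℝ) + 1) ^ 2) with hc
  have hc00 : 0 < c0 := by
    rw [hc, sub_pos, div_lt_one (by (clear * - hM; positivity))]
    have : (1 : ℝ) ≤ ((k : ℝ) + 1) ^ 2 := by
      have : (0 : ℝ) ≤ k := by (clear * -; positivity)
      nlinarith
    nlinarith only [this, hM']
  have hc1 : c0 < 1 := by
    rw [hc]
    have : 0 < 1 / ((M : ℝ) * ((k : ℝ) + 1) ^ 2) := by (clear * - hM; positivity)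
    linarith only [this]
  set L := -Real.log c0 with hL
  have hL0 : 0 < L := by
    have := Real.log_neg hc00 hc1
    rw [hL]; linarith only [this]
  set c : ℝ := min (1 / ((k : ℝ) + 1)) (δ * L / 2) with hcd
  have hcpos : 0 < c := lt_min (by (clear * -; positivity)) (by (clear * - hδ hL0; positivity))
  have hck : c ≤ 1 / ((k : ℝ) + 1) := min_le_left _ _
  have hcL : c ≤ δ * L / 2 := min_le_right _ _
  set A : ℝ := ((k : ℝ) + 1) ^ 2 with hA
  have hA0 : 0 < A := by rw [hA]; (clear * -; positivity)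
  refine ⟨c, hcpos, max (max ⌈2 / (δ * L) * Real.log (2 * A)⌉₊ ⌈Real.log C⌉₊) 1, ?_⟩
  intro d hd N _ hN
  have hd1 : (1 : ℝ) ≤ d := by
    exact_mod_cast (le_max_right _ _).trans hd
  have hdL : 2 / (δ * L) * Real.log (2 * A) ≤ d := by
    refine (Nat.le_ceil _).trans ?_
    exact_mod_cast ((le_max_left _ _).trans (le_max_left _ _)).trans hd
  have hdC : Real.log C ≤ d := by
    refine (Nat.le_ceil _).trans ?_
    exact_mod_cast ((le_max_right _ _).trans (le_max_left _ _)).trans hd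
  -- split d = a + b
  obtain ⟨a, b, hab, ha, hb⟩ : ∃ a b : ℕ, a + b = d ∧ (1 - ε / 4) * d ≤ a ∧
      (ε / 4) * d - 1 ≤ b := by
    have hb1 : ((⌊ε / 4 * d⌋₊ : ℕ) : ℝ) ≤ ε / 4 * d := Nat.floor_le (by (clear * - hε hd1; positivity))
    have hb2 : ε / 4 * d < (⌊ε / 4 * d⌋₊ : ℕ) + 1 := Nat.lt_floor_add_one _
    have hb3 : ⌊ε / 4 * d⌋₊ ≤ d := by
      have : ((⌊ε / 4 * d⌋₊ : ℕ) : ℝ) ≤ d := by nlinarith only [hε1, hb1]
      exact_mod_cast this
    refine ⟨d - ⌊ε / 4 * d⌋₊, ⌊ε / 4 * d⌋₊, by omega, ?_, by linarith only [hb2]⟩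
    rw [Nat.cast_sub hb3]
    linarith only [hb1]
  subst hab
  set u := ⌈δ * ((a + b : ℕ) : ℝ)⌉₊ with hu
  set D : ℝ := ((a + b : ℕ) : ℝ) with hD
  have hD0 : 0 ≤ D := by linarith only [hd1]
  have hsmall : ((k : ℝ) + 1) ^ 2 * (1 - 1 / (M * ((k : ℝ) + 1) ^ 2)) ^ u ≤
      Real.exp (-c * D) / 2 :=
    sm6_small hc00 hL hL0 hδ hA0 (Nat.le_ceil _) hcL hD0 hdL
  have hN0 : (0 : ℝ) < N := by exact_mod_cast Nat.pos_of_ne_zero (NeZero.ne N)
  have hmain := count_main (N := N) hM a b u (Real.exp_pos (-c * D)) hΛ0 hsmall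
  have hsub : ((univ.filter (fun v : Fin (a + b) → ZMod N =>
      δ * D ≤ nu v ∧ 1 + Real.exp (-c * D) < Zf M v)).card : ℝ) ≤
      ((univ.filter (fun v : Fin (a + b) → ZMod N => u ≤ nu v ∧
        1 + Real.exp (-c * D) < Zf M v)).card : ℝ) := by
    refine Nat.cast_le.mpr (card_le_card (monotone_filter_right _ fun v _ h => ?_))
    exact ⟨Nat.ceil_le.mpr h.1, h.2⟩
  refine hsub.trans (hmain.trans ?_)
  clear_value D u X K1 τ C c A L
  -- first term
  have hfirst : ((univ.filter (fun v : Fin a → ZMod N => Λ ≤ Zf M v)).card : ℝ) * (N : ℝ) ^ b ≤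
      (N : ℝ) ^ (a + b) * Real.exp (-(K1 + 1) * D) := by
    have h1 := hΛ a D N hN hD0
    have h2 := exp_ineq1 hε hD0 ha hXa hXlog
    calc ((univ.filter (fun v : Fin a → ZMod N => Λ ≤ Zf M v)).card : ℝ) * (N : ℝ) ^ b
        ≤ ((N : ℝ) ^ a * Real.exp (a * (Real.log 2 - X) + X * (1 - 3 * ε / 4) * D)) *
          (N : ℝ) ^ b := mul_le_mul_of_nonneg_right h1 (by (clear * - hN0; positivity))
      _ = (N : ℝ) ^ (a + b) * Real.exp (a * (Real.log 2 - X) + X * (1 - 3 * ε / 4) * D) := by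
          rw [pow_add]; ring
      _ ≤ _ := mul_le_mul_of_nonneg_left (Real.exp_le_exp.mpr h2) (by (clear * - hN0; positivity))
  -- second term
  have hsecond : (N : ℝ) ^ a * (Λ ^ (k + 1) * (2 / Real.exp (-c * D)) ^ (k + 1) *
      ((N : ℝ) * rk M (k + 1)) ^ b) ≤ (N : ℝ) ^ (a + b) * Real.exp (-(K1 + 1) * D) := by
    have h1 := exp_ineq2 hε hK30 (rk_nonneg (M := M) (k + 1)) (hτ ▸ hrk) hb
    have h2 : C ≤ Real.exp D := by
      rw [← Real.exp_log hC0]
      exact Real.exp_le_exp.mpr hdC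
    have h3 := sm6_pow_eta hck hD0
    have hr0 := rk_nonneg (M := M) (k + 1)
    calc (N : ℝ) ^ a * (Λ ^ (k + 1) * (2 / Real.exp (-c * D)) ^ (k + 1) *
          ((N : ℝ) * rk M (k + 1)) ^ b)
        = (N : ℝ) ^ (a + b) * (Λ ^ (k + 1) * ((2 / Real.exp (-c * D)) ^ (k + 1) *
          rk M (k + 1) ^ b)) := by
          rw [mul_pow, pow_add]; ring
      _ ≤ (N : ℝ) ^ (a + b) * (Λ ^ (k + 1) * ((2 ^ (k + 1) * Real.exp D) *
          (Real.exp (4 * (K3 + 2) / ε) * Real.exp (-(K3 + 2) * D)))) := by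
          (clear * - h1 h3 hΛ1 hN0 hr0; gcongr)
      _ = (N : ℝ) ^ (a + b) * (C * (Real.exp D * Real.exp (-(K3 + 2) * D))) := by rw [hC]; ring
      _ ≤ (N : ℝ) ^ (a + b) * (Real.exp D * (Real.exp D * Real.exp (-(K3 + 2) * D))) :=
          mul_le_mul_of_nonneg_left (mul_le_mul_of_nonneg_right h2
            (mul_pos (Real.exp_pos _) (Real.exp_pos _)).le)
            (by (clear * - hN0; positivity))
      _ = (N : ℝ) ^ (a + b) * Real.exp (-(K1 + 1) * D) := by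
          rw [← Real.exp_add, ← Real.exp_add, hK3]
          congr 2
          ring
  have hthird : 2 * Real.exp (-(K1 + 1) * D) ≤ Real.exp (-K * D) := by
    have h2 : (2 : ℝ) ≤ Real.exp D := by
      calc (2 : ℝ) = Real.exp (Real.log 2) := (Real.exp_log (by norm_num)).symm
        _ ≤ Real.exp D := Real.exp_le_exp.mpr (by linarith only [hlog2', hd1])
    calc 2 * Real.exp (-(K1 + 1) * D) ≤ Real.exp D * Real.exp (-(K1 + 1) * D) := by (clear * - h2; gcongr)
      _ = Real.exp (-K1 * D) := by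
          rw [← Real.exp_add]
          congr 1
          ring
      _ ≤ Real.exp (-K * D) :=
          Real.exp_le_exp.mpr (mul_le_mul_of_nonneg_right (neg_le_neg hKK1) hD0)
  have hfin : (N : ℝ) ^ (a + b) * Real.exp (-(K1 + 1) * D) +
        (N : ℝ) ^ (a + b) * Real.exp (-(K1 + 1) * D) ≤ Real.exp (-K * D) * (N : ℝ) ^ (a + b) := by
    calc _ = (2 * Real.exp (-(K1 + 1) * D)) * (N : ℝ) ^ (a + b) := by ring
      _ ≤ Real.exp (-K * D) * (N : ℝ) ^ (a + b) :=
        mul_le_mul_of_nonneg_right hthird (by (clear * - hN0; positivity))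
  have hadd := add_le_add hfirst hsecond
  refine hadd.trans hfin

open Classical in
/-- Task M6: counting lemma with exponentially small threshold. -/
theorem count_exp {M : ℕ} (hM : 4 ≤ M) {ε δ : ℝ} (K : ℝ) (hε : 0 < ε) (hε1 : ε < 1)
    (hδ : 0 < δ) : ∃ c : ℝ, 0 < c ∧ ∃ d0 : ℕ, ∀ (α : Type) [Fintype α] [DecidableEq α],
      Fintype.card α ≥ d0 → ∀ (N : ℕ) [NeZero N],
      Real.log N ≤ (1 - ε) * Fintype.card α * (-Real.log (1 - 2 / (M : ℝ))) →
      ((univ.filter (fun v : α → ZMod N => δ * Fintype.card α ≤ nu v ∧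
        1 + Real.exp (-c * Fintype.card α) < Zf M v)).card : ℝ) ≤
        Real.exp (-K * Fintype.card α) * (N : ℝ) ^ Fintype.card α := by
  obtain ⟨c, hc, d0, h⟩ := sm6_count_fin hM K hε hε1 hδ
  refine ⟨c, hc, d0, fun α _ _ hα N _ hN => ?_⟩
  refine le_trans (le_of_eq ?_) (h (Fintype.card α) hα N hN)
  congr 1
  set e := Fintype.equivFin α
  refine card_equiv (Equiv.arrowCongr e (Equiv.refl _)) fun v => ?_
  rw [mem_filter, mem_filter]
  have e1 : nu ((Equiv.arrowCongr e (Equiv.refl (ZMod N))) v) = nu v :=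
    sm6_nu_comp e.symm v
  have e2 : Zf M ((Equiv.arrowCongr e (Equiv.refl (ZMod N))) v) = Zf M v :=
    sm6_Zf_comp (by omega) e.symm v
  rw [e1, e2]
  simp

end Vale.Agent.P160
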