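import Vale.Agent.P160.SM5b

namespace Vale.Agent.P160

open Finset

/-- Number of seed rows annihilating both vectors. -/
def sm8_q {α : Type*} [Fintype α] [DecidableEq α] {N : ℕ} (x t : α → ZMod N) : ℕ :=
  (univ.filter (fun a : α → Fin 4 => walk a x = 0 ∧ walk a t = 0)).card

theorem sm8_pow {α β : Type*} [Fintype α] [DecidableEq α] [Fintype β] [DecidableEq β] {N : ℕ}
    (x t : α → ZMod N) :
    (univ.filter (fun ω : β → α → Fin 4 => (∀ i, walk (ω i) x = 0) ∧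
      ∀ i, walk (ω i) t = 0)).card = (sm8_q x t) ^ Fintype.card β := by
  have h : (univ.filter (fun ω : β → α → Fin 4 => (∀ i, walk (ω i) x = 0) ∧
      ∀ i, walk (ω i) t = 0)) = Fintype.piFinset (fun _ : β =>
        univ.filter (fun a : α → Fin 4 => walk a x = 0 ∧ walk a t = 0)) := by
    ext ω
    simp only [mem_filter, mem_univ, true_and, Fintype.mem_piFinset, forall_and]
  rw [h, Fintype.card_piFinset, Finset.prod_const, Finset.card_univ]
  rfl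

theorem sm8_ker {α β : Type*} [Fintype α] [DecidableEq α] [Fintype β] [DecidableEq β] (N : ℕ)
    [NeZero N] (ω : β → α → Fin 4) :
    kerN N (hm ω) = univ.filter (fun u => ∀ i, walk (ω i) u = 0) := rfl

theorem sm8_second (d J : ℕ) :
    ∑ x : Fin d → ZMod (2 ^ J), ∑ t : Fin d → ZMod (2 ^ J), (sm8_q x t : ℝ) ^ d =
      ∑ ω : Fin d → Fin d → Fin 4, ((kerN (2 ^ J) (hm ω)).card : ℝ) ^ 2 := by
  have h1 : ∀ x t : Fin d → ZMod (2 ^ J), (sm8_q x t : ℝ) ^ d =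
      ∑ ω : Fin d → Fin d → Fin 4, (if (∀ i, walk (ω i) x = 0) then (1 : ℝ) else 0) *
        (if (∀ i, walk (ω i) t = 0) then 1 else 0) := by
    intro x t
    have := sm8_pow (β := Fin d) x t
    rw [Fintype.card_fin] at this
    rw [← Nat.cast_pow, ← this, Finset.card_filter, Nat.cast_sum]
    refine sum_congr rfl fun ω _ => ?_
    by_cases ha : ∀ i, walk (ω i) x = 0 <;> by_cases hb : ∀ i, walk (ω i) t = 0 <;> simp [ha, hb]
  have h2 : ∀ ω : Fin d → Fin d → Fin 4, ((kerN (2 ^ J) (hm ω)).card : ℝ) =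
      ∑ x : Fin d → ZMod (2 ^ J), (if (∀ i, walk (ω i) x = 0) then (1 : ℝ) else 0) := by
    intro ω
    rw [sm8_ker, Finset.card_filter]
    push_cast
    rfl
  simp_rw [h1]
  calc ∑ x : Fin d → ZMod (2 ^ J), ∑ t : Fin d → ZMod (2 ^ J), ∑ ω : Fin d → Fin d → Fin 4,
        (if (∀ i, walk (ω i) x = 0) then (1 : ℝ) else 0) *
        (if (∀ i, walk (ω i) t = 0) then 1 else 0)
      = ∑ x : Fin d → ZMod (2 ^ J), ∑ ω : Fin d → Fin d → Fin 4, ∑ t : Fin d → ZMod (2 ^ J),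
        (if (∀ i, walk (ω i) x = 0) then (1 : ℝ) else 0) *
        (if (∀ i, walk (ω i) t = 0) then 1 else 0) :=
        sum_congr rfl fun x _ => sum_comm
    _ = ∑ ω : Fin d → Fin d → Fin 4, ∑ x : Fin d → ZMod (2 ^ J), ∑ t : Fin d → ZMod (2 ^ J),
        (if (∀ i, walk (ω i) x = 0) then (1 : ℝ) else 0) *
        (if (∀ i, walk (ω i) t = 0) then 1 else 0) := sum_comm
    _ = _ := by
        refine sum_congr rfl fun ω _ => ?_
        rw [h2, sq, Finset.sum_mul_sum]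

theorem sm8_reindex {α : Type*} [Fintype α] [DecidableEq α] (J n : ℕ) :
    ∑ x : α → ZMod (2 ^ J), ∑ t : α → ZMod (2 ^ J), (sm8_q x t : ℝ) ^ n =
      ∑ x : Fin (Fintype.card α) → ZMod (2 ^ J), ∑ t : Fin (Fintype.card α) → ZMod (2 ^ J),
        (sm8_q x t : ℝ) ^ n := by
  set e := Fintype.equivFin α
  have hq : ∀ x t : α → ZMod (2 ^ J), sm8_q x t = sm8_q (x ∘ e.symm) (t ∘ e.symm) := by
    intro x t
    unfold sm8_q
    refine Finset.card_bij (fun a _ => a ∘ e.symm) ?_ ?_ ?_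
    · intro a ha
      rw [mem_filter] at ha ⊢
      refine ⟨mem_univ _, ?_, ?_⟩
      · rw [← ha.2.1]
        exact Equiv.sum_comp e.symm (fun i => (st (a i) : ZMod (2 ^ J)) * x i)
      · rw [← ha.2.2]
        exact Equiv.sum_comp e.symm (fun i => (st (a i) : ZMod (2 ^ J)) * t i)
    · intro a _ b _ hab
      funext i
      have := congrFun hab (e i)
      simpa using this
    · intro b hb
      rw [mem_filter] at hb
      refine ⟨b ∘ e, ?_, ?_⟩
      · rw [mem_filter]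
        refine ⟨mem_univ _, ?_, ?_⟩
        · rw [← hb.2.1]
          unfold walk
          rw [← Equiv.sum_comp e.symm (fun i => (st ((b ∘ e) i) : ZMod (2 ^ J)) * x i)]
          refine sum_congr rfl fun i _ => ?_
          simp
        · rw [← hb.2.2]
          unfold walk
          rw [← Equiv.sum_comp e.symm (fun i => (st ((b ∘ e) i) : ZMod (2 ^ J)) * t i)]
          refine sum_congr rfl fun i _ => ?_
          simp
      · funext i
        simp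
  simp_rw [hq]
  set E : (α → ZMod (2 ^ J)) ≃ (Fin (Fintype.card α) → ZMod (2 ^ J)) :=
    Equiv.arrowCongr e (Equiv.refl _)
  have hE : ∀ x, E x = x ∘ e.symm := fun x => rfl
  rw [← Equiv.sum_comp E]
  refine sum_congr rfl fun x _ => ?_
  rw [← Equiv.sum_comp E]
  rfl

theorem sm8_real {θ c8 g e c7 D B : ℝ} (hg : g = c8 / 4) (hc8 : 0 < c8)
    (he1 : e ≤ c8 / 4) (he2 : e ≤ g * θ / 2) (hc7a : 2 * c7 ≤ g * θ / 2)
    (hc7b : 2 * c7 ≤ c8 / 2) (hD : 0 ≤ D) (hB : (1 + θ) * D ≤ B) (h1 : 1 ≤ c7 * D ^ 2) :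
    (2 : ℝ) ^ (e * D ^ 2) * ((2 : ℝ) ^ (-g * D * (B - D)) + (2 : ℝ) ^ (g * D * D) *
      (2 : ℝ) ^ (-c8 * D ^ 2)) ≤ (2 : ℝ) ^ (-c7 * D ^ 2) := by
  have hD2 : 0 ≤ D ^ 2 := sq_nonneg D
  have hgpos : 0 < g := by rw [hg]; positivity
  have a1 : (2 : ℝ) ^ (e * D ^ 2) * (2 : ℝ) ^ (-g * D * (B - D)) ≤
      (2 : ℝ) ^ (-(2 * c7) * D ^ 2) := by
    rw [← Real.rpow_add (by norm_num)]
    apply Real.rpow_le_rpow_of_exponent_le (by norm_num)
    have k1 : θ * D ≤ B - D := by linarith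
    have k2 : g * D * (θ * D) ≤ g * D * (B - D) :=
      mul_le_mul_of_nonneg_left k1 (mul_nonneg hgpos.le hD)
    nlinarith [mul_le_mul_of_nonneg_right he2 hD2, mul_le_mul_of_nonneg_right hc7a hD2]
  have a2 : (2 : ℝ) ^ (e * D ^ 2) * ((2 : ℝ) ^ (g * D * D) * (2 : ℝ) ^ (-c8 * D ^ 2)) ≤
      (2 : ℝ) ^ (-(2 * c7) * D ^ 2) := by
    rw [← Real.rpow_add (by norm_num), ← Real.rpow_add (by norm_num)]
    apply Real.rpow_le_rpow_of_exponent_le (by norm_num)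
    rw [hg]
    nlinarith [mul_le_mul_of_nonneg_right he1 hD2, mul_le_mul_of_nonneg_right hc7b hD2]
  calc (2 : ℝ) ^ (e * D ^ 2) * ((2 : ℝ) ^ (-g * D * (B - D)) + (2 : ℝ) ^ (g * D * D) *
      (2 : ℝ) ^ (-c8 * D ^ 2))
      ≤ (2 : ℝ) ^ (-(2 * c7) * D ^ 2) + (2 : ℝ) ^ (-(2 * c7) * D ^ 2) := by
        rw [mul_add]
        exact add_le_add a1 a2
    _ = (2 : ℝ) ^ (1 + -(2 * c7) * D ^ 2) := by
        rw [Real.rpow_add (by norm_num), Real.rpow_one]
        ring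
    _ ≤ (2 : ℝ) ^ (-c7 * D ^ 2) := by
        apply Real.rpow_le_rpow_of_exponent_le (by norm_num)
        nlinarith

open Classical in
/-- Task M8: the far part. -/
theorem far_part {θ c8 : ℝ} (hθ : 0 < θ) (hc8 : 0 < c8) :
    ∃ c7 : ℝ, 0 < c7 ∧ ∃ d0 : ℕ, ∀ (α β : Type) [Fintype α] [DecidableEq α]
      [Fintype β] [DecidableEq β], d0 ≤ Fintype.card α →
      (1 + θ) * Fintype.card α ≤ Fintype.card β →
      ∀ J : ℕ, 2 * J ≤ Fintype.card α → ∀ (Far : (β → α → Fin 4) → Prop)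
      (C : Finset (α → ZMod (2 ^ J))),
      (∀ x ∈ C, ((univ.filter (fun ω : β → α → Fin 4 => (∀ i, walk (ω i) x = 0) ∧
          Far ω)).card : ℝ) ≤
        (2 : ℝ) ^ (-c8 * (Fintype.card α : ℝ) ^ 2) * (1 / 2 ^ J) ^ Fintype.card β *
          4 ^ (Fintype.card β * Fintype.card α)) →
      (∑ x ∈ C, ∑ ω : β → α → Fin 4, if (∀ i, walk (ω i) x = 0) ∧ Far ω then
          ((kerN (2 ^ J) (hm ω)).card : ℝ) else 0) ≤
        (2 : ℝ) ^ (-c7 * (Fintype.card α : ℝ) ^ 2) * (2 ^ J) ^ Fintype.card α *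
          (1 / 2 ^ J) ^ Fintype.card β * 4 ^ (Fintype.card β * Fintype.card α) := by
  set g : ℝ := c8 / 4 with hg
  set e : ℝ := min (c8 / 4) (g * θ / 2) with he
  have hgpos : 0 < g := by positivity
  have hepos : 0 < e := lt_min (by positivity) (by positivity)
  obtain ⟨d1, hW2⟩ := W2 e hepos
  set c7 : ℝ := min (g * θ / 2) (c8 / 2) / 2 with hc7
  have hc7pos : 0 < c7 := by
    have : 0 < min (g * θ / 2) (c8 / 2) := lt_min (by positivity) (by positivity)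
    positivity
  obtain ⟨d2, hd2⟩ := exists_nat_gt (1 / c7)
  refine ⟨c7, hc7pos, max d1 (d2 + 1), ?_⟩
  intro α β _ _ _ _ hd hb J hJ Far C htail
  set d := Fintype.card α with hdd
  set b := Fintype.card β with hbb
  have hd1 : d1 ≤ d := le_trans (le_max_left _ _) hd
  have hd2' : d2 + 1 ≤ d := le_trans (le_max_right _ _) hd
  have hdR : (d2 : ℝ) + 1 ≤ d := by exact_mod_cast hd2'
  have hdone : (1 : ℝ) ≤ d := by
    have : (0 : ℝ) ≤ d2 := Nat.cast_nonneg _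
    linarith
  have h1 : 1 ≤ c7 * (d : ℝ) ^ 2 := by
    have k1 : 1 < d2 * c7 := by rwa [div_lt_iff₀ hc7pos] at hd2
    have k2 : c7 * d2 ≤ c7 * d := mul_le_mul_of_nonneg_left (by linarith) hc7pos.le
    have k3 : c7 * d ≤ c7 * (d : ℝ) ^ 2 := by
      apply mul_le_mul_of_nonneg_left _ hc7pos.le
      nlinarith
    linarith
  have hdb : d ≤ b := by
    have : (d : ℝ) ≤ b := by nlinarith
    exact_mod_cast this
  have hS : ∑ x : α → ZMod (2 ^ J), ∑ t : α → ZMod (2 ^ J), (sm8_q x t : ℝ) ^ d ≤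
      (2 : ℝ) ^ (e * (d : ℝ) ^ 2) * 4 ^ (d * d) := by
    rw [sm8_reindex, sm8_second]
    exact hW2 d hd1 J hJ
  set tail : ℝ := (2 : ℝ) ^ (-c8 * (d : ℝ) ^ 2) * (1 / 2 ^ J) ^ b * 4 ^ (b * d) with htl
  have htailpos : 0 ≤ tail := by positivity
  set ρ : ℝ := (2 : ℝ) ^ (-g * d) / 2 ^ J with hρ
  have hρpos : 0 < ρ := by positivity
  have hF : ∀ x ∈ C, ∀ t : α → ZMod (2 ^ J),
      ((univ.filter (fun ω : β → α → Fin 4 => ((∀ i, walk (ω i) x = 0) ∧ Far ω) ∧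
        ∀ i, walk (ω i) t = 0)).card : ℝ) ≤
      (sm8_q x t : ℝ) ^ d * ((4 ^ (d * d))⁻¹ * (4 ^ (b * d) * ρ ^ (b - d) +
        (ρ ^ d)⁻¹ * tail)) := by
    intro x hx t
    have f1 : ((univ.filter (fun ω : β → α → Fin 4 => ((∀ i, walk (ω i) x = 0) ∧ Far ω) ∧
        ∀ i, walk (ω i) t = 0)).card : ℝ) ≤ (sm8_q x t : ℝ) ^ b := by
      have := sm8_pow (β := β) x t
      rw [← Nat.cast_pow, ← this]
      refine Nat.cast_le.2 (Finset.card_le_card ?_)
      intro ω hω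
      rw [mem_filter] at hω ⊢
      exact ⟨mem_univ _, hω.2.1.1, hω.2.2⟩
    have f2 : ((univ.filter (fun ω : β → α → Fin 4 => ((∀ i, walk (ω i) x = 0) ∧ Far ω) ∧
        ∀ i, walk (ω i) t = 0)).card : ℝ) ≤ tail := by
      refine le_trans (Nat.cast_le.2 (Finset.card_le_card ?_)) (htail x hx)
      intro ω hω
      rw [mem_filter] at hω ⊢
      exact ⟨mem_univ _, hω.2.1⟩
    set p : ℝ := (sm8_q x t : ℝ) / 4 ^ d with hp
    have hp0 : 0 ≤ p := by positivity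
    have hqp : (sm8_q x t : ℝ) = p * 4 ^ d := by rw [hp]; field_simp
    have hrw : (sm8_q x t : ℝ) ^ d * ((4 ^ (d * d))⁻¹ * (4 ^ (b * d) * ρ ^ (b - d) +
        (ρ ^ d)⁻¹ * tail)) = p ^ d * (4 ^ (b * d) * ρ ^ (b - d)) + (p / ρ) ^ d * tail := by
      have e1 : (sm8_q x t : ℝ) ^ d = p ^ d * 4 ^ (d * d) := by rw [hqp, mul_pow, ← pow_mul]
      have e2 : (4 : ℝ) ^ (d * d) * (4 ^ (d * d))⁻¹ = 1 := mul_inv_cancel₀ (by positivity)
      rw [e1, div_pow p ρ d, div_eq_mul_inv (p ^ d) (ρ ^ d)]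
      calc p ^ d * 4 ^ (d * d) * ((4 ^ (d * d))⁻¹ * (4 ^ (b * d) * ρ ^ (b - d) +
          (ρ ^ d)⁻¹ * tail))
          = ((4 : ℝ) ^ (d * d) * (4 ^ (d * d))⁻¹) * (p ^ d * (4 ^ (b * d) * ρ ^ (b - d)) +
            p ^ d * (ρ ^ d)⁻¹ * tail) := by ring
        _ = _ := by rw [e2, one_mul]
    rw [hrw]
    by_cases hcase : p ≤ ρ
    · have f3 : (sm8_q x t : ℝ) ^ b ≤ p ^ d * (4 ^ (b * d) * ρ ^ (b - d)) := by
        rw [hqp, mul_pow, ← pow_mul, mul_comm d b]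
        have : p ^ b = p ^ d * p ^ (b - d) := by
          rw [← pow_add]
          congr 1
          omega
        rw [this]
        have h5 : p ^ (b - d) ≤ ρ ^ (b - d) := pow_le_pow_left₀ hp0 hcase _
        calc p ^ d * p ^ (b - d) * 4 ^ (b * d) ≤ p ^ d * ρ ^ (b - d) * 4 ^ (b * d) := by gcongr
          _ = p ^ d * (4 ^ (b * d) * ρ ^ (b - d)) := by ring
      have : 0 ≤ (p / ρ) ^ d * tail := by positivity
      linarith
    · push Not at hcase
      have f4 : 1 ≤ (p / ρ) ^ d := one_le_pow₀ ((one_le_div hρpos).2 hcase.le)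
      have f5 : tail ≤ (p / ρ) ^ d * tail := le_mul_of_one_le_left htailpos f4
      have : 0 ≤ p ^ d * (4 ^ (b * d) * ρ ^ (b - d)) := by positivity
      linarith
  have hL : (∑ x ∈ C, ∑ ω : β → α → Fin 4, if (∀ i, walk (ω i) x = 0) ∧ Far ω then
          ((kerN (2 ^ J) (hm ω)).card : ℝ) else 0) =
      ∑ x ∈ C, ∑ t : α → ZMod (2 ^ J),
        ((univ.filter (fun ω : β → α → Fin 4 => ((∀ i, walk (ω i) x = 0) ∧ Far ω) ∧
        ∀ i, walk (ω i) t = 0)).card : ℝ) := by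
    refine sum_congr rfl fun x _ => ?_
    have k1 : ∀ ω : β → α → Fin 4, (if (∀ i, walk (ω i) x = 0) ∧ Far ω then
          ((kerN (2 ^ J) (hm ω)).card : ℝ) else 0) = ∑ t : α → ZMod (2 ^ J),
          (if ((∀ i, walk (ω i) x = 0) ∧ Far ω) ∧ (∀ i, walk (ω i) t = 0) then (1 : ℝ)
            else 0) := by
      intro ω
      rw [sm8_ker, Finset.card_filter]
      push_cast
      split_ifs with hc
      · refine sum_congr rfl fun t _ => ?_
        by_cases ht : ∀ i, walk (ω i) t = 0 <;> simp [ht, hc]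
      · symm
        apply Finset.sum_eq_zero
        intro t _
        rw [if_neg]
        exact fun h => hc h.1
    rw [sum_congr rfl fun ω _ => k1 ω, sum_comm]
    refine sum_congr rfl fun t _ => ?_
    rw [Finset.card_filter]
    push_cast
    rfl
  rw [hL]
  set K : ℝ := (4 ^ (d * d))⁻¹ * (4 ^ (b * d) * ρ ^ (b - d) + (ρ ^ d)⁻¹ * tail) with hK
  have hK0 : 0 ≤ K := by positivity
  have hLHS : ∑ x ∈ C, ∑ t : α → ZMod (2 ^ J),
        ((univ.filter (fun ω : β → α → Fin 4 => ((∀ i, walk (ω i) x = 0) ∧ Far ω) ∧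
        ∀ i, walk (ω i) t = 0)).card : ℝ) ≤ ((2 : ℝ) ^ (e * (d : ℝ) ^ 2) * 4 ^ (d * d)) * K := by
    calc _ ≤ ∑ x ∈ C, ∑ t : α → ZMod (2 ^ J), (sm8_q x t : ℝ) ^ d * K :=
          sum_le_sum fun x hx => sum_le_sum fun t _ => hF x hx t
      _ ≤ ∑ x : α → ZMod (2 ^ J), ∑ t : α → ZMod (2 ^ J), (sm8_q x t : ℝ) ^ d * K :=
          sum_le_sum_of_subset_of_nonneg (subset_univ _) fun x _ _ =>
            sum_nonneg fun t _ => by positivity
      _ = (∑ x : α → ZMod (2 ^ J), ∑ t : α → ZMod (2 ^ J), (sm8_q x t : ℝ) ^ d) * K := by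
          rw [sum_mul]
          refine sum_congr rfl fun x _ => ?_
          rw [sum_mul]
      _ ≤ _ := mul_le_mul_of_nonneg_right hS hK0
  refine hLHS.trans ?_
  have hreal := sm8_real (D := (d : ℝ)) (B := (b : ℝ)) hg hc8 (min_le_left _ _)
    (min_le_right _ _) (c7 := c7)
    (by rw [hc7]; linarith [min_le_left (g * θ / 2) (c8 / 2)])
    (by rw [hc7]; linarith [min_le_right (g * θ / 2) (c8 / 2)])
    (Nat.cast_nonneg _) hb h1
  rw [← he] at hreal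
  have hρ1 : ρ ^ (b - d) = (2 : ℝ) ^ (-g * d * (b - d)) * ((2 ^ J) ^ d * (1 / 2 ^ J) ^ b) := by
    rw [hρ, div_pow, ← Real.rpow_natCast ((2 : ℝ) ^ (-g * d)) (b - d),
      ← Real.rpow_mul (by norm_num), Nat.cast_sub hdb]
    rw [div_eq_mul_inv]
    congr 1
    have : ((2 : ℝ) ^ J) ^ b = (2 ^ J) ^ d * (2 ^ J) ^ (b - d) := by
      rw [← pow_add]
      congr 1
      omega
    rw [one_div, inv_pow, this]
    field_simp
  have hρ2 : (ρ ^ d)⁻¹ = (2 : ℝ) ^ (g * d * d) * (2 ^ J) ^ d := by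
    rw [hρ, div_pow, ← Real.rpow_natCast ((2 : ℝ) ^ (-g * d)) d, ← Real.rpow_mul (by norm_num),
      inv_div, div_eq_mul_inv, ← Real.rpow_neg (by norm_num), mul_comm]
    congr 2
    ring
  have hfin : ((2 : ℝ) ^ (e * (d : ℝ) ^ 2) * 4 ^ (d * d)) * K =
      ((2 : ℝ) ^ (e * (d : ℝ) ^ 2) * ((2 : ℝ) ^ (-g * d * ((b : ℝ) - d)) +
        (2 : ℝ) ^ (g * d * d) * (2 : ℝ) ^ (-c8 * (d : ℝ) ^ 2))) *
        ((2 ^ J) ^ d * (1 / 2 ^ J) ^ b * 4 ^ (b * d)) := by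
    rw [hK, hρ1, hρ2, htl]
    have : (4 : ℝ) ^ (d * d) ≠ 0 := by positivity
    field_simp
  rw [hfin]
  calc _ ≤ (2 : ℝ) ^ (-c7 * (d : ℝ) ^ 2) * ((2 ^ J) ^ d * (1 / 2 ^ J) ^ b * 4 ^ (b * d)) :=
        mul_le_mul_of_nonneg_right hreal (by positivity)
    _ = _ := by ring

end Vale.Agent.P160
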