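import Vale.Agent.P160.SDefs

namespace Vale.Agent.P160

open Finset

section defs

variable {α : Type} [Fintype α] [DecidableEq α]

open Classical in
/-- Seed vectors orthogonal to the subgroup `K`. -/
noncomputable def orth (I : ℕ) (K : AddSubgroup (α → ZMod (2 ^ I))) : Finset (α → Fin 4) :=
  univ.filter (fun a => ∀ k ∈ K, walk a k = 0)

/-- The number of nonzero coordinates. -/
def suppc {I : ℕ} (k : α → ZMod (2 ^ I)) : ℕ := (univ.filter (fun i => k i ≠ 0)).card

/-- The subgroup of `K` generated by its sparse elements. -/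
def spars (I w : ℕ) (K : AddSubgroup (α → ZMod (2 ^ I))) : AddSubgroup (α → ZMod (2 ^ I)) :=
  AddSubgroup.closure {k | k ∈ K ∧ suppc k < w}

open Classical in
/-- The elements of order at most 2. -/
noncomputable def tors (I : ℕ) (L : AddSubgroup (α → ZMod (2 ^ I))) :
    Finset (α → ZMod (2 ^ I)) :=
  univ.filter (fun k => k ∈ L ∧ k + k = 0)

/-- The kernel mod `2 ^ I` as a subgroup. -/
def kerG {β : Type} (I : ℕ) (ω : β → α → Fin 4) : AddSubgroup (α → ZMod (2 ^ I)) where
  carrier := {u | ∀ i, walk (ω i) u = 0}
  add_mem' := by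
    intro a b ha hb i
    have h1 := ha i
    have h2 := hb i
    unfold walk at *
    simp only [Pi.add_apply, mul_add, sum_add_distrib, h1, h2, add_zero]
  zero_mem' := by
    intro i
    simp [walk]
  neg_mem' := by
    intro a ha i
    have h1 := ha i
    unfold walk at *
    simp only [Pi.neg_apply, mul_neg, sum_neg_distrib, h1, neg_zero]

end defs

end Vale.Agent.P160
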