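import Vale.Agent.P160.SN0

set_option linter.unusedSectionVars false

namespace Vale.Agent.P160

open Finset

/-- The characters at two levels. -/
lemma sn1_ee_cast {I n : ℕ} (h : I ≤ n) (y : ZMod (2 ^ n)) :
    ee ((y.cast : ZMod (2 ^ I))) = ee (2 ^ (n - I) * y) := by
  obtain ⟨m, rfl⟩ := ZMod.intCast_surjective y
  have hd : 2 ^ I ∣ 2 ^ n := pow_dvd_pow 2 h
  rw [ZMod.cast_intCast hd]
  have e1 : (2 ^ (n - I) * (m : ZMod (2 ^ n)) : ZMod (2 ^ n)) =
      ((2 ^ (n - I) * m : ℤ) : ZMod (2 ^ n)) := by push_cast; rfl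
  rw [e1]
  unfold ee
  rw [ZMod.stdAddChar_coe, ZMod.stdAddChar_coe]
  congr 1
  have e2 : (2 : ℂ) ^ n = 2 ^ (n - I) * 2 ^ I := by rw [← pow_add]; congr 1; omega
  push_cast
  rw [e2]
  have h3 : (2 : ℂ) ^ (n - I) ≠ 0 := pow_ne_zero _ two_ne_zero
  have h4 : (2 : ℂ) ^ I ≠ 0 := pow_ne_zero _ two_ne_zero
  field_simp

/-- The character of order two. -/
lemma sn1_ee_half (J : ℕ) (s : ZMod (2 ^ (J + 1))) :
    ee (s * 2 ^ J) = if s.val % 2 = 1 then -1 else 1 := by
  have h1 : ee ((2 : ZMod (2 ^ (J + 1))) ^ J) = -1 := by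
    have e1 : (2 : ZMod (2 ^ (J + 1))) ^ J = ((2 ^ J : ℤ) : ZMod (2 ^ (J + 1))) := by push_cast; rfl
    rw [e1]
    unfold ee
    rw [ZMod.stdAddChar_coe]
    have e2 : (2 * (Real.pi : ℂ) * Complex.I * ((2 ^ J : ℤ) : ℂ) / ((2 ^ (J + 1) : ℕ) : ℂ)) =
        Real.pi * Complex.I := by
      push_cast
      have h4 : (2 : ℂ) ^ J ≠ 0 := pow_ne_zero _ two_ne_zero
      rw [pow_succ]
      field_simp
    rw [e2, Complex.exp_pi_mul_I]
  have h2 : s = (s.val : ZMod (2 ^ (J + 1))) := (ZMod.natCast_zmod_val s).symm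
  have h3 : ee (s * 2 ^ J) = ee ((s.val : ZMod (2 ^ (J + 1))) * 2 ^ J) := by rw [← h2]
  rw [h3, ee_natCast_mul, h1]
  split_ifs with h
  · exact Odd.neg_one_pow (Nat.odd_iff.2 h)
  · exact Even.neg_one_pow (Nat.even_iff.2 (by omega))

/-- Vanishing at the lower level. -/
lemma sn1_cast_zero (J : ℕ) (w : ZMod (2 ^ (J + 1))) :
    (w.cast : ZMod (2 ^ J)) = 0 ↔ w = 0 ∨ w + 2 ^ J = 0 := by
  have hd : 2 ^ J ∣ 2 ^ (J + 1) := pow_dvd_pow 2 (by omega)
  have hw : w = (w.val : ZMod (2 ^ (J + 1))) := (ZMod.natCast_zmod_val w).symm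
  have hlt : w.val < 2 ^ (J + 1) := ZMod.val_lt w
  constructor
  · intro h
    rw [hw, ZMod.cast_natCast hd, ZMod.natCast_eq_zero_iff] at h
    obtain ⟨c, hc⟩ := h
    have hc2 : c < 2 := by
      rw [hc, pow_succ] at hlt
      exact Nat.lt_of_mul_lt_mul_left hlt
    interval_cases c
    · left
      rw [hw, hc]; simp
    · right
      rw [hw, hc, mul_one]
      have : ((2 ^ J : ℕ) : ZMod (2 ^ (J + 1))) + 2 ^ J = ((2 ^ (J + 1) : ℕ) : ZMod (2 ^ (J + 1))) := by
        rw [pow_succ]; push_cast; ring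
      rw [this, ZMod.natCast_self]
  · rintro (h | h)
    · rw [h]; exact ZMod.cast_zero
    · have h2 := congrArg (ZMod.castHom hd (ZMod (2 ^ J))) h
      rw [map_add, map_pow, map_zero] at h2
      have h3 : (ZMod.castHom hd (ZMod (2 ^ J)) 2 : ZMod (2 ^ J)) ^ J = 0 := by
        have e : (ZMod.castHom hd (ZMod (2 ^ J)) 2 : ZMod (2 ^ J)) = 2 := map_ofNat _ 2
        rw [e]
        have : ((2 ^ J : ℕ) : ZMod (2 ^ J)) = 0 := ZMod.natCast_self _
        push_cast at this
        exact this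
      rw [h3, add_zero] at h2
      exact h2

/-- The sum over the odd frequencies. -/
lemma sn1_odd_sum (J : ℕ) (w : ZMod (2 ^ (J + 1))) :
    ∑ s ∈ univ.filter (fun s : ZMod (2 ^ (J + 1)) => s.val % 2 = 1), ee (s * w) =
      (if w = 0 then (2 : ℂ) ^ (J + 1) else 0) -
        (if (w.cast : ZMod (2 ^ J)) = 0 then (2 : ℂ) ^ J else 0) := by
  have h1 : ∀ s : ZMod (2 ^ (J + 1)), (if s.val % 2 = 1 then ee (s * w) else 0) =
      (ee (s * w) - ee (s * (w + 2 ^ J))) / 2 := by
    intro s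
    have h2 := sn1_ee_half J s
    rw [mul_add, ee_add, h2]
    split_ifs <;> ring
  rw [sum_filter, sum_congr rfl fun s _ => h1 s, ← sum_div, sum_sub_distrib, sum_ee_mul,
    sum_ee_mul]
  have h3 := sn1_cast_zero J w
  have hne : ¬ (w = 0 ∧ w + 2 ^ J = 0) := by
    rintro ⟨h4, h5⟩
    rw [h4, zero_add] at h5
    have h6 : ((2 ^ J : ℕ) : ZMod (2 ^ (J + 1))) = 0 := by push_cast; exact h5
    rw [ZMod.natCast_eq_zero_iff] at h6
    have := Nat.le_of_dvd (by positivity) h6
    rw [pow_succ] at this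
    have : 0 < 2 ^ J := by positivity
    omega
  by_cases hw : w = 0
  · have h4 : ¬ w + 2 ^ J = 0 := fun h => hne ⟨hw, h⟩
    rw [if_pos hw, if_neg h4, if_pos hw, if_pos (h3.2 (Or.inl hw))]
    push_cast
    rw [pow_succ]; ring
  · by_cases h5 : w + 2 ^ J = 0
    · rw [if_neg hw, if_pos h5, if_neg hw, if_pos (h3.2 (Or.inr h5))]
      push_cast
      rw [pow_succ]; ring
    · have h6 : ¬ (w.cast : ZMod (2 ^ J)) = 0 := by
        rw [h3]; tauto
      rw [if_neg hw, if_neg h5, if_neg hw, if_neg h6]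
      simp

section steps

variable {α : Type} [Fintype α] [DecidableEq α]

/-- The walk and reductions. -/
lemma sn1_walk_cast {m n : ℕ} (h : m ≤ n) (a : α → Fin 4) (v : α → ZMod (2 ^ n)) :
    ((walk a v).cast : ZMod (2 ^ m)) = walk a (fun i => ((v i).cast : ZMod (2 ^ m))) := by
  have hd : 2 ^ m ∣ 2 ^ n := pow_dvd_pow 2 h
  have := map_sum (ZMod.castHom hd (ZMod (2 ^ m))) (fun i => (st (a i) : ZMod (2 ^ n)) * v i) univ
  unfold walk
  rw [← ZMod.castHom_apply (h := hd), this]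
  refine sum_congr rfl fun i _ => ?_
  rw [map_mul, map_intCast, ZMod.castHom_apply]

lemma sn1_walk_add {N : ℕ} (a : α → Fin 4) (u v : α → ZMod N) :
    walk a (u + v) = walk a u + walk a v := by
  unfold walk
  simp only [Pi.add_apply, mul_add, sum_add_distrib]

lemma sn1_walk_smul {N : ℕ} (a : α → Fin 4) (c : ZMod N) (v : α → ZMod N) :
    walk a (fun i => c * v i) = c * walk a v := by
  unfold walk
  rw [mul_sum]
  refine sum_congr rfl fun i _ => ?_
  ring

open Classical in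
/-- The indicator of the orthogonal complement by characters. -/
lemma sn1_orth {I : ℕ} (K : AddSubgroup (α → ZMod (2 ^ I))) (a : α → Fin 4) :
    ∑ k ∈ univ.filter (fun k => k ∈ K), ee (walk a k) =
      if a ∈ orth I K then ((univ.filter (fun k => k ∈ K)).card : ℂ) else 0 := by
  by_cases ha : a ∈ orth I K
  · rw [if_pos ha]
    have h1 : ∀ k ∈ univ.filter (fun k => k ∈ K), ee (walk a k) = 1 := by
      intro k hk
      rw [mem_filter] at hk
      have := (mem_filter.1 ha).2 k hk.2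
      rw [this, ee_zero]
    rw [sum_congr rfl h1]
    simp
  · rw [if_neg ha]
    have h1 : ∃ k0 ∈ K, walk a k0 ≠ 0 := by
      by_contra hcon
      push Not at hcon
      exact ha (mem_filter.2 ⟨mem_univ _, hcon⟩)
    obtain ⟨k0, hk0, hne⟩ := h1
    have h2 : ∑ k ∈ univ.filter (fun k => k ∈ K), ee (walk a (k0 + k)) =
        ∑ k ∈ univ.filter (fun k => k ∈ K), ee (walk a k) := by
      refine sum_bij (fun k _ => k0 + k) ?_ ?_ ?_ ?_
      · intro k hk
        rw [mem_filter] at hk ⊢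
        exact ⟨mem_univ _, K.add_mem hk0 hk.2⟩
      · intro k _ k' _ h
        exact add_left_cancel h
      · intro k hk
        rw [mem_filter] at hk
        refine ⟨k - k0, ?_, by abel⟩
        rw [mem_filter]
        exact ⟨mem_univ _, K.sub_mem hk.2 hk0⟩
      · intro k _
        rfl
    simp only [sn1_walk_add, ee_add] at h2
    rw [← mul_sum] at h2
    have h3 : ee (walk a k0) ≠ 1 := by
      intro h
      apply hne
      have hinj : Function.Injective (ZMod.stdAddChar (N := 2 ^ I)) := ZMod.injective_stdAddChar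
      apply hinj
      rw [AddChar.map_zero_eq_one]
      exact h
    have h4 : (ee (walk a k0) - 1) * ∑ k ∈ univ.filter (fun k => k ∈ K), ee (walk a k) = 0 := by
      rw [sub_mul, h2, one_mul, sub_self]
    rcases mul_eq_zero.1 h4 with h5 | h5
    · exact absurd (sub_eq_zero.1 h5) h3
    · exact h5

/-- Multiplication by an odd number permutes the subgroup. -/
lemma sn1_odd_perm {I : ℕ} (K : AddSubgroup (α → ZMod (2 ^ I))) (m : ℕ) (hm : m % 2 = 1)
    (F : (α → ZMod (2 ^ I)) → ℂ) [DecidablePred (· ∈ K)] :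
    ∑ k ∈ univ.filter (fun k => k ∈ K), F (fun i => (m : ZMod (2 ^ I)) * k i) =
      ∑ k ∈ univ.filter (fun k => k ∈ K), F k := by
  have hcop : Nat.Coprime m (2 ^ I) := by
    apply Nat.Coprime.pow_right
    rw [Nat.coprime_comm, Nat.Prime.coprime_iff_not_dvd Nat.prime_two]
    omega
  have hu : IsUnit (m : ZMod (2 ^ I)) := (ZMod.isUnit_iff_coprime m (2 ^ I)).2 hcop
  obtain ⟨u, hu⟩ := hu
  have hinj : Function.Injective (fun (k : α → ZMod (2 ^ I)) (i : α) =>
      (m : ZMod (2 ^ I)) * k i) := by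
    intro k k' h
    funext i
    have := congrFun h i
    simp only [← hu] at this
    exact (Units.mul_right_inj u).1 this
  have hmem : ∀ k ∈ univ.filter (fun k => k ∈ K),
      (fun i => (m : ZMod (2 ^ I)) * k i) ∈ univ.filter (fun k => k ∈ K) := by
    intro k hk
    rw [mem_filter] at hk ⊢
    refine ⟨mem_univ _, ?_⟩
    have : (fun i => (m : ZMod (2 ^ I)) * k i) = m • k := by
      funext i
      simp [nsmul_eq_mul]
    rw [this]
    exact K.nsmul_mem hk.2 m
  have himg : (univ.filter (fun k => k ∈ K)).image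
      (fun (k : α → ZMod (2 ^ I)) (i : α) => (m : ZMod (2 ^ I)) * k i) =
      univ.filter (fun k => k ∈ K) := by
    apply eq_of_subset_of_card_le
    · intro k hk
      obtain ⟨k', hk', rfl⟩ := mem_image.1 hk
      exact hmem k' hk'
    · rw [card_image_of_injective _ hinj]
  conv_rhs => rw [← himg]
  rw [sum_image fun a _ b _ h => hinj h]

/-- The sum over all seeds. -/
lemma sn1_all {N : ℕ} [NeZero N] (v : α → ZMod N) (s : ZMod N) :
    ∑ a : α → Fin 4, ee (s * walk a v) =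
      (((4 : ℝ) ^ Fintype.card α * ∏ i, cf 4 (ee (s * v i)) : ℝ) : ℂ) := by
  have := sum_prod_zpow_st (M := 4) (by norm_num) (fun i => ee (s * v i)) (fun i => norm_ee _)
  rw [sum_congr rfl fun a _ => ee_walk a v s]
  exact_mod_cast this

open Classical in
/-- The contribution of an odd frequency. -/
lemma sn1_freq {I n : ℕ} (h : I ≤ n) (K : AddSubgroup (α → ZMod (2 ^ I)))
    (x : α → ZMod (2 ^ n)) (s : ZMod (2 ^ n)) (hs : s.val % 2 = 1) :
    ((univ.filter (fun k => k ∈ K)).card : ℂ) * ∑ a ∈ orth I K, ee (s * walk a x) =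
      ∑ k ∈ univ.filter (fun k => k ∈ K), (((4 : ℝ) ^ Fintype.card α *
        ∏ i, cf 4 (ee (s * (x i + 2 ^ (n - I) * ((k i).cast : ZMod (2 ^ n))))) : ℝ) : ℂ) := by
  have hd : 2 ^ I ∣ 2 ^ n := pow_dvd_pow 2 h
  have h1 : ∀ a : α → Fin 4,
      (if a ∈ orth I K then ((univ.filter (fun k => k ∈ K)).card : ℂ) else 0) =
      ∑ k ∈ univ.filter (fun k => k ∈ K),
        ee (s * walk a (fun i => 2 ^ (n - I) * ((k i).cast : ZMod (2 ^ n)))) := by
    intro a
    rw [← sn1_orth K a, ← sn1_odd_perm K s.val hs (fun k => ee (walk a k))]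
    refine sum_congr rfl fun k _ => ?_
    rw [sn1_walk_smul, sn1_walk_smul]
    have e1 : s * (2 ^ (n - I) * walk a (fun i => ((k i).cast : ZMod (2 ^ n)))) =
        2 ^ (n - I) * (s * walk a (fun i => ((k i).cast : ZMod (2 ^ n)))) := by ring
    rw [e1, ← sn1_ee_cast h]
    congr 1
    have e2 : ((s * walk a (fun i => ((k i).cast : ZMod (2 ^ n)))).cast : ZMod (2 ^ I)) =
        (s.cast : ZMod (2 ^ I)) * ((walk a (fun i => ((k i).cast : ZMod (2 ^ n)))).cast) :=
      map_mul (ZMod.castHom hd (ZMod (2 ^ I))) _ _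
    rw [e2, sn1_walk_cast h]
    congr 1
    · have e3 : s = (s.val : ZMod (2 ^ n)) := (ZMod.natCast_zmod_val s).symm
      conv_rhs => rw [e3]
      rw [ZMod.cast_natCast hd]
    · congr 1
      funext i
      have e4 : ((k i).cast : ZMod (2 ^ n)) = ((k i).val : ZMod (2 ^ n)) :=
        (ZMod.natCast_val (k i)).symm
      rw [e4, ZMod.cast_natCast hd, ZMod.natCast_zmod_val]
  have h2 : ((univ.filter (fun k => k ∈ K)).card : ℂ) * ∑ a ∈ orth I K, ee (s * walk a x) =
      ∑ a : α → Fin 4, (if a ∈ orth I K then ((univ.filter (fun k => k ∈ K)).card : ℂ) else 0) *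
        ee (s * walk a x) := by
    rw [mul_sum]
    simp only [ite_mul, zero_mul]
    rw [← sum_filter]
    congr 1
    ext a
    simp
  rw [h2]
  simp only [h1, sum_mul]
  rw [sum_comm]
  refine sum_congr rfl fun k _ => ?_
  rw [← sn1_all]
  refine sum_congr rfl fun a _ => ?_
  rw [← ee_add, ← mul_add]
  congr 2
  rw [add_comm, ← sn1_walk_add]
  rfl

/-- Comparison of the characteristic functions and the sum over the odd frequencies. -/
lemma sn1_flat {n : ℕ} {τ : ℝ} (v : α → ZMod (2 ^ n)) (hv : Zf 6 v ≤ 1 + τ) :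
    ∑ s ∈ univ.filter (fun s : ZMod (2 ^ n) => s.val % 2 = 1), ∏ i, cf 4 (ee (s * v i)) ≤ τ := by
  have hcf : ∀ z : ℂ, ‖z‖ = 1 → cf 4 z ≤ cf 6 z := by
    intro z hz
    have h1 : z.re ≤ 1 := by
      have := Complex.abs_re_le_norm z
      rw [hz] at this
      exact (abs_le.mp this).2
    unfold cf
    push_cast
    linarith
  have h1 : ∑ s ∈ univ.filter (fun s : ZMod (2 ^ n) => s.val % 2 = 1),
      ∏ i, cf 4 (ee (s * v i)) ≤
      ∑ s ∈ univ.filter (fun s : ZMod (2 ^ n) => s.val % 2 = 1), ∏ i, cf 6 (ee (s * v i)) := by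
    refine sum_le_sum fun s _ => prod_le_prod (fun i _ => cf_nonneg (by norm_num) (norm_ee _))
      (fun i _ => hcf _ (norm_ee _))
  have h2 : ∑ s ∈ univ.filter (fun s : ZMod (2 ^ n) => s.val % 2 = 1),
      ∏ i, cf 6 (ee (s * v i)) ≤
      ∑ s ∈ univ.filter (fun s : ZMod (2 ^ n) => s ≠ 0), ∏ i, cf 6 (ee (s * v i)) := by
    refine sum_le_sum_of_subset_of_nonneg ?_ ?_
    · intro s hs
      rw [mem_filter] at hs ⊢
      refine ⟨mem_univ _, ?_⟩
      rintro rfl
      have := hs.2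
      rw [ZMod.val_zero] at this
      omega
    · intro s _ _
      exact prod_nonneg fun i _ => cf_nonneg (by norm_num) (norm_ee _)
  have h3 : ∑ s ∈ univ.filter (fun s : ZMod (2 ^ n) => s ≠ 0), ∏ i, cf 6 (ee (s * v i)) =
      Zf 6 v - 1 := by
    rw [Zf_eq (by norm_num), filter_ne', ← add_sum_erase univ _ (mem_univ (0 : ZMod (2 ^ n)))]
    have : ∏ i, cf 6 (ee ((0 : ZMod (2 ^ n)) * v i)) = 1 := by
      refine prod_eq_one fun i _ => ?_
      rw [zero_mul, ee_zero]
      unfold cf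
      norm_num
    rw [this]
    ring
  linarith

open Classical in
/-- One level. -/
lemma sn1_step {I J : ℕ} (h : I ≤ J) {τ : ℝ} (x : α → ZMod (2 ^ (J + 1)))
    (K : AddSubgroup (α → ZMod (2 ^ I)))
    (hx : ∀ k : α → ZMod (2 ^ (J + 1)), Zf 6 (fun i => x i + 2 ^ (J + 1 - I) * k i) ≤ 1 + τ) :
    (((orth I K).filter (fun a => walk a x = 0)).card : ℝ) * 2 ^ (J + 1) ≤
      (((orth I K).filter (fun a =>
        walk a (fun i => ((x i).cast : ZMod (2 ^ J))) = 0)).card : ℝ) * 2 ^ J +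
        τ * 4 ^ Fintype.card α := by
  set KK := univ.filter (fun k => k ∈ K) with hKK
  have hKpos : 0 < KK.card := card_pos.2 ⟨0, by rw [hKK, mem_filter]; exact ⟨mem_univ _, K.zero_mem⟩⟩
  set A := ((orth I K).filter (fun a => walk a x = 0)).card with hA
  set B := ((orth I K).filter (fun a =>
        walk a (fun i => ((x i).cast : ZMod (2 ^ J))) = 0)).card with hB
  have h1 : ∑ s ∈ univ.filter (fun s : ZMod (2 ^ (J + 1)) => s.val % 2 = 1),
      ∑ a ∈ orth I K, ee (s * walk a x) = (A : ℂ) * 2 ^ (J + 1) - (B : ℂ) * 2 ^ J := by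
    rw [sum_comm, sum_congr rfl fun a _ => sn1_odd_sum J (walk a x), sum_sub_distrib,
      ← sum_filter, ← sum_filter, sum_const, sum_const, nsmul_eq_mul, nsmul_eq_mul]
    simp only [sn1_walk_cast (show J ≤ J + 1 by omega)]
    rfl
  have h2 : (KK.card : ℂ) * ((A : ℂ) * 2 ^ (J + 1) - (B : ℂ) * 2 ^ J) =
      ((∑ k ∈ KK, (4 : ℝ) ^ Fintype.card α *
        ∑ s ∈ univ.filter (fun s : ZMod (2 ^ (J + 1)) => s.val % 2 = 1),
          ∏ i, cf 4 (ee (s * (x i + 2 ^ (J + 1 - I) * ((k i).cast : ZMod (2 ^ (J + 1)))))) : ℝ) :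
            ℂ) := by
    rw [← h1, mul_sum, sum_congr rfl fun s hs =>
      sn1_freq (show I ≤ J + 1 by omega) K x s (mem_filter.1 hs).2]
    rw [sum_comm, Complex.ofReal_sum]
    refine sum_congr rfl fun k _ => ?_
    rw [mul_sum, Complex.ofReal_sum]
  have h3 : (KK.card : ℝ) * ((A : ℝ) * 2 ^ (J + 1) - (B : ℝ) * 2 ^ J) =
      ∑ k ∈ KK, (4 : ℝ) ^ Fintype.card α *
        ∑ s ∈ univ.filter (fun s : ZMod (2 ^ (J + 1)) => s.val % 2 = 1),
          ∏ i, cf 4 (ee (s * (x i + 2 ^ (J + 1 - I) * ((k i).cast : ZMod (2 ^ (J + 1)))))) := by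
    exact_mod_cast h2
  have h4 : (KK.card : ℝ) * ((A : ℝ) * 2 ^ (J + 1) - (B : ℝ) * 2 ^ J) ≤
      KK.card * (4 ^ Fintype.card α * τ) := by
    rw [h3, ← nsmul_eq_mul, ← sum_const]
    refine sum_le_sum fun k _ => ?_
    refine mul_le_mul_of_nonneg_left ?_ (by positivity)
    exact sn1_flat (fun i => x i + 2 ^ (J + 1 - I) *
      ((k i).cast : ZMod (2 ^ (J + 1)))) (hx _)
  have h5 := le_of_mul_le_mul_left h4 (by exact_mod_cast hKpos)
  linarith

end steps

open Classical in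
/-- Task N1: the row bound. -/
theorem row_bound {α : Type} [Fintype α] [DecidableEq α] {I J : ℕ} (hI : 1 ≤ I) (hIJ : I ≤ J)
    {τ : ℝ} (hτ : 0 ≤ τ) (x : α → ZMod (2 ^ J)) (hx : GoodX I τ x)
    (K : AddSubgroup (α → ZMod (2 ^ I))) (hK : (fun i => ((x i).cast : ZMod (2 ^ I))) ∈ K) :
    (((orth I K).filter (fun a => walk a x = 0)).card : ℝ) * 2 ^ J ≤
      2 ^ I * (orth I K).card + J * τ * 4 ^ Fintype.card α := by
  induction J, hIJ using Nat.le_induction with
  | base =>
    have h1 : (((orth I K).filter (fun a => walk a x = 0)).card : ℝ) ≤ (orth I K).card := by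
      exact_mod_cast card_filter_le _ _
    have h2 : 0 ≤ I * τ * 4 ^ Fintype.card α := by positivity
    have h3 : (0 : ℝ) < 2 ^ I := by positivity
    nlinarith
  | succ J hJ ih =>
    have hcc : ∀ j, j ≤ J → ∀ i, ((((x i).cast : ZMod (2 ^ J))).cast : ZMod (2 ^ j)) =
        ((x i).cast : ZMod (2 ^ j)) := by
      intro j hj i
      have e3 : x i = ((x i).val : ZMod (2 ^ (J + 1))) := (ZMod.natCast_zmod_val _).symm
      rw [e3, ZMod.cast_natCast (pow_dvd_pow 2 (by omega)),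
        ZMod.cast_natCast (pow_dvd_pow 2 hj), ZMod.cast_natCast (pow_dvd_pow 2 (by omega))]
    have h1 := ih (fun i => ((x i).cast : ZMod (2 ^ J))) (by
      intro j hj hj2 k
      have := hx j hj (by omega) k
      simp only [hcc j hj2]
      exact this) (by
      simp only [hcc I hJ]
      exact hK)
    have h2 := sn1_step hJ x K (τ := τ) (by
      intro k
      have := hx (J + 1) (by omega) le_rfl k
      simpa only [ZMod.cast_id] using this)
    push_cast
    linarith

end Vale.Agent.P160
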