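import Vale.Agent.P160.SN0

namespace Vale.Agent.P160

open Finset

section sn2

variable {α : Type} [Fintype α] [DecidableEq α]

lemma sn2_walk_add {N : ℕ} (a : α → Fin 4) (u v : α → ZMod N) :
    walk a (u + v) = walk a u + walk a v := by
  unfold walk
  rw [← sum_add_distrib]
  refine sum_congr rfl fun i _ => ?_
  rw [Pi.add_apply]
  ring

lemma sn2_ee_eq_one {N : ℕ} [NeZero N] {x : ZMod N} (h : ee x = 1) : x = 0 := by
  have h1 : ee x = ee (0 : ZMod N) := by rw [h, ee_zero]
  exact ZMod.injective_stdAddChar h1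

open Classical in
/-- the elements of a subgroup as a finite set -/
noncomputable def sn2_fin (I : ℕ) (K : AddSubgroup (α → ZMod (2 ^ I))) :
    Finset (α → ZMod (2 ^ I)) := univ.filter (fun k => k ∈ K)

lemma sn2_mem {I : ℕ} {K : AddSubgroup (α → ZMod (2 ^ I))} {k : α → ZMod (2 ^ I)} :
    k ∈ sn2_fin I K ↔ k ∈ K := by
  simp [sn2_fin]

lemma sn2_card {I : ℕ} (K : AddSubgroup (α → ZMod (2 ^ I))) :
    (sn2_fin I K).card = Nat.card K := by
  classical
  rw [Nat.card_eq_fintype_card]
  unfold sn2_fin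
  exact (Fintype.card_subtype (fun k => k ∈ K)).symm

lemma sn2_sum_walk {I : ℕ} (K : AddSubgroup (α → ZMod (2 ^ I))) (a : α → Fin 4) :
    ∑ k ∈ sn2_fin I K, ee (walk a k) = if a ∈ orth I K then ((Nat.card K : ℕ) : ℂ) else 0 := by
  classical
  split_ifs with h
  · have h1 : ∀ k ∈ K, walk a k = 0 := by
      simpa [orth] using h
    rw [sum_congr rfl (fun k hk => by rw [h1 k (sn2_mem.1 hk), ee_zero]), sum_const, sn2_card]
    simp
  · have h1 : ∃ k ∈ K, walk a k ≠ 0 := by
      by_contra hcon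
      push Not at hcon
      apply h
      simpa [orth] using hcon
    obtain ⟨k0, hk0, hne⟩ := h1
    have h2 : ∑ k ∈ sn2_fin I K, ee (walk a k) =
        ee (walk a k0) * ∑ k ∈ sn2_fin I K, ee (walk a k) := by
      rw [mul_sum]
      refine sum_bij (fun k _ => k - k0) ?_ ?_ ?_ ?_
      · intro k hk
        exact sn2_mem.2 (K.sub_mem (sn2_mem.1 hk) hk0)
      · intro k _ l _ e
        exact sub_left_injective e
      · intro k hk
        exact ⟨k + k0, sn2_mem.2 (K.add_mem (sn2_mem.1 hk) hk0), by simp⟩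
      · intro k _
        rw [← ee_add, ← sn2_walk_add]
        congr 2
        abel
    have h3 : (1 - ee (walk a k0)) * ∑ k ∈ sn2_fin I K, ee (walk a k) = 0 := by
      rw [sub_mul, one_mul, ← h2, sub_self]
    rcases mul_eq_zero.1 h3 with h4 | h4
    · exact absurd (sn2_ee_eq_one (sub_eq_zero.1 h4).symm) hne
    · exact h4

lemma sn2_sum_seed {I : ℕ} (k : α → ZMod (2 ^ I)) :
    ∑ a : α → Fin 4, ee (walk a k) =
      (((4 : ℝ) ^ Fintype.card α * ∏ i, cf 4 (ee (k i)) : ℝ) : ℂ) := by
  have h := sum_prod_zpow_st (ι := α) (M := 4) (by norm_num) (fun i => ee (k i))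
    (fun i => norm_ee _)
  rw [show (((4 : ℕ) : ℝ)) = 4 by norm_num] at h
  rw [← h]
  refine sum_congr rfl fun a _ => ?_
  have := ee_walk a k 1
  simpa using this

lemma sn2_main {I : ℕ} (K : AddSubgroup (α → ZMod (2 ^ I))) :
    ((orth I K).card : ℝ) * Nat.card K =
      ∑ k ∈ sn2_fin I K, (4 : ℝ) ^ Fintype.card α * ∏ i, cf 4 (ee (k i)) := by
  classical
  have h1 : ∑ a : α → Fin 4, ∑ k ∈ sn2_fin I K, ee (walk a k) =
      ((orth I K).card : ℂ) * Nat.card K := by
    simp only [sn2_sum_walk]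
    rw [← sum_filter, sum_const, nsmul_eq_mul]
    congr 2
    simp
  rw [sum_comm] at h1
  simp only [sn2_sum_seed] at h1
  have h2 : (((∑ k ∈ sn2_fin I K, (4 : ℝ) ^ Fintype.card α * ∏ i, cf 4 (ee (k i))) : ℝ) : ℂ) =
      ((((orth I K).card : ℝ) * (Nat.card K : ℝ) : ℝ) : ℂ) := by
    rw [Complex.ofReal_sum, h1]
    push_cast
    rfl
  exact (Complex.ofReal_injective h2).symm

lemma sn2_cf_lt {N : ℕ} [NeZero N] {c : ZMod N} (hc : c ≠ 0) : cf 4 (ee c) < 1 := by
  have h1 := cf_le_one (M := 4) (norm_ee c)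
  refine lt_of_le_of_ne h1 ?_
  intro h
  have h2 : (ee c).re = 1 := by
    unfold cf at h
    push_cast at h
    linarith
  have h3 := norm_ee c
  have h4 : (ee c).re ^ 2 + (ee c).im ^ 2 = 1 := by
    have := Complex.sq_norm (ee c)
    rw [h3, Complex.normSq_apply] at this
    nlinarith
  rw [h2] at h4
  have h5 : (ee c).im = 0 := by nlinarith
  exact hc (sn2_ee_eq_one (Complex.ext (by simpa using h2) (by simpa using h5)))

end sn2

/-- Task N2 -/
theorem orth_le (I : ℕ) (hI : 1 ≤ I) : ∃ q : ℝ, 0 < q ∧ q < 1 ∧ ∀ (α : Type) [Fintype α]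
    [DecidableEq α] (w : ℕ) (K : AddSubgroup (α → ZMod (2 ^ I))),
    ((orth I K).card : ℝ) * Nat.card K ≤ Nat.card (spars I w K) * (orth I (spars I w K)).card +
      Nat.card K * q ^ w * 4 ^ Fintype.card α := by
  classical
  obtain ⟨c0, -, hc0⟩ := Finset.exists_max_image (univ : Finset (ZMod (2 ^ I)))
    (fun c => if c = 0 then (1 / 2 : ℝ) else cf 4 (ee c)) ⟨0, mem_univ _⟩
  set q : ℝ := max (1 / 2) (if c0 = 0 then (1 / 2 : ℝ) else cf 4 (ee c0)) with hq
  have hq0 : 0 < q := lt_of_lt_of_le (by norm_num) (le_max_left _ _)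
  have hq1 : q < 1 := by
    apply max_lt (by norm_num)
    split_ifs with h
    · norm_num
    · exact sn2_cf_lt h
  have hqc : ∀ c : ZMod (2 ^ I), c ≠ 0 → cf 4 (ee c) ≤ q := by
    intro c hc
    have := hc0 c (mem_univ _)
    simp only [hc, if_false] at this
    exact this.trans (le_max_right _ _)
  refine ⟨q, hq0, hq1, ?_⟩
  intro α _ _ w K
  have hsub : spars I w K ≤ K := by
    unfold spars
    rw [AddSubgroup.closure_le]
    intro k hk
    exact hk.1
  have hfs : sn2_fin I (spars I w K) ⊆ sn2_fin I K := by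
    intro k hk
    exact sn2_mem.2 (hsub (sn2_mem.1 hk))
  have hterm : ∀ k ∈ sn2_fin I K \ sn2_fin I (spars I w K),
      (4 : ℝ) ^ Fintype.card α * ∏ i, cf 4 (ee (k i)) ≤ q ^ w * 4 ^ Fintype.card α := by
    intro k hk
    rw [mem_sdiff, sn2_mem, sn2_mem] at hk
    have hw : w ≤ suppc k := by
      by_contra hcon
      apply hk.2
      exact AddSubgroup.subset_closure ⟨hk.1, not_le.1 hcon⟩
    have h1 : ∏ i, cf 4 (ee (k i)) ≤ q ^ suppc k := by
      have h2 : ∏ i, cf 4 (ee (k i)) ≤ ∏ i : α, (if k i ≠ 0 then q else 1) := by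
        apply prod_le_prod
        · intro i _
          exact cf_nonneg (by norm_num) (norm_ee _)
        · intro i _
          split_ifs with h
          · exact hqc _ h
          · exact cf_le_one (norm_ee _)
      refine h2.trans (le_of_eq ?_)
      rw [prod_ite]
      simp [suppc]
    have h3 : q ^ suppc k ≤ q ^ w := pow_le_pow_of_le_one hq0.le hq1.le hw
    rw [mul_comm]
    exact mul_le_mul_of_nonneg_right (h1.trans h3) (by positivity)
  rw [sn2_main, ← sum_sdiff hfs, ← sn2_main, add_comm]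
  have h4 : ∑ k ∈ sn2_fin I K \ sn2_fin I (spars I w K),
      (4 : ℝ) ^ Fintype.card α * ∏ i, cf 4 (ee (k i)) ≤
      Nat.card K * q ^ w * 4 ^ Fintype.card α := by
    refine (sum_le_card_nsmul _ _ _ hterm).trans ?_
    rw [nsmul_eq_mul, mul_assoc (Nat.card K : ℝ)]
    apply mul_le_mul_of_nonneg_right _ (by positivity)
    rw [← sn2_card]
    exact_mod_cast card_le_card sdiff_subset
  have h5 : ((orth I (spars I w K)).card : ℝ) * Nat.card (spars I w K) =
      Nat.card (spars I w K) * (orth I (spars I w K)).card := mul_comm _ _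
  linarith

/-- Task N2 -/
theorem orth_tors {α : Type} [Fintype α] [DecidableEq α] (I : ℕ) (hI : 1 ≤ I)
    (L : AddSubgroup (α → ZMod (2 ^ I))) :
    (orth I L).card * (tors I L).card ≤ 4 ^ Fintype.card α := by
  classical
  let T : AddSubgroup (α → ZMod (2 ^ I)) :=
    { carrier := {k | k ∈ L ∧ k + k = 0}
      add_mem' := by
        rintro a b ⟨ha, ha'⟩ ⟨hb, hb'⟩
        refine ⟨L.add_mem ha hb, ?_⟩
        calc a + b + (a + b) = (a + a) + (b + b) := by abel
          _ = 0 := by rw [ha', hb', add_zero]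
      zero_mem' := ⟨L.zero_mem, add_zero 0⟩
      neg_mem' := by
        rintro a ⟨ha, ha'⟩
        refine ⟨L.neg_mem ha, ?_⟩
        rw [← neg_add, ha', neg_zero] }
  have hT : ∀ k, k ∈ T ↔ k ∈ L ∧ k + k = 0 := fun k => Iff.rfl
  have h1 : (tors I L).card = Nat.card T := by
    rw [← sn2_card]
    congr 1
    ext k
    rw [sn2_mem, hT]
    simp [tors]
  have h2 : (orth I L).card ≤ (orth I T).card := by
    apply card_le_card
    intro a ha
    simp only [orth, mem_filter, mem_univ, true_and] at ha ⊢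
    intro k hk
    exact ha k hk.1
  have h3 := sn2_main T
  have h4 : ∑ k ∈ sn2_fin I T, (4 : ℝ) ^ Fintype.card α * ∏ i, cf 4 (ee (k i)) =
      4 ^ Fintype.card α := by
    rw [sum_eq_single (0 : α → ZMod (2 ^ I))]
    · have : ∏ i : α, cf 4 (ee ((0 : α → ZMod (2 ^ I)) i)) = 1 := by
        apply prod_eq_one
        intro i _
        rw [Pi.zero_apply, ee_zero]
        unfold cf
        norm_num
      rw [this, mul_one]
    · intro k hk hne
      rw [sn2_mem, hT] at hk
      have : ∏ i, cf 4 (ee (k i)) = 0 := by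
        obtain ⟨i, hi⟩ : ∃ i, k i ≠ 0 := by
          by_contra hcon
          push Not at hcon
          exact hne (funext hcon)
        apply prod_eq_zero (mem_univ i)
        have h5 : k i + k i = 0 := congrFun hk.2 i
        have h6 : ee (k i) * ee (k i) = 1 := by rw [← ee_add, h5, ee_zero]
        have h7 : ee (k i) = -1 := by
          rcases mul_self_eq_one_iff.1 h6 with h | h
          · exact absurd (sn2_ee_eq_one h) hi
          · exact h
        rw [h7]
        unfold cf
        norm_num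
      rw [this, mul_zero]
    · intro h
      exact absurd (sn2_mem.2 T.zero_mem) h
  rw [h4] at h3
  have h5 : (orth I T).card * Nat.card T = 4 ^ Fintype.card α := by exact_mod_cast h3
  rw [h1, ← h5]
  exact Nat.mul_le_mul_right _ h2

end Vale.Agent.P160
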