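import Vale.Agent.P160.SN0

namespace Vale.Agent.P160

open Finset

section
variable {α : Type} [Fintype α] [DecidableEq α] {I : ℕ}

theorem sn3_card (L : AddSubgroup (α → ZMod (2 ^ I))) :
    Nat.card L ∣ 2 ^ (I * Fintype.card α) := by
  have h := AddSubgroup.card_addSubgroup_dvd_card L
  have h2 : Nat.card (α → ZMod (2 ^ I)) = 2 ^ (I * Fintype.card α) := by
    rw [Nat.card_eq_fintype_card, Fintype.card_fun, ZMod.card, ← pow_mul]
  rwa [h2] at h

/-- Task N3 -/
theorem exists_card_pow (L : AddSubgroup (α → ZMod (2 ^ I))) : ∃ A : ℕ, Nat.card L = 2 ^ A := by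
  obtain ⟨k, _, hk⟩ := (Nat.dvd_prime_pow Nat.prime_two).1 (sn3_card L)
  exact ⟨k, hk⟩

/-- The elements of order at most two as a subgroup. -/
def sn3_T (L : AddSubgroup (α → ZMod (2 ^ I))) : AddSubgroup (α → ZMod (2 ^ I)) where
  carrier := {k | k ∈ L ∧ k + k = 0}
  add_mem' := by
    rintro a b ⟨ha, ha2⟩ ⟨hb, hb2⟩
    refine ⟨L.add_mem ha hb, ?_⟩
    have : a + b + (a + b) = (a + a) + (b + b) := by abel
    rw [this, ha2, hb2, add_zero]
  zero_mem' := ⟨L.zero_mem, by simp⟩
  neg_mem' := by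
    rintro a ⟨ha, ha2⟩
    refine ⟨L.neg_mem ha, ?_⟩
    rw [← neg_add, ha2, neg_zero]

theorem sn3_T_card (L : AddSubgroup (α → ZMod (2 ^ I))) :
    (tors I L).card = Nat.card (sn3_T L) := by
  classical
  rw [Nat.card_eq_fintype_card, Fintype.card_subtype]
  congr 1
  ext k
  simp only [tors, mem_filter, mem_univ, true_and]
  rfl

/-- Task N3 -/
theorem exists_tors_pow (L : AddSubgroup (α → ZMod (2 ^ I))) :
    ∃ ρ : ℕ, (tors I L).card = 2 ^ ρ := by
  rw [sn3_T_card]
  exact exists_card_pow _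

/-- Task N3 -/
theorem tors_le (L : AddSubgroup (α → ZMod (2 ^ I))) : (tors I L).card ≤ Nat.card L := by
  rw [sn3_T_card]
  exact AddSubgroup.card_le_of_le (fun k hk => hk.1)

theorem sn3_step (L M : AddSubgroup (α → ZMod (2 ^ I))) (hM : M ≤ L) :
    Nat.card M ≤ (tors I L).card * Nat.card (M.map (nsmulAddMonoidHom 2)) := by
  classical
  have e1 : Nat.card M = (univ.filter (fun k : α → ZMod (2 ^ I) => k ∈ M)).card := by
    rw [Nat.card_eq_fintype_card, Fintype.card_subtype]
  have e2 : Nat.card (M.map (nsmulAddMonoidHom (2 : ℕ))) =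
      ((univ.filter (fun k : α → ZMod (2 ^ I) => k ∈ M)).image
        (fun k => (2 : ℕ) • k)).card := by
    rw [Nat.card_eq_fintype_card, Fintype.card_subtype]
    congr 1
    ext k
    simp only [AddSubgroup.mem_map, nsmulAddMonoidHom_apply, mem_filter, mem_univ, true_and,
      mem_image]
  rw [e1, e2]
  apply card_le_mul_card_image
  intro a ha
  rw [mem_image] at ha
  obtain ⟨z, hz, hza⟩ := ha
  rw [mem_filter] at hz
  apply card_le_card_of_injOn (fun k => k - z)
  · intro k hk
    simp only [mem_coe, mem_filter, mem_univ, true_and] at hk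
    simp only [tors, mem_coe, mem_filter, mem_univ, true_and]
    refine ⟨hM (M.sub_mem hk.1 hz.2), ?_⟩
    have h2 : (2 : ℕ) • k = (2 : ℕ) • z := by rw [hk.2, hza]
    have : k - z + (k - z) = (2 : ℕ) • k - (2 : ℕ) • z := by
      rw [two_nsmul, two_nsmul]; abel
    rw [this, h2, sub_self]
  · intro a _ b _ hab
    exact sub_left_injective hab

/-- Task N3 -/
theorem card_le_tors (L : AddSubgroup (α → ZMod (2 ^ I))) :
    Nat.card L ≤ (tors I L).card ^ I := by
  have key : ∀ i : ℕ, Nat.card L ≤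
      (tors I L).card ^ i * Nat.card (L.map (nsmulAddMonoidHom (2 ^ i))) := by
    intro i
    induction i with
    | zero =>
      have : L.map (nsmulAddMonoidHom (2 ^ 0)) = L := by
        ext k
        simp only [AddSubgroup.mem_map, nsmulAddMonoidHom_apply, pow_zero, one_nsmul,
          exists_eq_right]
      rw [this, pow_zero, one_mul]
    | succ i ih =>
      refine ih.trans ?_
      have hs := sn3_step L (L.map (nsmulAddMonoidHom (2 ^ i))) (by
        intro k hk
        obtain ⟨z, hz, rfl⟩ := AddSubgroup.mem_map.1 hk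
        exact L.nsmul_mem hz _)
      have he : (L.map (nsmulAddMonoidHom (2 ^ i))).map (nsmulAddMonoidHom 2) =
          L.map (nsmulAddMonoidHom (2 ^ (i + 1))) := by
        ext k
        simp only [AddSubgroup.mem_map, nsmulAddMonoidHom_apply, exists_exists_and_eq_and]
        constructor
        · rintro ⟨z, hz, rfl⟩
          exact ⟨z, hz, by rw [pow_succ', mul_nsmul']⟩
        · rintro ⟨z, hz, rfl⟩
          exact ⟨z, hz, by rw [pow_succ', mul_nsmul']⟩
      rw [he] at hs
      calc (tors I L).card ^ i * Nat.card (L.map (nsmulAddMonoidHom (2 ^ i)))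
          ≤ (tors I L).card ^ i * ((tors I L).card *
            Nat.card (L.map (nsmulAddMonoidHom (2 ^ (i + 1))))) := Nat.mul_le_mul_left _ hs
        _ = _ := by rw [pow_succ (tors I L).card i, mul_assoc]
  have h := key I
  have h0 : L.map (nsmulAddMonoidHom (2 ^ I)) = ⊥ := by
    rw [eq_bot_iff]
    intro k hk
    obtain ⟨z, _, rfl⟩ := AddSubgroup.mem_map.1 hk
    rw [AddSubgroup.mem_bot, nsmulAddMonoidHom_apply]
    ext i
    rw [Pi.smul_apply, nsmul_eq_mul, ZMod.natCast_self, zero_mul, Pi.zero_apply]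
  rw [h0, AddSubgroup.card_bot, mul_one] at h
  exact h

/-- Task N3 -/
theorem exists_between (L K : AddSubgroup (α → ZMod (2 ^ I))) (hLK : L ≤ K) (k : ℕ)
    (h : 2 ^ k * Nat.card L ≤ Nat.card K) :
    ∃ K' : AddSubgroup (α → ZMod (2 ^ I)), L ≤ K' ∧ K' ≤ K ∧ Nat.card K' = 2 ^ k * Nat.card L := by
  obtain ⟨A, hA⟩ := exists_card_pow L
  obtain ⟨B, hB⟩ := exists_card_pow K
  have hab : k + A ≤ B := by
    rw [hA, hB, ← pow_add] at h
    exact (Nat.pow_le_pow_iff_right (by norm_num)).1 h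
  have : Fact (Nat.Prime 2) := ⟨Nat.prime_two⟩
  have hcH : Nat.card (AddSubgroup.toSubgroup (L.addSubgroupOf K)) = 2 ^ A := by
    rw [← hA]
    exact Nat.card_congr (AddSubgroup.addSubgroupOfEquivOfLe hLK).toEquiv
  have hcG : Nat.card (Multiplicative K) = 2 ^ B := by
    rw [← hB]; rfl
  obtain ⟨K1, hK1, hHK⟩ := Sylow.exists_subgroup_card_pow_prime_le (G := Multiplicative K) 2
    (n := A) (m := k + A) (by rw [hcG]; exact pow_dvd_pow 2 hab)
    (AddSubgroup.toSubgroup (L.addSubgroupOf K)) hcH (Nat.le_add_left A k)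
  refine ⟨(Subgroup.toAddSubgroup' K1).map K.subtype, ?_, ?_, ?_⟩
  · intro z hz
    rw [AddSubgroup.mem_map]
    exact ⟨⟨z, hLK hz⟩, hHK (x := Multiplicative.ofAdd (⟨z, hLK hz⟩ : K)) hz, rfl⟩
  · intro z hz
    obtain ⟨y, _, rfl⟩ := AddSubgroup.mem_map.1 hz
    exact y.2
  · rw [AddSubgroup.card_map_of_injective (AddSubgroup.subtype_injective K), hA, ← pow_add, ← hK1]
    rfl

end

end Vale.Agent.P160
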