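import Vale.Agent.P160.SN0

namespace Vale.Agent.P160

open Finset

section
variable {α : Type} [Fintype α] [DecidableEq α] {I : ℕ}

section sn4_general

variable {G : Type*} [AddCommGroup G] [Finite G]

private theorem sn4_lagr {M M' : AddSubgroup G} (h : M ≤ M') (hne : M ≠ M') :
    2 * Nat.card M ≤ Nat.card M' := by
  obtain ⟨c, hc⟩ := AddSubgroup.card_dvd_of_le h
  have hpos : 0 < Nat.card M' := Nat.card_pos
  have hc0 : c ≠ 0 := by
    rintro rfl
    rw [hc] at hpos
    simp at hpos
  have hc1 : c ≠ 1 := by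
    rintro rfl
    exact hne (AddSubgroup.eq_of_le_of_card_ge h (by rw [hc, mul_one]))
  have h2 : 2 ≤ c := by omega
  rw [hc, mul_comm]
  exact Nat.mul_le_mul_left _ h2

private theorem sn4_card_of {L L' : AddSubgroup G} (h : L ≤ L') :
    Nat.card (L.addSubgroupOf L') = Nat.card L :=
  Nat.card_congr (AddSubgroup.addSubgroupOfEquivOfLe h).toEquiv

/-- in a subgroup of index two all doubles lie in the small group -/
private theorem sn4_double {L L' : AddSubgroup G} (h : L ≤ L')
    (hc : Nat.card L' = 2 * Nat.card L) {x : G} (hx : x ∈ L') : x + x ∈ L := by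
  have hi : (L.addSubgroupOf L').index = 2 := by
    have h1 := AddSubgroup.card_mul_index (L.addSubgroupOf L')
    rw [sn4_card_of h, hc, mul_comm 2] at h1
    exact Nat.eq_of_mul_eq_mul_left Nat.card_pos h1
  have h2 := AddSubgroup.add_self_mem_of_index_two hi (⟨x, hx⟩ : L')
  rw [AddSubgroup.mem_addSubgroupOf] at h2
  exact h2

private theorem sn4_sup_card (L : AddSubgroup G) {y : G} (hy : y ∉ L) (hyy : y + y ∈ L) :
    Nat.card (L ⊔ AddSubgroup.zmultiples y : AddSubgroup G) = 2 * Nat.card L := by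
  set L' := L ⊔ AddSubgroup.zmultiples y with hL'
  have hle : L ≤ L' := le_sup_left
  have hyL' : y ∈ L' := (le_sup_right : AddSubgroup.zmultiples y ≤ L')
    (AddSubgroup.mem_zmultiples y)
  have hmem : ∀ b ∈ L', b ∈ L ∨ b + y ∈ L := by
    intro b hb
    rw [hL', AddSubgroup.mem_sup] at hb
    obtain ⟨l, hl, z, hz, rfl⟩ := hb
    obtain ⟨n, rfl⟩ := AddSubgroup.mem_zmultiples_iff.1 hz
    rcases Int.even_or_odd n with ⟨m, rfl⟩ | ⟨m, rfl⟩
    · left
      have : (m + m) • y = m • (y + y) := by rw [add_smul, smul_add]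
      rw [this]
      exact L.add_mem hl (L.zsmul_mem hyy m)
    · right
      have : l + (2 * m + 1) • y + y = l + (m + 1) • (y + y) := by
        rw [smul_add, ← add_smul, add_assoc]
        congr 1
        rw [show y = (1 : ℤ) • y from (one_zsmul y).symm, smul_smul, ← add_smul, smul_smul]
        congr 1
        ring
      rw [this]
      exact L.add_mem hl (L.zsmul_mem hyy _)
  have hi : (L.addSubgroupOf L').index = 2 := by
    rw [AddSubgroup.index_eq_two_iff]
    refine ⟨⟨y, hyL'⟩, fun b => ?_⟩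
    rw [AddSubgroup.mem_addSubgroupOf, AddSubgroup.mem_addSubgroupOf, xor_def]
    simp only [AddSubgroup.coe_add]
    by_cases hb : (b : G) ∈ L
    · right
      refine ⟨hb, fun h => hy ?_⟩
      have := L.sub_mem h hb
      simpa using this
    · left
      exact ⟨(hmem b b.2).resolve_left hb, hb⟩
  have h1 := AddSubgroup.card_mul_index (L.addSubgroupOf L')
  rw [sn4_card_of hle, hi] at h1
  rw [← h1, mul_comm]

private theorem sn4_step {L K : AddSubgroup G} (I : ℕ) (hG : ∀ x : G, (2 ^ I : ℕ) • x = 0)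
    (h : L ≤ K) (hne : L ≠ K) :
    ∃ L' : AddSubgroup G, L ≤ L' ∧ L' ≤ K ∧ Nat.card L' = 2 * Nat.card L := by
  obtain ⟨z, hzK, hzL⟩ : ∃ z ∈ K, z ∉ L := by
    by_contra hcon
    push Not at hcon
    exact hne (le_antisymm h hcon)
  classical
  have hex : ∃ n, (2 ^ n : ℕ) • z ∈ L := ⟨I, by rw [hG]; exact L.zero_mem⟩
  have hn0 : Nat.find hex ≠ 0 := by
    intro h0
    have := Nat.find_spec hex
    rw [h0, pow_zero, one_nsmul] at this
    exact hzL this
  obtain ⟨m, hm⟩ := Nat.exists_eq_succ_of_ne_zero hn0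
  have h1 : (2 ^ m : ℕ) • z ∉ L := Nat.find_min hex (by omega)
  have h2 : (2 ^ m : ℕ) • z + (2 ^ m : ℕ) • z ∈ L := by
    have := Nat.find_spec hex
    rw [hm, Nat.succ_eq_add_one, pow_succ, mul_two, add_nsmul] at this
    exact this
  refine ⟨L ⊔ AddSubgroup.zmultiples ((2 ^ m : ℕ) • z), le_sup_left, sup_le h ?_,
    sn4_sup_card L h1 h2⟩
  rw [AddSubgroup.zmultiples_le]
  exact K.nsmul_mem hzK _

end sn4_general

private theorem sn4_exp (x : α → ZMod (2 ^ I)) : (2 ^ I : ℕ) • x = 0 := by
  funext i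
  rw [Pi.smul_apply, nsmul_eq_mul, Pi.zero_apply, ZMod.natCast_self, zero_mul]

private theorem sn4_ker (I : ℕ) (α : Type) [Fintype α] [DecidableEq α] :
    (univ.filter (fun y : α → ZMod (2 ^ I) => y + y = 0)).card ≤ 2 ^ Fintype.card α := by
  have h1 : (univ.filter (fun y : α → ZMod (2 ^ I) => y + y = 0)) ⊆
      Fintype.piFinset (fun _ : α => univ.filter (fun t : ZMod (2 ^ I) => 2 • t = 0)) := by
    intro y hy
    rw [mem_filter] at hy
    rw [Fintype.mem_piFinset]
    intro i
    rw [mem_filter]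
    refine ⟨mem_univ _, ?_⟩
    rw [two_nsmul]
    exact congrFun hy.2 i
  refine (card_le_card h1).trans ?_
  rw [Fintype.card_piFinset, prod_const, card_univ]
  exact Nat.pow_le_pow_left (IsAddCyclic.card_nsmul_eq_zero_le (by norm_num)) _

private theorem sn4_base (L : AddSubgroup (α → ZMod (2 ^ I)))
    (T : Finset (AddSubgroup (α → ZMod (2 ^ I))))
    (h : ∀ K ∈ T, L ≤ K ∧ Nat.card K = 2 * Nat.card L) :
    T.card ≤ 2 ^ Fintype.card α := by
  classical
  have hcardL : ∀ K : AddSubgroup (α → ZMod (2 ^ I)),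
      (univ.filter (fun x => x ∈ K)).card = Nat.card K := by
    intro K
    rw [Nat.card_eq_fintype_card, Fintype.card_subtype]
  set D := univ.filter (fun x : α → ZMod (2 ^ I) => x + x ∈ L) with hD
  have hDcard : D.card ≤ 2 ^ Fintype.card α * Nat.card L := by
    rw [← hcardL L]
    refine card_le_mul_card_image_of_maps_to (f := fun x => x + x) ?_ _ ?_
    · intro x hx
      rw [hD, mem_filter] at hx
      rw [mem_filter]
      exact ⟨mem_univ _, hx.2⟩
    · intro b _
      rcases (D.filter (fun x => x + x = b)).eq_empty_or_nonempty with h0 | ⟨x₀, hx₀⟩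
      · rw [h0, card_empty]
        exact Nat.zero_le _
      · refine le_trans ?_ (sn4_ker I α)
        refine card_le_card_of_injOn (fun x => x - x₀) ?_ ?_
        · intro x hx
          rw [mem_coe, mem_filter] at hx
          rw [mem_filter] at hx₀
          rw [mem_coe, mem_filter]
          refine ⟨mem_univ _, ?_⟩
          have : x - x₀ + (x - x₀) = (x + x) - (x₀ + x₀) := by abel
          rw [this, hx.2, hx₀.2, sub_self]
        · intro x _ x' _ hxx
          exact sub_left_injective hxx
  set t : AddSubgroup (α → ZMod (2 ^ I)) → Finset (α → ZMod (2 ^ I)) :=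
    fun K => univ.filter (fun x => x ∈ K ∧ x ∉ L) with ht
  have hsub : T.biUnion t ⊆ D := by
    intro x hx
    rw [mem_biUnion] at hx
    obtain ⟨K, hK, hx⟩ := hx
    rw [ht, mem_filter] at hx
    rw [hD, mem_filter]
    exact ⟨mem_univ _, sn4_double (h K hK).1 (h K hK).2 hx.2.1⟩
  have hdisj : (T : Set (AddSubgroup (α → ZMod (2 ^ I)))).PairwiseDisjoint t := by
    intro K hK K' hK' hne
    rw [Function.onFun, Finset.disjoint_left]
    intro x hx hx'
    rw [ht, mem_filter] at hx hx'
    apply hne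
    have key : ∀ K ∈ T, x ∈ K → L ⊔ AddSubgroup.zmultiples x = K := by
      intro K hK hxK
      have h1 : L ≠ L ⊔ AddSubgroup.zmultiples x := by
        intro he
        apply hx.2.2
        rw [he]
        exact (le_sup_right : AddSubgroup.zmultiples x ≤ L ⊔ AddSubgroup.zmultiples x)
          (AddSubgroup.mem_zmultiples x)
      refine AddSubgroup.eq_of_le_of_card_ge
        (sup_le (h K hK).1 (AddSubgroup.zmultiples_le.2 hxK)) ?_
      rw [(h K hK).2]
      exact sn4_lagr le_sup_left h1
    rw [← key K hK hx.2.1, key K' hK' hx'.2.1]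
  have hcardt : ∀ K ∈ T, (t K).card = Nat.card L := by
    intro K hK
    have h1 : t K = (univ.filter (fun x => x ∈ K)) \ (univ.filter (fun x => x ∈ L)) := by
      ext x
      simp only [ht, mem_filter, mem_sdiff, mem_univ, true_and]
    have h2 : (univ.filter (fun x => x ∈ L)) ⊆ (univ.filter (fun x => x ∈ K)) := by
      intro x hx
      rw [mem_filter] at hx ⊢
      exact ⟨hx.1, (h K hK).1 hx.2⟩
    rw [h1, card_sdiff_of_subset h2, hcardL, hcardL, (h K hK).2]
    omega
  have h3 := card_le_card hsub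
  rw [card_biUnion hdisj, sum_congr rfl hcardt, sum_const, smul_eq_mul] at h3
  exact Nat.le_of_mul_le_mul_right (h3.trans hDcard) Nat.card_pos

/-- Task N4 -/
theorem card_overgroups (L : AddSubgroup (α → ZMod (2 ^ I))) (k : ℕ)
    (S : Finset (AddSubgroup (α → ZMod (2 ^ I))))
    (h : ∀ K ∈ S, L ≤ K ∧ Nat.card K = 2 ^ k * Nat.card L) :
    S.card ≤ 2 ^ (k * Fintype.card α) := by
  classical
  induction k generalizing L S with
  | zero =>
    have h1 : S ⊆ {L} := by
      intro K hK
      rw [mem_singleton]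
      have h2 := h K hK
      rw [pow_zero, one_mul] at h2
      exact (AddSubgroup.eq_of_le_of_card_ge h2.1 h2.2.le).symm
    have := card_le_card h1
    simpa using this
  | succ k ih =>
    have hne : ∀ K ∈ S, L ≠ K := by
      intro K hK he
      have h2 := (h K hK).2
      rw [← he] at h2
      have hpos : 0 < Nat.card L := Nat.card_pos
      have h3 : 1 < 2 ^ (k + 1) := Nat.one_lt_two_pow (Nat.succ_ne_zero k)
      nlinarith
    have hex : ∀ K : AddSubgroup (α → ZMod (2 ^ I)), ∃ L' : AddSubgroup (α → ZMod (2 ^ I)),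
        K ∈ S → L ≤ L' ∧ L' ≤ K ∧ Nat.card L' = 2 * Nat.card L := by
      intro K
      by_cases hK : K ∈ S
      · obtain ⟨L', hL'⟩ := sn4_step I sn4_exp (h K hK).1 (hne K hK)
        exact ⟨L', fun _ => hL'⟩
      · exact ⟨⊥, fun h => absurd h hK⟩
    choose F hF using hex
    have h1 : S.card ≤ 2 ^ (k * Fintype.card α) * (S.image F).card := by
      refine card_le_mul_card_image S _ ?_
      intro L' _
      refine ih L' _ ?_
      intro K hK
      rw [mem_filter] at hK
      obtain ⟨hK1, rfl⟩ := hK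
      obtain ⟨h2, h3, h4⟩ := hF K hK1
      refine ⟨h3, ?_⟩
      rw [(h K hK1).2, h4, pow_succ]
      ring
    have h2 : (S.image F).card ≤ 2 ^ Fintype.card α := by
      refine sn4_base L _ ?_
      intro L' hL'
      rw [mem_image] at hL'
      obtain ⟨K, hK, rfl⟩ := hL'
      exact ⟨(hF K hK).1, (hF K hK).2.2⟩
    calc S.card ≤ 2 ^ (k * Fintype.card α) * (S.image F).card := h1
      _ ≤ 2 ^ (k * Fintype.card α) * 2 ^ Fintype.card α := Nat.mul_le_mul_left _ h2
      _ = 2 ^ ((k + 1) * Fintype.card α) := by rw [← pow_add]; congr 1; ring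

private theorem sn4_gen {G : Type*} [AddCommGroup G] [Finite G] (E : Set G) (L : AddSubgroup G)
    (hL : L = AddSubgroup.closure {k | k ∈ L ∧ k ∈ E}) (e₀ : G) (he₀ : e₀ ∈ L ∧ e₀ ∈ E) :
    ∀ (m : ℕ) (M : AddSubgroup G), M ≤ L → Nat.card L ≤ 2 ^ m * Nat.card M →
      ∃ g : Fin m → G, (∀ i, g i ∈ L ∧ g i ∈ E) ∧ M ⊔ AddSubgroup.closure (Set.range g) = L := by
  intro m
  induction m with
  | zero =>
    intro M hM hc
    rw [pow_zero, one_mul] at hc
    refine ⟨Fin.elim0, fun i => i.elim0, ?_⟩
    rw [Set.range_eq_empty, AddSubgroup.closure_empty, sup_bot_eq]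
    exact AddSubgroup.eq_of_le_of_card_ge hM hc
  | succ m ih =>
    intro M hM hc
    by_cases hML : M = L
    · refine ⟨fun _ => e₀, fun _ => he₀, ?_⟩
      rw [hML]
      refine sup_eq_left.2 ((AddSubgroup.closure_le _).2 ?_)
      rintro _ ⟨i, rfl⟩
      exact he₀.1
    · obtain ⟨e, heL, heE, heM⟩ : ∃ e, e ∈ L ∧ e ∈ E ∧ e ∉ M := by
        by_contra hcon
        push Not at hcon
        apply hML
        refine le_antisymm hM ?_
        rw [hL, AddSubgroup.closure_le]
        intro k hk
        exact hcon k hk.1 hk.2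
      have h1 : M ⊔ AddSubgroup.zmultiples e ≤ L := sup_le hM (AddSubgroup.zmultiples_le.2 heL)
      have h2 : M ≠ M ⊔ AddSubgroup.zmultiples e := by
        intro he
        apply heM
        rw [he]
        exact (le_sup_right : AddSubgroup.zmultiples e ≤ M ⊔ AddSubgroup.zmultiples e)
          (AddSubgroup.mem_zmultiples e)
      have h3 := sn4_lagr le_sup_left h2
      obtain ⟨g, hg1, hg2⟩ := ih _ h1 (hc.trans (by
        rw [pow_succ, mul_assoc]
        exact Nat.mul_le_mul_left _ h3))
      refine ⟨Fin.cons e g, ?_, ?_⟩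
      · intro i
        refine Fin.cases ?_ ?_ i
        · exact ⟨heL, heE⟩
        · intro j
          exact hg1 j
      · rw [Fin.range_cons, Set.insert_eq, AddSubgroup.closure_union, ← sup_assoc,
          ← AddSubgroup.zmultiples_eq_closure]
        exact hg2

/-- Task N4 -/
theorem card_gen (E : Finset (α → ZMod (2 ^ I))) (A : ℕ)
    (S : Finset (AddSubgroup (α → ZMod (2 ^ I))))
    (h : ∀ L ∈ S, Nat.card L = 2 ^ A ∧
      L = AddSubgroup.closure {k | k ∈ L ∧ k ∈ E}) :
    S.card ≤ E.card ^ A := by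
  classical
  have hsub : S ⊆ (Fintype.piFinset (fun _ : Fin A => E)).image
      (fun g => AddSubgroup.closure (Set.range g)) := by
    intro L hL
    obtain ⟨hc, hcl⟩ := h L hL
    rw [mem_image]
    by_cases hne : ∃ e₀, e₀ ∈ L ∧ e₀ ∈ (E : Set (α → ZMod (2 ^ I)))
    · obtain ⟨e₀, he₀⟩ := hne
      obtain ⟨g, hg1, hg2⟩ := sn4_gen (E : Set (α → ZMod (2 ^ I))) L (by simpa using hcl) e₀ he₀
        A ⊥ bot_le (by
          rw [hc, AddSubgroup.card_bot, mul_one])
      refine ⟨g, ?_, ?_⟩
      · rw [Fintype.mem_piFinset]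
        intro i
        exact mem_coe.1 (hg1 i).2
      · rw [← hg2, bot_sup_eq]
    · have h0 : {k | k ∈ L ∧ k ∈ E} = (∅ : Set (α → ZMod (2 ^ I))) := by
        ext k
        simp only [Set.mem_ofPred_eq, Set.mem_empty_iff_false, iff_false]
        intro hk
        exact hne ⟨k, hk.1, mem_coe.2 hk.2⟩
      rw [h0, AddSubgroup.closure_empty] at hcl
      rw [hcl, AddSubgroup.card_bot] at hc
      have hA : A = 0 := by
        by_contra hA
        have := Nat.one_lt_two_pow hA
        omega
      subst hA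
      refine ⟨Fin.elim0, ?_, ?_⟩
      · rw [Fintype.mem_piFinset]
        intro i
        exact i.elim0
      · rw [Set.range_eq_empty, AddSubgroup.closure_empty, hcl]
  refine (card_le_card hsub).trans (card_image_le.trans ?_)
  rw [Fintype.card_piFinset_const]

private theorem sn4_suppc_add {I : ℕ} (x y : α → ZMod (2 ^ I)) :
    suppc (x + y) ≤ suppc x + suppc y := by
  unfold suppc
  refine (card_le_card ?_).trans (card_union_le _ _)
  intro i hi
  rw [mem_filter] at hi
  rw [mem_union, mem_filter, mem_filter]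
  by_contra hcon
  push Not at hcon
  apply hi.2
  rw [Pi.add_apply, hcon.1 (mem_univ _), hcon.2 (mem_univ _), add_zero]

private theorem sn4_suppc_zsmul {I : ℕ} (n : ℤ) (x : α → ZMod (2 ^ I)) :
    suppc (n • x) ≤ suppc x := by
  unfold suppc
  refine card_le_card ?_
  intro i hi
  rw [mem_filter] at hi ⊢
  refine ⟨mem_univ _, fun h0 => hi.2 ?_⟩
  rw [Pi.smul_apply, h0, smul_zero]

private theorem sn4_suppc_ind (w : ℕ) (K : AddSubgroup (α → ZMod (2 ^ I))) :
    ∀ (m s : ℕ) (M : AddSubgroup (α → ZMod (2 ^ I))), M ≤ spars I w K → (∀ x ∈ M, suppc x ≤ s) →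
      Nat.card (spars I w K) ≤ 2 ^ m * Nat.card M → ∀ x ∈ spars I w K, suppc x ≤ s + m * w := by
  intro m
  induction m with
  | zero =>
    intro s M hM hs hc x hx
    rw [pow_zero, one_mul] at hc
    have := AddSubgroup.eq_of_le_of_card_ge hM hc
    rw [← this] at hx
    simpa using hs x hx
  | succ m ih =>
    intro s M hM hs hc x hx
    by_cases hML : M = spars I w K
    · rw [← hML] at hx
      exact (hs x hx).trans (Nat.le_add_right _ _)
    · obtain ⟨e, heK, hew, heM⟩ : ∃ e, e ∈ K ∧ suppc e < w ∧ e ∉ M := by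
        by_contra hcon
        push Not at hcon
        apply hML
        refine le_antisymm hM ?_
        rw [spars, AddSubgroup.closure_le]
        intro k hk
        exact hcon k hk.1 hk.2
      have heL : e ∈ spars I w K := AddSubgroup.subset_closure ⟨heK, hew⟩
      have h1 : M ⊔ AddSubgroup.zmultiples e ≤ spars I w K :=
        sup_le hM (AddSubgroup.zmultiples_le.2 heL)
      have h2 : M ≠ M ⊔ AddSubgroup.zmultiples e := by
        intro he
        apply heM
        rw [he]
        exact (le_sup_right : AddSubgroup.zmultiples e ≤ M ⊔ AddSubgroup.zmultiples e)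
          (AddSubgroup.mem_zmultiples e)
      have h3 := sn4_lagr le_sup_left h2
      have h4 := ih (s + w) _ h1 (by
        intro z hz
        rw [AddSubgroup.mem_sup] at hz
        obtain ⟨a, ha, b, hb, rfl⟩ := hz
        obtain ⟨n, rfl⟩ := AddSubgroup.mem_zmultiples_iff.1 hb
        refine (sn4_suppc_add _ _).trans ?_
        exact Nat.add_le_add (hs a ha) ((sn4_suppc_zsmul n e).trans hew.le))
        (hc.trans (by
          rw [pow_succ, mul_assoc]
          exact Nat.mul_le_mul_left _ h3)) x hx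
      refine h4.trans (le_of_eq ?_)
      ring

/-- Task N4 -/
theorem suppc_of_gen (w A : ℕ) (K : AddSubgroup (α → ZMod (2 ^ I)))
    (h : Nat.card (spars I w K) = 2 ^ A) : ∀ k ∈ spars I w K, suppc k ≤ A * w := by
  intro k hk
  have := sn4_suppc_ind w K A 0 ⊥ bot_le (by
    intro x hx
    rw [AddSubgroup.mem_bot] at hx
    subst hx
    simp [suppc]) (by rw [h, AddSubgroup.card_bot, mul_one]) k hk
  simpa using this

end

end Vale.Agent.P160
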