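import Vale.Agent.P160.SN0

namespace Vale.Agent.P160

open Finset

lemma sn5_sum_supp {α : Type} [Fintype α] [DecidableEq α] (I : ℕ) (lam : ℝ) :
    ∑ k : α → ZMod (2 ^ I), lam ^ suppc k =
      (∑ z : ZMod (2 ^ I), if z = 0 then (1 : ℝ) else lam) ^ Fintype.card α := by
  have h := Finset.prod_univ_sum (fun _ : α => (univ : Finset (ZMod (2 ^ I))))
    (fun _ z => if z = 0 then (1 : ℝ) else lam)
  rw [Fintype.piFinset_univ] at h
  rw [Finset.prod_const, Finset.card_univ] at h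
  rw [h]
  refine Finset.sum_congr rfl (fun k _ => ?_)
  rw [Finset.prod_ite, Finset.prod_const_one, one_mul, Finset.prod_const]
  rfl

lemma sn5_sum_le (I : ℕ) {lam : ℝ} (h0 : 0 ≤ lam) :
    (∑ z : ZMod (2 ^ I), if z = 0 then (1 : ℝ) else lam) ≤ 1 + 2 ^ I * lam := by
  have h1 : (∑ z : ZMod (2 ^ I), if z = 0 then (1 : ℝ) else lam) ≤
      ∑ z : ZMod (2 ^ I), ((if z = 0 then (1 : ℝ) else 0) + lam) := by
    refine Finset.sum_le_sum (fun z _ => ?_)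
    split_ifs <;> linarith
  refine h1.trans (le_of_eq ?_)
  rw [Finset.sum_add_distrib, Finset.sum_ite_eq' univ (0 : ZMod (2 ^ I)) (fun _ => (1 : ℝ))]
  simp [ZMod.card]

/-- Task N5: the number of sparse vectors. -/
theorem card_sparse (I : ℕ) {h : ℝ} (hh : 0 < h) : ∃ ω₀ : ℝ, 0 < ω₀ ∧ ∀ (α : Type) [Fintype α]
    [DecidableEq α] (w : ℕ), (w : ℝ) ≤ ω₀ * Fintype.card α →
    ((univ.filter (fun k : α → ZMod (2 ^ I) => suppc k < w)).card : ℝ) ≤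
      (2 : ℝ) ^ (h * Fintype.card α) := by
  have hl2 : 0 < Real.log 2 := Real.log_pos (by norm_num)
  have h2I : (0 : ℝ) < 2 ^ I := by positivity
  obtain ⟨lam, hlam0, hlam1, hlam2⟩ : ∃ lam : ℝ, 0 < lam ∧ lam < 1 ∧
      2 ^ I * lam ≤ h * Real.log 2 / 2 := by
    refine ⟨min (1 / 2) (h * Real.log 2 / 2 / 2 ^ I), lt_min (by norm_num) (by positivity),
      lt_of_le_of_lt (min_le_left _ _) (by norm_num), ?_⟩
    calc 2 ^ I * min (1 / 2) (h * Real.log 2 / 2 / 2 ^ I)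
        ≤ 2 ^ I * (h * Real.log 2 / 2 / 2 ^ I) :=
          mul_le_mul_of_nonneg_left (min_le_right _ _) h2I.le
      _ = h * Real.log 2 / 2 := by field_simp
  have hlog : 0 < - Real.log lam := by
    have := Real.log_neg hlam0 hlam1
    linarith
  refine ⟨h * Real.log 2 / 2 / (- Real.log lam), by positivity, ?_⟩
  intro α _ _ w hw
  set S := univ.filter (fun k : α → ZMod (2 ^ I) => suppc k < w) with hS
  set d : ℝ := (Fintype.card α : ℝ) with hd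
  have hd0 : 0 ≤ d := by positivity
  have h1 : (S.card : ℝ) * lam ^ w ≤ ∑ k : α → ZMod (2 ^ I), lam ^ suppc k := by
    calc (S.card : ℝ) * lam ^ w = ∑ _k ∈ S, lam ^ w := by
          rw [Finset.sum_const, nsmul_eq_mul]
      _ ≤ ∑ k ∈ S, lam ^ suppc k := by
          refine Finset.sum_le_sum (fun k hk => ?_)
          have hk' : suppc k < w := (Finset.mem_filter.mp hk).2
          exact pow_le_pow_of_le_one hlam0.le hlam1.le hk'.le
      _ ≤ ∑ k : α → ZMod (2 ^ I), lam ^ suppc k := by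
          refine Finset.sum_le_sum_of_subset_of_nonneg (Finset.subset_univ _)
            (fun k _ _ => by positivity)
  have h2 : ∑ k : α → ZMod (2 ^ I), lam ^ suppc k ≤ Real.exp (h * Real.log 2 / 2 * d) := by
    rw [sn5_sum_supp]
    have h3 : (∑ z : ZMod (2 ^ I), if z = 0 then (1 : ℝ) else lam) ≤
        Real.exp (h * Real.log 2 / 2) := by
      refine (sn5_sum_le I hlam0.le).trans ?_
      have := Real.add_one_le_exp (h * Real.log 2 / 2)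
      linarith
    have h4 : 0 ≤ (∑ z : ZMod (2 ^ I), if z = 0 then (1 : ℝ) else lam) := by
      refine Finset.sum_nonneg (fun z _ => ?_)
      split_ifs <;> linarith
    calc _ ≤ (Real.exp (h * Real.log 2 / 2)) ^ Fintype.card α := pow_le_pow_left₀ h4 h3 _
      _ = Real.exp (h * Real.log 2 / 2 * d) := by
          rw [← Real.exp_nat_mul, hd, mul_comm]
  have h5 : Real.exp (-(h * Real.log 2 / 2 * d)) ≤ lam ^ w := by
    rw [← Real.exp_log hlam0, ← Real.exp_nat_mul]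
    apply Real.exp_le_exp.mpr
    have h6 : (w : ℝ) * (- Real.log lam) ≤ h * Real.log 2 / 2 * d := by
      have h7 := mul_le_mul_of_nonneg_right hw hlog.le
      calc (w : ℝ) * (- Real.log lam)
          ≤ h * Real.log 2 / 2 / (- Real.log lam) * Fintype.card α * (- Real.log lam) := h7
        _ = h * Real.log 2 / 2 * d := by
            rw [← hd, mul_right_comm, div_mul_cancel₀ _ hlog.ne']
    linarith
  have h8 : (S.card : ℝ) * Real.exp (-(h * Real.log 2 / 2 * d)) ≤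
      Real.exp (h * Real.log 2 / 2 * d) :=
    (mul_le_mul_of_nonneg_left h5 (by positivity)).trans (h1.trans h2)
  have h9 : (S.card : ℝ) ≤ Real.exp (h * Real.log 2 / 2 * d) * Real.exp (h * Real.log 2 / 2 * d) := by
    have h10 := mul_le_mul_of_nonneg_right h8 (Real.exp_pos (h * Real.log 2 / 2 * d)).le
    rwa [mul_assoc, ← Real.exp_add, neg_add_cancel, Real.exp_zero, mul_one] at h10
  refine h9.trans (le_of_eq ?_)
  rw [← Real.exp_add, Real.rpow_def_of_pos (by norm_num)]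
  congr 1
  ring

lemma sn5_comb {A : ℕ} {E c e1 e2 e3 f1 f2 : ℝ} (hE0 : 0 ≤ E) (hE : E ≤ (2 : ℝ) ^ c)
    (h : c * A + e1 + e2 + e3 ≤ f1 + f2) :
    E ^ A * (2 : ℝ) ^ e1 * (2 : ℝ) ^ e2 * (2 : ℝ) ^ e3 ≤ (2 : ℝ) ^ f1 * (2 : ℝ) ^ f2 := by
  have h2 : (0 : ℝ) < 2 := by norm_num
  have h1 : E ^ A ≤ (2 : ℝ) ^ (c * A) := by
    calc E ^ A ≤ ((2 : ℝ) ^ c) ^ A := pow_le_pow_left₀ hE0 hE A
      _ = (2 : ℝ) ^ (c * A) := by rw [Real.rpow_mul h2.le, Real.rpow_natCast]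
  calc E ^ A * (2 : ℝ) ^ e1 * (2 : ℝ) ^ e2 * (2 : ℝ) ^ e3
      ≤ (2 : ℝ) ^ (c * A) * (2 : ℝ) ^ e1 * (2 : ℝ) ^ e2 * (2 : ℝ) ^ e3 := by gcongr
    _ = (2 : ℝ) ^ (c * A + e1 + e2 + e3) := by
        rw [Real.rpow_add h2, Real.rpow_add h2, Real.rpow_add h2]
    _ ≤ (2 : ℝ) ^ (f1 + f2) := Real.rpow_le_rpow_of_exponent_le (by norm_num) h
    _ = (2 : ℝ) ^ f1 * (2 : ℝ) ^ f2 := Real.rpow_add h2 _ _

lemma sn5_key {d J I A ρ B : ℝ} (hI : 1 ≤ I) (hd : 72 * I ≤ d) (hJ : 3 * J ≤ 2 * d)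
    (hBI : B * I ≤ J + 3 * I) (hA : A ≤ I * ρ) (hρ0 : 0 ≤ ρ) (hB0 : 0 ≤ B) :
    A * (d / (24 * I) + B) ≤ 3 / 4 * (ρ * d) := by
  have hI0 : 0 < I := by linarith
  have hd0 : 0 ≤ d := by linarith
  have h1 : A * (d / (24 * I) + B) ≤ I * ρ * (d / (24 * I) + B) :=
    mul_le_mul_of_nonneg_right hA (by positivity)
  have h2 : I * ρ * (d / (24 * I) + B) = ρ * (d / 24 + B * I) := by
    field_simp
  have h3 : ρ * (d / 24 + B * I) ≤ ρ * (3 / 4 * d) :=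
    mul_le_mul_of_nonneg_left (by linarith) hρ0
  linarith

/-- Task N5: exponents. -/
theorem term_bound1 {d b B J I A ρ Λ : ℕ} (hI : 1 ≤ I) (hd : 72 * I ≤ d) (hdb : d ≤ b)
    (hJ : 3 * J ≤ 2 * d) (hB : 2 * B + d ≤ b) (hBI : B * I ≤ J + 3 * I) (hA : A ≤ I * ρ)
    (hρ : ρ ≤ A) (hAΛ : A ≤ Λ) {E : ℝ} (hE0 : 0 ≤ E)
    (hE : E ≤ (2 : ℝ) ^ ((1 / (24 * (I : ℝ))) * d)) :
    E ^ A * (2 : ℝ) ^ ((d : ℝ) * ((Λ : ℝ) - A)) * (2 : ℝ) ^ (((A : ℝ) - Λ - ρ) * b) *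
      (2 : ℝ) ^ (((I : ℝ) + Λ) * B) ≤
      (2 : ℝ) ^ ((I : ℝ) * B) *
        (2 : ℝ) ^ (-((Λ - A : ℕ) : ℝ) * ((b : ℝ) - d) / 2 - (ρ : ℝ) * d / 8) := by
  have hI' : (1 : ℝ) ≤ I := by exact_mod_cast hI
  have hd' : (72 : ℝ) * I ≤ d := by exact_mod_cast hd
  have hdb' : (d : ℝ) ≤ b := by exact_mod_cast hdb
  have hJ' : (3 : ℝ) * J ≤ 2 * d := by exact_mod_cast hJ
  have hB' : (2 : ℝ) * B + d ≤ b := by exact_mod_cast hB
  have hBI' : (B : ℝ) * I ≤ J + 3 * I := by exact_mod_cast hBI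
  have hA' : (A : ℝ) ≤ I * ρ := by exact_mod_cast hA
  have hAΛ' : (A : ℝ) ≤ Λ := by exact_mod_cast hAΛ
  have hkey := sn5_key hI' hd' hJ' hBI' hA' (Nat.cast_nonneg ρ) (Nat.cast_nonneg B)
  refine sn5_comb hE0 hE ?_
  rw [Nat.cast_sub hAΛ]
  have h0 : 1 / (24 * (I : ℝ)) * d * A = A * (d / (24 * I)) := by ring
  rw [h0]
  have h1 : ((Λ : ℝ) - A) * (B - (b - d) / 2) ≤ 0 :=
    mul_nonpos_of_nonneg_of_nonpos (by linarith) (by linarith)
  have h2 : (ρ : ℝ) * d ≤ ρ * b := mul_le_mul_of_nonneg_left hdb' (Nat.cast_nonneg _)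
  have h3 : (0 : ℝ) ≤ ρ * d := by positivity
  nlinarith [hkey, h1, h2, h3]

/-- Task N5: exponents. -/
theorem term_bound2 {d b B J I A ρ Λ : ℕ} (hI : 1 ≤ I) (hd : 72 * I ≤ d) (hdb : d ≤ b)
    (hb : b ≤ 4 * d)
    (hJ : 3 * J ≤ 2 * d) (hB : 2 * B + d ≤ b) (hBI : B * I ≤ J + 3 * I) (hA : A ≤ I * ρ)
    (hρ : ρ ≤ A) (hAΛ : A ≤ Λ + I) (hρI : 60 * I ≤ ρ) {E : ℝ} (hE0 : 0 ≤ E)
    (hE : E ≤ (2 : ℝ) ^ ((1 / (24 * (I : ℝ))) * d)) :
    E ^ A * (2 : ℝ) ^ ((d : ℝ) * ((Λ : ℝ) + I - A)) * (2 : ℝ) ^ (((A : ℝ) - Λ - ρ) * b) *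
      (2 : ℝ) ^ (((I : ℝ) + Λ) * B) ≤
      (2 : ℝ) ^ ((I : ℝ) * B) *
        (2 : ℝ) ^ (-((Λ - A : ℕ) : ℝ) * ((b : ℝ) - d) / 2 - (ρ : ℝ) * d / 8) := by
  have hI' : (1 : ℝ) ≤ I := by exact_mod_cast hI
  have hd' : (72 : ℝ) * I ≤ d := by exact_mod_cast hd
  have hdb' : (d : ℝ) ≤ b := by exact_mod_cast hdb
  have hb' : (b : ℝ) ≤ 4 * d := by exact_mod_cast hb
  have hJ' : (3 : ℝ) * J ≤ 2 * d := by exact_mod_cast hJ
  have hB' : (2 : ℝ) * B + d ≤ b := by exact_mod_cast hB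
  have hBI' : (B : ℝ) * I ≤ J + 3 * I := by exact_mod_cast hBI
  have hA' : (A : ℝ) ≤ I * ρ := by exact_mod_cast hA
  have hAΛ' : (A : ℝ) ≤ Λ + I := by exact_mod_cast hAΛ
  have hρI' : (60 : ℝ) * I ≤ ρ := by exact_mod_cast hρI
  have hkey := sn5_key hI' hd' hJ' hBI' hA' (Nat.cast_nonneg ρ) (Nat.cast_nonneg B)
  have hd0 : (0 : ℝ) ≤ d := Nat.cast_nonneg _
  have hdI : (60 : ℝ) * (I * d) ≤ ρ * d := by
    have := mul_le_mul_of_nonneg_right hρI' hd0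
    linarith
  have h2 : (ρ : ℝ) * d ≤ ρ * b := mul_le_mul_of_nonneg_left hdb' (Nat.cast_nonneg _)
  have hId : (0 : ℝ) ≤ I * d := by positivity
  refine sn5_comb hE0 hE ?_
  have h0 : 1 / (24 * (I : ℝ)) * d * A = A * (d / (24 * I)) := by ring
  rw [h0]
  rcases le_or_gt A Λ with hc | hc
  · have hc' : (A : ℝ) ≤ Λ := by exact_mod_cast hc
    rw [Nat.cast_sub hc]
    have h1 : ((Λ : ℝ) - A) * (B - (b - d) / 2) ≤ 0 :=
      mul_nonpos_of_nonneg_of_nonpos (by linarith) (by linarith)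
    nlinarith [hkey, h1, h2, hdI, hId]
  · have hc' : (Λ : ℝ) ≤ A := by exact_mod_cast hc.le
    have h4 : ((Λ - A : ℕ) : ℝ) = 0 := by
      rw [Nat.sub_eq_zero_of_le hc.le]
      simp
    rw [h4]
    have h5 : ((A : ℝ) - Λ) * (b - d) ≤ I * (b - d) :=
      mul_le_mul_of_nonneg_right (by linarith) (by linarith)
    have h6 : (I : ℝ) * b ≤ I * (4 * d) := mul_le_mul_of_nonneg_left hb' (by linarith)
    have h7 : (Λ : ℝ) * B ≤ A * B := mul_le_mul_of_nonneg_right hc' (Nat.cast_nonneg _)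
    nlinarith [hkey, h2, hdI, hId, h5, h6, h7]

end Vale.Agent.P160
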