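import Vale.Agent.P160.SN3
import Vale.Agent.P160.SN4

namespace Vale.Agent.P160

open Finset

set_option linter.unusedSectionVars false
set_option linter.unusedVariables false

section sn6

variable {α : Type} [Fintype α] [DecidableEq α] {I : ℕ}

/-- The sparse part is generated by its sparse elements. -/
lemma sn6_spars_eq (w : ℕ) (K : AddSubgroup (α → ZMod (2 ^ I))) :
    spars I w K = AddSubgroup.closure
      {k | k ∈ spars I w K ∧ k ∈ univ.filter (fun k : α → ZMod (2 ^ I) => suppc k < w)} := by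
  apply le_antisymm
  · refine (AddSubgroup.closure_le _).2 fun k hk => AddSubgroup.subset_closure ?_
    exact ⟨AddSubgroup.subset_closure hk, mem_filter.2 ⟨mem_univ k, hk.2⟩⟩
  · exact (AddSubgroup.closure_le _).2 fun k hk => hk.1

lemma sn6_spars_le (w : ℕ) (K : AddSubgroup (α → ZMod (2 ^ I))) : spars I w K ≤ K :=
  (AddSubgroup.closure_le _).2 fun _ hk => hk.1

open Classical in
/-- Counting by the sparse part. -/
lemma sn6_count (w A k : ℕ) (T : Finset (AddSubgroup (α → ZMod (2 ^ I))))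
    (F : AddSubgroup (α → ZMod (2 ^ I)) → AddSubgroup (α → ZMod (2 ^ I)))
    (hT : ∀ K ∈ T, Nat.card (spars I w K) = 2 ^ A ∧ F (spars I w K) ≤ K ∧
      Nat.card K = 2 ^ k * Nat.card (F (spars I w K))) :
    T.card ≤ (univ.filter (fun k : α → ZMod (2 ^ I) => suppc k < w)).card ^ A *
      2 ^ (Fintype.card α * k) := by
  have h1 : T.card ≤ 2 ^ (k * Fintype.card α) * (T.image (fun K => spars I w K)).card := by
    refine Finset.card_le_mul_card_image T _ fun L _ => ?_
    refine card_overgroups (F L) k _ fun K hK => ?_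
    obtain ⟨hK1, hK2⟩ := mem_filter.1 hK
    obtain ⟨-, h3, h4⟩ := hT K hK1
    rw [hK2] at h3 h4
    exact ⟨h3, h4⟩
  have h2 : (T.image (fun K => spars I w K)).card ≤
      (univ.filter (fun k : α → ZMod (2 ^ I) => suppc k < w)).card ^ A := by
    refine card_gen _ A _ fun L hL => ?_
    obtain ⟨K, hK, rfl⟩ := mem_image.1 hL
    exact ⟨(hT K hK).1, sn6_spars_eq w K⟩
  calc T.card ≤ 2 ^ (k * Fintype.card α) * (T.image (fun K => spars I w K)).card := h1
    _ ≤ 2 ^ (k * Fintype.card α) *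
        (univ.filter (fun k : α → ZMod (2 ^ I) => suppc k < w)).card ^ A :=
      Nat.mul_le_mul_left _ h2
    _ = _ := by rw [mul_comm, mul_comm k]

lemma sn6_nu (xb : α → ZMod (2 ^ I)) :
    nu xb = (univ.filter fun i => IsUnit (xb i)).card := by
  unfold nu
  congr

/-- A vector with a unit coordinate has full order. -/
lemma sn6_card_zmultiples (xb : α → ZMod (2 ^ I)) (hx : 1 ≤ nu xb) :
    Nat.card (AddSubgroup.zmultiples xb) = 2 ^ I := by
  rw [Nat.card_zmultiples]
  apply Nat.dvd_antisymm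
  · apply addOrderOf_dvd_of_nsmul_eq_zero
    ext i
    simp only [Pi.smul_apply, nsmul_eq_mul, Pi.zero_apply, ZMod.natCast_self, zero_mul]
  · rw [sn6_nu] at hx
    obtain ⟨i, hi⟩ := Finset.card_pos.1 hx
    have hu := (mem_filter.1 hi).2
    have h1 : addOrderOf xb • xb i = 0 := congrFun (addOrderOf_nsmul_eq_zero xb) i
    rw [nsmul_eq_mul, hu.mul_left_eq_zero] at h1
    exact (ZMod.natCast_eq_zero_iff _ _).1 h1

lemma sn6_disjoint (xb : α → ZMod (2 ^ I)) (w A : ℕ) (K : AddSubgroup (α → ZMod (2 ^ I)))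
    (hK : Nat.card (spars I w K) = 2 ^ A) (hw : A * w < nu xb) :
    Disjoint (spars I w K) (AddSubgroup.zmultiples xb) := by
  rw [AddSubgroup.disjoint_def]
  intro z hz hz'
  by_contra hz0
  obtain ⟨m, rfl⟩ := AddSubgroup.mem_zmultiples_iff.1 hz'
  have h1 := suppc_of_gen w A K hK _ hz
  have hm : (m : ZMod (2 ^ I)) ≠ 0 := by
    intro h2
    apply hz0
    ext i
    rw [Pi.smul_apply, zsmul_eq_mul, h2, zero_mul, Pi.zero_apply]
  have h3 : nu xb ≤ suppc (m • xb) := by
    rw [sn6_nu]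
    unfold suppc
    refine Finset.card_le_card fun i hi => ?_
    have hi2 := (mem_filter.1 hi).2
    refine mem_filter.2 ⟨mem_univ i, ?_⟩
    rw [Pi.smul_apply, zsmul_eq_mul, Ne, hi2.mul_left_eq_zero]
    exact hm
  omega

lemma sn6_card_sup (L Z : AddSubgroup (α → ZMod (2 ^ I))) (h : Disjoint L Z) :
    Nat.card (L ⊔ Z : AddSubgroup (α → ZMod (2 ^ I))) = Nat.card L * Nat.card Z := by
  rw [← Nat.card_prod]
  refine (Nat.card_congr (Equiv.ofBijective
    (fun g : L × Z => (⟨(g.1 : α → ZMod (2 ^ I)) + g.2,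
      AddSubgroup.add_mem_sup g.1.2 g.2.2⟩ : (L ⊔ Z : AddSubgroup (α → ZMod (2 ^ I))))) ?_)).symm
  constructor
  · intro g g' hg
    exact AddSubgroup.add_injective_of_disjoint h (congrArg Subtype.val hg)
  · rintro ⟨x, hx⟩
    obtain ⟨a, ha, b, hb, rfl⟩ := AddSubgroup.mem_sup.1 hx
    exact ⟨(⟨a, ha⟩, ⟨b, hb⟩), rfl⟩

end sn6

open Classical in
/-- Task N6: the number of subgroups with given sparse part. -/
theorem count_K {α : Type} [Fintype α] [DecidableEq α] {I : ℕ} (hI : 1 ≤ I)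
    (xb : α → ZMod (2 ^ I)) (hx : 1 ≤ nu xb) (w Λ A : ℕ)
    (S : Finset (AddSubgroup (α → ZMod (2 ^ I))))
    (hS : ∀ K ∈ S, xb ∈ K ∧ Nat.card K = 2 ^ (I + Λ))
    (hA : ∃ K ∈ S, Nat.card (spars I w K) = 2 ^ A) :
    (A ≤ Λ + I ∧ (S.filter (fun K => Nat.card (spars I w K) = 2 ^ A)).card ≤
      (univ.filter (fun k : α → ZMod (2 ^ I) => suppc k < w)).card ^ A *
        2 ^ (Fintype.card α * (Λ + I - A))) ∧
    (A * w < nu xb → A ≤ Λ ∧ (S.filter (fun K => Nat.card (spars I w K) = 2 ^ A)).card ≤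
      (univ.filter (fun k : α → ZMod (2 ^ I) => suppc k < w)).card ^ A *
        2 ^ (Fintype.card α * (Λ - A))) := by
  have hle : ∀ L K : AddSubgroup (α → ZMod (2 ^ I)), L ≤ K → Nat.card L ≤ Nat.card K :=
    fun L K h => Nat.card_le_card_of_injective _ (AddSubgroup.inclusion_injective h)
  obtain ⟨K0, hK0, hK0A⟩ := hA
  constructor
  · have hAl : A ≤ Λ + I := by
      have h1 := hle _ _ (sn6_spars_le w K0)
      rw [hK0A, (hS K0 hK0).2] at h1
      have h2 := (Nat.pow_le_pow_iff_right (by norm_num : 1 < 2)).1 h1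
      omega
    refine ⟨hAl, sn6_count w A (Λ + I - A) _ id fun K hK => ?_⟩
    obtain ⟨hK1, hK2⟩ := mem_filter.1 hK
    refine ⟨hK2, sn6_spars_le w K, ?_⟩
    rw [id, hK2, (hS K hK1).2, ← pow_add]
    congr 1
    omega
  · intro hw
    have hcard : ∀ K ∈ S, Nat.card (spars I w K) = 2 ^ A →
        Nat.card (spars I w K ⊔ AddSubgroup.zmultiples xb : AddSubgroup (α → ZMod (2 ^ I))) =
          2 ^ (A + I) := by
      intro K _ hK2
      rw [sn6_card_sup _ _ (sn6_disjoint xb w A K hK2 hw), hK2, sn6_card_zmultiples xb hx,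
        ← pow_add]
    have hsup : ∀ K ∈ S, spars I w K ⊔ AddSubgroup.zmultiples xb ≤ K := fun K hK =>
      sup_le (sn6_spars_le w K) (AddSubgroup.zmultiples_le_of_mem (hS K hK).1)
    have hAl : A ≤ Λ := by
      have h1 := hle _ _ (hsup K0 hK0)
      rw [hcard K0 hK0 hK0A, (hS K0 hK0).2] at h1
      have h2 := (Nat.pow_le_pow_iff_right (by norm_num : 1 < 2)).1 h1
      omega
    refine ⟨hAl, sn6_count w A (Λ - A) _ (fun L => L ⊔ AddSubgroup.zmultiples xb)
      fun K hK => ?_⟩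
    obtain ⟨hK1, hK2⟩ := mem_filter.1 hK
    refine ⟨hK2, hsup K hK1, ?_⟩
    rw [hcard K hK1 hK2, (hS K hK1).2, ← pow_add]
    congr 1
    omega

end Vale.Agent.P160
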