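import Vale.Agent.P160.SN2
import Vale.Agent.P160.SN5
import Vale.Agent.P160.SN6

namespace Vale.Agent.P160

open Finset

/-- one factor: a small additive error costs at most a factor 2 -/
theorem sn7_pow {b : ℕ} {z τ p : ℝ} (hz : 0 < z) (hτ : 0 ≤ τ) (hb : (b : ℝ) * (τ / z) ≤ Real.log 2)
    (hp0 : 0 ≤ p) (hp : p ≤ z + τ) : p ^ b ≤ 2 * z ^ b := by
  have h1 : z + τ = z * (1 + τ / z) := by field_simp
  have h2 : 0 ≤ τ / z := div_nonneg hτ hz.le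
  have h3 : 1 + τ / z ≤ Real.exp (τ / z) := by
    have := Real.add_one_le_exp (τ / z); linarith
  calc p ^ b ≤ (z + τ) ^ b := pow_le_pow_left₀ hp0 hp b
    _ = z ^ b * (1 + τ / z) ^ b := by rw [h1, mul_pow]
    _ ≤ z ^ b * (Real.exp (τ / z)) ^ b := by gcongr
    _ = z ^ b * Real.exp (b * (τ / z)) := by rw [← Real.exp_nat_mul]
    _ ≤ z ^ b * 2 := by
        gcongr
        calc Real.exp (b * (τ / z)) ≤ Real.exp (Real.log 2) := Real.exp_le_exp.mpr hb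
          _ = 2 := Real.exp_log (by norm_num)
    _ = 2 * z ^ b := by ring

/-- the rounded quotient -/
def sn7_rho (I A : ℕ) : ℕ := (A + I - 1) / I

theorem sn7_rho_ge {I : ℕ} (hI : 1 ≤ I) (A : ℕ) : A ≤ I * sn7_rho I A := by
  have h := Nat.lt_mul_div_succ (A + I - 1) (show 0 < I by omega)
  unfold sn7_rho
  rw [mul_add, mul_one] at h
  omega

theorem sn7_rho_le {I : ℕ} (hI : 1 ≤ I) {A ρ : ℕ} (h : A ≤ I * ρ) : sn7_rho I A ≤ ρ := by
  unfold sn7_rho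
  rw [← Nat.lt_succ_iff, Nat.div_lt_iff_lt_mul (by omega)]
  have : (ρ.succ) * I = I * ρ + I := by rw [Nat.succ_mul, mul_comm]
  omega

theorem sn7_rho_le_self {I : ℕ} (hI : 1 ≤ I) (A : ℕ) : sn7_rho I A ≤ A :=
  sn7_rho_le hI (by nlinarith)

/-- the row probability of a kernel -/
theorem sn7_p {α : Type} [Fintype α] [DecidableEq α] {I : ℕ} (hI : 1 ≤ I) {q : ℝ} (hq0 : 0 < q)
    {w Λ A : ℕ} {K : AddSubgroup (α → ZMod (2 ^ I))}
    (horth : ((orth I K).card : ℝ) * Nat.card K ≤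
      Nat.card (spars I w K) * (orth I (spars I w K)).card +
      Nat.card K * q ^ w * 4 ^ Fintype.card α)
    (hK : Nat.card K = 2 ^ (I + Λ)) (hA : Nat.card (spars I w K) = 2 ^ A) :
    2 ^ I * ((orth I K).card / 4 ^ Fintype.card α : ℝ) ≤
      (2 : ℝ) ^ ((A : ℝ) - Λ - sn7_rho I A) + 2 ^ I * q ^ w := by
  obtain ⟨ρ, hρ⟩ := exists_tors_pow (spars I w K)
  have h1 := orth_tors I hI (spars I w K)
  have h2 := card_le_tors (spars I w K)
  rw [hA, hρ, ← pow_mul] at h2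
  have h3 : A ≤ I * ρ := by
    have := (Nat.pow_le_pow_iff_right (show 1 < 2 by norm_num)).mp h2
    rwa [mul_comm] at this
  have h4 := sn7_rho_le hI h3
  rw [hρ] at h1
  have h1R : ((orth I (spars I w K)).card : ℝ) * 2 ^ ρ ≤ 4 ^ Fintype.card α := by
    exact_mod_cast h1
  rw [hK, hA] at horth
  push_cast at horth
  set D : ℝ := 4 ^ Fintype.card α with hD
  have hDpos : 0 < D := by positivity
  set r := sn7_rho I A with hr
  have e1 : (2 : ℝ) ^ ((A : ℝ) - Λ - r) = 2 ^ A / (2 ^ Λ * 2 ^ r) := by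
    rw [Real.rpow_sub (by norm_num), Real.rpow_sub (by norm_num), Real.rpow_natCast,
      Real.rpow_natCast, Real.rpow_natCast, div_div]
  rw [e1]
  have h5 : (2 : ℝ) ^ r ≤ 2 ^ ρ := pow_le_pow_right₀ (by norm_num) h4
  have h6 : ((orth I (spars I w K)).card : ℝ) * 2 ^ r ≤ D :=
    le_trans (mul_le_mul_of_nonneg_left h5 (Nat.cast_nonneg _)) h1R
  have h7 : ((orth I K).card : ℝ) / D ≤ 2 ^ A / (2 ^ (I + Λ) * 2 ^ r) + q ^ w := by
    rw [div_le_iff₀ hDpos]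
    have p1 : (0 : ℝ) < 2 ^ (I + Λ) := by positivity
    have p2 : (0 : ℝ) < 2 ^ r := by positivity
    have h8 : ((orth I K).card : ℝ) ≤
        (2 ^ A * (orth I (spars I w K)).card + 2 ^ (I + Λ) * q ^ w * D) / 2 ^ (I + Λ) := by
      rw [le_div_iff₀ p1]; exact horth
    refine h8.trans ?_
    have h9 : ((orth I (spars I w K)).card : ℝ) ≤ D / 2 ^ r := by
      rw [le_div_iff₀ p2]; exact h6
    calc (2 ^ A * ((orth I (spars I w K)).card : ℝ) + 2 ^ (I + Λ) * q ^ w * D) / 2 ^ (I + Λ)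
        ≤ (2 ^ A * (D / 2 ^ r) + 2 ^ (I + Λ) * q ^ w * D) / 2 ^ (I + Λ) := by gcongr
      _ = (2 ^ A / (2 ^ (I + Λ) * 2 ^ r) + q ^ w) * D := by field_simp
  calc 2 ^ I * (((orth I K).card : ℝ) / D)
      ≤ 2 ^ I * (2 ^ A / (2 ^ (I + Λ) * 2 ^ r) + q ^ w) := by gcongr
    _ = 2 ^ A / (2 ^ Λ * 2 ^ r) + 2 ^ I * q ^ w := by
        rw [pow_add]; field_simp

/-- the exponents of the final sum -/
theorem sn7_G {d b I Λ A : ℕ} (hI : 1 ≤ I) (hd : 1 ≤ d) (hdb : d ≤ b) (hA : 1 ≤ A) :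
    (2 : ℝ) ^ (-((Λ - A : ℕ) : ℝ) * ((b : ℝ) - d) / 2 - (sn7_rho I A : ℝ) * d / 8) ≤
      ((2 : ℝ) ^ (-((b : ℝ) - d) * Λ / 4) + (2 : ℝ) ^ (-(d : ℝ) * Λ / (32 * I))) *
        (2 : ℝ) ^ (-(d : ℝ) / (16 * I)) := by
  have hIR : (1 : ℝ) ≤ I := by exact_mod_cast hI
  have hI0 : (0 : ℝ) < I := by linarith
  have hdR : (1 : ℝ) ≤ d := by exact_mod_cast hd
  have hbd : (0 : ℝ) ≤ (b : ℝ) - d := by
    have : (d : ℝ) ≤ b := by exact_mod_cast hdb
    linarith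
  have hAR : (1 : ℝ) ≤ A := by exact_mod_cast hA
  have hρ : (A : ℝ) / I ≤ sn7_rho I A := by
    rw [div_le_iff₀ hI0]
    have := sn7_rho_ge hI A
    have h2 : (A : ℝ) ≤ (I : ℝ) * sn7_rho I A := by exact_mod_cast this
    linarith
  have hsub : (0 : ℝ) ≤ ((Λ - A : ℕ) : ℝ) := Nat.cast_nonneg _
  have hAd : (A : ℝ) * d / (8 * I) ≤ (sn7_rho I A : ℝ) * d / 8 := by
    have := mul_le_mul_of_nonneg_right hρ (show (0 : ℝ) ≤ d / 8 by positivity)
    calc (A : ℝ) * d / (8 * I) = (A : ℝ) / I * (d / 8) := by field_simp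
      _ ≤ _ := this
      _ = _ := by ring
  by_cases hc : 2 * A ≤ Λ
  · have h1 : (Λ : ℝ) / 2 ≤ ((Λ - A : ℕ) : ℝ) := by
      rw [Nat.cast_sub (by omega)]
      have : 2 * (A : ℝ) ≤ Λ := by exact_mod_cast hc
      linarith
    have h2 : -((Λ - A : ℕ) : ℝ) * ((b : ℝ) - d) / 2 - (sn7_rho I A : ℝ) * d / 8 ≤
        -((b : ℝ) - d) * Λ / 4 + -(d : ℝ) / (16 * I) := by
      have h3 := mul_le_mul_of_nonneg_right h1 hbd
      have h4 : (d : ℝ) / (16 * I) ≤ (A : ℝ) * d / (8 * I) := by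
        rw [div_le_div_iff₀ (by positivity) (by positivity)]
        have : (d : ℝ) * I ≤ A * (d * I) := by
          have := mul_le_mul_of_nonneg_right hAR (show (0 : ℝ) ≤ d * I by positivity)
          linarith
        nlinarith
      have e : -(d : ℝ) / (16 * I) = -((d : ℝ) / (16 * I)) := by ring
      rw [e]
      nlinarith
    calc _ ≤ (2 : ℝ) ^ (-((b : ℝ) - d) * Λ / 4 + -(d : ℝ) / (16 * I)) :=
          Real.rpow_le_rpow_of_exponent_le (by norm_num) h2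
      _ = (2 : ℝ) ^ (-((b : ℝ) - d) * Λ / 4) * (2 : ℝ) ^ (-(d : ℝ) / (16 * I)) :=
          Real.rpow_add (by norm_num) _ _
      _ ≤ _ := by
          gcongr
          have : (0 : ℝ) < (2 : ℝ) ^ (-(d : ℝ) * Λ / (32 * I)) := Real.rpow_pos_of_pos (by norm_num) _
          linarith
  · push Not at hc
    have h1 : (Λ : ℝ) ≤ 2 * A := by exact_mod_cast hc.le
    have h2 : -((Λ - A : ℕ) : ℝ) * ((b : ℝ) - d) / 2 - (sn7_rho I A : ℝ) * d / 8 ≤
        -(d : ℝ) * Λ / (32 * I) + -(d : ℝ) / (16 * I) := by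
      have h3 : 0 ≤ ((Λ - A : ℕ) : ℝ) * ((b : ℝ) - d) := mul_nonneg hsub hbd
      have h4 : (d : ℝ) / (16 * I) + (d : ℝ) * Λ / (32 * I) ≤ (A : ℝ) * d / (8 * I) := by
        have e : (d : ℝ) / (16 * I) + (d : ℝ) * Λ / (32 * I) =
            (d / (32 * I)) * (2 + Λ) := by field_simp; ring
        have e2 : (A : ℝ) * d / (8 * I) = (d / (32 * I)) * (4 * A) := by field_simp; ring
        rw [e, e2]
        apply mul_le_mul_of_nonneg_left _ (by positivity)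
        linarith
      have e : -(d : ℝ) / (16 * I) = -((d : ℝ) / (16 * I)) := by ring
      have e' : -(d : ℝ) * Λ / (32 * I) = -((d : ℝ) * Λ / (32 * I)) := by ring
      rw [e, e']
      linarith
    calc _ ≤ (2 : ℝ) ^ (-(d : ℝ) * Λ / (32 * I) + -(d : ℝ) / (16 * I)) :=
          Real.rpow_le_rpow_of_exponent_le (by norm_num) h2
      _ = (2 : ℝ) ^ (-(d : ℝ) * Λ / (32 * I)) * (2 : ℝ) ^ (-(d : ℝ) / (16 * I)) :=
          Real.rpow_add (by norm_num) _ _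
      _ ≤ _ := by
          gcongr
          have : (0 : ℝ) < (2 : ℝ) ^ (-((b : ℝ) - d) * Λ / 4) := Real.rpow_pos_of_pos (by norm_num) _
          linarith

theorem sn7_ev1 {c' Q : ℝ} (hc : 0 < c') :
    ∀ᶠ n : ℕ in Filter.atTop, 4 * (n : ℝ) * Q * Real.exp (-(c' / 2) * n) ≤ Real.log 2 := by
  have hr : |Real.exp (-(c' / 2))| < 1 := by
    rw [abs_of_pos (Real.exp_pos _), Real.exp_lt_one_iff]; linarith
  have h1 := tendsto_pow_const_mul_const_pow_of_abs_lt_one 1 hr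
  have h2 := h1.const_mul (4 * Q)
  rw [mul_zero] at h2
  have h3 := h2.eventually (ge_mem_nhds (show (0 : ℝ) < Real.log 2 by positivity))
  filter_upwards [h3] with n hn
  have e : Real.exp (-(c' / 2) * n) = Real.exp (-(c' / 2)) ^ n := by
    rw [← Real.exp_nat_mul]; congr 1; ring
  rw [e]
  calc 4 * (n : ℝ) * Q * Real.exp (-(c' / 2)) ^ n
      = 4 * Q * ((n : ℝ) ^ 1 * Real.exp (-(c' / 2)) ^ n) := by ring
    _ ≤ Real.log 2 := hn

theorem sn7_ev2 {I : ℕ} (hI : 1 ≤ I) :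
    ∀ᶠ n : ℕ in Filter.atTop, ((n : ℝ) + I) * (2 : ℝ) ^ (-(n : ℝ) / (16 * I)) ≤ 1 / 4 := by
  have hIR : (1 : ℝ) ≤ I := by exact_mod_cast hI
  set r : ℝ := (2 : ℝ) ^ (-(1 : ℝ) / (16 * I)) with hr
  have hr0 : 0 < r := Real.rpow_pos_of_pos (by norm_num) _
  have hr1 : |r| < 1 := by
    rw [abs_of_pos hr0]
    apply Real.rpow_lt_one_of_one_lt_of_neg (by norm_num)
    apply div_neg_of_neg_of_pos (by norm_num) (by positivity)
  have h1 := tendsto_pow_const_mul_const_pow_of_abs_lt_one 1 hr1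
  have h2 := (tendsto_pow_const_mul_const_pow_of_abs_lt_one 0 hr1).const_mul (I : ℝ)
  have h3 := h1.add h2
  rw [mul_zero, add_zero] at h3
  have h4 := h3.eventually (ge_mem_nhds (show (0 : ℝ) < 1 / 4 by norm_num))
  filter_upwards [h4] with n hn
  have e : (2 : ℝ) ^ (-(n : ℝ) / (16 * I)) = r ^ n := by
    rw [hr, ← Real.rpow_natCast, ← Real.rpow_mul (by norm_num)]
    congr 1
    ring
  rw [e]
  calc ((n : ℝ) + I) * r ^ n = (n : ℝ) ^ 1 * r ^ n + I * ((n : ℝ) ^ 0 * r ^ n) := by ring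
    _ ≤ 1 / 4 := hn

/-- the contribution of the kernels with sparse part of size `2 ^ A` -/
theorem sn7_class {α : Type} [Fintype α] [DecidableEq α] {I : ℕ} (hI : 1 ≤ I) {δ ω : ℝ}
    (hω : 0 < ω) (hωδ : ω * (60 * (I : ℝ) ^ 2) ≤ δ) {w b B J Λ A N E : ℕ}
    (hw : (w : ℝ) ≤ ω * Fintype.card α) (hd : 72 * I ≤ Fintype.card α)
    (hdb : Fintype.card α ≤ b) (hb4 : b ≤ 4 * Fintype.card α)
    (hJ : 3 * J ≤ 2 * Fintype.card α) (hB : 2 * B + Fintype.card α ≤ b) (hBI : B * I ≤ J + 3 * I)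
    (xb : α → ZMod (2 ^ I)) (hxb : δ * Fintype.card α ≤ nu xb)
    (hE : (E : ℝ) ≤ (2 : ℝ) ^ ((1 / (24 * (I : ℝ))) * Fintype.card α))
    (h1 : A ≤ Λ + I ∧ N ≤ E ^ A * 2 ^ (Fintype.card α * (Λ + I - A)))
    (h2 : A * w < nu xb → A ≤ Λ ∧ N ≤ E ^ A * 2 ^ (Fintype.card α * (Λ - A))) :
    (N : ℝ) * ((2 : ℝ) ^ ((A : ℝ) - Λ - sn7_rho I A)) ^ b * ((2 : ℝ) ^ (I + Λ)) ^ B ≤
      ((2 : ℝ) ^ I) ^ B * (2 : ℝ) ^ (-((Λ - A : ℕ) : ℝ) * ((b : ℝ) - Fintype.card α) / 2 -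
        (sn7_rho I A : ℝ) * Fintype.card α / 8) := by
  have hI0 : (0 : ℝ) < I := by exact_mod_cast (show 0 < I by omega)
  have hd0 : (0 : ℝ) < Fintype.card α := by exact_mod_cast (show 0 < Fintype.card α by omega)
  have eb : ((2 : ℝ) ^ ((A : ℝ) - Λ - sn7_rho I A)) ^ b =
      (2 : ℝ) ^ (((A : ℝ) - Λ - sn7_rho I A) * b) := by
    rw [← Real.rpow_natCast, ← Real.rpow_mul (by norm_num)]
  have eB : ((2 : ℝ) ^ (I + Λ)) ^ B = (2 : ℝ) ^ (((I : ℝ) + Λ) * B) := by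
    rw [Real.rpow_mul (by norm_num), Real.rpow_natCast]
    congr 1
    rw [← Real.rpow_natCast]; push_cast; rfl
  have eI : ((2 : ℝ) ^ I) ^ B = (2 : ℝ) ^ ((I : ℝ) * B) := by
    rw [Real.rpow_mul (by norm_num), Real.rpow_natCast, Real.rpow_natCast]
  rw [eb, eB, eI]
  by_cases hc : A * w < nu xb
  · obtain ⟨hA, hN⟩ := h2 hc
    have hNR : (N : ℝ) ≤ (E : ℝ) ^ A * (2 : ℝ) ^ ((Fintype.card α : ℝ) * ((Λ : ℝ) - A)) := by
      have h3 : (N : ℝ) ≤ (E : ℝ) ^ A * (2 : ℝ) ^ (Fintype.card α * (Λ - A)) := by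
        exact_mod_cast hN
      have e : (2 : ℝ) ^ ((Fintype.card α : ℝ) * ((Λ : ℝ) - A)) =
          (2 : ℝ) ^ (Fintype.card α * (Λ - A)) := by
        rw [← Real.rpow_natCast]; congr 1
        push_cast [Nat.cast_sub hA]; ring
      rw [e]; exact h3
    have main := term_bound1 (Λ := Λ) hI hd hdb hJ hB hBI (sn7_rho_ge hI A)
      (sn7_rho_le_self hI A) hA (Nat.cast_nonneg E) hE
    refine le_trans ?_ main
    gcongr
  · push Not at hc
    obtain ⟨hA, hN⟩ := h1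
    have hNR : (N : ℝ) ≤ (E : ℝ) ^ A * (2 : ℝ) ^ ((Fintype.card α : ℝ) * ((Λ : ℝ) + I - A)) := by
      have h3 : (N : ℝ) ≤ (E : ℝ) ^ A * (2 : ℝ) ^ (Fintype.card α * (Λ + I - A)) := by
        exact_mod_cast hN
      have e : (2 : ℝ) ^ ((Fintype.card α : ℝ) * ((Λ : ℝ) + I - A)) =
          (2 : ℝ) ^ (Fintype.card α * (Λ + I - A)) := by
        rw [← Real.rpow_natCast]; congr 1
        push_cast [Nat.cast_sub hA]; ring
      rw [e]; exact h3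
    have hA60 : 60 * (I : ℝ) ^ 2 ≤ A := by
      have h3 : (nu xb : ℝ) ≤ A * w := by exact_mod_cast hc
      have h4 : (A : ℝ) * w ≤ A * (ω * Fintype.card α) := by gcongr
      have h5 : δ * Fintype.card α ≤ A * (ω * Fintype.card α) := by linarith
      have h6 : δ ≤ A * ω := by
        have : δ * Fintype.card α ≤ (A * ω) * Fintype.card α := by linarith
        exact le_of_mul_le_mul_right this hd0
      have h7 : ω * (60 * (I : ℝ) ^ 2) ≤ ω * A := by linarith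
      exact le_of_mul_le_mul_left h7 hω
    have hρI : 60 * I ≤ sn7_rho I A := by
      have h3 := sn7_rho_ge hI A
      have h4 : 60 * I ^ 2 ≤ A := by exact_mod_cast hA60
      have h5 : I * (60 * I) ≤ I * sn7_rho I A := by
        calc I * (60 * I) = 60 * I ^ 2 := by ring
          _ ≤ A := h4
          _ ≤ _ := h3
      exact Nat.le_of_mul_le_mul_left h5 (by omega)
    have main := term_bound2 (Λ := Λ) hI hd hdb hb4 hJ hB hBI (sn7_rho_ge hI A)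
      (sn7_rho_le_self hI A) hA hρI (Nat.cast_nonneg E) hE
    refine le_trans ?_ main
    gcongr

/-- the final sum over `A` -/
theorem sn7_final {d b I Λ : ℕ} (hI : 1 ≤ I) (hd1 : 1 ≤ d) (hdb : d ≤ b) {T : ℝ} (hT0 : 0 < T)
    (hΛ1 : (Λ : ℝ) ≤ d) (g2 : ((d : ℝ) + I) * (2 : ℝ) ^ (-(d : ℝ) / (16 * I)) ≤ 1 / 4) :
    ∑ A ∈ range (Λ + I + 1), 2 * (T * (2 : ℝ) ^ (-((Λ - A : ℕ) : ℝ) * ((b : ℝ) - d) / 2 -
        (sn7_rho I A : ℝ) * d / 8)) ≤
      3 * T * ((2 : ℝ) ^ (-((b : ℝ) - d) * Λ / 4) + (2 : ℝ) ^ (-(d : ℝ) * Λ / (32 * I))) := by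
  obtain ⟨X, hX⟩ : ∃ X : ℝ, X = (2 : ℝ) ^ (-((b : ℝ) - d) * Λ / 4) := ⟨_, rfl⟩
  obtain ⟨Y, hY⟩ : ∃ Y : ℝ, Y = (2 : ℝ) ^ (-(d : ℝ) * Λ / (32 * I)) := ⟨_, rfl⟩
  obtain ⟨R, hR⟩ : ∃ R : ℝ, R = (2 : ℝ) ^ (-(d : ℝ) / (16 * I)) := ⟨_, rfl⟩
  have hX0 : 0 < X := by rw [hX]; exact Real.rpow_pos_of_pos (by norm_num) _
  have hY0 : 0 < Y := by rw [hY]; exact Real.rpow_pos_of_pos (by norm_num) _
  have hR0 : 0 < R := by rw [hR]; exact Real.rpow_pos_of_pos (by norm_num) _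
  rw [sum_range_succ']
  have hzero : 2 * (T * (2 : ℝ) ^ (-((Λ - 0 : ℕ) : ℝ) * ((b : ℝ) - d) / 2 -
      (sn7_rho I 0 : ℝ) * d / 8)) ≤ 2 * (T * X) := by
    have hbd : (0 : ℝ) ≤ (b : ℝ) - d := by
      have : (d : ℝ) ≤ b := by exact_mod_cast hdb
      linarith
    have h1 : (0 : ℝ) ≤ (sn7_rho I 0 : ℝ) * d / 8 := by positivity
    have h2 : (0 : ℝ) ≤ ((b : ℝ) - d) * Λ := by positivity
    have h3 : -((Λ - 0 : ℕ) : ℝ) * ((b : ℝ) - d) / 2 - (sn7_rho I 0 : ℝ) * d / 8 ≤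
        -((b : ℝ) - d) * Λ / 4 := by
      rw [Nat.sub_zero]
      linarith
    rw [hX]
    have := Real.rpow_le_rpow_of_exponent_le (show (1 : ℝ) ≤ 2 by norm_num) h3
    gcongr
  have hsucc : ∑ A ∈ range (Λ + I), 2 * (T * (2 : ℝ) ^ (-((Λ - (A + 1) : ℕ) : ℝ) *
      ((b : ℝ) - d) / 2 - (sn7_rho I (A + 1) : ℝ) * d / 8)) ≤ (T * (X + Y)) / 2 := by
    have h1 : ∀ A ∈ range (Λ + I), 2 * (T * (2 : ℝ) ^ (-((Λ - (A + 1) : ℕ) : ℝ) *
        ((b : ℝ) - d) / 2 - (sn7_rho I (A + 1) : ℝ) * d / 8)) ≤ 2 * (T * ((X + Y) * R)) := by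
      intro A _
      have := sn7_G (Λ := Λ) (A := A + 1) hI hd1 hdb (by omega)
      rw [← hX, ← hY, ← hR] at this
      gcongr
    refine (sum_le_card_nsmul _ _ _ h1).trans ?_
    rw [nsmul_eq_mul, card_range]
    have h2 : ((Λ + I : ℕ) : ℝ) * R ≤ 1 / 4 := by
      refine le_trans ?_ g2
      rw [← hR]
      push_cast
      gcongr
    calc ((Λ + I : ℕ) : ℝ) * (2 * (T * ((X + Y) * R)))
        = 2 * (T * (X + Y)) * (((Λ + I : ℕ) : ℝ) * R) := by ring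
      _ ≤ 2 * (T * (X + Y)) * (1 / 4) := by
          apply mul_le_mul_of_nonneg_left h2 (by positivity)
      _ = (T * (X + Y)) / 2 := by ring
  rw [← hX, ← hY]
  have hTX : 0 < T * X := by positivity
  have hTY : 0 < T * Y := by positivity
  calc _ ≤ (T * (X + Y)) / 2 + 2 * (T * X) := add_le_add hsucc hzero
    _ ≤ 3 * T * (X + Y) := by nlinarith

/-- the error term -/
theorem sn7_err {d w I : ℕ} {q ω L0 c c' : ℝ} (hqe : q = Real.exp (-L0)) (hL0 : 0 < L0)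
    (hw2 : ω * d - 1 ≤ w) (hc'1 : c' ≤ c) (hc'2 : c' ≤ ω * L0) :
    2 ^ I * q ^ w + Real.exp (-c * d) ≤ (2 ^ I / q + 1) * Real.exp (-c' * d) := by
  have hd : (0 : ℝ) ≤ d := Nat.cast_nonneg d
  have e1 : q ^ w ≤ 1 / q * Real.exp (-c' * d) := by
    rw [hqe, ← Real.exp_nat_mul, one_div, ← Real.exp_neg, ← Real.exp_add]
    apply Real.exp_le_exp.mpr
    have h1 : (ω * d - 1) * L0 ≤ w * L0 := mul_le_mul_of_nonneg_right hw2 hL0.le
    have h2 : c' * d ≤ ω * L0 * d := mul_le_mul_of_nonneg_right hc'2 hd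
    nlinarith
  have e2 : Real.exp (-c * d) ≤ Real.exp (-c' * d) := by
    apply Real.exp_le_exp.mpr
    have := mul_le_mul_of_nonneg_right hc'1 hd
    linarith
  calc 2 ^ I * q ^ w + Real.exp (-c * d)
      ≤ 2 ^ I * (1 / q * Real.exp (-c' * d)) + Real.exp (-c' * d) := by gcongr
    _ = (2 ^ I / q + 1) * Real.exp (-c' * d) := by ring

/-- the relative error -/
theorem sn7_rel {d b I Λ A : ℕ} {Q c' τ : ℝ} (hI : 1 ≤ I) (hc' : 0 < c') (hQ : 0 < Q)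
    (hτ0 : 0 ≤ τ) (hτ : τ ≤ Q * Real.exp (-c' * d)) (hb4 : b ≤ 4 * d) (hΛ : (Λ : ℝ) ≤ c' / 2 * d)
    (g1 : 4 * (d : ℝ) * Q * Real.exp (-(c' / 2) * d) ≤ Real.log 2) :
    (b : ℝ) * (τ / (2 : ℝ) ^ ((A : ℝ) - Λ - sn7_rho I A)) ≤ Real.log 2 := by
  obtain ⟨z, hz⟩ : ∃ z : ℝ, z = (2 : ℝ) ^ ((A : ℝ) - Λ - sn7_rho I A) := ⟨_, rfl⟩
  have hz0 : 0 < z := by rw [hz]; exact Real.rpow_pos_of_pos (by norm_num) _
  have hd : (0 : ℝ) ≤ d := Nat.cast_nonneg d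
  have hzinv : 1 / z ≤ Real.exp (c' / 2 * d) := by
    rw [hz, one_div, ← Real.rpow_neg (by norm_num)]
    have h1 : -((A : ℝ) - Λ - sn7_rho I A) ≤ c' / 2 * d := by
      have : (sn7_rho I A : ℝ) ≤ A := by exact_mod_cast sn7_rho_le_self hI A
      linarith
    calc (2 : ℝ) ^ (-((A : ℝ) - Λ - sn7_rho I A)) ≤ (2 : ℝ) ^ (c' / 2 * d) :=
          Real.rpow_le_rpow_of_exponent_le (by norm_num) h1
      _ ≤ (Real.exp 1) ^ (c' / 2 * d) := by
          apply Real.rpow_le_rpow (by norm_num) _ (by positivity)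
          have := Real.add_one_le_exp 1
          linarith
      _ = Real.exp (c' / 2 * d) := by rw [← Real.exp_mul, one_mul]
  have hb4R : (b : ℝ) ≤ 4 * d := by exact_mod_cast hb4
  rw [← hz]
  calc (b : ℝ) * (τ / z) = b * (τ * (1 / z)) := by ring
    _ ≤ (4 * d) * ((Q * Real.exp (-c' * d)) * Real.exp (c' / 2 * d)) := by gcongr
    _ = 4 * (d : ℝ) * Q * Real.exp (-(c' / 2) * d) := by
        have : Real.exp (-(c' / 2) * d) = Real.exp (-c' * d) * Real.exp (c' / 2 * d) := by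
          rw [← Real.exp_add]; congr 1; ring
        rw [this]; ring
    _ ≤ Real.log 2 := g1

/-- the sum over one class -/
theorem sn7_cls {α : Type} [Fintype α] [DecidableEq α] {I : ℕ} (hI : 1 ≤ I) {q c : ℝ}
    (hq0 : 0 < q) {w b B Λ A : ℕ} {T G τ : ℝ}
    (S : Finset (AddSubgroup (α → ZMod (2 ^ I))))
    (hS : ∀ K ∈ S, Nat.card K = 2 ^ (I + Λ) ∧ Nat.card (spars I w K) = 2 ^ A)
    (horth : ∀ K : AddSubgroup (α → ZMod (2 ^ I)), ((orth I K).card : ℝ) * Nat.card K ≤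
      Nat.card (spars I w K) * (orth I (spars I w K)).card +
      Nat.card K * q ^ w * 4 ^ Fintype.card α)
    (hτ : τ = 2 ^ I * q ^ w + Real.exp (-c * Fintype.card α))
    (hrel : (b : ℝ) * (τ / (2 : ℝ) ^ ((A : ℝ) - Λ - sn7_rho I A)) ≤ Real.log 2)
    (hG : (S.card : ℝ) * ((2 : ℝ) ^ ((A : ℝ) - Λ - sn7_rho I A)) ^ b *
      ((2 : ℝ) ^ (I + Λ)) ^ B ≤ T * G) :
    ∑ K ∈ S, (2 ^ I * ((orth I K).card / 4 ^ Fintype.card α : ℝ) +
      Real.exp (-c * Fintype.card α)) ^ b * ((2 : ℝ) ^ (I + Λ)) ^ B ≤ 2 * (T * G) := by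
  obtain ⟨z, hz⟩ : ∃ z : ℝ, z = (2 : ℝ) ^ ((A : ℝ) - Λ - sn7_rho I A) := ⟨_, rfl⟩
  have hz0 : 0 < z := by rw [hz]; exact Real.rpow_pos_of_pos (by norm_num) _
  have hτ0 : 0 ≤ τ := by rw [hτ]; positivity
  rw [← hz] at hrel hG
  have hterm : ∀ K ∈ S,
      (2 ^ I * ((orth I K).card / 4 ^ Fintype.card α : ℝ) +
      Real.exp (-c * Fintype.card α)) ^ b * ((2 : ℝ) ^ (I + Λ)) ^ B ≤
      2 * z ^ b * ((2 : ℝ) ^ (I + Λ)) ^ B := by
    intro K hK
    have hp := sn7_p hI hq0 (horth K) (hS K hK).1 (hS K hK).2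
    have hp' : 2 ^ I * ((orth I K).card / 4 ^ Fintype.card α : ℝ) +
        Real.exp (-c * Fintype.card α) ≤ z + τ := by
      rw [hτ, hz]
      linarith
    have h0 : 0 ≤ 2 ^ I * ((orth I K).card / 4 ^ Fintype.card α : ℝ) +
        Real.exp (-c * Fintype.card α) :=
      add_nonneg (mul_nonneg (by positivity) (div_nonneg (Nat.cast_nonneg _) (by positivity)))
        (Real.exp_pos _).le
    have := sn7_pow hz0 hτ0 hrel h0 hp'
    exact mul_le_mul_of_nonneg_right this (by positivity)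
  refine (sum_le_card_nsmul _ _ _ hterm).trans ?_
  rw [nsmul_eq_mul]
  calc _ = 2 * ((S.card : ℝ) * z ^ b * ((2 : ℝ) ^ (I + Λ)) ^ B) := by ring
    _ ≤ _ := mul_le_mul_of_nonneg_left hG (by norm_num)

/-- Task N7: the sum over the possible kernels mod `2 ^ I`. -/
theorem sum_K_bound (I : ℕ) (hI : 1 ≤ I) {θ δ c : ℝ} (hθ : 0 < θ) (hδ : 0 < δ) (hc : 0 < c) :
    ∃ c3 : ℝ, 0 < c3 ∧ ∃ d0 : ℕ, ∀ (α : Type) [Fintype α] [DecidableEq α],
      d0 ≤ Fintype.card α → ∀ b B J Λ : ℕ,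
      (1 + θ) * Fintype.card α ≤ b → b ≤ 4 * Fintype.card α →
      3 * J ≤ 2 * Fintype.card α → 2 * B + Fintype.card α ≤ b → B * I ≤ J + 3 * I →
      (Λ : ℝ) ≤ c3 * Fintype.card α →
      ∀ xb : α → ZMod (2 ^ I), δ * Fintype.card α ≤ nu xb →
      ∀ S : Finset (AddSubgroup (α → ZMod (2 ^ I))),
      (∀ K ∈ S, xb ∈ K ∧ Nat.card K = 2 ^ (I + Λ)) →
      ∑ K ∈ S, (2 ^ I * ((orth I K).card / 4 ^ Fintype.card α : ℝ) +
          Real.exp (-c * Fintype.card α)) ^ b * ((2 : ℝ) ^ (I + Λ)) ^ B ≤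
        3 * ((2 : ℝ) ^ I) ^ B * ((2 : ℝ) ^ (-((b : ℝ) - Fintype.card α) * Λ / 4) +
          (2 : ℝ) ^ (-(Fintype.card α : ℝ) * Λ / (32 * I))) := by
  classical
  obtain ⟨q, hq0, hq1, horth⟩ := orth_le I hI
  have hIR : (1 : ℝ) ≤ I := by exact_mod_cast hI
  have hI0 : (0 : ℝ) < I := by linarith
  obtain ⟨ω₁, hω₁, hcs⟩ := card_sparse I (h := 1 / (24 * (I : ℝ))) (by positivity)
  obtain ⟨ω, hωdef⟩ : ∃ ω, ω = min ω₁ (δ / (60 * (I : ℝ) ^ 2)) := ⟨_, rfl⟩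
  have hω : 0 < ω := by rw [hωdef]; exact lt_min hω₁ (by positivity)
  have hω1 : ω ≤ ω₁ := by rw [hωdef]; exact min_le_left _ _
  have hωδ : ω * (60 * (I : ℝ) ^ 2) ≤ δ := by
    have : ω ≤ δ / (60 * (I : ℝ) ^ 2) := by rw [hωdef]; exact min_le_right _ _
    rwa [le_div_iff₀ (by positivity)] at this
  obtain ⟨L0, hL0def⟩ : ∃ L0, L0 = -Real.log q := ⟨_, rfl⟩
  have hL0 : 0 < L0 := by rw [hL0def]; exact neg_pos.mpr (Real.log_neg hq0 hq1)
  have hqe : q = Real.exp (-L0) := by rw [hL0def, neg_neg, Real.exp_log hq0]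
  obtain ⟨c', hc'def⟩ : ∃ c', c' = min c (ω * L0) := ⟨_, rfl⟩
  have hc' : 0 < c' := by rw [hc'def]; exact lt_min hc (by positivity)
  have hc'1 : c' ≤ c := by rw [hc'def]; exact min_le_left _ _
  have hc'2 : c' ≤ ω * L0 := by rw [hc'def]; exact min_le_right _ _
  have hQ : 0 < (2 : ℝ) ^ I / q + 1 := by positivity
  obtain ⟨d0, hd0⟩ := Filter.eventually_atTop.1
    (((sn7_ev1 (Q := (2 : ℝ) ^ I / q + 1) hc').and (sn7_ev2 hI)).and
      (Filter.eventually_ge_atTop (72 * I)))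
  refine ⟨min (c' / 2) 1, lt_min (by linarith) one_pos, d0, ?_⟩
  intro α _ _ hd b B J Λ hb1 hb4 hJ hB hBI hΛ xb hxb S hS
  obtain ⟨⟨g1, g2⟩, g3⟩ := hd0 (Fintype.card α) hd
  have hd1 : 1 ≤ Fintype.card α := by omega
  have hdR : (1 : ℝ) ≤ Fintype.card α := by exact_mod_cast hd1
  have hdb : Fintype.card α ≤ b := by
    have h : (Fintype.card α : ℝ) ≤ b := by
      have : 0 ≤ θ * Fintype.card α := by positivity
      linarith
    exact_mod_cast h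
  have hΛ1 : (Λ : ℝ) ≤ Fintype.card α := by
    refine hΛ.trans ?_
    have := mul_le_mul_of_nonneg_right (min_le_right (c' / 2) 1)
      (show (0 : ℝ) ≤ Fintype.card α by linarith)
    linarith
  have hΛ2 : (Λ : ℝ) ≤ c' / 2 * Fintype.card α :=
    hΛ.trans (mul_le_mul_of_nonneg_right (min_le_left (c' / 2) 1) (by linarith))
  -- the threshold
  obtain ⟨w, hwdef⟩ : ∃ w, w = ⌊ω * Fintype.card α⌋₊ := ⟨_, rfl⟩
  have hw1 : (w : ℝ) ≤ ω * Fintype.card α := by rw [hwdef]; exact Nat.floor_le (by positivity)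
  have hw2 : ω * Fintype.card α - 1 ≤ w := by
    rw [hwdef]; have := Nat.lt_floor_add_one (ω * (Fintype.card α : ℝ)); linarith
  have hw3 : (w : ℝ) ≤ ω₁ * Fintype.card α :=
    hw1.trans (mul_le_mul_of_nonneg_right hω1 (by linarith))
  -- the error
  obtain ⟨τ, hτdef⟩ : ∃ τ : ℝ, τ = 2 ^ I * q ^ w + Real.exp (-c * Fintype.card α) := ⟨_, rfl⟩
  have hτ0 : 0 ≤ τ := by rw [hτdef]; positivity
  have hτ1 : τ ≤ ((2 : ℝ) ^ I / q + 1) * Real.exp (-c' * Fintype.card α) := by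
    rw [hτdef]; exact sn7_err hqe hL0 hw2 hc'1 hc'2
  have hE := hcs α w hw3
  -- the function `A`
  choose a ha using fun K : AddSubgroup (α → ZMod (2 ^ I)) =>
    exists_card_pow (spars I w K)
  have hnu : 1 ≤ nu xb := by
    have h1 : (0 : ℝ) < nu xb := lt_of_lt_of_le (by positivity) hxb
    exact_mod_cast h1
  have hrange : ∀ K ∈ S, a K ∈ range (Λ + I + 1) := by
    intro K hK
    have := (count_K hI xb hnu w Λ (a K) S hS ⟨K, hK, ha K⟩).1.1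
    rw [mem_range]; omega
  rw [← sum_fiberwise_of_maps_to hrange]
  have hT0 : (0 : ℝ) < ((2 : ℝ) ^ I) ^ B := by positivity
  refine le_trans (sum_le_sum fun A _ => ?_)
    (sn7_final hI hd1 hdb hT0 hΛ1 g2)
  have hfil : S.filter (fun K => a K = A) =
      S.filter (fun K => Nat.card (spars I w K) = 2 ^ A) := by
    ext K
    rw [mem_filter, mem_filter, ha K]
    constructor
    · rintro ⟨k1, k2⟩; exact ⟨k1, by rw [k2]⟩
    · rintro ⟨k1, k2⟩; exact ⟨k1, Nat.pow_right_injective (le_refl 2) k2⟩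
  rw [hfil]
  by_cases hne : (S.filter (fun K => Nat.card (spars I w K) = 2 ^ A)).Nonempty
  · obtain ⟨K0, hK0⟩ := hne
    rw [mem_filter] at hK0
    have hcnt := count_K hI xb hnu w Λ A S hS ⟨K0, hK0.1, hK0.2⟩
    refine sn7_cls (A := A) hI hq0 _ (fun K hK => ?_) (horth α w) hτdef
      (sn7_rel (A := A) hI hc' hQ hτ0 hτ1 hb4 hΛ2 g1) ?_
    · rw [mem_filter] at hK
      exact ⟨(hS K hK.1).2, hK.2⟩
    · exact sn7_class hI hω hωδ hw1 g3 hdb hb4 hJ hB hBI xb hxb hE hcnt.1 hcnt.2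
  · rw [not_nonempty_iff_eq_empty] at hne
    rw [hne, sum_empty]
    positivity

end Vale.Agent.P160
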