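import Vale.Agent.P160.SN1
import Vale.Agent.P160.SN7

namespace Vale.Agent.P160

open Finset

/-! ### auxiliary lemmas -/

theorem sn8_isUnit_cast {I J : ℕ} (hI : 1 ≤ I) (hIJ : I ≤ J) (y : ZMod (2 ^ J)) :
    IsUnit (y.cast : ZMod (2 ^ I)) ↔ IsUnit y := by
  have h1 : (y.cast : ZMod (2 ^ I)) = ((y.val : ℕ) : ZMod (2 ^ I)) := (ZMod.natCast_val y).symm
  have h2 : y = ((y.val : ℕ) : ZMod (2 ^ J)) := (ZMod.natCast_zmod_val y).symm
  rw [h1, ZMod.isUnit_iff_coprime]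
  conv_rhs => rw [h2, ZMod.isUnit_iff_coprime]
  rw [Nat.coprime_pow_right_iff (by omega), Nat.coprime_pow_right_iff (by omega)]

theorem sn8_nu_cast {α : Type} [Fintype α] {I J : ℕ} (hI : 1 ≤ I) (hIJ : I ≤ J)
    (x : α → ZMod (2 ^ J)) : nu (fun i => ((x i).cast : ZMod (2 ^ I))) = nu x := by
  unfold nu
  congr 1
  ext i
  simp only [mem_filter, mem_univ, true_and]
  exact sn8_isUnit_cast hI hIJ (x i)

theorem sn8_walk_cast {α : Type} [Fintype α] {I J : ℕ} (hIJ : I ≤ J) (a : α → Fin 4)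
    (x : α → ZMod (2 ^ J)) (h : walk a x = 0) :
    walk a (fun i => ((x i).cast : ZMod (2 ^ I))) = 0 := by
  have h1 := congrArg (ZMod.castHom (pow_dvd_pow 2 hIJ) (ZMod (2 ^ I))) h
  rw [map_zero] at h1
  unfold walk at h1
  rw [map_sum] at h1
  unfold walk
  rw [← h1]
  refine sum_congr rfl fun i _ => ?_
  rw [map_mul, map_intCast]
  rfl

theorem sn8_card_ker {α β : Type} [Fintype α] [Fintype β] [DecidableEq α] (I : ℕ)
    (ω : β → α → Fin 4) : Nat.card (kerG I ω) = (kerN (2 ^ I) (hm ω)).card := by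
  refine Nat.subtype_card _ fun u => ?_
  unfold kerN
  rw [mem_filter]
  exact ⟨fun h => h.2, fun h => ⟨mem_univ _, h⟩⟩

theorem sn8_order {α : Type} [Fintype α] {I : ℕ} (xb : α → ZMod (2 ^ I)) (h : 0 < nu xb) :
    Nat.card (AddSubgroup.zmultiples xb) = 2 ^ I := by
  rw [Nat.card_zmultiples]
  apply Nat.dvd_antisymm
  · apply addOrderOf_dvd_of_nsmul_eq_zero
    funext i
    simp
  · unfold nu at h
    obtain ⟨i, hi⟩ := card_pos.1 h
    replace hi : IsUnit (xb i) := by simpa using hi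
    have h1 := addOrderOf_nsmul_eq_zero xb
    have h2 := congrFun h1 i
    rw [Pi.smul_apply, Pi.zero_apply, nsmul_eq_mul] at h2
    have h3 := (hi.mul_left_eq_zero).1 h2
    exact (ZMod.natCast_eq_zero_iff _ _).1 h3

open Classical in
/-- number of matrices with all rows orthogonal to `K` and to `x` -/
theorem sn8_rows {α β : Type} [Fintype α] [DecidableEq α] [Fintype β] [DecidableEq β] {I J : ℕ}
    (x : α → ZMod (2 ^ J)) (K : AddSubgroup (α → ZMod (2 ^ I)))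
    (W : Finset (β → α → Fin 4)) (hW : ∀ ω ∈ W, ∀ i, ω i ∈ orth I K ∧ walk (ω i) x = 0) :
    W.card ≤ ((orth I K).filter (fun a => walk a x = 0)).card ^ Fintype.card β := by
  have hsub : W ⊆ Fintype.piFinset
      (fun _ : β => (orth I K).filter (fun a => walk a x = 0)) := by
    intro ω hω
    rw [Fintype.mem_piFinset]
    intro i
    rw [mem_filter]
    exact hW ω hω i
  calc W.card ≤ (Fintype.piFinset
      (fun _ : β => (orth I K).filter (fun a => walk a x = 0))).card := card_le_card hsub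
    _ = _ := by rw [Fintype.card_piFinset, prod_const, card_univ]

/-- the function whose powers are summed in `sum_K_bound` -/
noncomputable def sn8_g (c : ℝ) {α : Type} [Fintype α] [DecidableEq α] (I : ℕ)
    (K : AddSubgroup (α → ZMod (2 ^ I))) : ℝ :=
  2 ^ I * ((orth I K).card / 4 ^ Fintype.card α : ℝ) + Real.exp (-(c / 2) * Fintype.card α)

theorem sn8_g_nonneg (c : ℝ) {α : Type} [Fintype α] [DecidableEq α] (I : ℕ)
    (K : AddSubgroup (α → ZMod (2 ^ I))) : 0 ≤ sn8_g c I K := by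
  unfold sn8_g; positivity

open Classical in
theorem sn8_rows_le {α β : Type} [Fintype α] [DecidableEq α] [Fintype β] [DecidableEq β]
    {I J : ℕ} (hI : 1 ≤ I) (hIJ : I ≤ J) {c : ℝ}
    (hJ : (J : ℝ) * Real.exp (-c * Fintype.card α) ≤ Real.exp (-(c / 2) * Fintype.card α))
    (x : α → ZMod (2 ^ J)) (hx : GoodX I (Real.exp (-c * Fintype.card α)) x)
    (S : Finset (AddSubgroup (α → ZMod (2 ^ I))))
    (hS : ∀ K ∈ S, (fun i => ((x i).cast : ZMod (2 ^ I))) ∈ K)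
    (W : Finset (β → α → Fin 4)) (κ : (β → α → Fin 4) → AddSubgroup (α → ZMod (2 ^ I)))
    (hκ : ∀ ω ∈ W, κ ω ∈ S)
    (hW : ∀ ω ∈ W, ∀ i, ω i ∈ orth I (κ ω) ∧ walk (ω i) x = 0) :
    (W.card : ℝ) ≤ (1 / 2 ^ J) ^ Fintype.card β * 4 ^ (Fintype.card β * Fintype.card α) *
      ∑ K ∈ S, sn8_g c I K ^ Fintype.card β := by
  have h1 : W.card = ∑ K ∈ S, (W.filter fun ω => κ ω = K).card :=
    card_eq_sum_card_fiberwise fun ω hω => hκ ω hω
  rw [h1, Nat.cast_sum, mul_sum]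
  refine sum_le_sum fun K hK => ?_
  have h2 := sn8_rows x K (W.filter fun ω => κ ω = K) (by
    intro ω hω i
    rw [mem_filter] at hω
    have := hW ω hω.1 i
    rwa [hω.2] at this)
  have h3 := row_bound hI hIJ (Real.exp_pos _).le x hx K (hS K hK)
  set R : ℕ := ((orth I K).filter (fun a => walk a x = 0)).card with hR
  have h4 : (R : ℝ) ≤ 1 / 2 ^ J * 4 ^ Fintype.card α * sn8_g c I K := by
    have hp : (0 : ℝ) < 2 ^ J := by positivity
    have h4p : (0 : ℝ) < 4 ^ Fintype.card α := by positivity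
    have e1 : (1 / 2 ^ J * 4 ^ Fintype.card α * sn8_g c I K : ℝ)
        = (2 ^ I * (orth I K).card + Real.exp (-(c / 2) * Fintype.card α) * 4 ^ Fintype.card α)
          / 2 ^ J := by
      unfold sn8_g
      field_simp
    rw [e1, le_div_iff₀ hp]
    refine h3.trans ?_
    have := mul_le_mul_of_nonneg_right hJ h4p.le
    linarith
  calc ((W.filter fun ω => κ ω = K).card : ℝ) ≤ ((R ^ Fintype.card β : ℕ) : ℝ) := by
        exact_mod_cast h2
    _ = (R : ℝ) ^ Fintype.card β := by push_cast; rfl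
    _ ≤ (1 / 2 ^ J * 4 ^ Fintype.card α * sn8_g c I K) ^ Fintype.card β :=
        pow_le_pow_left₀ (Nat.cast_nonneg _) h4 _
    _ = _ := by
        rw [mul_pow, mul_pow, ← pow_mul, mul_comm (Fintype.card α)]

theorem sn8_geom {r : ℝ} (h0 : 0 ≤ r) (h1 : r ≤ 1 / 7) (n : ℕ) :
    ∑ k ∈ range n, r ^ k ≤ 7 / 6 := by
  have h2 : r < 1 := by linarith
  calc ∑ k ∈ range n, r ^ k ≤ (1 - r)⁻¹ := by
        rw [← tsum_geometric_of_lt_one h0 h2]
        exact (summable_geometric_of_lt_one h0 h2).sum_le_tsum _ fun k _ => pow_nonneg h0 k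
    _ ≤ 7 / 6 := by
        rw [inv_le_comm₀ (by linarith) (by norm_num)]
        linarith

theorem sn8_two_rpow {y : ℝ} (h : 3 ≤ y) : (2 : ℝ) ^ (-y) ≤ 1 / 8 := by
  have h1 : (2 : ℝ) ^ (-y) ≤ (2 : ℝ) ^ (-3 : ℝ) :=
    Real.rpow_le_rpow_of_exponent_le (by norm_num) (by linarith)
  have h2 : (2 : ℝ) ^ (-3 : ℝ) = 1 / 8 := by
    rw [Real.rpow_neg (by norm_num)]
    norm_num
  exact h1.trans h2.le

set_option linter.unusedSectionVars false

section main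

variable {α β : Type} [Fintype α] [DecidableEq α] [Fintype β] [DecidableEq β]

theorem sn8_mem {I J : ℕ} (hIJ : I ≤ J) (x : α → ZMod (2 ^ J)) (ω : β → α → Fin 4)
    (h : ∀ i, walk (ω i) x = 0) : (fun i => ((x i).cast : ZMod (2 ^ I))) ∈ kerG I ω :=
  fun i => sn8_walk_cast hIJ (ω i) x (h i)

theorem sn8_orth {I : ℕ} (ω : β → α → Fin 4) (K : AddSubgroup (α → ZMod (2 ^ I)))
    (hK : K ≤ kerG I ω) (i : β) : ω i ∈ orth I K := by
  classical
  unfold orth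
  exact mem_filter.2 ⟨mem_univ _, fun k hk => hK hk i⟩

theorem sn8_exists {I : ℕ} (xb : α → ZMod (2 ^ I)) (hnu : 0 < nu xb) (ω : β → α → Fin 4)
    (h : xb ∈ kerG I ω) : ∃ Λ : ℕ, (kerN (2 ^ I) (hm ω)).card = 2 ^ (I + Λ) := by
  obtain ⟨A, hA⟩ := exists_card_pow (kerG I ω)
  have h1 : AddSubgroup.zmultiples xb ≤ kerG I ω := by
    rw [AddSubgroup.zmultiples_le]; exact h
  have h2 := AddSubgroup.card_dvd_of_le h1
  rw [sn8_order xb hnu, hA] at h2
  have h3 : I ≤ A := (Nat.pow_dvd_pow_iff_le_right (by norm_num)).1 h2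
  refine ⟨A - I, ?_⟩
  rw [← sn8_card_ker, hA, Nat.add_sub_cancel' h3]

/-- the conclusion of `sum_K_bound` for one `α` -/
def SN8H (α : Type) [Fintype α] [DecidableEq α] (I : ℕ) (c : ℝ) (xb : α → ZMod (2 ^ I))
    (b B Λ : ℕ) : Prop :=
  ∀ S : Finset (AddSubgroup (α → ZMod (2 ^ I))),
    (∀ K ∈ S, xb ∈ K ∧ Nat.card K = 2 ^ (I + Λ)) →
    ∑ K ∈ S, sn8_g c I K ^ b * ((2 : ℝ) ^ (I + Λ)) ^ B ≤
      3 * ((2 : ℝ) ^ I) ^ B * ((2 : ℝ) ^ (-((b : ℝ) - Fintype.card α) * Λ / 4) +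
        (2 : ℝ) ^ (-(Fintype.card α : ℝ) * Λ / (32 * I)))

open Classical in
theorem sn8_near_one {I J : ℕ} (hI : 1 ≤ I) (hIJ : I ≤ J) {c : ℝ}
    (hJ : (J : ℝ) * Real.exp (-c * Fintype.card α) ≤ Real.exp (-(c / 2) * Fintype.card α))
    (x : α → ZMod (2 ^ J)) (hx : GoodX I (Real.exp (-c * Fintype.card α)) x) (B Λ : ℕ)
    (H : SN8H α I c (fun i => ((x i).cast : ZMod (2 ^ I))) (Fintype.card β) B Λ) :
    ((univ.filter (fun ω : β → α → Fin 4 => (∀ i, walk (ω i) x = 0) ∧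
        (kerN (2 ^ I) (hm ω)).card = 2 ^ (I + Λ))).card : ℝ) * ((2 : ℝ) ^ (I + Λ)) ^ B ≤
      (1 / 2 ^ J) ^ Fintype.card β * 4 ^ (Fintype.card β * Fintype.card α) *
        (3 * ((2 : ℝ) ^ I) ^ B * ((2 : ℝ) ^ (-((Fintype.card β : ℝ) - Fintype.card α) * Λ / 4) +
          (2 : ℝ) ^ (-(Fintype.card α : ℝ) * Λ / (32 * I)))) := by
  set W : Finset (β → α → Fin 4) := univ.filter (fun ω => (∀ i, walk (ω i) x = 0) ∧
        (kerN (2 ^ I) (hm ω)).card = 2 ^ (I + Λ)) with hW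
  have hWm : ∀ ω ∈ W, (∀ i, walk (ω i) x = 0) ∧
        (kerN (2 ^ I) (hm ω)).card = 2 ^ (I + Λ) := fun ω hω => by
    rw [hW, mem_filter] at hω; exact hω.2
  clear_value W
  set S : Finset (AddSubgroup (α → ZMod (2 ^ I))) := W.image (kerG I) with hS
  have hSprop : ∀ K ∈ S, (fun i => ((x i).cast : ZMod (2 ^ I))) ∈ K ∧
      Nat.card K = 2 ^ (I + Λ) := by
    intro K hK
    rw [hS, mem_image] at hK
    obtain ⟨ω, hω, rfl⟩ := hK
    exact ⟨sn8_mem hIJ x ω (hWm ω hω).1, by rw [sn8_card_ker]; exact (hWm ω hω).2⟩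
  have h1 := sn8_rows_le (β := β) hI hIJ hJ x hx S (fun K hK => (hSprop K hK).1)
    W (kerG I) (fun ω hω => mem_image_of_mem _ hω) (fun ω hω i =>
      ⟨sn8_orth ω _ le_rfl i, (hWm ω hω).1 i⟩)
  have h2 := H S hSprop
  calc (W.card : ℝ) * ((2 : ℝ) ^ (I + Λ)) ^ B
      ≤ ((1 / 2 ^ J) ^ Fintype.card β * 4 ^ (Fintype.card β * Fintype.card α) *
          ∑ K ∈ S, sn8_g c I K ^ Fintype.card β)
        * ((2 : ℝ) ^ (I + Λ)) ^ B := mul_le_mul_of_nonneg_right h1 (by positivity)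
    _ = (1 / 2 ^ J) ^ Fintype.card β * 4 ^ (Fintype.card β * Fintype.card α) *
        ∑ K ∈ S, sn8_g c I K ^ Fintype.card β * ((2 : ℝ) ^ (I + Λ)) ^ B := by
        rw [← sum_mul]; ring
    _ ≤ _ := mul_le_mul_of_nonneg_left h2 (by positivity)

open Classical in
theorem sn8_split {I J : ℕ} (x : α → ZMod (2 ^ J)) (B L : ℕ)
    (hex : ∀ ω : β → α → Fin 4, (∀ i, walk (ω i) x = 0) →
      ∃ Λ : ℕ, (kerN (2 ^ I) (hm ω)).card = 2 ^ (I + Λ)) :
    (∑ ω : β → α → Fin 4, if (∀ i, walk (ω i) x = 0) ∧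
            (kerN (2 ^ I) (hm ω)).card < 2 ^ (I + L) then
          ((kerN (2 ^ I) (hm ω)).card : ℝ) ^ B else 0) ≤
      ∑ Λ ∈ range L, ((univ.filter (fun ω : β → α → Fin 4 => (∀ i, walk (ω i) x = 0) ∧
        (kerN (2 ^ I) (hm ω)).card = 2 ^ (I + Λ))).card : ℝ) * ((2 : ℝ) ^ (I + Λ)) ^ B := by
  have h1 : ∀ Λ, ((univ.filter (fun ω : β → α → Fin 4 => (∀ i, walk (ω i) x = 0) ∧
        (kerN (2 ^ I) (hm ω)).card = 2 ^ (I + Λ))).card : ℝ) * ((2 : ℝ) ^ (I + Λ)) ^ B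
      = ∑ ω : β → α → Fin 4, if (∀ i, walk (ω i) x = 0) ∧
        (kerN (2 ^ I) (hm ω)).card = 2 ^ (I + Λ) then ((2 : ℝ) ^ (I + Λ)) ^ B else 0 := by
    intro Λ
    rw [← sum_filter, sum_const, nsmul_eq_mul]
  simp only [h1]
  rw [sum_comm]
  refine sum_le_sum fun ω _ => ?_
  have hnn : ∀ Λ ∈ range L, 0 ≤ (if (∀ i, walk (ω i) x = 0) ∧
        (kerN (2 ^ I) (hm ω)).card = 2 ^ (I + Λ) then ((2 : ℝ) ^ (I + Λ)) ^ B else 0) := by
    intro Λ _
    split_ifs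
    · positivity
    · exact le_rfl
  by_cases hω : (∀ i, walk (ω i) x = 0) ∧ (kerN (2 ^ I) (hm ω)).card < 2 ^ (I + L)
  · rw [if_pos hω]
    obtain ⟨Λ, hΛ⟩ := hex ω hω.1
    have h2 : Λ < L := by
      have h3 := hω.2
      rw [hΛ] at h3
      have := (Nat.pow_lt_pow_iff_right (by norm_num : 1 < 2)).1 h3
      omega
    refine le_trans ?_ (single_le_sum hnn (mem_range.2 h2))
    rw [if_pos ⟨hω.1, hΛ⟩, hΛ]
    push_cast
    exact le_rfl
  · rw [if_neg hω]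
    exact sum_nonneg hnn

theorem sn8_near {I J : ℕ} (hI : 1 ≤ I) (hIJ : I ≤ J) {c : ℝ}
    (hJ : (J : ℝ) * Real.exp (-c * Fintype.card α) ≤ Real.exp (-(c / 2) * Fintype.card α))
    (x : α → ZMod (2 ^ J)) (hx : GoodX I (Real.exp (-c * Fintype.card α)) x) (B L : ℕ)
    (hnu : 0 < nu (fun i => ((x i).cast : ZMod (2 ^ I))))
    (H : ∀ Λ < L, SN8H α I c (fun i => ((x i).cast : ZMod (2 ^ I))) (Fintype.card β) B Λ)
    (hr1 : (2 : ℝ) ^ (-((Fintype.card β : ℝ) - Fintype.card α) / 4) ≤ 1 / 7)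
    (hr2 : (2 : ℝ) ^ (-(Fintype.card α : ℝ) / (32 * I)) ≤ 1 / 7) :
    (∑ ω : β → α → Fin 4, if (∀ i, walk (ω i) x = 0) ∧
            (kerN (2 ^ I) (hm ω)).card < 2 ^ (I + L) then
          ((kerN (2 ^ I) (hm ω)).card : ℝ) ^ B else 0) ≤
          8 * ((2 : ℝ) ^ I) ^ B * (1 / 2 ^ J) ^ Fintype.card β *
            4 ^ (Fintype.card β * Fintype.card α) := by
  classical
  have h0 := sn8_split (I := I) (β := β) x B L fun ω hω =>
    sn8_exists _ hnu ω (sn8_mem hIJ x ω hω)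
  have h1 : ∀ Λ ∈ range L, _ := fun Λ hΛ =>
    sn8_near_one (β := β) hI hIJ hJ x hx B Λ (H Λ (mem_range.1 hΛ))
  have hg1 : ∑ Λ ∈ range L, (2 : ℝ) ^ (-((Fintype.card β : ℝ) - Fintype.card α) * Λ / 4)
      ≤ 7 / 6 := by
    refine le_trans (le_of_eq (sum_congr rfl fun Λ _ => ?_)) (sn8_geom (by positivity) hr1 L)
    rw [← Real.rpow_natCast, ← Real.rpow_mul (by norm_num)]
    congr 1
    ring
  have hg2 : ∑ Λ ∈ range L, (2 : ℝ) ^ (-(Fintype.card α : ℝ) * Λ / (32 * I)) ≤ 7 / 6 := by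
    refine le_trans (le_of_eq (sum_congr rfl fun Λ _ => ?_)) (sn8_geom (by positivity) hr2 L)
    rw [← Real.rpow_natCast, ← Real.rpow_mul (by norm_num)]
    congr 1
    ring
  have h2 := h0.trans (sum_le_sum h1)
  rw [← mul_sum, ← mul_sum, sum_add_distrib] at h2
  refine h2.trans ?_
  have hpos : (0 : ℝ) ≤ (1 / 2 ^ J) ^ Fintype.card β *
    4 ^ (Fintype.card β * Fintype.card α) * (3 * ((2 : ℝ) ^ I) ^ B) := by positivity
  have h3 := mul_le_mul_of_nonneg_left (add_le_add hg1 hg2) hpos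
  have hpos2 : (0 : ℝ) ≤ (1 / 2 ^ J) ^ Fintype.card β *
    4 ^ (Fintype.card β * Fintype.card α) * ((2 : ℝ) ^ I) ^ B := by positivity
  calc _ = (1 / 2 ^ J) ^ Fintype.card β * 4 ^ (Fintype.card β * Fintype.card α) *
        (3 * ((2 : ℝ) ^ I) ^ B) *
        (∑ Λ ∈ range L, (2 : ℝ) ^ (-((Fintype.card β : ℝ) - Fintype.card α) * Λ / 4) +
          ∑ Λ ∈ range L, (2 : ℝ) ^ (-(Fintype.card α : ℝ) * Λ / (32 * I))) := by ring
    _ ≤ _ := h3
    _ = 7 * ((1 / 2 ^ J) ^ Fintype.card β *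
          4 ^ (Fintype.card β * Fintype.card α) * ((2 : ℝ) ^ I) ^ B) := by ring
    _ ≤ 8 * ((1 / 2 ^ J) ^ Fintype.card β *
          4 ^ (Fintype.card β * Fintype.card α) * ((2 : ℝ) ^ I) ^ B) := by linarith
    _ = _ := by ring

theorem sn8_tail {I J : ℕ} (hI : 1 ≤ I) (hIJ : I ≤ J) {c : ℝ}
    (hJ : (J : ℝ) * Real.exp (-c * Fintype.card α) ≤ Real.exp (-(c / 2) * Fintype.card α))
    (x : α → ZMod (2 ^ J)) (hx : GoodX I (Real.exp (-c * Fintype.card α)) x) (L : ℕ)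
    (hnu : 0 < nu (fun i => ((x i).cast : ZMod (2 ^ I))))
    (H : SN8H α I c (fun i => ((x i).cast : ZMod (2 ^ I))) (Fintype.card β) 0 L) :
    ((univ.filter (fun ω : β → α → Fin 4 => (∀ i, walk (ω i) x = 0) ∧
          2 ^ (I + L) ≤ (kerN (2 ^ I) (hm ω)).card)).card : ℝ) ≤
      (1 / 2 ^ J) ^ Fintype.card β * 4 ^ (Fintype.card β * Fintype.card α) *
        (3 * ((2 : ℝ) ^ (-((Fintype.card β : ℝ) - Fintype.card α) * L / 4) +
          (2 : ℝ) ^ (-(Fintype.card α : ℝ) * L / (32 * I)))) := by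
  classical
  set xb : α → ZMod (2 ^ I) := fun i => ((x i).cast : ZMod (2 ^ I)) with hxb
  have hord := sn8_order xb hnu
  set W : Finset (β → α → Fin 4) := univ.filter (fun ω => (∀ i, walk (ω i) x = 0) ∧
          2 ^ (I + L) ≤ (kerN (2 ^ I) (hm ω)).card) with hW
  have hWm : ∀ ω ∈ W, (∀ i, walk (ω i) x = 0) ∧
        2 ^ (I + L) ≤ (kerN (2 ^ I) (hm ω)).card := fun ω hω => by
    rw [hW, mem_filter] at hω; exact hω.2
  clear_value W
  have hch : ∀ ω : β → α → Fin 4, ∃ K' : AddSubgroup (α → ZMod (2 ^ I)), ω ∈ W →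
      (xb ∈ K' ∧ K' ≤ kerG I ω ∧ Nat.card K' = 2 ^ (I + L)) := by
    intro ω
    by_cases hω : ω ∈ W
    · have h1 : AddSubgroup.zmultiples xb ≤ kerG I ω := by
        rw [AddSubgroup.zmultiples_le]; exact sn8_mem hIJ x ω (hWm ω hω).1
      obtain ⟨K', h2, h3, h4⟩ := exists_between _ _ h1 L (by
        rw [hord, sn8_card_ker, ← pow_add, add_comm L I]; exact (hWm ω hω).2)
      refine ⟨K', fun _ => ⟨h2 (AddSubgroup.mem_zmultiples xb), h3, ?_⟩⟩
      rw [h4, hord, ← pow_add, add_comm L I]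
    · exact ⟨⊥, fun h => absurd h hω⟩
  choose κ hκ using hch
  set S : Finset (AddSubgroup (α → ZMod (2 ^ I))) := W.image κ with hS
  have hSprop : ∀ K ∈ S, xb ∈ K ∧ Nat.card K = 2 ^ (I + L) := by
    intro K hK
    rw [hS, mem_image] at hK
    obtain ⟨ω, hω, rfl⟩ := hK
    exact ⟨(hκ ω hω).1, (hκ ω hω).2.2⟩
  have h1 := sn8_rows_le (β := β) hI hIJ hJ x hx S (fun K hK => (hSprop K hK).1)
    W κ (fun ω hω => mem_image_of_mem _ hω) (fun ω hω i =>
      ⟨sn8_orth ω _ (hκ ω hω).2.1 i, (hWm ω hω).1 i⟩)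
  have h2 := H S hSprop
  simp only [pow_zero, mul_one] at h2
  exact h1.trans (mul_le_mul_of_nonneg_left h2 (by positivity))

end main

/-- the numerical estimate for the tail -/
theorem sn8_num {I : ℕ} (hI : 1 ≤ I) {θ c3 c8 b d L : ℝ} (hθ : 0 < θ) (hc3 : 0 < c3)
    (hc8 : c8 = min (c3 * θ / 16) (c3 / (128 * I))) (hc8p : 0 < c8) (hd : 1 ≤ d)
    (hbd : θ * d ≤ b - d) (hL : c3 * d / 2 ≤ L) (h5 : 3 / c8 ≤ d) :
    3 * ((2 : ℝ) ^ (-(b - d) * L / 4) + (2 : ℝ) ^ (-d * L / (32 * I))) ≤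
        (2 : ℝ) ^ (-c8 * d ^ 2) := by
  have hI0 : (0 : ℝ) < I := by exact_mod_cast hI
  have hd0 : 0 ≤ d := by linarith
  have a1 : 2 * c8 * d ^ 2 ≤ (b - d) * L / 4 := by
    have h4 : c8 ≤ c3 * θ / 16 := hc8 ▸ min_le_left _ _
    have h5 : θ * d * (c3 * d / 2) ≤ (b - d) * L :=
      mul_le_mul hbd hL (by positivity) (le_trans (by positivity) hbd)
    have h6 : c8 * d ^ 2 ≤ c3 * θ / 16 * d ^ 2 :=
      mul_le_mul_of_nonneg_right h4 (by positivity)
    have h7 : 2 * (c3 * θ / 16 * d ^ 2) = θ * d * (c3 * d / 2) / 4 := by ring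
    linarith
  have a2 : 2 * c8 * d ^ 2 ≤ d * L / (32 * I) := by
    have h4 : c8 ≤ c3 / (128 * I) := hc8 ▸ min_le_right _ _
    have h5 : d * (c3 * d / 2) ≤ d * L := mul_le_mul_of_nonneg_left hL hd0
    have h6 : c8 * d ^ 2 ≤ c3 / (128 * I) * d ^ 2 :=
      mul_le_mul_of_nonneg_right h4 (by positivity)
    have h7 : d * (c3 * d / 2) / (32 * I) ≤ d * L / (32 * I) :=
      div_le_div_of_nonneg_right h5 (by positivity)
    have h8 : 2 * (c3 / (128 * I) * d ^ 2) = d * (c3 * d / 2) / (32 * I) := by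
      field_simp
      ring
    linarith
  have b1 : (2 : ℝ) ^ (-(b - d) * L / 4) ≤ (2 : ℝ) ^ (-(2 * c8 * d ^ 2)) := by
    apply Real.rpow_le_rpow_of_exponent_le (by norm_num)
    have : -(b - d) * L / 4 = -((b - d) * L / 4) := by ring
    rw [this]; linarith
  have b2 : (2 : ℝ) ^ (-d * L / (32 * I)) ≤ (2 : ℝ) ^ (-(2 * c8 * d ^ 2)) := by
    apply Real.rpow_le_rpow_of_exponent_le (by norm_num)
    have : -d * L / (32 * I) = -(d * L / (32 * I)) := by ring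
    rw [this]; linarith
  have b3 : (2 : ℝ) ^ (-(2 * c8 * d ^ 2)) = (2 : ℝ) ^ (-c8 * d ^ 2) *
      (2 : ℝ) ^ (-(c8 * d ^ 2)) := by
    rw [← Real.rpow_add (by norm_num)]; congr 1; ring
  have b4 : (2 : ℝ) ^ (-(c8 * d ^ 2)) ≤ 1 / 8 := by
    apply sn8_two_rpow
    rw [div_le_iff₀ hc8p] at h5
    have : d * c8 * 1 ≤ d * c8 * d := mul_le_mul_of_nonneg_left hd (by positivity)
    nlinarith
  have b5 : (0 : ℝ) < (2 : ℝ) ^ (-c8 * d ^ 2) := by positivity
  have b6 := mul_le_mul_of_nonneg_left b4 b5.le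
  rw [← b3] at b6
  linarith

theorem sn8_Jexp {c d J : ℝ} (hc : 0 < c) (hJ : J ≤ d) (hd : 0 ≤ d) (h : 8 / c ^ 2 ≤ d) :
    J * Real.exp (-c * d) ≤ Real.exp (-(c / 2) * d) := by
  have h2 : d ≤ Real.exp ((c / 2) * d) := by
    have h3 := Real.quadratic_le_exp_of_nonneg (x := (c / 2) * d) (by positivity)
    have h4 : 8 ≤ c ^ 2 * d := by
      rw [div_le_iff₀ (by positivity)] at h
      linarith
    have h5 : d ≤ (c / 2 * d) ^ 2 / 2 := by
      have h6 : d * 8 ≤ d * (c ^ 2 * d) := mul_le_mul_of_nonneg_left h4 hd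
      have h7 : (c / 2 * d) ^ 2 / 2 = d * (c ^ 2 * d) / 8 := by ring
      linarith
    have h8 : 0 ≤ c / 2 * d := by positivity
    linarith
  have h6 : Real.exp (-(c / 2) * d) = Real.exp ((c / 2) * d) * Real.exp (-c * d) := by
    rw [← Real.exp_add]; congr 1; ring
  rw [h6]
  exact mul_le_mul_of_nonneg_right (hJ.trans h2) (Real.exp_pos _).le

/-- Task N8: near part and tail bound. -/
theorem near_tail (I : ℕ) (hI : 1 ≤ I) {θ δ c : ℝ} (hθ : 0 < θ) (hδ : 0 < δ) (hc : 0 < c) :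
    ∃ c3 : ℝ, 0 < c3 ∧ ∃ c8 : ℝ, 0 < c8 ∧ ∃ d0 : ℕ, ∀ (α β : Type) [Fintype α] [DecidableEq α]
      [Fintype β] [DecidableEq β], d0 ≤ Fintype.card α →
      (1 + θ) * Fintype.card α ≤ Fintype.card β → Fintype.card β ≤ 4 * Fintype.card α →
      ∀ J : ℕ, I ≤ J → 3 * J ≤ 2 * Fintype.card α → ∀ x : α → ZMod (2 ^ J),
      δ * Fintype.card α ≤ nu x → GoodX I (Real.exp (-c * Fintype.card α)) x →
      (∀ B : ℕ, 2 * B + Fintype.card α ≤ Fintype.card β → B * I ≤ J + 3 * I →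
        (∑ ω : β → α → Fin 4, if (∀ i, walk (ω i) x = 0) ∧
            (kerN (2 ^ I) (hm ω)).card < 2 ^ (I + ⌊c3 * Fintype.card α⌋₊) then
          ((kerN (2 ^ I) (hm ω)).card : ℝ) ^ B else 0) ≤
          8 * ((2 : ℝ) ^ I) ^ B * (1 / 2 ^ J) ^ Fintype.card β *
            4 ^ (Fintype.card β * Fintype.card α)) ∧
      ((univ.filter (fun ω : β → α → Fin 4 => (∀ i, walk (ω i) x = 0) ∧
          2 ^ (I + ⌊c3 * Fintype.card α⌋₊) ≤ (kerN (2 ^ I) (hm ω)).card)).card : ℝ) ≤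
        (2 : ℝ) ^ (-c8 * (Fintype.card α : ℝ) ^ 2) * (1 / 2 ^ J) ^ Fintype.card β *
          4 ^ (Fintype.card β * Fintype.card α) := by
  obtain ⟨c3, hc3, d0', hd0'⟩ := sum_K_bound I hI hθ hδ (half_pos hc)
  have hI0 : (0 : ℝ) < I := by exact_mod_cast hI
  obtain ⟨c8, hc8⟩ : ∃ c8 : ℝ, c8 = min (c3 * θ / 16) (c3 / (128 * I)) := ⟨_, rfl⟩
  have hc8p : 0 < c8 := by rw [hc8]; exact lt_min (by positivity) (by positivity)
  refine ⟨c3, hc3, c8, hc8p, max d0' (max (⌈8 / c ^ 2⌉₊) (max (⌈12 / θ⌉₊)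
    (max (96 * I) (max (⌈2 / c3⌉₊) (max (⌈3 / c8⌉₊) 1))))), ?_⟩
  intro α β _ _ _ _ hd hb1 hb2 J hIJ hJd x hnu hgood
  simp only [max_le_iff] at hd
  obtain ⟨e0, e1, e2, e3, e4, e5, e6⟩ := hd
  have e1' : 8 / c ^ 2 ≤ (Fintype.card α : ℝ) := (Nat.le_ceil _).trans (by exact_mod_cast e1)
  have e2' : 12 / θ ≤ (Fintype.card α : ℝ) := (Nat.le_ceil _).trans (by exact_mod_cast e2)
  have e3' : (96 * I : ℝ) ≤ Fintype.card α := by exact_mod_cast e3
  have e4' : 2 / c3 ≤ (Fintype.card α : ℝ) := (Nat.le_ceil _).trans (by exact_mod_cast e4)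
  have e5' : 3 / c8 ≤ (Fintype.card α : ℝ) := (Nat.le_ceil _).trans (by exact_mod_cast e5)
  have e6' : (1 : ℝ) ≤ Fintype.card α := by exact_mod_cast e6
  have hJr : (3 * J : ℝ) ≤ 2 * Fintype.card α := by exact_mod_cast hJd
  have hb2r : Fintype.card β ≤ 4 * Fintype.card α := hb2
  have hJexp := sn8_Jexp (J := (J : ℝ)) hc (d := (Fintype.card α : ℝ)) (by
    have : (0 : ℝ) ≤ J := Nat.cast_nonneg J
    linarith) (by linarith) e1'
  have hnub : δ * Fintype.card α ≤ nu (fun i => ((x i).cast : ZMod (2 ^ I))) := by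
    rw [sn8_nu_cast hI hIJ]; exact hnu
  have hnub0 : 0 < nu (fun i => ((x i).cast : ZMod (2 ^ I))) := by
    have : (0 : ℝ) < nu (fun i => ((x i).cast : ZMod (2 ^ I))) :=
      lt_of_lt_of_le (by positivity) hnub
    exact_mod_cast this
  have hbd : θ * Fintype.card α ≤ (Fintype.card β : ℝ) - Fintype.card α := by linarith
  have hfl : (⌊c3 * Fintype.card α⌋₊ : ℝ) ≤ c3 * Fintype.card α :=
    Nat.floor_le (by positivity)
  have hfl2 : c3 * Fintype.card α / 2 ≤ (⌊c3 * Fintype.card α⌋₊ : ℝ) := by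
    have h1 := Nat.lt_floor_add_one (c3 * Fintype.card α)
    have h2 : 2 ≤ c3 * Fintype.card α := by
      rw [div_le_iff₀ hc3] at e4'
      linarith
    linarith
  have hab : Fintype.card α ≤ Fintype.card β := by
    have : (Fintype.card α : ℝ) ≤ Fintype.card β := by
      have : 0 ≤ θ * Fintype.card α := by positivity
      linarith
    exact_mod_cast this
  constructor
  · intro B hB1 hB2
    refine sn8_near hI hIJ hJexp x hgood B _ hnub0 (fun Λ hΛ S hS => ?_) ?_ ?_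
    · exact hd0' α e0 _ B J Λ hb1 hb2r hJd hB1 hB2
        (le_trans (by exact_mod_cast hΛ.le) hfl) _ hnub S hS
    · have h1 : (3 : ℝ) ≤ ((Fintype.card β : ℝ) - Fintype.card α) / 4 := by
        rw [div_le_iff₀ hθ] at e2'
        linarith
      have := sn8_two_rpow h1
      rw [neg_div]
      linarith
    · have h1 : (3 : ℝ) ≤ (Fintype.card α : ℝ) / (32 * I) := by
        rw [le_div_iff₀ (by positivity)]
        linarith
      have := sn8_two_rpow h1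
      rw [neg_div]
      linarith
  · have h1 := sn8_tail (β := β) hI hIJ hJexp x hgood ⌊c3 * Fintype.card α⌋₊ hnub0
      (fun S hS => hd0' α e0 _ 0 J _ hb1 hb2r hJd (by omega) (by omega) hfl _ hnub S hS)
    have h2 := sn8_num hI hθ hc3 hc8 hc8p e6' hbd hfl2 e5'
    refine h1.trans ((mul_le_mul_of_nonneg_left h2 (by positivity)).trans (le_of_eq ?_))
    ring

end Vale.Agent.P160
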