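import Vale.Agent.P160.ST0

set_option linter.unusedSectionVars false

namespace Vale.Agent.P160

open Finset

section aux

lemma st1_third_le_cf {z : ℂ} (hz : ‖z‖ = 1) : 1 / 3 ≤ cf 6 z := by
  have h1 : -1 ≤ z.re := by
    have := Complex.abs_re_le_norm z
    rw [hz] at this
    exact (abs_le.mp this).1
  unfold cf
  push_cast
  linarith only [h1]

variable {α : Type*} [Fintype α] [DecidableEq α]

lemma st1_pr_mono {N M M' : ℕ} [NeZero N] (hM : 4 ≤ M) (hMM : M ≤ M') (v : α → ZMod N) :
    pr M v 0 ≤ pr M' v 0 := by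
  have hN : (0 : ℝ) < N := by exact_mod_cast Nat.pos_of_ne_zero (NeZero.ne N)
  have h1 := Zf_eq (by omega : 2 ≤ M) v
  have h2 := Zf_eq (by omega : 2 ≤ M') v
  have h3 : Zf M v ≤ Zf M' v := by
    rw [h1, h2]
    exact sum_le_sum fun t _ => prod_le_prod (fun i _ => cf_nonneg hM (norm_ee _))
      fun i _ => cf_mono hM hMM (norm_ee _)
  unfold Zf at h3
  exact le_of_mul_le_mul_left h3 hN

/-- Removing one coordinate costs at most a factor `3` for `M = 6`. -/
lemma st1_pr_remove_le {N : ℕ} [NeZero N] (v : α → ZMod N) (a : α) :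
    pr 6 (fun i : {i // i ≠ a} => v i) 0 ≤ 3 * pr 6 v 0 := by
  have hN : (0 : ℝ) < N := by exact_mod_cast Nat.pos_of_ne_zero (NeZero.ne N)
  have h1 := Zf_eq (by norm_num : 2 ≤ 6) v
  have h2 := Zf_eq (by norm_num : 2 ≤ 6) (fun i : {i // i ≠ a} => v i)
  have h3 : Zf 6 (fun i : {i // i ≠ a} => v i) ≤ 3 * Zf 6 v := by
    rw [h1, h2, mul_sum]
    refine sum_le_sum fun t _ => ?_
    rw [Fintype.prod_eq_mul_prod_subtype_ne _ a]
    have h4 := st1_third_le_cf (norm_ee (t * v a))
    have h5 : 0 ≤ ∏ i : {i // i ≠ a}, cf 6 (ee (t * v i)) :=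
      prod_nonneg fun i _ => cf_nonneg (by norm_num) (norm_ee _)
    (clear hN h1 h2; nlinarith)
  unfold Zf at h3
  have : N * pr 6 (fun i : {i // i ≠ a} => v i) 0 ≤ N * (3 * pr 6 v 0) := by linarith only [h3]
  exact le_of_mul_le_mul_left this hN

end aux

section quad

variable {ι : Type*} [Fintype ι] [DecidableEq ι] (D : Finset ι)

lemma st1_gpr_star_le {J : ℕ} (v : ι → ZMod (2 ^ (J + 1)))
    (l₀ : {i // i ∈ D}) (hl : IsUnit (v l₀)) :
    gpr 4 (fun l : {l : {i // i ∈ D} // l ≠ l₀} => 2 * (-(v l₀) * v l.1)) 0 ≤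
      6 * pr 6 (fun j : {i // i ∈ D} => v j) 0 := by
  have h4 := gpr_two_mul_le (le_refl 4)
    (fun l : {l : {i // i ∈ D} // l ≠ l₀} => -(v l₀) * v l.1)
  have h5 : pr 4 (fun l : {l : {i // i ∈ D} // l ≠ l₀} => -(v l₀) * v l.1) 0 =
      pr 4 (fun l : {l : {i // i ∈ D} // l ≠ l₀} => v l.1) 0 := by
    unfold pr
    congr 2
    congr 1
    ext ω
    simp only [mem_filter, mem_univ, true_and]
    have : walk ω (fun l : {l : {i // i ∈ D} // l ≠ l₀} => -(v l₀) * v l.1) =
        -(v l₀) * walk ω (fun l : {l : {i // i ∈ D} // l ≠ l₀} => v l.1) := by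
      unfold walk
      rw [mul_sum]
      refine sum_congr rfl fun l _ => ?_
      ring
    rw [this]
    exact hl.neg.mul_right_eq_zero
  have h6 := st1_pr_mono (le_refl 4) (by norm_num : 4 ≤ 6)
    (fun l : {l : {i // i ∈ D} // l ≠ l₀} => v l.1)
  have h7 := st1_pr_remove_le (fun j : {i // i ∈ D} => v j) l₀
  rw [h5] at h4
  linarith only [h4, h6, h7]

end quad

section
variable {ι : Type} [Fintype ι] [DecidableEq ι]
variable {T : Type} [Fintype T] [DecidableEq T] [Nonempty T]

open Classical in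
lemma st1_count (D : T → Finset ι) (hD : Sep4 D)
    (l₀ : ∀ t, {i // i ∈ D t}) (hl₀ : Function.Injective (fun t => (l₀ t).1)) (e : Sym2 ι) :
    2 * (univ.filter (fun t => ∃ e₁, Sum.elim (offp (D t)) (starp (D t) (l₀ t)) e₁ = e)).card ≤
      Fintype.card T := by
  have h0 : univ.filter (fun t => ∃ e₁, Sum.elim (offp (D t)) (starp (D t) (l₀ t)) e₁ = e) ⊆
      univ.filter (fun t => ∃ e₁, offp (D t) e₁ = e) ∪
        univ.filter (fun t => ∃ e₂, starp (D t) (l₀ t) e₂ = e) := by
    intro t ht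
    rw [mem_filter] at ht
    rw [mem_union, mem_filter, mem_filter]
    obtain ⟨_, e₁ | e₂, he⟩ := ht
    · exact Or.inl ⟨mem_univ _, e₁, he⟩
    · exact Or.inr ⟨mem_univ _, e₂, he⟩
  have h00 := (Finset.card_le_card h0).trans (Finset.card_union_le _ _)
  induction e using Sym2.ind with
  | _ i j =>
    by_cases hij : i = j
    · subst hij
      have h1 : univ.filter (fun t => ∃ e₁, offp (D t) e₁ = s(i, i)) = ∅ := by
        apply Finset.filter_eq_empty_iff.2
        intro t _ h
        rcases offp_eq_iff (D t) h with h | h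
        · exact h.2 h.1
        · exact h.1 h.2
      have h2 : univ.filter (fun t => ∃ e₂, starp (D t) (l₀ t) e₂ = s(i, i)) = ∅ := by
        apply Finset.filter_eq_empty_iff.2
        intro t _ h
        exact (starp_eq_iff (D t) (l₀ t) h).1 rfl
      rw [h1, h2, card_empty] at h00
      omega
    · have h1 := hD i j hij
      have h2 : (univ.filter (fun t => ∃ e₁, offp (D t) e₁ = s(i, j))).card ≤
          (univ.filter (fun t => (i ∈ D t ∧ j ∉ D t) ∨ (i ∉ D t ∧ j ∈ D t))).card := by
        apply Finset.card_le_card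
        intro t ht
        rw [mem_filter] at ht ⊢
        exact ⟨mem_univ _, offp_eq_iff (D t) ht.2⟩
      have h3 : (univ.filter (fun t => ∃ e₂, starp (D t) (l₀ t) e₂ = s(i, j))).card ≤ 2 := by
        have : (univ.filter (fun t => ∃ e₂, starp (D t) (l₀ t) e₂ = s(i, j))).image
            (fun t => (l₀ t).1) ⊆ {i, j} := by
          intro a ha
          rw [mem_image] at ha
          obtain ⟨t, ht, rfl⟩ := ha
          rw [mem_filter] at ht
          rcases (starp_eq_iff (D t) (l₀ t) ht.2).2 with h | h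
          · rw [h]; simp
          · rw [h]; simp
        have h4 := (Finset.card_le_card this).trans Finset.card_le_two
        rwa [Finset.card_image_of_injective _ hl₀] at h4
      have h5 : 2 * (univ.filter (fun t => (i ∈ D t ∧ j ∉ D t) ∨ (i ∉ D t ∧ j ∈ D t))).card + 4 ≤
          Fintype.card T := by
        convert h1
      omega

/-- Task T1: the top level estimate for the family, half-lazy star edges. -/
theorem bpr_cq_le6 {J : ℕ} (D : T → Finset ι) (hD : Sep4 D) (v : ι → ZMod (2 ^ (J + 1)))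
    (l₀ : ∀ t, {i // i ∈ D t}) (hl₀ : Function.Injective (fun t => (l₀ t).1))
    (hu : ∀ t, IsUnit (v (l₀ t)))
    (g : (ι → ZMod (2 ^ (J + 1))) × ZMod (2 ^ (J + 1) * 2 ^ (J + 1))) :
    bpr (cq v) g ≤ (∑ t, gpr 4 (fun p => cq v (offp (D t) p)) 0 *
      (6 * pr 6 (fun j : {i // i ∈ D t} => v j) 0)) / Fintype.card T := by
  have hT : 0 < Fintype.card T := Fintype.card_pos
  have h := bpr_le_family (cq v) g (fun _ : T => (1 : ℝ)) (fun _ => zero_le_one) (by simp)
    (fun t => Sum.elim (offp (D t)) (starp (D t) (l₀ t)))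
    (fun t => topp_injective (D t) (l₀ t))
    (E₂ := fun _ => Empty) (fun _ e => e.elim) (fun _ e => e.elim)
    (fun e => by
      classical
      have h2 : (univ.filter (fun t : T => ∃ e₂ : Empty, (fun e : Empty => (e.elim : Sym2 ι)) e₂
          = e)).card = 0 := by
        rw [Finset.card_eq_zero]
        apply Finset.filter_eq_empty_iff.2
        rintro t _ ⟨e₂, _⟩
        exact e₂.elim
      have h3 := st1_count D hD l₀ hl₀ e
      have h4 : 2 * (univ.filter (fun t => ∃ e₁,
          Sum.elim (offp (D t)) (starp (D t) (l₀ t)) e₁ = e)).card + 0 ≤ Fintype.card T := by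
        rw [add_zero]
        convert h3
      convert h4 using 2)
  refine h.trans ?_
  have hT' : (0 : ℝ) < Fintype.card T := by exact_mod_cast hT
  rw [div_le_div_iff_of_pos_right hT']
  refine sum_le_sum fun t _ => ?_
  rw [one_mul, prM_empty]
  have h1 : (fun e => cq v (Sum.elim (offp (D t)) (starp (D t) (l₀ t)) e)) =
      Sum.elim (fun p => cq v (offp (D t) p)) (fun l => cq v (starp (D t) (l₀ t) l)) := by
    funext e
    cases e <;> rfl
  rw [h1]
  have h2 := gpr_sum_le (le_refl 4) (fun e => cq v (offp (D t) e))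
    (fun e => cq v (starp (D t) (l₀ t) e))
    ((formD (D t) v).comp (AddMonoidHom.fst _ _)) (fun e => formD_offp (D t) v e)
  refine h2.trans ?_
  apply mul_le_mul_of_nonneg_left _ (gpr_nonneg _ _)
  have h3 : (fun e => ((formD (D t) v).comp (AddMonoidHom.fst (ι → ZMod (2 ^ (J + 1)))
      (ZMod (2 ^ (J + 1) * 2 ^ (J + 1))))) (cq v (starp (D t) (l₀ t) e))) =
      fun l => 2 * (-(v (l₀ t)) * v l.1) := by
    funext e
    exact formD_starp (D t) v (l₀ t) e
  rw [h3]
  exact st1_gpr_star_le (D t) v (l₀ t) (hu t)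

end

end Vale.Agent.P160
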