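import Vale.Agent.P160.ST0

set_option linter.unusedSectionVars false

namespace Vale.Agent.P160

open Finset

open Classical in
/-- Task T3: the structured event, given the block estimate. -/
theorem Pb_EvA6_le {n : ℕ} {T : Type} [Fintype T] [DecidableEq T] [Nonempty T]
    (D : T → Finset (Fin n)) (hD : Sep4 D) {I u : ℕ} {τ : ℝ} (j : ℕ) (t₀ : T)
    {d : ℕ} (hd : ∀ t, Fintype.card {i // i ∈ D t} = d) {κ Λ X Y : ℝ} (hκ0 : 0 ≤ κ)
    (hΛ : 1 ≤ Λ) (hX : 0 ≤ X) (hY : 0 ≤ Y)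
    (hκ : ((univ.filter (fun x : {i // i ∈ D t₀} → ZMod (2 ^ (j + 1)) =>
      u ≤ nu x ∧ BadL I τ x)).card : ℝ) ≤ κ * ((2 : ℝ) ^ (j + 1)) ^ d)
    (hblock : ∀ t, ∀ C : Finset ({i // i ∈ D t} → ZMod (2 ^ (j + 1))),
      (∀ x ∈ C, u ≤ nu x ∧ GoodX I τ (fun i => ((x i).cast : ZMod (2 ^ j)))) →
      ∑ x ∈ C, ∑ z : {i // i ∉ D t} → ZMod (2 ^ (j + 1)), Bpr 4 x z ≤
        X * ((C.card : ℝ) / ((2 : ℝ) ^ (j + 1)) ^ d) + Y) :
    Pb (EvA6 D I u τ j t₀) ≤ (2 : ℝ) ^ (j + 1) *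
      (Λ ^ Fintype.card T * (X * κ + Y) + Λ⁻¹ * (X + Y)) := by
  have hΛ0 : 0 < Λ := by linarith
  have hN0 : (0 : ℝ) < ((2 : ℝ) ^ (j + 1)) ^ d := by positivity
  set C : Finset (Fin n → ZMod (2 ^ (j + 1))) := univ.filter (fun v =>
    (∀ t, u ≤ nu (fun i : {i // i ∈ D t} => v i)) ∧
    BadL I τ (fun i : {i // i ∈ D t₀} => v i) ∧
    ∀ t, GoodX I τ (fun i : {i // i ∈ D t} => ((v i).cast : ZMod (2 ^ j)))) with hC
  set s : Finset ((Fin n → ZMod (2 ^ (j + 1))) × ZMod (2 ^ (j + 1))) := C ×ˢ univ with hs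
  set w : T → ℝ := fun t => if t = t₀ then Λ ^ Fintype.card T else Λ⁻¹ with hw
  have hw0 : ∀ t, 0 ≤ w t := by
    intro t
    rw [hw]
    simp only
    split_ifs <;> positivity
  have h1 : Pb (EvA6 D I u τ j t₀) ≤ Pb (fun b => ∃ p ∈ s, smul2 b p.1 = fun _ => p.2) := by
    apply Pb_mono
    rintro b ⟨v, c, hv, h⟩
    refine ⟨(v, c), ?_, h⟩
    rw [hs, mem_product]
    refine ⟨?_, mem_univ _⟩
    rw [hC, mem_filter]
    exact ⟨mem_univ _, hv⟩
  have h2 : ∀ p ∈ s, Pb (fun b => smul2 b p.1 = fun _ => p.2) ≤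
      (∑ t, w t * Bpr 4 (fun j : {i // i ∈ D t} => p.1 j) (fun i : {i // i ∉ D t} => p.1 i)) /
        Fintype.card T := by
    intro p _
    rw [Pb_eq_Spr, Spr_eq_bpr]
    exact bpr_symc_le D hD.sep p.1 w hw0 (prod_weights hΛ t₀) _
  have h3 := (h1.trans (Pb_exists s _)).trans (sum_le_sum h2)
  refine h3.trans ?_
  rw [hs, sum_product]
  simp only [sum_const, nsmul_eq_mul, card_univ, ZMod.card]
  rw [← mul_sum]
  push_cast
  refine mul_le_mul_of_nonneg_left ?_ (by positivity)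
  rw [← sum_div, sum_comm]
  have hT : (0 : ℝ) < Fintype.card T := by exact_mod_cast Fintype.card_pos
  rw [div_le_iff₀ hT]
  have hXκ : 0 ≤ X * κ + Y := by positivity
  have h4 : ∀ t, ∑ v ∈ C, w t * Bpr 4 (fun j : {i // i ∈ D t} => v j)
      (fun i : {i // i ∉ D t} => v i) ≤
      Λ ^ Fintype.card T * (X * κ + Y) + Λ⁻¹ * (X + Y) := by
    intro t
    rw [← mul_sum]
    by_cases ht : t = t₀
    · subst ht
      set C₁ : Finset ({i // i ∈ D t} → ZMod (2 ^ (j + 1))) := univ.filter (fun x =>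
        u ≤ nu x ∧ BadL I τ x ∧ GoodX I τ (fun i => ((x i).cast : ZMod (2 ^ j)))) with hC₁
      have h5 := sum_restrict_le (D t) C C₁ (fun v hv => by
        rw [hC, mem_filter] at hv
        rw [hC₁, mem_filter]
        exact ⟨mem_univ _, hv.2.1 t, hv.2.2.1, hv.2.2.2 t⟩) (fun x z => Bpr 4 x z)
        (fun x z => Bpr_nonneg 4 x z)
      have h6 := hblock t C₁ (fun x hx => by
        rw [hC₁, mem_filter] at hx
        exact ⟨hx.2.1, hx.2.2.2⟩)
      have h7 : (C₁.card : ℝ) / ((2 : ℝ) ^ (j + 1)) ^ d ≤ κ := by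
        rw [div_le_iff₀ hN0]
        refine le_trans ?_ hκ
        exact_mod_cast card_le_card fun x hx => by
          rw [hC₁, mem_filter] at hx
          rw [mem_filter]
          exact ⟨mem_univ _, hx.2.1, hx.2.2.1⟩
      have h8 := mul_le_mul_of_nonneg_left h7 hX
      have hwt : w t = Λ ^ Fintype.card T := by rw [hw]; simp
      rw [hwt]
      have h9 : 0 ≤ Λ⁻¹ * (X + Y) := by positivity
      have h10 := mul_le_mul_of_nonneg_left (h5.trans (h6.trans (add_le_add_left h8 Y)))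
        (show 0 ≤ Λ ^ Fintype.card T by positivity)
      linarith
    · set C₁ : Finset ({i // i ∈ D t} → ZMod (2 ^ (j + 1))) := univ.filter (fun x =>
        u ≤ nu x ∧ GoodX I τ (fun i => ((x i).cast : ZMod (2 ^ j)))) with hC₁
      have h5 := sum_restrict_le (D t) C C₁ (fun v hv => by
        rw [hC, mem_filter] at hv
        rw [hC₁, mem_filter]
        exact ⟨mem_univ _, hv.2.1 t, hv.2.2.2 t⟩) (fun x z => Bpr 4 x z)
        (fun x z => Bpr_nonneg 4 x z)
      have h6 := hblock t C₁ (fun x hx => by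
        rw [hC₁, mem_filter] at hx
        exact ⟨hx.2.1, hx.2.2⟩)
      have h7 : (C₁.card : ℝ) / ((2 : ℝ) ^ (j + 1)) ^ d ≤ 1 := by
        rw [div_le_one hN0]
        have : C₁.card ≤ (2 ^ (j + 1)) ^ d := by
          refine (card_le_univ _).trans (le_of_eq ?_)
          rw [Fintype.card_fun, ZMod.card, hd]
        exact_mod_cast this
      have h8 := mul_le_mul_of_nonneg_left h7 hX
      rw [mul_one] at h8
      have hwt : w t = Λ⁻¹ := by rw [hw]; simp [ht]
      rw [hwt]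
      have h9 : 0 ≤ Λ ^ Fintype.card T * (X * κ + Y) := by positivity
      have h10 := mul_le_mul_of_nonneg_left (h5.trans (h6.trans (add_le_add_left h8 Y)))
        (show 0 ≤ Λ⁻¹ by positivity)
      linarith
  refine (sum_le_sum fun t _ => h4 t).trans (le_of_eq ?_)
  rw [sum_const, card_univ, nsmul_eq_mul, mul_comm]

end Vale.Agent.P160
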