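import Vale.Agent.P160.SK1
import Vale.Agent.P160.SN8
import Vale.Agent.P160.SM8

set_option linter.unusedSectionVars false

namespace Vale.Agent.P160

open Finset

/-- the fibres of the reduction have at most `2 ^ d` elements -/
theorem st4_fiber {α : Type} [Fintype α] [DecidableEq α] {j : ℕ}
    (C : Finset (α → ZMod (2 ^ (j + 1)))) (y : α → ZMod (2 ^ j)) :
    (C.filter fun x => (fun i => ((x i).cast : ZMod (2 ^ j))) = y).card ≤
      2 ^ Fintype.card α := by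
  have hlt : ∀ a : ZMod (2 ^ (j + 1)), a.val / 2 ^ j < 2 := by
    intro a
    have h1 : a.val < 2 ^ (j + 1) := ZMod.val_lt a
    rw [Nat.div_lt_iff_lt_mul (by positivity)]
    calc a.val < 2 ^ (j + 1) := h1
      _ = 2 * 2 ^ j := by ring
  have h2 : (univ : Finset (α → Fin 2)).card = 2 ^ Fintype.card α := by
    rw [card_univ, Fintype.card_pi, prod_const, Fintype.card_fin, card_univ]
  rw [← h2]
  refine Finset.card_le_card_of_injOn (fun x i => (⟨(x i).val / 2 ^ j, hlt _⟩ : Fin 2))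
    (fun _ _ => by simp) ?_
  intro x hx x' hx' h
  rw [Finset.mem_coe, mem_filter] at hx hx'
  funext i
  have e1 := congrArg Fin.val (congrFun h i)
  simp only at e1
  have e2 := congrFun (hx.2.trans hx'.2.symm) i
  have e3 : ∀ a : ZMod (2 ^ (j + 1)), (a.cast : ZMod (2 ^ j)).val = a.val % 2 ^ j := by
    intro a
    rw [← ZMod.natCast_val, ZMod.val_natCast]
  have e4 := congrArg ZMod.val e2
  simp only [e3] at e4
  apply ZMod.val_injective
  rw [← Nat.div_add_mod (x i).val (2 ^ j), ← Nat.div_add_mod (x' i).val (2 ^ j), e1, e4]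

theorem st4_fiber_sum {α : Type} [Fintype α] [DecidableEq α] {j : ℕ}
    (C : Finset (α → ZMod (2 ^ (j + 1)))) (F : (α → ZMod (2 ^ j)) → ℝ) (hF : ∀ y, 0 ≤ F y) :
    ∑ x ∈ C, F (fun i => ((x i).cast : ZMod (2 ^ j))) ≤ (2 : ℝ) ^ Fintype.card α *
      ∑ y ∈ C.image (fun x i => ((x i).cast : ZMod (2 ^ j))), F y := by
  classical
  rw [← Finset.sum_fiberwise_of_maps_to (g := fun x i => ((x i).cast : ZMod (2 ^ j)))
    (t := C.image (fun x i => ((x i).cast : ZMod (2 ^ j))))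
    (fun x hx => mem_image_of_mem _ hx), mul_sum]
  refine sum_le_sum fun y _ => ?_
  have h1 : ∀ x ∈ C.filter (fun x => (fun i => ((x i).cast : ZMod (2 ^ j))) = y),
      F (fun i => ((x i).cast : ZMod (2 ^ j))) = F y := by
    intro x hx
    rw [mem_filter] at hx
    rw [hx.2]
  rw [sum_congr rfl h1, sum_const, nsmul_eq_mul]
  refine mul_le_mul_of_nonneg_right ?_ (hF y)
  exact_mod_cast st4_fiber C y

/-- the arithmetic of `B` -/
theorem st4_B {I j d m : ℕ} {θ : ℝ} (hI : 1 ≤ I) (hθ : 0 < θ) (hθI : 4 ≤ θ * I)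
    (hm : (1 + θ) * d ≤ m) (hj : 2 * j ≤ d) (hd : 8 / θ ≤ d) :
    2 * ((j + I - 1) / I) + d ≤ m ∧ ((j + I - 1) / I) * I ≤ j + I ∧ j ≤ ((j + I - 1) / I) * I := by
  set B := (j + I - 1) / I with hB
  have h1 : B * I ≤ j + I - 1 := Nat.div_mul_le_self _ _
  have h2 : j + I - 1 < (B + 1) * I := by
    rw [hB, Nat.add_mul, one_mul]
    have := Nat.div_add_mod (j + I - 1) I
    have h3 := Nat.mod_lt (j + I - 1) (show 0 < I by omega)
    nlinarith
  have h3 : j ≤ B * I := by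
    rw [Nat.add_mul, one_mul] at h2
    omega
  refine ⟨?_, by omega, h3⟩
  have h4 : (B : ℝ) * I ≤ j + I := by
    have : B * I ≤ j + I := by omega
    exact_mod_cast this
  have hIr : (1 : ℝ) ≤ I := by exact_mod_cast hI
  have h5 : (2 : ℝ) * j ≤ d := by exact_mod_cast hj
  have h6 : (2 : ℝ) * B ≤ θ * d := by
    rw [div_le_iff₀ hθ] at hd
    have h7 : (2 : ℝ) * B * I ≤ θ * d * I := by
      have h8 : (d : ℝ) * 4 ≤ d * (θ * I) :=
        mul_le_mul_of_nonneg_left hθI (Nat.cast_nonneg _)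
      have h9 : (8 : ℝ) * I ≤ d * θ * I := mul_le_mul_of_nonneg_right hd (by linarith)
      nlinarith
    exact le_of_mul_le_mul_right h7 (by linarith)
  have h7 : ((2 * B + d : ℕ) : ℝ) ≤ m := by
    push_cast
    linarith
  exact_mod_cast h7

section main

variable {α β : Type} [Fintype α] [DecidableEq α] [Fintype β] [DecidableEq β]

/-- one vector: reduction to level `j` and splitting into the near and the far part -/
theorem st4_split {j : ℕ} (x : α → ZMod (2 ^ (j + 1))) (I L B : ℕ) (hI : 1 ≤ I)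
    (hB : j ≤ B * I) :
    (∑ ω : β → α → Fin 4, if (∀ i, walk (ω i) x = 0) then
        ((kerN (2 ^ (j + 1)) (hm ω)).card : ℝ) else 0) ≤
      (2 : ℝ) ^ Fintype.card α * ((∑ ω : β → α → Fin 4,
          if (∀ i, walk (ω i) (fun i => ((x i).cast : ZMod (2 ^ j))) = 0) ∧
            (kerN (2 ^ I) (hm ω)).card < L then
          ((kerN (2 ^ I) (hm ω)).card : ℝ) ^ B else 0) +
        ∑ ω : β → α → Fin 4,
          if (∀ i, walk (ω i) (fun i => ((x i).cast : ZMod (2 ^ j))) = 0) ∧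
            L ≤ (kerN (2 ^ I) (hm ω)).card then
          ((kerN (2 ^ j) (hm ω)).card : ℝ) else 0) := by
  rw [← sum_add_distrib, mul_sum]
  refine sum_le_sum fun ω _ => ?_
  have hnn : (0 : ℝ) ≤ (2 : ℝ) ^ Fintype.card α := by positivity
  by_cases h : ∀ i, walk (ω i) x = 0
  · rw [if_pos h]
    have h' : ∀ i, walk (ω i) (fun i => ((x i).cast : ZMod (2 ^ j))) = 0 := fun i =>
      sn8_walk_cast (Nat.le_succ j) (ω i) x (h i)
    have h1 : ((kerN (2 ^ (j + 1)) (hm ω)).card : ℝ) ≤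
        (2 : ℝ) ^ Fintype.card α * (kerN (2 ^ j) (hm ω)).card := by
      exact_mod_cast card_kerN_succ_le (hm ω) j
    by_cases hL : (kerN (2 ^ I) (hm ω)).card < L
    · rw [if_pos ⟨h', hL⟩, if_neg (fun hh => absurd hh.2 (not_le.2 hL)), add_zero]
      refine h1.trans (mul_le_mul_of_nonneg_left ?_ hnn)
      exact_mod_cast card_kerN_pow_le (hm ω) hI hB
    · rw [if_neg (fun hh => hL hh.2), if_pos ⟨h', not_lt.1 hL⟩, zero_add]
      exact h1
  · rw [if_neg h]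
    refine mul_nonneg hnn (add_nonneg ?_ ?_) <;>
    · split_ifs <;> positivity

end main

/-- Task T4: block estimate for the structured event. -/
theorem sumA6 (I : ℕ) (hI : 1 ≤ I) {θ δ c : ℝ} (hθ : 0 < θ) (hθI : 4 ≤ θ * I) (hδ : 0 < δ)
    (hc : 0 < c) :
    ∃ c7 : ℝ, 0 < c7 ∧ ∃ d0 : ℕ, ∀ (α β : Type) [Fintype α] [DecidableEq α]
      [Fintype β] [DecidableEq β], d0 ≤ Fintype.card α →
      (1 + θ) * Fintype.card α ≤ Fintype.card β → Fintype.card β ≤ 4 * Fintype.card α →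
      ∀ j : ℕ, I ≤ j → 2 * j ≤ Fintype.card α → ∀ C : Finset (α → ZMod (2 ^ (j + 1))),
      (∀ x ∈ C, δ * Fintype.card α ≤ nu x ∧
        GoodX I (Real.exp (-c * Fintype.card α)) (fun i => ((x i).cast : ZMod (2 ^ j)))) →
      ∑ x ∈ C, ∑ z : β → ZMod (2 ^ (j + 1)), Bpr 4 x z ≤
        (2 : ℝ) ^ (Fintype.card β + Fintype.card α + j + I + 3) *
          ((C.card : ℝ) / ((2 : ℝ) ^ (j + 1)) ^ Fintype.card α) +
        (2 : ℝ) ^ ((Fintype.card β : ℝ) + Fintype.card α - c7 * (Fintype.card α : ℝ) ^ 2) := by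
  obtain ⟨c3, hc3, c8, hc8, d1, hnt⟩ := near_tail I hI hθ hδ hc
  obtain ⟨c7, hc7, d2, hfar⟩ := far_part hθ hc8
  refine ⟨c7, hc7, max d1 (max d2 ⌈8 / θ⌉₊), ?_⟩
  intro α β _ _ _ _ hd hm1 hm2 j hIj hj C hC
  simp only [max_le_iff] at hd
  obtain ⟨hd1, hd2, hd3⟩ := hd
  have hd3' : 8 / θ ≤ (Fintype.card α : ℝ) := (Nat.le_ceil _).trans (by exact_mod_cast hd3)
  obtain ⟨hB1, hB2, hB3⟩ := st4_B hI hθ hθI hm1 hj hd3'
  set B := (j + I - 1) / I with hB
  set d := Fintype.card α with hdd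
  set m := Fintype.card β with hmm
  set L := 2 ^ (I + ⌊c3 * d⌋₊) with hL
  clear_value L B
  have hj1 : 1 ≤ j := hI.trans hIj
  -- the estimates for one vector
  have hx1 : ∀ x ∈ C, (∑ ω : β → α → Fin 4,
        if (∀ i, walk (ω i) (fun i => ((x i).cast : ZMod (2 ^ j))) = 0) ∧
            (kerN (2 ^ I) (hm ω)).card < L then
          ((kerN (2 ^ I) (hm ω)).card : ℝ) ^ B else 0) ≤
          8 * (2 : ℝ) ^ (j + I) * (1 / 2 ^ j) ^ m * 4 ^ (m * d) := by
    intro x hx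
    obtain ⟨hx2, hx3⟩ := hC x hx
    have h1 := (hnt α β hd1 hm1 hm2 j hIj (by omega)
      (fun i => ((x i).cast : ZMod (2 ^ j))) (by
        rw [sn8_nu_cast hj1 (Nat.le_succ j)]; exact hx2) hx3).1 B hB1 (by omega)
    rw [← hL] at h1
    refine h1.trans ?_
    have h2 : ((2 : ℝ) ^ I) ^ B ≤ 2 ^ (j + I) := by
      rw [← pow_mul, mul_comm]
      exact pow_le_pow_right₀ (by norm_num) hB2
    gcongr
  have hx2 : ∀ y ∈ C.image (fun x i => ((x i).cast : ZMod (2 ^ j))),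
      ((univ.filter (fun ω : β → α → Fin 4 => (∀ i, walk (ω i) y = 0) ∧
          L ≤ (kerN (2 ^ I) (hm ω)).card)).card : ℝ) ≤
        (2 : ℝ) ^ (-c8 * (d : ℝ) ^ 2) * (1 / 2 ^ j) ^ m * 4 ^ (m * d) := by
    intro y hy
    rw [mem_image] at hy
    obtain ⟨x, hx, rfl⟩ := hy
    obtain ⟨hx2, hx3⟩ := hC x hx
    have h1 := (hnt α β hd1 hm1 hm2 j hIj (by omega)
      (fun i => ((x i).cast : ZMod (2 ^ j))) (by
        rw [sn8_nu_cast hj1 (Nat.le_succ j)]; exact hx2) hx3).2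
    rw [← hL] at h1
    exact h1
  have hf := hfar α β hd2 hm1 j hj (fun ω => L ≤ (kerN (2 ^ I) (hm ω)).card)
    (C.image (fun x i => ((x i).cast : ZMod (2 ^ j)))) (by
      intro y hy
      convert hx2 y hy)
  -- summation
  have hmain : ((2 : ℝ) ^ (j + 1)) ^ d * ∑ x ∈ C, ∑ z : β → ZMod (2 ^ (j + 1)), Bpr 4 x z ≤
      ((2 : ℝ) ^ (j + 1)) ^ m / 4 ^ (m * d) * (2 ^ d *
        (C.card * (8 * (2 : ℝ) ^ (j + I) * (1 / 2 ^ j) ^ m * 4 ^ (m * d)) +
          2 ^ d * ((2 : ℝ) ^ (-c7 * (d : ℝ) ^ 2) * (2 ^ j) ^ d *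
          (1 / 2 ^ j) ^ m * 4 ^ (m * d)))) := by
    rw [mul_sum]
    have h1 : ∀ x ∈ C, ((2 : ℝ) ^ (j + 1)) ^ d * ∑ z : β → ZMod (2 ^ (j + 1)), Bpr 4 x z ≤
        ((2 : ℝ) ^ (j + 1)) ^ m / 4 ^ (m * d) * ((2 : ℝ) ^ d *
          (8 * (2 : ℝ) ^ (j + I) * (1 / 2 ^ j) ^ m * 4 ^ (m * d) +
          ∑ ω : β → α → Fin 4,
          if (∀ i, walk (ω i) (fun i => ((x i).cast : ZMod (2 ^ j))) = 0) ∧
            L ≤ (kerN (2 ^ I) (hm ω)).card then
          ((kerN (2 ^ j) (hm ω)).card : ℝ) else 0)) := by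
      intro x hx
      rw [sum_Bpr_eq6 x, mul_div_assoc', div_mul_eq_mul_div]
      refine div_le_div_of_nonneg_right ?_ (by positivity)
      refine mul_le_mul_of_nonneg_left ?_ (by positivity)
      refine (st4_split (β := β) x I L B hI hB3).trans ?_
      refine mul_le_mul_of_nonneg_left ?_ (by positivity)
      exact add_le_add (hx1 x hx) le_rfl
    refine (sum_le_sum h1).trans ?_
    rw [← mul_sum, ← mul_sum, sum_add_distrib, sum_const, nsmul_eq_mul]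
    refine mul_le_mul_of_nonneg_left ?_ (by positivity)
    refine mul_le_mul_of_nonneg_left ?_ (by positivity)
    refine add_le_add le_rfl ?_
    have h2 := st4_fiber_sum C (fun y => ∑ ω : β → α → Fin 4,
          if (∀ i, walk (ω i) y = 0) ∧ L ≤ (kerN (2 ^ I) (hm ω)).card then
          ((kerN (2 ^ j) (hm ω)).card : ℝ) else 0) (fun y => sum_nonneg fun ω _ => by
            split_ifs <;> positivity)
    refine h2.trans (mul_le_mul_of_nonneg_left ((le_of_eq ?_).trans hf) (by positivity))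
    refine sum_congr rfl fun y _ => sum_congr rfl fun ω _ => ?_
    by_cases hh : (∀ i, walk (ω i) y = 0) ∧ L ≤ (kerN (2 ^ I) (hm ω)).card
    · rw [if_pos hh, if_pos hh]
    · rw [if_neg hh, if_neg hh]
  have hP : (0 : ℝ) < ((2 : ℝ) ^ (j + 1)) ^ d := by positivity
  have h4 : (4 : ℝ) ^ (m * d) ≠ 0 := by positivity
  have e1 : (2 : ℝ) ^ ((m : ℝ) + d - c7 * (d : ℝ) ^ 2) =
      2 ^ m * 2 ^ d * (2 : ℝ) ^ (-c7 * (d : ℝ) ^ 2) := by
    rw [show (m : ℝ) + d - c7 * (d : ℝ) ^ 2 = (m : ℝ) + d + (-c7 * (d : ℝ) ^ 2) by ring,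
      Real.rpow_add (by norm_num), Real.rpow_add (by norm_num), Real.rpow_natCast,
      Real.rpow_natCast]
  rw [e1]
  refine le_of_mul_le_mul_left (hmain.trans (le_of_eq ?_)) hP
  set R := (2 : ℝ) ^ (-c7 * (d : ℝ) ^ 2) with hR
  clear_value R
  have e2 : ((2 : ℝ) ^ (j + 1)) ^ m * (1 / 2 ^ j) ^ m = 2 ^ m := by
    rw [← mul_pow]
    congr 1
    rw [pow_succ]
    field_simp
  have e3 : ((2 : ℝ) ^ (j + 1)) ^ d = (2 ^ j) ^ d * 2 ^ d := by
    rw [pow_succ, mul_pow]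
  have e4 : (2 : ℝ) ^ (m + d + j + I + 3) = 8 * 2 ^ (j + I) * 2 ^ m * 2 ^ d := by
    rw [show m + d + j + I + 3 = 3 + (j + I) + m + d by ring, pow_add, pow_add, pow_add]
    norm_num
  calc ((2 : ℝ) ^ (j + 1)) ^ m / 4 ^ (m * d) * (2 ^ d *
        (C.card * (8 * (2 : ℝ) ^ (j + I) * (1 / 2 ^ j) ^ m * 4 ^ (m * d)) +
          2 ^ d * (R * (2 ^ j) ^ d * (1 / 2 ^ j) ^ m * 4 ^ (m * d))))
      = (((2 : ℝ) ^ (j + 1)) ^ m * (1 / 2 ^ j) ^ m) * (2 ^ d *
        (C.card * (8 * (2 : ℝ) ^ (j + I)) + 2 ^ d * (R * (2 ^ j) ^ d))) := by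
        field_simp
    _ = 2 ^ m * (2 ^ d * (C.card * (8 * (2 : ℝ) ^ (j + I)) + 2 ^ d * (R * (2 ^ j) ^ d))) := by
        rw [e2]
    _ = _ := by
        have e5 : ∀ X : ℝ, ((2 : ℝ) ^ (j + 1)) ^ d * (X * ((C.card : ℝ) / ((2 : ℝ) ^ (j + 1)) ^ d)) =
            X * C.card := by
          intro X
          field_simp
        rw [e4, mul_add (((2 : ℝ) ^ (j + 1)) ^ d), e5, e3]
        ring

end Vale.Agent.P160
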