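import Vale.Agent.P160.ST1

set_option linter.unusedSectionVars false

namespace Vale.Agent.P160

open Finset

lemma st5_good_mul {α : Type*} [Fintype α] [DecidableEq α] {I : ℕ} {τ : ℝ} {J : ℕ}
    {s : ZMod (2 ^ J)} (hs : IsUnit s) {x : α → ZMod (2 ^ J)} (h : GoodX I τ x) :
    GoodX I τ (fun i => s * x i) := by
  intro j hIj hjJ k
  have hd : 2 ^ j ∣ 2 ^ J := pow_dvd_pow 2 hjJ
  obtain ⟨φ, hφ⟩ : ∃ φ : ZMod (2 ^ J) →+* ZMod (2 ^ j), ∀ a : ZMod (2 ^ J),
      (a.cast : ZMod (2 ^ j)) = φ a := ⟨ZMod.castHom hd (ZMod (2 ^ j)), fun _ => rfl⟩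
  have hs' : IsUnit (φ s) := hs.map φ
  obtain ⟨w, hw⟩ := hs'
  have e : (fun i => ((s * x i).cast : ZMod (2 ^ j)) + 2 ^ (j - I) * k i) =
      fun i => φ s * (((x i).cast : ZMod (2 ^ j)) +
        2 ^ (j - I) * (((w⁻¹ : (ZMod (2 ^ j))ˣ) : ZMod (2 ^ j)) * k i)) := by
    funext i
    rw [hφ, hφ, map_mul, mul_add, ← hw, mul_left_comm (w : ZMod (2 ^ j)),
      Units.mul_inv_cancel_left]
  rw [e]
  have h1 := h j hIj hjJ (fun i => ((w⁻¹ : (ZMod (2 ^ j))ˣ) : ZMod (2 ^ j)) * k i)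
  unfold Zf at h1 ⊢
  rw [pr_unit_mul (hs.map φ)]
  exact h1

lemma st5_pr_le {α : Type*} [Fintype α] [DecidableEq α] {I : ℕ} {τ : ℝ} {J : ℕ} (hIJ : I ≤ J)
    {x : α → ZMod (2 ^ (J + 1))} (h : GoodX I τ x) :
    pr 6 x 0 ≤ (1 + τ) / 2 ^ (J + 1) := by
  have h1 := h (J + 1) (by omega) le_rfl (fun _ => 0)
  have e : (fun i => ((x i).cast : ZMod (2 ^ (J + 1))) + 2 ^ (J + 1 - I) * (0 : ZMod (2 ^ (J + 1))))
      = x := by
    funext i
    rw [mul_zero, add_zero, ZMod.cast_id', id]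
  rw [e] at h1
  rw [le_div_iff₀ (by positivity), mul_comm]
  unfold Zf at h1
  push_cast at h1
  exact h1

open Classical in
/-- Task T5: the unstructured event, given the block estimate. -/
theorem Pb_EvB6_le {n : ℕ} {T : Type} [Fintype T] [DecidableEq T] [Nonempty T]
    (D : T → Finset (Fin n)) (hD : Sep4 D) {I u : ℕ} (hu : Fintype.card T ≤ u) {τ : ℝ}
    (hτ : 0 ≤ τ) (J : ℕ) (hIJ : I ≤ J) {X : ℝ}
    (hblock : ∀ t, ∑ x ∈ univ.filter (fun x : {i // i ∈ D t} → ZMod (2 ^ (J + 1)) =>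
        u ≤ nu x ∧ GoodX I τ x),
      ∑ z : {i // i ∉ D t} → ZMod (2 ^ (J + 1)), Bq x z ≤ X) :
    Pb (EvB6 D I u τ J) ≤ 24 * (1 + τ) * X / ((2 : ℝ) ^ (J + 1)) ^ 2 := by
  have hT0 : 0 < Fintype.card T := Fintype.card_pos
  have hu0 : 0 < u := by omega
  set V : Finset (Fin n → ZMod (2 ^ (J + 1))) := univ.filter (fun v =>
    ∀ t, u ≤ nu (fun i : {i // i ∈ D t} => v i) ∧
      GoodX I τ (fun i : {i // i ∈ D t} => v i)) with hV
  set s : Finset (Σ _v : Fin n → ZMod (2 ^ (J + 1)), ZMod (2 ^ (J + 1))) :=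
    V.sigma (fun v => univ.filter (fun c => 2 * c = ∑ i, v i)) with hs
  have hmem : ∀ (v : Fin n → ZMod (2 ^ (J + 1))) (c : ZMod (2 ^ (J + 1))),
      (⟨v, c⟩ : Σ _v : Fin n → ZMod (2 ^ (J + 1)), ZMod (2 ^ (J + 1))) ∈ s ↔
      (∀ t, u ≤ nu (fun i : {i // i ∈ D t} => v i) ∧
      GoodX I τ (fun i : {i // i ∈ D t} => v i)) ∧ 2 * c = ∑ i, v i := by
    intro v c
    rw [hs, mem_sigma, hV, mem_filter, mem_filter]
    simp
  have t₁ : T := Classical.arbitrary T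
  have h3 := Pb_markov s (fun p b => Kev p.1 p.2 b) (2 ^ J) (EvB6 D I u τ J) (by
    rintro b ⟨g, c, hg, hc, hv⟩
    obtain ⟨i₀, hi₀⟩ := exists_unit_of_nu_pos
      (fun i : {i // i ∈ D t₁} => (g i : ZMod (2 ^ (J + 1)))) (by have := (hv t₁).1; omega)
    refine ⟨univ.image (fun τ : (ZMod (2 ^ (J + 1)))ˣ =>
      (⟨fun i => (τ : ZMod (2 ^ (J + 1))) * (g i : ZMod (2 ^ (J + 1))),
        (τ : ZMod (2 ^ (J + 1))) * (c : ZMod (2 ^ (J + 1)))⟩ :
        Σ _v : Fin n → ZMod (2 ^ (J + 1)), ZMod (2 ^ (J + 1)))), ?_, ?_, ?_⟩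
    · intro p hp
      rw [mem_image] at hp
      obtain ⟨τ', _, rfl⟩ := hp
      rw [hmem]
      refine ⟨fun t => ⟨?_, ?_⟩, ?_⟩
      · rw [nu_unit_mul τ'.isUnit (fun i : {i // i ∈ D t} => (g i : ZMod (2 ^ (J + 1))))]
        exact (hv t).1
      · exact st5_good_mul τ'.isUnit (hv t).2
      · rw [← mul_sum, ← Int.cast_sum, ← hc]
        push_cast
        ring
    · rw [Finset.card_image_of_injective, card_univ, card_units_two_pow]
      intro τ τ' ht
      simp only [Sigma.mk.injEq] at ht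
      have h4 : (τ : ZMod (2 ^ (J + 1))) * (g i₀ : ZMod (2 ^ (J + 1))) =
          τ' * (g i₀ : ZMod (2 ^ (J + 1))) := congrFun (by simpa using ht.1) i₀.1
      exact Units.ext (hi₀.mul_right_cancel h4)
    · intro p hp
      rw [mem_image] at hp
      obtain ⟨τ, _, rfl⟩ := hp
      have h4 := Kev_of_int (N := 2 ^ (J + 1)) b
        (fun i => ((τ : ZMod (2 ^ (J + 1))).val : ℤ) * g i)
        (((τ : ZMod (2 ^ (J + 1))).val : ℤ) * c) (by
          rw [smul2_mul_left, hg]) (by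
          rw [← mul_sum, ← hc]; ring)
      have h5 : (((τ : ZMod (2 ^ (J + 1))).val : ℤ) : ZMod (2 ^ (J + 1))) =
          (τ : ZMod (2 ^ (J + 1))) := by
        rw [Int.cast_natCast, ZMod.natCast_zmod_val]
      simp only [Int.cast_mul, h5] at h4
      exact h4)
  have hκV : ∀ p ∈ s, Pb (fun b => Kev p.1 p.2 b) ≤
      (∑ t, Bq (fun j : {i // i ∈ D t} => p.1 j) (fun i : {i // i ∉ D t} => p.1 i) *
        (6 * ((1 + τ) / 2 ^ (J + 1)))) / Fintype.card T := by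
    rintro ⟨v, c⟩ hp
    rw [hmem] at hp
    obtain ⟨l₀, hl₀, hunit⟩ := exists_centers D v hu (fun t => (hp.1 t).1)
    have h4 := Pb_Kev v c
    have h5 := bpr_cq_le6 D hD v l₀ hl₀ hunit ((fun _ => c), (∑ i, lft (v i)) ^ 2)
    have e1 : Pb (fun b => Kev v c b) = Pb (Kev v c) := rfl
    simp only
    rw [e1, h4]
    refine h5.trans ?_
    have hT : (0 : ℝ) < Fintype.card T := by exact_mod_cast hT0
    rw [div_le_div_iff_of_pos_right hT]
    refine sum_le_sum fun t _ => ?_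
    rw [gpr_cq_offp]
    refine mul_le_mul_of_nonneg_left ?_ (Bq_nonneg _ _)
    have h7 := st5_pr_le hIJ (hp.1 t).2
    linarith
  have h4 := h3.trans (sum_le_sum hκV)
  push_cast at h4
  have h5 : ∑ p ∈ s, (∑ t, Bq (fun j : {i // i ∈ D t} => p.1 j)
      (fun i : {i // i ∉ D t} => p.1 i) * (6 * ((1 + τ) / 2 ^ (J + 1)))) / Fintype.card T ≤
      12 * ((1 + τ) / 2 ^ (J + 1)) * X := by
    rw [hs, sum_sigma]
    have h6 : ∀ v ∈ V, ∑ _c ∈ univ.filter (fun c : ZMod (2 ^ (J + 1)) => 2 * c = ∑ i, v i),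
        (∑ t, Bq (fun j : {i // i ∈ D t} => v j) (fun i : {i // i ∉ D t} => v i) *
        (6 * ((1 + τ) / 2 ^ (J + 1)))) / Fintype.card T ≤
        2 * ((∑ t, Bq (fun j : {i // i ∈ D t} => v j) (fun i : {i // i ∉ D t} => v i) *
        (6 * ((1 + τ) / 2 ^ (J + 1)))) / Fintype.card T) := by
      intro v _
      rw [sum_const, nsmul_eq_mul]
      have h7 : ((univ.filter (fun c : ZMod (2 ^ (J + 1)) => 2 * c = ∑ i, v i)).card : ℝ) ≤ 2 := by
        exact_mod_cast card_two_mul_eq_le _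
      refine mul_le_mul_of_nonneg_right h7 ?_
      apply div_nonneg _ (by positivity)
      apply sum_nonneg
      intro t _
      have := Bq_nonneg (fun j : {i // i ∈ D t} => v j) (fun i : {i // i ∉ D t} => v i)
      positivity
    refine (sum_le_sum h6).trans ?_
    rw [← mul_sum, ← sum_div, sum_comm]
    have hT : (0 : ℝ) < Fintype.card T := by exact_mod_cast hT0
    rw [mul_div_assoc', div_le_iff₀ hT]
    have h8 : ∀ t, ∑ v ∈ V, Bq (fun j : {i // i ∈ D t} => v j)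
        (fun i : {i // i ∉ D t} => v i) * (6 * ((1 + τ) / 2 ^ (J + 1))) ≤
        X * (6 * ((1 + τ) / 2 ^ (J + 1))) := by
      intro t
      rw [← sum_mul]
      refine mul_le_mul_of_nonneg_right ?_ (by positivity)
      have h9 := sum_restrict_le (D t) V (univ.filter (fun x :
        {i // i ∈ D t} → ZMod (2 ^ (J + 1)) => u ≤ nu x ∧ GoodX I τ x)) (fun v hv => by
        rw [hV, mem_filter] at hv
        rw [mem_filter]
        exact ⟨mem_univ _, (hv.2 t).1, (hv.2 t).2⟩) (fun x z => Bq x z)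
        (fun x z => Bq_nonneg x z)
      exact h9.trans (hblock t)
    refine (mul_le_mul_of_nonneg_left (sum_le_sum fun t _ => h8 t) (by norm_num)).trans
      (le_of_eq ?_)
    rw [sum_const, card_univ, nsmul_eq_mul]
    ring
  have h6 := h4.trans h5
  rw [le_div_iff₀ (by positivity)]
  have hN : (0 : ℝ) < 2 ^ (J + 1) := by positivity
  calc Pb (EvB6 D I u τ J) * ((2 : ℝ) ^ (J + 1)) ^ 2
      = 2 * (2 : ℝ) ^ (J + 1) * (2 ^ J * Pb (EvB6 D I u τ J)) := by ring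
    _ ≤ 2 * (2 : ℝ) ^ (J + 1) * (12 * ((1 + τ) / 2 ^ (J + 1)) * X) :=
        mul_le_mul_of_nonneg_left h6 (by positivity)
    _ = _ := by
        field_simp
        ring

end Vale.Agent.P160
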