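import Vale.Agent.P160.ST6c
import Vale.Agent.P160.SN8
import Vale.Agent.P160.SM8

set_option linter.unusedSectionVars false

namespace Vale.Agent.P160

open Finset

lemma st6d_exp {I L e b d m : ℕ} (he : e < I) (hbI : b * I + 1 ≤ L + I)
    (hm : b + d + 3 * I + 3 ≤ m) :
    4 + (I - e) * b + I * (b + 1) + (L + I - e) * d + (I + L * m) ≤
      L * (d + 1) + (L + I - e) * m := by
  obtain ⟨k, hk⟩ : ∃ k, m = b + d + 3 * I + 3 + k := ⟨m - (b + d + 3 * I + 3), by omega⟩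
  obtain ⟨f, hf⟩ : ∃ f, I = e + (f + 1) := ⟨I - e - 1, by omega⟩
  have h1 : I - e = f + 1 := by omega
  have h2 : L + I - e = L + (f + 1) := by omega
  rw [h1, h2]
  have h3 : I * b = b * I := Nat.mul_comm _ _
  have h4 : (L + (f + 1)) * m = L * m + (f + 1) * m := by ring
  have h5 : (f + 1) * m = (f + 1) * b + (f + 1) * d + (3 * I + 3) + (f * (3 * I + 3) + (f + 1) * k) := by
    rw [hk]; ring
  have h6 : (L + (f + 1)) * d = L * d + (f + 1) * d := by ring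
  have h7 : L * (d + 1) = L * d + L := by ring
  have h8 : I * (b + 1) = b * I + I := by ring
  rw [h4, h5, h6, h7, h8]
  have h9 : 0 ≤ f * (3 * I + 3) + (f + 1) * k := Nat.zero_le _
  omega

lemma st6d_term {I L e b d m : ℕ} {X : ℝ} (he : e < I) (hbI : b * I + 1 ≤ L + I)
    (hm : b + d + 3 * I + 3 ≤ m) (hX : X ≤ 2) :
    ((2 : ℝ) ^ (I - e)) ^ b * (8 * ((2 : ℝ) ^ I) ^ (b + 1) *
      ((2 : ℝ) ^ (L + I - e)) ^ d * (1 / 2 ^ (L + I - e)) ^ m * X) ≤
      1 / 2 ^ I * (((2 : ℝ) ^ L) ^ (d + 1) * (1 / 2 ^ L) ^ m) := by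
  have h1 : ((2 : ℝ) ^ (I - e)) ^ b * (8 * ((2 : ℝ) ^ I) ^ (b + 1) *
      ((2 : ℝ) ^ (L + I - e)) ^ d * (1 / 2 ^ (L + I - e)) ^ m * X) ≤
      ((2 : ℝ) ^ (I - e)) ^ b * (8 * ((2 : ℝ) ^ I) ^ (b + 1) *
      ((2 : ℝ) ^ (L + I - e)) ^ d * (1 / 2 ^ (L + I - e)) ^ m * 2) := by
    apply mul_le_mul_of_nonneg_left _ (by positivity)
    exact mul_le_mul_of_nonneg_left hX (by positivity)
  refine h1.trans ?_
  have h2 : ((2 : ℝ) ^ (I - e)) ^ b * (8 * ((2 : ℝ) ^ I) ^ (b + 1) *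
      ((2 : ℝ) ^ (L + I - e)) ^ d * (1 / 2 ^ (L + I - e)) ^ m * 2) =
      2 ^ (4 + (I - e) * b + I * (b + 1) + (L + I - e) * d) / 2 ^ ((L + I - e) * m) := by
    rw [one_div, inv_pow, ← pow_mul, ← pow_mul, ← pow_mul, ← pow_mul, pow_add, pow_add, pow_add]
    ring
  have h3 : 1 / 2 ^ I * (((2 : ℝ) ^ L) ^ (d + 1) * (1 / 2 ^ L) ^ m) =
      2 ^ (L * (d + 1)) / 2 ^ (I + L * m) := by
    rw [one_div, one_div, inv_pow, ← pow_mul, ← pow_mul, pow_add 2 I]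
    field_simp
  rw [h2, h3, div_le_div_iff₀ (by positivity) (by positivity), ← pow_add, ← pow_add]
  exact pow_le_pow_right₀ (by norm_num) (st6d_exp he hbI hm)

lemma st6d_kappa {I d m : ℕ} (hI : 1 ≤ I) (hd : 1 ≤ d) (hm : m ≤ 4 * d) :
    1 + (I : ℝ) * Real.exp (-(10 * ((I : ℝ) + 1)) * d) * 2 ^ (I * m) ≤ 2 := by
  have h1 : (I : ℝ) ≤ 2 ^ (I * d) := by
    have : I < 2 ^ I := Nat.lt_two_pow_self
    have h2 : 2 ^ I ≤ 2 ^ (I * d) := Nat.pow_le_pow_right (by norm_num) (Nat.le_mul_of_pos_right I hd)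
    exact_mod_cast (this.le.trans h2)
  have h2 : (2 : ℝ) ^ (I * m) ≤ 2 ^ (I * (4 * d)) :=
    pow_le_pow_right₀ (by norm_num) (Nat.mul_le_mul_left I hm)
  have h3 : (2 : ℝ) ^ (5 * I * d) ≤ Real.exp (5 * I * d) := by
    have h4 : (2 : ℝ) ≤ Real.exp 1 := by
      have := Real.add_one_le_exp (1 : ℝ); linarith
    calc (2 : ℝ) ^ (5 * I * d) ≤ (Real.exp 1) ^ (5 * I * d) :=
          pow_le_pow_left₀ (by norm_num) h4 _
      _ = Real.exp (5 * I * d) := by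
          rw [← Real.exp_nat_mul]; push_cast; ring_nf
  have hI' : (1 : ℝ) ≤ I := by exact_mod_cast hI
  have hd' : (1 : ℝ) ≤ d := by exact_mod_cast hd
  have h5 : (I : ℝ) * Real.exp (-(10 * ((I : ℝ) + 1)) * d) * 2 ^ (I * m) ≤ 1 := by
    calc (I : ℝ) * Real.exp (-(10 * ((I : ℝ) + 1)) * d) * 2 ^ (I * m) ≤
        2 ^ (I * d) * Real.exp (-(10 * ((I : ℝ) + 1)) * d) * 2 ^ (I * (4 * d)) := by
          apply mul_le_mul _ h2 (by positivity) (by positivity)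
          exact mul_le_mul_of_nonneg_right h1 (Real.exp_pos _).le
      _ = 2 ^ (5 * I * d) * Real.exp (-(10 * ((I : ℝ) + 1)) * d) := by
          rw [show 5 * I * d = I * d + I * (4 * d) by ring, pow_add]; ring
      _ ≤ Real.exp (5 * I * d) * Real.exp (-(10 * ((I : ℝ) + 1)) * d) :=
          mul_le_mul_of_nonneg_right h3 (Real.exp_pos _).le
      _ = Real.exp (5 * I * d + (-(10 * ((I : ℝ) + 1)) * d)) := (Real.exp_add _ _).symm
      _ ≤ 1 := by
          rw [Real.exp_le_one_iff]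
          nlinarith [mul_nonneg (by linarith : (0 : ℝ) ≤ I) (by linarith : (0 : ℝ) ≤ d)]
  linarith

lemma st6d_sum {I L b d m : ℕ} {X : ℝ} (hbI : b * I + 1 ≤ L + I)
    (hm : b + d + 3 * I + 3 ≤ m) (hX : X ≤ 2) :
    ∑ e ∈ range I, ((2 : ℝ) ^ (I - e)) ^ b * (8 * ((2 : ℝ) ^ I) ^ (b + 1) *
      ((2 : ℝ) ^ (L + I - e)) ^ d * (1 / 2 ^ (L + I - e)) ^ m * X) ≤
      ((2 : ℝ) ^ L) ^ (d + 1) * (1 / 2 ^ L) ^ m := by
  have h1 : ∀ e ∈ range I, ((2 : ℝ) ^ (I - e)) ^ b * (8 * ((2 : ℝ) ^ I) ^ (b + 1) *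
      ((2 : ℝ) ^ (L + I - e)) ^ d * (1 / 2 ^ (L + I - e)) ^ m * X) ≤
      1 / 2 ^ I * (((2 : ℝ) ^ L) ^ (d + 1) * (1 / 2 ^ L) ^ m) := fun e he =>
    st6d_term (mem_range.1 he) hbI hm hX
  refine (sum_le_sum h1).trans ?_
  rw [sum_const, card_range, nsmul_eq_mul, ← mul_assoc]
  have h2 : (I : ℝ) * (1 / 2 ^ I) ≤ 1 := by
    rw [mul_one_div, div_le_one (by positivity)]
    exact_mod_cast (Nat.lt_two_pow_self (n := I)).le
  calc (I : ℝ) * (1 / 2 ^ I) * (((2 : ℝ) ^ L) ^ (d + 1) * (1 / 2 ^ L) ^ m) ≤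
      1 * (((2 : ℝ) ^ L) ^ (d + 1) * (1 / 2 ^ L) ^ m) :=
        mul_le_mul_of_nonneg_right h2 (by positivity)
    _ = _ := one_mul _

lemma st6d_first {I L b d m : ℕ} (hbI : b * I ≤ L + I) :
    8 * ((2 : ℝ) ^ I) ^ b * ((2 : ℝ) ^ L) ^ d * (1 / 2 ^ L) ^ m ≤
      8 * 2 ^ I * (((2 : ℝ) ^ L) ^ (d + 1) * (1 / 2 ^ L) ^ m) := by
  have h1 : ((2 : ℝ) ^ I) ^ b ≤ 2 ^ I * 2 ^ L := by
    rw [← pow_mul, ← pow_add]
    exact pow_le_pow_right₀ (by norm_num) (by rw [Nat.mul_comm]; omega)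
  calc 8 * ((2 : ℝ) ^ I) ^ b * ((2 : ℝ) ^ L) ^ d * (1 / 2 ^ L) ^ m ≤
      8 * (2 ^ I * 2 ^ L) * ((2 : ℝ) ^ L) ^ d * (1 / 2 ^ L) ^ m := by
        gcongr
    _ = _ := by rw [pow_succ]; ring

open Classical in
/-- Task T6d: block estimate for the unstructured event. -/
theorem sumB6 (I : ℕ) (hI : 1 ≤ I) {θ δ c : ℝ} (hθ : 0 < θ) (hθI : 8 ≤ θ * I) (hδ : 0 < δ)
    (hc : 0 < c) :
    ∃ d0 : ℕ, ∀ (α β : Type) [Fintype α] [DecidableEq α]
      [Fintype β] [DecidableEq β], d0 ≤ Fintype.card α →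
      (1 + θ) * Fintype.card α ≤ Fintype.card β → Fintype.card β ≤ 4 * Fintype.card α →
      ∀ L : ℕ, 2 * L ≤ Fintype.card α → 2 * I ≤ L →
      (∀ j : ℕ, I < j → j ≤ L + I →
      ((univ.filter (fun x : α → ZMod (2 ^ j) => δ * Fintype.card α ≤ nu x ∧
        BadL I (Real.exp (-c * Fintype.card α)) x)).card : ℝ) ≤
        Real.exp (-(10 * ((I : ℝ) + 1)) * Fintype.card α) * ((2 : ℝ) ^ j) ^ Fintype.card α) →
      ∑ x ∈ univ.filter (fun x : α → ZMod (2 ^ L) =>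
          δ * Fintype.card α ≤ nu x ∧ GoodX I (Real.exp (-c * Fintype.card α)) x),
        ∑ z : β → ZMod (2 ^ L), Bq x z ≤ (2 : ℝ) ^ (I + 8) := by
  obtain ⟨c3, hc3, c8, hc8, d1, hd1⟩ := near_tail I hI hθ hδ hc
  obtain ⟨c7, hc7, d2, hd2⟩ := far_part hθ hc8
  refine ⟨max d1 (max d2 (max (6 * I) (max (I * I) 1))), ?_⟩
  intro α β _ _ _ _ hd hb1 hb2 L hL hIL hbad
  simp only [max_le_iff] at hd
  obtain ⟨e1, e2, e3, e4, e5⟩ := hd
  have hI0 : (0 : ℝ) < I := by exact_mod_cast hI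
  have key : ∀ X : ℕ, I * X ≤ 8 * Fintype.card α → X + Fintype.card α ≤ Fintype.card β := by
    intro X hX
    have h1 : (I : ℝ) * X ≤ 8 * Fintype.card α := by exact_mod_cast hX
    have h2 : (8 : ℝ) * Fintype.card α ≤ θ * I * Fintype.card α :=
      mul_le_mul_of_nonneg_right hθI (Nat.cast_nonneg _)
    have h3 : (I : ℝ) * X ≤ I * (θ * Fintype.card α) := by
      calc (I : ℝ) * X ≤ θ * I * Fintype.card α := h1.trans h2
        _ = I * (θ * Fintype.card α) := by ring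
    have h4 : (X : ℝ) ≤ θ * Fintype.card α := le_of_mul_le_mul_left h3 hI0
    have h5 : (X : ℝ) + Fintype.card α ≤ Fintype.card β := by linarith
    exact_mod_cast h5
  obtain ⟨b, hb⟩ : ∃ b, b = (L + I - 1) / I := ⟨_, rfl⟩
  have hbI : b * I + 1 ≤ L + I := by
    have := Nat.div_mul_le_self (L + I - 1) I
    rw [← hb] at this
    omega
  have hLb : L ≤ b * I := by
    have h1 := Nat.div_add_mod (L + I - 1) I
    have h2 := Nat.mod_lt (L + I - 1) (by omega : I > 0)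
    rw [← hb, Nat.mul_comm] at h1
    omega
  have hII : I ≤ I * I := Nat.le_mul_of_pos_right I hI
  have h3 : 3 * (L + I) ≤ 2 * Fintype.card α := by omega
  have hbm : 2 * (b + 1) + Fintype.card α ≤ Fintype.card β := by
    apply key
    have : I * (2 * (b + 1)) = 2 * (b * I) + 2 * I := by ring
    omega
  have hbd : b + Fintype.card α + 3 * I + 3 ≤ Fintype.card β := by
    have h1 := key (b + 3 * I + 3) (by
      have : I * (b + 3 * I + 3) = b * I + 3 * (I * I) + 3 * I := by ring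
      omega)
    omega
  obtain ⟨Near, hNear⟩ : ∃ Near : (β → α → Fin 4) → Prop, Near = fun ω =>
    (kerN (2 ^ I) (hm ω)).card < 2 ^ (I + ⌊c3 * Fintype.card α⌋₊) := ⟨_, rfl⟩
  have hn := near_aug (α := α) (β := β) (I := I) (L := L) (b := b) (δ := δ)
    (τ := Real.exp (-c * Fintype.card α))
    (κ := Real.exp (-(10 * ((I : ℝ) + 1)) * Fintype.card α)) hI hIL h3 hbm (by omega) hLb Near
    (by
      intro J' hJ1 hJ2 x hx1 hx2 B hB1 hB2
      have h1 := (hd1 α β e1 hb1 hb2 J' hJ1 hJ2 x hx1 hx2).1 B hB1 hB2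
      rw [hNear]
      convert h1 using 3)
    (Real.exp_pos _).le hbad
  obtain ⟨Far, hFar⟩ : ∃ Far : (β → α → Fin 4) → Prop, ∀ ω, Far ω ↔ ¬ Near ω :=
    ⟨fun ω => ¬ Near ω, fun _ => Iff.rfl⟩
  have hf := hd2 α β e2 hb1 L hL Far
    (univ.filter (fun x : α → ZMod (2 ^ L) =>
          δ * Fintype.card α ≤ nu x ∧ GoodX I (Real.exp (-c * Fintype.card α)) x))
    (by
      intro x hx
      rw [mem_filter] at hx
      have h1 := (hd1 α β e1 hb1 hb2 L (by omega) (by omega) x hx.2.1 hx.2.2).2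
      convert h1 using 5
      rw [hFar, hNear, not_lt])
  have hbr := st6d_kappa hI e5 hb2
  have hs := st6d_sum (L := L) hbI hbd hbr
  have hfi := st6d_first (L := L) (d := Fintype.card α) (m := Fintype.card β)
    (by omega : b * I ≤ L + I)
  set C := univ.filter (fun x : α → ZMod (2 ^ L) =>
          δ * Fintype.card α ≤ nu x ∧ GoodX I (Real.exp (-c * Fintype.card α)) x) with hC
  set R : ℝ := ((2 : ℝ) ^ L) ^ (Fintype.card α + 1) * (1 / 2 ^ L) ^ Fintype.card β with hR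
  have hRpos : 0 < R := by positivity
  have hF : (0 : ℝ) < 4 ^ (Fintype.card β * Fintype.card α) := by positivity
  have hn' : (∑ x ∈ C, ∑ ω : β → α → Fin 4, if (∀ i, walk (ω i) x = 0) ∧ Near ω then
          ((kerN (2 ^ L) (augM x ω)).card : ℝ) else 0) ≤
      4 ^ (Fintype.card β * Fintype.card α) * (8 * 2 ^ I * R + R) :=
    hn.trans (mul_le_mul_of_nonneg_left (add_le_add hfi hs) hF.le)
  have hf' : (∑ x ∈ C, ∑ ω : β → α → Fin 4, if (∀ i, walk (ω i) x = 0) ∧ Far ω then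
          ((kerN (2 ^ L) (augM x ω)).card : ℝ) else 0) ≤
      4 ^ (Fintype.card β * Fintype.card α) * R := by
    have h1 : (∑ x ∈ C, ∑ ω : β → α → Fin 4, if (∀ i, walk (ω i) x = 0) ∧ Far ω then
          ((kerN (2 ^ L) (augM x ω)).card : ℝ) else 0) ≤
        2 ^ L * ∑ x ∈ C, ∑ ω : β → α → Fin 4, if (∀ i, walk (ω i) x = 0) ∧ Far ω then
          ((kerN (2 ^ L) (hm ω)).card : ℝ) else 0 := by
      rw [mul_sum]
      refine sum_le_sum fun x _ => ?_
      rw [mul_sum]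
      refine sum_le_sum fun ω _ => ?_
      split_ifs with h
      · exact_mod_cast card_aug_le x ω
      · simp
    have h0 : (0 : ℝ) ≤ 2 ^ L := by positivity
    refine h1.trans ((mul_le_mul_of_nonneg_left hf h0).trans ?_)
    have h2 : (2 : ℝ) ^ (-c7 * (Fintype.card α : ℝ) ^ 2) ≤ 1 := by
      apply Real.rpow_le_one_of_one_le_of_nonpos (by norm_num)
      nlinarith [sq_nonneg (Fintype.card α : ℝ)]
    calc (2 : ℝ) ^ L * ((2 : ℝ) ^ (-c7 * (Fintype.card α : ℝ) ^ 2) * (2 ^ L) ^ Fintype.card α *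
          (1 / 2 ^ L) ^ Fintype.card β * 4 ^ (Fintype.card β * Fintype.card α)) =
        (2 : ℝ) ^ (-c7 * (Fintype.card α : ℝ) ^ 2) *
          (4 ^ (Fintype.card β * Fintype.card α) * R) := by
          rw [hR, pow_succ]; ring
      _ ≤ 1 * (4 ^ (Fintype.card β * Fintype.card α) * R) :=
          mul_le_mul_of_nonneg_right h2 (by positivity)
      _ = _ := one_mul _
  have hE : ∀ x : α → ZMod (2 ^ L), (∑ ω : β → α → Fin 4, if (∀ i, walk (ω i) x = 0) then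
      ((kerN (2 ^ L) (augM x ω)).card : ℝ) else 0) =
      (∑ ω : β → α → Fin 4, if (∀ i, walk (ω i) x = 0) ∧ Near ω then
          ((kerN (2 ^ L) (augM x ω)).card : ℝ) else 0) +
      ∑ ω : β → α → Fin 4, if (∀ i, walk (ω i) x = 0) ∧ Far ω then
          ((kerN (2 ^ L) (augM x ω)).card : ℝ) else 0 := by
    intro x
    rw [← sum_add_distrib]
    refine sum_congr rfl fun ω _ => ?_
    by_cases h1 : ∀ i, walk (ω i) x = 0 <;> by_cases h2 : Near ω <;> simp [h1, h2, hFar]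
  have htot : ((2 : ℝ) ^ L) ^ (Fintype.card α + 1) * ∑ x ∈ C, ∑ z : β → ZMod (2 ^ L), Bq x z ≤
      4 * ((2 : ℝ) ^ L) ^ Fintype.card β * (8 * 2 ^ I * R + R + R) := by
    rw [mul_sum]
    have h1 : ∀ x ∈ C, ((2 : ℝ) ^ L) ^ (Fintype.card α + 1) * ∑ z : β → ZMod (2 ^ L), Bq x z ≤
        4 * ((2 : ℝ) ^ L) ^ Fintype.card β * (1 / 4 ^ (Fintype.card β * Fintype.card α)) *
          (∑ ω : β → α → Fin 4, if (∀ i, walk (ω i) x = 0) then
            ((kerN (2 ^ L) (augM x ω)).card : ℝ) else 0) := by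
      intro x _
      refine (sum_Bq_le6 x).trans (le_of_eq ?_)
      ring
    refine (sum_le_sum h1).trans ?_
    rw [← mul_sum]
    simp only [hE]
    rw [sum_add_distrib]
    calc 4 * ((2 : ℝ) ^ L) ^ Fintype.card β * (1 / 4 ^ (Fintype.card β * Fintype.card α)) *
        ((∑ x ∈ C, ∑ ω : β → α → Fin 4, if (∀ i, walk (ω i) x = 0) ∧ Near ω then
          ((kerN (2 ^ L) (augM x ω)).card : ℝ) else 0) +
        ∑ x ∈ C, ∑ ω : β → α → Fin 4, if (∀ i, walk (ω i) x = 0) ∧ Far ω then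
          ((kerN (2 ^ L) (augM x ω)).card : ℝ) else 0) ≤
        4 * ((2 : ℝ) ^ L) ^ Fintype.card β * (1 / 4 ^ (Fintype.card β * Fintype.card α)) *
        (4 ^ (Fintype.card β * Fintype.card α) * (8 * 2 ^ I * R + R) +
          4 ^ (Fintype.card β * Fintype.card α) * R) :=
          mul_le_mul_of_nonneg_left (add_le_add hn' hf') (by positivity)
      _ = 4 * ((2 : ℝ) ^ L) ^ Fintype.card β * (8 * 2 ^ I * R + R + R) := by
          field_simp
  have hNm : ((2 : ℝ) ^ L) ^ Fintype.card β * R = ((2 : ℝ) ^ L) ^ (Fintype.card α + 1) := by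
    rw [hR, mul_left_comm, ← mul_pow, mul_one_div_cancel (by positivity), one_pow, mul_one]
  have hfin : ((2 : ℝ) ^ L) ^ (Fintype.card α + 1) * ∑ x ∈ C, ∑ z : β → ZMod (2 ^ L), Bq x z ≤
      ((2 : ℝ) ^ L) ^ (Fintype.card α + 1) * (4 * (8 * 2 ^ I + 2)) := by
    refine htot.trans (le_of_eq ?_)
    rw [← hNm]
    ring
  have hlast := le_of_mul_le_mul_left hfin (by positivity)
  refine hlast.trans ?_
  have h9 : (1 : ℝ) ≤ 2 ^ I := one_le_pow₀ (by norm_num)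
  rw [pow_add]
  linarith

end Vale.Agent.P160
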