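import Vale.Agent.P160.ST0
import Vale.Agent.P160.SM6

set_option linter.unusedSectionVars false

namespace Vale.Agent.P160

open Finset

lemma st7_log : (2 : ℝ) / 5 ≤ Real.log (3 / 2) := by
  have h1 : Real.exp 2 < 243 / 32 := by
    have h2 : Real.exp 2 = Real.exp 1 * Real.exp 1 := by
      rw [← Real.exp_add]
      norm_num
    have h3 := Real.exp_one_lt_d9
    have h4 := Real.exp_pos 1
    rw [h2]
    nlinarith only [h3, h4]
  have h5 : (2 : ℝ) < Real.log (243 / 32) := by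
    rw [Real.lt_log_iff_exp_lt (by norm_num)]
    exact h1
  have h6 : (243 / 32 : ℝ) = (3 / 2) ^ 5 := by norm_num
  rw [h6, Real.log_pow] at h5
  push_cast at h5
  linarith only [h5]

lemma st7_num {I : ℕ} {d j : ℕ} (hd : 52 * (I + 2) ≤ d) (hj : 2 * j ≤ d + 2 * I + 4) :
    Real.log ((2 ^ j : ℕ) : ℝ) ≤
      (1 - 1 / 10) * (d : ℝ) * (-Real.log (1 - 2 / ((6 : ℕ) : ℝ))) := by
  have h1 : (1 - 2 / ((6 : ℕ) : ℝ)) = (3 / 2)⁻¹ := by norm_num
  rw [h1, Real.log_inv, neg_neg]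
  push_cast
  rw [Real.log_pow]
  have h2 := Real.log_two_lt_d9
  have h3 := st7_log
  have hd' : (52 : ℝ) * ((I : ℝ) + 2) ≤ d := by exact_mod_cast hd
  have hj' : (2 : ℝ) * (j : ℝ) ≤ d + 2 * I + 4 := by exact_mod_cast hj
  have hlog0 : 0 < Real.log 2 := Real.log_pos (by norm_num)
  have hd0 : (0 : ℝ) ≤ d := Nat.cast_nonneg d
  have hI0 : (0 : ℝ) ≤ I := Nat.cast_nonneg I
  have h4 : (j : ℝ) * Real.log 2 ≤ ((d : ℝ) / 2 + I + 2) * Real.log 2 :=
    mul_le_mul_of_nonneg_right (by linarith only [hj']) hlog0.le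
  have h5 : ((d : ℝ) / 2 + I + 2) * Real.log 2 ≤ ((d : ℝ) / 2 + I + 2) * 0.6931471808 :=
    mul_le_mul_of_nonneg_left h2.le (by linarith only [hd0, hI0])
  have h6 : (1 - 1 / 10) * (d : ℝ) * (2 / 5) ≤ (1 - 1 / 10) * (d : ℝ) * Real.log (3 / 2) :=
    mul_le_mul_of_nonneg_left h3 (by linarith only [hd0])
  linarith only [h4, h5, h6, hd', hd0, hI0]

lemma st7_card_mult (I j : ℕ) (hIj : I ≤ j) [NeZero (2 ^ j)] :
    ((univ : Finset (ZMod (2 ^ j))).image (fun a => 2 ^ (j - I) * a)).card ≤ 2 ^ I := by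
  classical
  have hsub : (univ : Finset (ZMod (2 ^ j))).image (fun a => 2 ^ (j - I) * a) ⊆
      (range (2 ^ I)).image (fun n : ℕ => (2 ^ (j - I) * (n : ZMod (2 ^ j)) : ZMod (2 ^ j))) := by
    intro y hy
    rw [mem_image] at hy ⊢
    obtain ⟨a, _, rfl⟩ := hy
    refine ⟨a.val % 2 ^ I, mem_range.2 (Nat.mod_lt _ (by positivity)), ?_⟩
    have h0 : ((2 : ZMod (2 ^ j)) ^ (j - I)) * 2 ^ I = 0 := by
      rw [← pow_add, Nat.sub_add_cancel hIj]
      have := ZMod.natCast_self (2 ^ j)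
      push_cast at this
      exact this
    have h1 : ((a.val : ℕ) : ZMod (2 ^ j)) = a := ZMod.natCast_zmod_val a
    have h2 : a = 2 ^ I * ((a.val / 2 ^ I : ℕ) : ZMod (2 ^ j)) + ((a.val % 2 ^ I : ℕ) :
        ZMod (2 ^ j)) := by
      conv_lhs => rw [← h1, ← Nat.div_add_mod a.val (2 ^ I)]
      push_cast
      ring
    conv_rhs => rw [h2]
    rw [mul_add, ← mul_assoc, h0, zero_mul, zero_add]
  refine (card_le_card hsub).trans (card_image_le.trans ?_)
  rw [card_range]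

lemma st7_nu {α : Type*} [Fintype α] [DecidableEq α] {I j : ℕ} (hIj : I < j)
    (x k : α → ZMod (2 ^ j)) : nu (fun i => x i + 2 ^ (j - I) * k i) = nu x := by
  have hj : j ≠ 0 := by omega
  rw [← wt_eq_nu hj, ← wt_eq_nu hj]
  congr 1
  funext i
  have h2 : (2 : ZMod 2) = 0 := rfl
  rw [map_add, map_mul, map_pow, map_ofNat, h2, zero_pow (by omega), zero_mul, add_zero]

open Classical in
/-- Task T7: the number of structured vectors. -/
theorem card_badL (I : ℕ) {δ : ℝ} (K : ℝ) (hδ : 0 < δ) : ∃ c : ℝ, 0 < c ∧ ∃ d0 : ℕ,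
    ∀ (α : Type) [Fintype α] [DecidableEq α], d0 ≤ Fintype.card α → ∀ j : ℕ, I < j →
      2 * j ≤ Fintype.card α + 2 * I + 4 →
      ((univ.filter (fun x : α → ZMod (2 ^ j) => δ * Fintype.card α ≤ nu x ∧
        BadL I (Real.exp (-c * Fintype.card α)) x)).card : ℝ) ≤
        Real.exp (-K * Fintype.card α) * ((2 : ℝ) ^ j) ^ Fintype.card α := by
  obtain ⟨c, hc, d0, h⟩ := count_exp (M := 6) (by norm_num) (ε := 1 / 10)
    (K + I * Real.log 2) (by norm_num) (by norm_num) hδ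
  refine ⟨c, hc, max d0 (52 * (I + 2)), fun α _ _ hα j hIj hj => ?_⟩
  have : NeZero (2 ^ j) := ⟨by positivity⟩
  have h1 := h α ((le_max_left _ _).trans hα) (2 ^ j)
    (st7_num ((le_max_right _ _).trans hα) hj)
  set d := Fintype.card α with hd
  set V := univ.filter (fun v : α → ZMod (2 ^ j) => δ * d ≤ nu v ∧
    1 + Real.exp (-c * d) < Zf 6 v) with hV
  set W : Finset (α → ZMod (2 ^ j)) := Fintype.piFinset (fun _ : α =>
    (univ : Finset (ZMod (2 ^ j))).image (fun a => 2 ^ (j - I) * a)) with hW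
  set S := univ.filter (fun x : α → ZMod (2 ^ j) => δ * d ≤ nu x ∧
    BadL I (Real.exp (-c * d)) x) with hS
  have hsub : S ⊆ (V ×ˢ W).image (fun p => p.1 - p.2) := by
    intro x hx
    rw [hS, mem_filter] at hx
    obtain ⟨_, hx1, k, hk⟩ := hx
    rw [mem_image]
    refine ⟨(fun i => x i + 2 ^ (j - I) * k i, fun i => 2 ^ (j - I) * k i), ?_, ?_⟩
    · rw [mem_product]
      constructor
      · rw [hV, mem_filter]
        refine ⟨mem_univ _, ?_, hk⟩
        rw [st7_nu hIj]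
        exact hx1
      · rw [hW, Fintype.mem_piFinset]
        intro i
        exact mem_image_of_mem _ (mem_univ _)
    · funext i
      simp only [Pi.sub_apply]
      ring
  have hWc : W.card ≤ (2 ^ I) ^ d := by
    rw [hW, Fintype.card_piFinset, prod_const, hd]
    exact Nat.pow_le_pow_left (st7_card_mult I j hIj.le) _
  have hSc : S.card ≤ V.card * (2 ^ I) ^ d := by
    refine (card_le_card hsub).trans (card_image_le.trans ?_)
    rw [card_product]
    exact Nat.mul_le_mul_left _ hWc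
  have hSc' : (S.card : ℝ) ≤ V.card * ((2 : ℝ) ^ I) ^ d := by
    exact_mod_cast hSc
  have hexp : ((2 : ℝ) ^ I) ^ d = Real.exp (I * Real.log 2 * d) := by
    rw [mul_comm ((I : ℝ) * Real.log 2) (d : ℝ), Real.exp_nat_mul, Real.exp_nat_mul,
      Real.exp_log (by norm_num)]
  have h2 : ((2 ^ j : ℕ) : ℝ) = (2 : ℝ) ^ j := by push_cast; rfl
  rw [h2] at h1
  have h3 : 0 ≤ ((2 : ℝ) ^ I) ^ d := by positivity
  calc (S.card : ℝ) ≤ V.card * ((2 : ℝ) ^ I) ^ d := hSc'
    _ ≤ (Real.exp (-(K + I * Real.log 2) * d) * ((2 : ℝ) ^ j) ^ d) * ((2 : ℝ) ^ I) ^ d :=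
        mul_le_mul_of_nonneg_right h1 h3
    _ = Real.exp (-(K + I * Real.log 2) * d) * Real.exp (I * Real.log 2 * d) *
        ((2 : ℝ) ^ j) ^ d := by
        rw [hexp]
        ring
    _ = Real.exp (-K * d) * ((2 : ℝ) ^ j) ^ d := by
        rw [← Real.exp_add]
        congr 2
        ring

end Vale.Agent.P160
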