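import Vale.Agent.P160.ST0

set_option linter.unusedSectionVars false

namespace Vale.Agent.P160

open Finset

/-- The index set of the family: subsets of size `a ^ 2 - a` of `2 a ^ 2` blocks. -/
abbrev TTa (a : ℕ) : Type := {t : Finset (Fin (2 * a ^ 2)) // t.card = a ^ 2 - a}

/-- The block pattern. -/
def DDa (a n q : ℕ) (t : TTa a) : Finset (Fin n) :=
  univ.filter (fun i : Fin n => i.val < 2 * a ^ 2 * q ∧
    ∃ h : i.val % (2 * a ^ 2) < 2 * a ^ 2, (⟨i.val % (2 * a ^ 2), h⟩ : Fin (2 * a ^ 2)) ∈ t.1)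

lemma st8_card_TTa (a : ℕ) : Fintype.card (TTa a) = (2 * a ^ 2).choose (a ^ 2 - a) := by
  have h : Fintype.card (TTa a) =
      (powersetCard (a ^ 2 - a) (univ : Finset (Fin (2 * a ^ 2)))).card := by
    rw [Fintype.card_subtype]
    congr 1
    ext t
    simp [mem_powersetCard]
  rw [h, card_powersetCard, card_univ, Fintype.card_fin]

/-- Task T8 -/
theorem nonempty_TTa (a : ℕ) : Nonempty (TTa a) := by
  rw [← Fintype.card_pos_iff, st8_card_TTa]
  apply Nat.choose_pos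
  omega

lemma st8_mem {a n q : ℕ} (ha : 0 < 2 * a ^ 2) {t : TTa a} {i : Fin n} :
    i ∈ DDa a n q t ↔ i.val < 2 * a ^ 2 * q ∧
    (⟨i.val % (2 * a ^ 2), Nat.mod_lt _ ha⟩ : Fin (2 * a ^ 2)) ∈ t.1 := by
  unfold DDa
  rw [mem_filter]
  constructor
  · rintro ⟨_, h1, h2, h3⟩
    exact ⟨h1, h3⟩
  · rintro ⟨h1, h2⟩
    exact ⟨mem_univ _, h1, Nat.mod_lt _ ha, h2⟩

lemma st8_aux (R q x k : ℕ) (hx : x < R) (hk : k < q) : R * k + x < R * q := by
  have h1 : R * k + R ≤ R * q := by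
    have h2 : R * (k + 1) ≤ R * q := Nat.mul_le_mul_left R hk
    linarith [h2, Nat.mul_succ R k]
  omega

/-- Task T8 -/
theorem card_DDa {a n q : ℕ} (ha : 3 ≤ a) (h : 2 * a ^ 2 * q ≤ n) (t : TTa a) :
    (DDa a n q t).card = (a ^ 2 - a) * q := by
  have hR : 0 < 2 * a ^ 2 := by positivity
  have h1 : DDa a n q t = (t.1 ×ˢ (univ : Finset (Fin q))).image (fun p =>
      (⟨2 * a ^ 2 * p.2.val + p.1.val,
        lt_of_lt_of_le (st8_aux _ _ _ _ p.1.2 p.2.2) h⟩ : Fin n)) := by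
    ext i
    rw [st8_mem hR, mem_image]
    constructor
    · rintro ⟨h1, h2⟩
      refine ⟨(⟨i.val % (2 * a ^ 2), Nat.mod_lt _ hR⟩, ⟨i.val / (2 * a ^ 2), ?_⟩), ?_, ?_⟩
      · exact (Nat.div_lt_iff_lt_mul hR).2 (by rw [mul_comm]; exact h1)
      · rw [mem_product]
        exact ⟨h2, mem_univ _⟩
      · apply Fin.ext
        show 2 * a ^ 2 * (i.val / (2 * a ^ 2)) + i.val % (2 * a ^ 2) = i.val
        exact Nat.div_add_mod _ _
    · rintro ⟨⟨b, k⟩, hp, rfl⟩
      rw [mem_product] at hp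
      have hb := b.2
      have hk := k.2
      refine ⟨?_, ?_⟩
      · show 2 * a ^ 2 * k.val + b.val < 2 * a ^ 2 * q
        exact st8_aux _ _ _ _ hb hk
      · have : (⟨(2 * a ^ 2 * k.val + b.val) % (2 * a ^ 2), Nat.mod_lt _ hR⟩ :
            Fin (2 * a ^ 2)) = b := by
          apply Fin.ext
          show (2 * a ^ 2 * k.val + b.val) % (2 * a ^ 2) = b.val
          rw [Nat.mul_add_mod, Nat.mod_eq_of_lt hb]
        show (⟨(2 * a ^ 2 * k.val + b.val) % (2 * a ^ 2), Nat.mod_lt _ hR⟩ :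
            Fin (2 * a ^ 2)) ∈ t.1
        rw [this]
        exact hp.1
  rw [h1, card_image_of_injective, card_product, t.2, card_univ, Fintype.card_fin]
  rintro ⟨b, k⟩ ⟨b', k'⟩ h
  simp only [Fin.mk.injEq] at h
  have hb := b.2
  have hb' := b'.2
  have h2 : b.val = b'.val := by
    have h3 := congrArg (fun z => z % (2 * a ^ 2)) h
    simp only [Nat.mul_add_mod] at h3
    rwa [Nat.mod_eq_of_lt hb, Nat.mod_eq_of_lt hb'] at h3
  have h3 : k.val = k'.val := by
    rw [h2] at h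
    exact Nat.eq_of_mul_eq_mul_left hR (Nat.add_right_cancel h)
  exact Prod.ext (Fin.ext h2) (Fin.ext h3)

lemma st8_pair {R s : ℕ} {a b : Fin R} (hab : a ≠ b) :
    (univ.filter (fun t : {t : Finset (Fin R) // t.card = s} => a ∈ t.1 ∧ b ∉ t.1)).card ≤
      (R - 2).choose (s - 1) := by
  have h1 : (powersetCard (s - 1) ((univ.erase a).erase b)).card = (R - 2).choose (s - 1) := by
    rw [card_powersetCard, card_erase_of_mem, card_erase_of_mem (mem_univ _), card_univ,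
      Fintype.card_fin]
    · rfl
    · rw [mem_erase]
      exact ⟨hab.symm, mem_univ _⟩
  rw [← h1]
  refine Finset.card_le_card_of_injOn (fun t => t.1.erase a) ?_ ?_
  · intro t ht
    rw [mem_coe, mem_filter] at ht
    rw [mem_coe, mem_powersetCard]
    refine ⟨?_, ?_⟩
    · intro x hx
      rw [mem_erase] at hx
      rw [mem_erase, mem_erase]
      refine ⟨?_, hx.1, mem_univ _⟩
      rintro rfl
      exact ht.2.2 hx.2
    · rw [card_erase_of_mem ht.2.1, t.2]
  · intro t ht t' ht' h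
    rw [mem_coe, mem_filter] at ht ht'
    apply Subtype.ext
    rw [← insert_erase ht.2.1, ← insert_erase ht'.2.1]
    exact congrArg (insert a) h

lemma st8_one {R s : ℕ} (a : Fin R) :
    (univ.filter (fun t : {t : Finset (Fin R) // t.card = s} => a ∈ t.1)).card ≤
      (R - 1).choose (s - 1) := by
  have h1 : (powersetCard (s - 1) ((univ : Finset (Fin R)).erase a)).card =
      (R - 1).choose (s - 1) := by
    rw [card_powersetCard, card_erase_of_mem (mem_univ _), card_univ, Fintype.card_fin]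
  rw [← h1]
  refine Finset.card_le_card_of_injOn (fun t => t.1.erase a) ?_ ?_
  · intro t ht
    rw [mem_coe, mem_filter] at ht
    rw [mem_coe, mem_powersetCard]
    refine ⟨?_, ?_⟩
    · intro x hx
      rw [mem_erase] at hx
      rw [mem_erase]
      exact ⟨hx.1, mem_univ _⟩
    · rw [card_erase_of_mem ht.2, t.2]
  · intro t ht t' ht' h
    rw [mem_coe, mem_filter] at ht ht'
    apply Subtype.ext
    rw [← insert_erase ht.2, ← insert_erase ht'.2]
    exact congrArg (insert a) h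

lemma st8_le_choose (n : ℕ) : ∀ k, 1 ≤ k → k < n → n ≤ n.choose k := by
  induction n with
  | zero => intro k _ hk; omega
  | succ n ih =>
    intro k hk hkn
    obtain ⟨k, rfl⟩ : ∃ j, k = j + 1 := ⟨k - 1, by omega⟩
    rw [Nat.choose_succ_succ']
    by_cases h : k + 1 = n
    · subst h
      rw [Nat.choose_self, Nat.choose_succ_self_right]
    · have h1 := ih (k + 1) (by omega) (by omega)
      have h2 : 0 < n.choose k := Nat.choose_pos (by omega)
      omega

/-- the two numerical inequalities -/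
lemma st8_num {a : ℕ} (ha : 3 ≤ a) :
    4 * (2 * a ^ 2 - 2).choose (a ^ 2 - a - 1) + 4 ≤ (2 * a ^ 2).choose (a ^ 2 - a) ∧
    2 * (2 * a ^ 2 - 1).choose (a ^ 2 - a - 1) + 4 ≤ (2 * a ^ 2).choose (a ^ 2 - a) := by
  have hsq : a ^ 2 = a * a := sq a
  have hge : 3 * a ≤ a * a := Nat.mul_le_mul_right a ha
  obtain ⟨s, hs⟩ : ∃ s, a ^ 2 = s + 1 + a := ⟨a ^ 2 - a - 1, by omega⟩
  obtain ⟨R, hR⟩ : ∃ R, 2 * a ^ 2 = R + 2 := ⟨2 * a ^ 2 - 2, by omega⟩
  have e1 : a ^ 2 - a - 1 = s := by omega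
  have e2 : a ^ 2 - a = s + 1 := by omega
  have e3 : 2 * a ^ 2 - 2 = R := by omega
  have e4 : 2 * a ^ 2 - 1 = R + 1 := by omega
  rw [e1, e2, e3, e4, hR]
  set C := (R + 2).choose (s + 1) with hC
  set Y := (R + 1).choose s with hY
  set X := R.choose s with hX
  have hX1 : R ≤ X := st8_le_choose R s (by omega) (by omega)
  have i1 : (R + 2) * Y = C * (s + 1) := Nat.add_one_mul_choose_eq (R + 1) s
  have i2 : X * (R + 1) = Y * (R + 1 - s) := Nat.choose_mul_succ_eq R s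
  have e5 : R + 1 - s = a ^ 2 + a := by omega
  rw [e5] at i2

  have z1 : (2 * (a : ℤ) ^ 2) * Y = C * ((a : ℤ) ^ 2 - a) := by
    have h1 : ((R + 2 : ℕ) : ℤ) = 2 * (a : ℤ) ^ 2 := by rw [← hR]; push_cast; ring
    have h2 : ((s + 1 : ℕ) : ℤ) = (a : ℤ) ^ 2 - a := by
      have h3 : ((a ^ 2 : ℕ) : ℤ) = ((s + 1 + a : ℕ) : ℤ) := by rw [hs]
      push_cast at h3 ⊢
      linarith only [h3]
    rw [← h1, ← h2]
    exact_mod_cast i1
  have z2 : (X : ℤ) * (2 * (a : ℤ) ^ 2 - 1) = Y * ((a : ℤ) ^ 2 + a) := by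
    have h1 : ((R + 1 : ℕ) : ℤ) = 2 * (a : ℤ) ^ 2 - 1 := by
      have h3 : ((2 * a ^ 2 : ℕ) : ℤ) = ((R + 2 : ℕ) : ℤ) := by rw [hR]
      push_cast at h3 ⊢
      linarith only [h3]
    rw [← h1]
    exact_mod_cast i2
  have z3 : 2 * ((a : ℤ) ^ 2 - 1) ≤ X := by
    have h3 : ((2 * a ^ 2 : ℕ) : ℤ) = ((R + 2 : ℕ) : ℤ) := by rw [hR]
    push_cast at h3
    have h4 : (R : ℤ) ≤ X := by exact_mod_cast hX1
    linarith only [h3, h4]
  have ha0 : (3 : ℤ) ≤ a := by exact_mod_cast ha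
  have ha1 : (0 : ℤ) < a := by linarith only [ha0]
  have w1 : 2 * (a : ℤ) * Y = C * (a - 1) := by
    have h1 : (a : ℤ) * (2 * a * Y) = a * (C * (a - 1)) := by linear_combination z1
    exact mul_left_cancel₀ ha1.ne' h1
  have w2 : ((C : ℤ) - 4 * X) * ((a : ℤ) ^ 2 - 1) = 2 * X := by
    linear_combination (-(a : ℤ) - 1) * w1 - 2 * z2
  have hp : (0 : ℤ) < (a : ℤ) ^ 2 - 1 := by nlinarith only [ha0]
  have w3 : (4 : ℤ) ≤ C - 4 * X := by
    have h1 : 4 * ((a : ℤ) ^ 2 - 1) ≤ ((C : ℤ) - 4 * X) * ((a : ℤ) ^ 2 - 1) := by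
      rw [w2]; linarith only [z3]
    exact le_of_mul_le_mul_right h1 hp
  have w4 : ((C : ℤ) - 2 * Y) * a = C := by linear_combination -w1
  have w5 : (4 : ℤ) ≤ C - 2 * Y := by
    have h1 : 4 * (a : ℤ) ≤ ((C : ℤ) - 2 * Y) * a := by
      rw [w4]
      nlinarith only [w3, z3, ha0]
    exact le_of_mul_le_mul_right h1 ha1
  constructor
  · have : (4 * X + 4 : ℤ) ≤ C := by linarith only [w3]
    exact_mod_cast this
  · have : (2 * Y + 4 : ℤ) ≤ C := by linarith only [w5]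
    exact_mod_cast this

/-- Task T8 -/
theorem Sep4_DDa {a : ℕ} (ha : 3 ≤ a) (n q : ℕ) : Sep4 (DDa a n q) := by
  have hR : 0 < 2 * a ^ 2 := by positivity
  have hs0 : 0 < a ^ 2 - a := by
    have hsq : a ^ 2 = a * a := sq a
    have hge : 3 * a ≤ a * a := Nat.mul_le_mul_right a ha
    omega
  obtain ⟨num1, num2⟩ := st8_num ha
  intro i j _
  rw [st8_card_TTa]
  set b : Fin (2 * a ^ 2) := ⟨i.val % (2 * a ^ 2), Nat.mod_lt _ hR⟩ with hb
  set c : Fin (2 * a ^ 2) := ⟨j.val % (2 * a ^ 2), Nat.mod_lt _ hR⟩ with hc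
  have hsplit : (univ.filter (fun t : TTa a => (i ∈ DDa a n q t ∧ j ∉ DDa a n q t) ∨
      (i ∉ DDa a n q t ∧ j ∈ DDa a n q t))).card ≤
      (univ.filter (fun t : TTa a => i ∈ DDa a n q t ∧ j ∉ DDa a n q t)).card +
      (univ.filter (fun t : TTa a => j ∈ DDa a n q t ∧ i ∉ DDa a n q t)).card := by
    rw [filter_or]
    refine (card_union_le _ _).trans ?_
    apply Nat.add_le_add_left
    apply card_le_card
    intro t ht
    rw [mem_filter] at ht ⊢
    exact ⟨mem_univ _, ht.2.2, ht.2.1⟩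

  have hone : ∀ (i j : Fin n) (b c : Fin (2 * a ^ 2)),
      b = (⟨i.val % (2 * a ^ 2), Nat.mod_lt _ hR⟩ : Fin (2 * a ^ 2)) →
      c = (⟨j.val % (2 * a ^ 2), Nat.mod_lt _ hR⟩ : Fin (2 * a ^ 2)) → j.val < 2 * a ^ 2 * q →
      (univ.filter (fun t : TTa a => i ∈ DDa a n q t ∧ j ∉ DDa a n q t)).card ≤
        (2 * a ^ 2 - 2).choose (a ^ 2 - a - 1) := by
    intro i j b c hb hc hj
    by_cases hbc : b = c
    · have : univ.filter (fun t : TTa a => i ∈ DDa a n q t ∧ j ∉ DDa a n q t) = ∅ := by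
        apply filter_eq_empty_iff.2
        rintro t _ ⟨h1, h2⟩
        rw [st8_mem hR] at h1 h2
        apply h2
        refine ⟨hj, ?_⟩
        rw [← hc, ← hbc, hb]
        exact h1.2
      rw [this]
      simp
    · refine le_trans (card_le_card ?_) (st8_pair hbc)
      intro t ht
      rw [mem_filter] at ht ⊢
      obtain ⟨_, h1, h2⟩ := ht
      rw [st8_mem hR] at h1 h2
      refine ⟨mem_univ _, hb ▸ h1.2, fun h3 => h2 ⟨hj, hc ▸ h3⟩⟩
  have hout : ∀ (i j : Fin n), ¬ i.val < 2 * a ^ 2 * q →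
      (univ.filter (fun t : TTa a => i ∈ DDa a n q t ∧ j ∉ DDa a n q t)).card = 0 := by
    intro i j hi
    rw [card_eq_zero]
    apply filter_eq_empty_iff.2
    rintro t _ ⟨h1, _⟩
    rw [st8_mem hR] at h1
    exact hi h1.1
  have hin : ∀ (i j : Fin n),
      (univ.filter (fun t : TTa a => i ∈ DDa a n q t ∧ j ∉ DDa a n q t)).card ≤
        (2 * a ^ 2 - 1).choose (a ^ 2 - a - 1) := by
    intro i j
    refine le_trans (card_le_card ?_)
      (st8_one (⟨i.val % (2 * a ^ 2), Nat.mod_lt _ hR⟩ : Fin (2 * a ^ 2)))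
    intro t ht
    rw [mem_filter] at ht ⊢
    obtain ⟨_, h1, _⟩ := ht
    rw [st8_mem hR] at h1
    exact ⟨mem_univ _, h1.2⟩
  by_cases hi : i.val < 2 * a ^ 2 * q
  · by_cases hj : j.val < 2 * a ^ 2 * q
    · have h1 := hone i j b c hb hc hj
      have h2 := hone j i c b hc hb hi
      omega
    · have h1 := hin i j
      have h2 := hout j i hj
      omega
  · have h1 := hout i j hi
    have h2 := hin j i
    omega

end Vale.Agent.P160
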