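import Vale.Agent.P160.ST0

set_option linter.unusedSectionVars false

namespace Vale.Agent.P160

open Finset

lemma st9_sum_pow_nu {α : Type} [Fintype α] [DecidableEq α] (y : ℝ) :
    ∑ x : α → ZMod 2, y ^ nu x = (1 + y) ^ Fintype.card α := by
  classical
  have h := Finset.prod_univ_sum (fun _ : α => (univ : Finset (ZMod 2)))
    (fun _ a => if IsUnit a then y else 1)
  rw [Fintype.piFinset_univ] at h
  have h2 : ∑ a : ZMod 2, (if IsUnit a then y else 1) = 1 + y := by
    have hu : (univ : Finset (ZMod 2)) = {0, 1} := by decide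
    rw [hu, sum_pair (by decide)]
    simp only [isUnit_iff_eq_one, zero_ne_one, ↓reduceIte]
  rw [h2, prod_const, card_univ] at h
  rw [h]
  refine sum_congr rfl fun x _ => ?_
  rw [nu_eq, ← prod_const, prod_filter]

open Classical in
lemma st9_card_sparse_le {α : Type} [Fintype α] [DecidableEq α] (u : ℕ) {A : ℝ} (hA : 1 ≤ A) :
    ((univ.filter (fun x : α → ZMod 2 => nu x < u)).card : ℝ) ≤
      A ^ u * (1 + A⁻¹) ^ Fintype.card α := by
  have hA0 : 0 < A := lt_of_lt_of_le one_pos hA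
  have h1 : ∀ x : α → ZMod 2, (if nu x < u then (1 : ℝ) else 0) ≤ A ^ u * A⁻¹ ^ nu x := by
    intro x
    split_ifs with h
    · have h2 : A⁻¹ ^ u ≤ A⁻¹ ^ nu x :=
        pow_le_pow_of_le_one (inv_nonneg.2 hA0.le) (inv_le_one_of_one_le₀ hA) h.le
      calc (1 : ℝ) = A ^ u * A⁻¹ ^ u := by
            rw [← mul_pow, mul_inv_cancel₀ hA0.ne', one_pow]
        _ ≤ _ := mul_le_mul_of_nonneg_left h2 (by positivity)
    · positivity
  have h2 : ((univ.filter (fun x : α → ZMod 2 => nu x < u)).card : ℝ) =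
      ∑ x : α → ZMod 2, if nu x < u then (1 : ℝ) else 0 := by
    rw [card_filter]
    push_cast
    rfl
  rw [h2]
  refine (sum_le_sum fun x _ => h1 x).trans (le_of_eq ?_)
  rw [← mul_sum, st9_sum_pow_nu]

/-- Task T9: the sparse event. -/
theorem Pb_Ev0_6 {h : ℝ} (hh : 0 < h) : ∃ δ : ℝ, 0 < δ ∧ ∀ (n : ℕ) (D : Finset (Fin n)) (u : ℕ),
    (u : ℝ) ≤ δ * D.card → Pb (Ev0 D u) ≤ 2 * (2 : ℝ) ^ (-(1 - h) * (D.card : ℝ)) := by
  classical
  have hl2 : 0 < Real.log 2 := Real.log_pos (by norm_num)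
  obtain ⟨c, hc⟩ : ∃ c : ℝ, c = h / 2 * Real.log 2 := ⟨_, rfl⟩
  have hc0 : 0 < c := by rw [hc]; positivity
  obtain ⟨A, hA1, hA2⟩ : ∃ A : ℝ, 2 ≤ A ∧ A⁻¹ ≤ c :=
    ⟨max 2 c⁻¹, le_max_left _ _, inv_le_of_inv_le₀ hc0 (le_max_right _ _)⟩
  have hA0 : 0 < A := by linarith
  have hlA : 0 < Real.log A := Real.log_pos (by linarith)
  refine ⟨c / Real.log A, by positivity, fun n D u hu => ?_⟩
  refine (Pb_Ev0_le D u).trans ?_
  have hd : Fintype.card {i // i ∈ D} = D.card := Fintype.card_coe D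
  have h1 := st9_card_sparse_le (α := {i // i ∈ D}) u (A := A) (by linarith)
  rw [hd] at h1
  have h2 : A ^ u ≤ Real.exp (c * D.card) := by
    rw [← Real.log_le_iff_le_exp (by positivity), Real.log_pow]
    calc (u : ℝ) * Real.log A ≤ (c / Real.log A * D.card) * Real.log A :=
          mul_le_mul_of_nonneg_right hu hlA.le
      _ = c * D.card := by field_simp
  have h3 : (1 + A⁻¹) ^ D.card ≤ Real.exp (c * D.card) := by
    have h5 : 1 + A⁻¹ ≤ Real.exp c := by
      have := Real.add_one_le_exp c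
      linarith
    calc (1 + A⁻¹) ^ D.card ≤ (Real.exp c) ^ D.card :=
          pow_le_pow_left₀ (by positivity) h5 _
      _ = Real.exp (c * D.card) := by rw [← Real.exp_nat_mul, mul_comm]
  have h4 : (2 : ℝ) ^ (-(1 - h) * (D.card : ℝ)) =
      Real.exp (c * D.card) * Real.exp (c * D.card) / 2 ^ D.card := by
    rw [eq_div_iff (by positivity), ← Real.rpow_natCast 2 D.card,
      Real.rpow_def_of_pos (by norm_num), Real.rpow_def_of_pos (by norm_num), ← Real.exp_add,
      ← Real.exp_add, hc]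
    congr 1
    ring
  rw [h4, mul_div_assoc]
  refine mul_le_mul_of_nonneg_left ?_ (by norm_num)
  rw [div_le_div_iff_of_pos_right (by positivity)]
  refine le_trans (le_trans (le_of_eq ?_) h1) (mul_le_mul h2 h3 (by positivity) (by positivity))
  congr!

end Vale.Agent.P160
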