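import Vale.Agent.P160.ST2
import Vale.Agent.P160.ST3
import Vale.Agent.P160.ST4
import Vale.Agent.P160.ST5
import Vale.Agent.P160.ST6d
import Vale.Agent.P160.ST7
import Vale.Agent.P160.ST8
import Vale.Agent.P160.ST9

set_option linter.unusedSectionVars false

namespace Vale.Agent.P160

open Finset

lemma st10_num {d m j I Tc : ℕ} {c7 K : ℝ} (hm : m ≤ 4 * d) (hj : 2 * (j + 1) ≤ d)
    (hK : 10 * (Tc : ℝ) + 30 ≤ K) (hc7 : 9 + 10 * (Tc : ℝ) ≤ c7 * d) :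
    (2 : ℝ) ^ (j + 1) * (((2 : ℝ) ^ (10 * d)) ^ Tc *
      ((2 : ℝ) ^ (m + d + j + I + 3) * Real.exp (-K * d) +
        (2 : ℝ) ^ ((m : ℝ) + d - c7 * (d : ℝ) ^ 2)) +
      ((2 : ℝ) ^ (10 * d))⁻¹ * ((2 : ℝ) ^ (m + d + j + I + 3) +
        (2 : ℝ) ^ ((m : ℝ) + d - c7 * (d : ℝ) ^ 2))) ≤
      (2 : ℝ) ^ (I + 6) * (2 : ℝ) ^ (-(3 * (d : ℝ))) := by
  have h2 : (0 : ℝ) < 2 := two_pos
  have h12 : (1 : ℝ) ≤ 2 := one_le_two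
  have hmr : (m : ℝ) ≤ 4 * d := by exact_mod_cast hm
  have hjr : 2 * ((j : ℝ) + 1) ≤ d := by exact_mod_cast hj
  have hd0 : (0 : ℝ) ≤ d := Nat.cast_nonneg d
  have hT0 : (0 : ℝ) ≤ Tc := Nat.cast_nonneg Tc
  have hj1 : (2 : ℝ) ^ (j + 1) ≤ (2 : ℝ) ^ (d : ℝ) := by
    rw [← Real.rpow_natCast]
    refine Real.rpow_le_rpow_of_exponent_le h12 ?_
    push_cast
    linarith
  have hL : ((2 : ℝ) ^ (10 * d)) ^ Tc = (2 : ℝ) ^ (10 * (Tc : ℝ) * d) := by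
    rw [← pow_mul, ← Real.rpow_natCast]
    congr 1
    push_cast
    ring
  have hLi : ((2 : ℝ) ^ (10 * d))⁻¹ = (2 : ℝ) ^ (-(10 * (d : ℝ))) := by
    rw [Real.rpow_neg h2.le, ← Real.rpow_natCast]
    push_cast
    rfl
  have hX : (2 : ℝ) ^ (m + d + j + I + 3) ≤ (2 : ℝ) ^ (6 * (d : ℝ) + I + 3) := by
    rw [← Real.rpow_natCast]
    refine Real.rpow_le_rpow_of_exponent_le h12 ?_
    push_cast
    linarith
  have hY : (2 : ℝ) ^ ((m : ℝ) + d - c7 * (d : ℝ) ^ 2) ≤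
      (2 : ℝ) ^ (-((4 + 10 * (Tc : ℝ)) * d)) := by
    refine Real.rpow_le_rpow_of_exponent_le h12 ?_
    have := mul_le_mul_of_nonneg_right hc7 hd0
    nlinarith
  have hk : Real.exp (-K * d) ≤ (2 : ℝ) ^ (-((10 * (Tc : ℝ) + 30) * d)) := by
    rw [Real.rpow_def_of_pos h2, Real.exp_le_exp]
    have hlog : Real.log 2 ≤ 1 := by linarith [Real.log_two_lt_d9]
    have hlog0 : 0 ≤ Real.log 2 := Real.log_nonneg h12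
    have h3 : (10 * (Tc : ℝ) + 30) * d ≤ K * d := mul_le_mul_of_nonneg_right hK hd0
    have h4 : 0 ≤ (10 * (Tc : ℝ) + 30) * d := by positivity
    nlinarith
  have hadd : ∀ x y : ℝ, (2 : ℝ) ^ x * (2 : ℝ) ^ y = (2 : ℝ) ^ (x + y) :=
    fun x y => (Real.rpow_add h2 x y).symm
  have hmono : ∀ x y : ℝ, x ≤ y → (2 : ℝ) ^ x ≤ (2 : ℝ) ^ y :=
    fun x y h => Real.rpow_le_rpow_of_exponent_le h12 h
  have e1 : (2 : ℝ) ^ (j + 1) * (((2 : ℝ) ^ (10 * d)) ^ Tc *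
      ((2 : ℝ) ^ (m + d + j + I + 3) * Real.exp (-K * d) +
        (2 : ℝ) ^ ((m : ℝ) + d - c7 * (d : ℝ) ^ 2)) +
      ((2 : ℝ) ^ (10 * d))⁻¹ * ((2 : ℝ) ^ (m + d + j + I + 3) +
        (2 : ℝ) ^ ((m : ℝ) + d - c7 * (d : ℝ) ^ 2))) ≤
      (2 : ℝ) ^ (d : ℝ) * ((2 : ℝ) ^ (10 * (Tc : ℝ) * d) *
      ((2 : ℝ) ^ (6 * (d : ℝ) + I + 3) * (2 : ℝ) ^ (-((10 * (Tc : ℝ) + 30) * d)) +
        (2 : ℝ) ^ (-((4 + 10 * (Tc : ℝ)) * d))) +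
      (2 : ℝ) ^ (-(10 * (d : ℝ))) * ((2 : ℝ) ^ (6 * (d : ℝ) + I + 3) +
        (2 : ℝ) ^ (-((4 + 10 * (Tc : ℝ)) * d)))) := by
    rw [hL, hLi]
    gcongr
  refine e1.trans ?_
  have e2 : (2 : ℝ) ^ (d : ℝ) * ((2 : ℝ) ^ (10 * (Tc : ℝ) * d) *
      ((2 : ℝ) ^ (6 * (d : ℝ) + I + 3) * (2 : ℝ) ^ (-((10 * (Tc : ℝ) + 30) * d)) +
        (2 : ℝ) ^ (-((4 + 10 * (Tc : ℝ)) * d))) +
      (2 : ℝ) ^ (-(10 * (d : ℝ))) * ((2 : ℝ) ^ (6 * (d : ℝ) + I + 3) +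
        (2 : ℝ) ^ (-((4 + 10 * (Tc : ℝ)) * d)))) =
      (2 : ℝ) ^ ((d : ℝ) + (10 * (Tc : ℝ) * d + ((6 * (d : ℝ) + I + 3) +
        (-((10 * (Tc : ℝ) + 30) * d))))) +
      (2 : ℝ) ^ ((d : ℝ) + (10 * (Tc : ℝ) * d + (-((4 + 10 * (Tc : ℝ)) * d)))) +
      ((2 : ℝ) ^ ((d : ℝ) + (-(10 * (d : ℝ)) + (6 * (d : ℝ) + I + 3))) +
      (2 : ℝ) ^ ((d : ℝ) + (-(10 * (d : ℝ)) + (-((4 + 10 * (Tc : ℝ)) * d))))) := by
    simp only [mul_add, hadd]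
  rw [e2]
  have hI3 : (2 : ℝ) ^ (I + 6) * (2 : ℝ) ^ (-(3 * (d : ℝ))) =
      8 * (2 : ℝ) ^ ((I : ℝ) + 3 - 3 * d) := by
    rw [← Real.rpow_natCast, hadd]
    have h8 : (8 : ℝ) = (2 : ℝ) ^ (3 : ℝ) := by norm_num
    rw [h8, hadd]
    congr 1
    push_cast
    ring
  rw [hI3]
  have hI0 : (0 : ℝ) ≤ I := Nat.cast_nonneg I
  have hTd : 0 ≤ (Tc : ℝ) * d := mul_nonneg hT0 hd0
  have t1 := hmono ((d : ℝ) + (10 * (Tc : ℝ) * d + ((6 * (d : ℝ) + I + 3) +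
        (-((10 * (Tc : ℝ) + 30) * d))))) ((I : ℝ) + 3 - 3 * d) (by nlinarith)
  have t2 := hmono ((d : ℝ) + (10 * (Tc : ℝ) * d + (-((4 + 10 * (Tc : ℝ)) * d))))
    ((I : ℝ) + 3 - 3 * d) (by nlinarith)
  have t3 := hmono ((d : ℝ) + (-(10 * (d : ℝ)) + (6 * (d : ℝ) + I + 3)))
    ((I : ℝ) + 3 - 3 * d) (by nlinarith)
  have t4 := hmono ((d : ℝ) + (-(10 * (d : ℝ)) + (-((4 + 10 * (Tc : ℝ)) * d))))
    ((I : ℝ) + 3 - 3 * d) (by nlinarith)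
  have t5 : (0 : ℝ) < (2 : ℝ) ^ ((I : ℝ) + 3 - 3 * d) := Real.rpow_pos_of_pos h2 _
  linarith

open Classical in
lemma st10_term {n : ℕ} {T : Type} [Fintype T] [DecidableEq T] [Nonempty T]
    (D : T → Finset (Fin n)) (hD : Sep4 D) {I u d m j : ℕ} {τ K c7 : ℝ} (t₀ : T)
    (hcard : ∀ t, Fintype.card {i // i ∈ D t} = d) (hm : m ≤ 4 * d) (hj : 2 * (j + 1) ≤ d)
    (hK : 10 * (Fintype.card T : ℝ) + 30 ≤ K) (hc7 : 9 + 10 * (Fintype.card T : ℝ) ≤ c7 * d)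
    (hκ : ((univ.filter (fun x : {i // i ∈ D t₀} → ZMod (2 ^ (j + 1)) =>
      u ≤ nu x ∧ BadL I τ x)).card : ℝ) ≤ Real.exp (-K * d) * ((2 : ℝ) ^ (j + 1)) ^ d)
    (hblock : ∀ t, ∀ C : Finset ({i // i ∈ D t} → ZMod (2 ^ (j + 1))),
      (∀ x ∈ C, u ≤ nu x ∧ GoodX I τ (fun i => ((x i).cast : ZMod (2 ^ j)))) →
      ∑ x ∈ C, ∑ z : {i // i ∉ D t} → ZMod (2 ^ (j + 1)), Bpr 4 x z ≤
        (2 : ℝ) ^ (m + d + j + I + 3) * ((C.card : ℝ) / ((2 : ℝ) ^ (j + 1)) ^ d) +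
        (2 : ℝ) ^ ((m : ℝ) + d - c7 * (d : ℝ) ^ 2)) :
    Pb (EvA6 D I u τ j t₀) ≤ (2 : ℝ) ^ (I + 6) * (2 : ℝ) ^ (-(3 * (d : ℝ))) := by
  have h1 : (1 : ℝ) ≤ (2 : ℝ) ^ (10 * d) := one_le_pow₀ one_le_two
  have h2 : (0 : ℝ) ≤ (2 : ℝ) ^ (m + d + j + I + 3) := pow_nonneg zero_le_two _
  have h3 : (0 : ℝ) ≤ (2 : ℝ) ^ ((m : ℝ) + d - c7 * (d : ℝ) ^ 2) :=
    Real.rpow_nonneg zero_le_two _
  have h4 := Pb_EvA6_le D hD j t₀ hcard (Real.exp_pos (-K * d)).le h1 h2 h3 hκ hblock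
  exact h4.trans (st10_num (I := I) hm hj hK hc7)

lemma st10_params {a q n : ℕ} (ha : 3 ≤ a) (hq : 2 ≤ q) (hn1 : 2 * a ^ 2 * q ≤ n)
    (hn2 : n ≤ 2 * a ^ 2 * (q + 1)) :
    q ≤ (a ^ 2 - a) * q ∧ (a ^ 2 - a) * q ≤ n ∧
      (1 + 2 / ((a : ℝ) - 1)) * (((a ^ 2 - a) * q : ℕ) : ℝ) ≤ ((n - (a ^ 2 - a) * q : ℕ) : ℝ) ∧
      n - (a ^ 2 - a) * q ≤ 4 * ((a ^ 2 - a) * q) := by
  have haR : (3 : ℝ) ≤ a := by exact_mod_cast ha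
  have hθa : 2 / ((a : ℝ) - 1) * ((a : ℝ) - 1) = 2 := by
    have : (a : ℝ) - 1 ≠ 0 := by linarith
    field_simp
  have ha2 : a ≤ a ^ 2 := Nat.le_self_pow (by norm_num) a
  have haa : 1 ≤ a ^ 2 - a := by
    have : a + 1 ≤ a ^ 2 := by nlinarith
    omega
  have hqd : q ≤ (a ^ 2 - a) * q := Nat.le_mul_of_pos_left q haa
  have hdR : (((a ^ 2 - a) * q : ℕ) : ℝ) = ((a : ℝ) ^ 2 - a) * q := by
    push_cast [Nat.cast_sub ha2]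
    ring
  have hq2 : (2 : ℝ) ≤ q := by exact_mod_cast hq
  have hdn : (a ^ 2 - a) * q ≤ n := le_trans (Nat.mul_le_mul_right q (by omega)) hn1
  have hmR : ((n - (a ^ 2 - a) * q : ℕ) : ℝ) = n - (((a ^ 2 - a) * q : ℕ) : ℝ) :=
    Nat.cast_sub hdn
  have hn1R : 2 * (a : ℝ) ^ 2 * q ≤ n := by exact_mod_cast hn1
  have hn2R : (n : ℝ) ≤ 2 * (a : ℝ) ^ 2 * (q + 1) := by exact_mod_cast hn2
  refine ⟨hqd, hdn, ?_, ?_⟩
  · have h1 : (1 + 2 / ((a : ℝ) - 1)) * (((a ^ 2 - a) * q : ℕ) : ℝ) = ((a : ℝ) ^ 2 + a) * q := by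
      rw [hdR]
      linear_combination (a * q : ℝ) * hθa
    rw [h1, hmR, hdR]
    linarith
  · have hm4R : ((n - (a ^ 2 - a) * q : ℕ) : ℝ) ≤ 4 * (((a ^ 2 - a) * q : ℕ) : ℝ) := by
      rw [hmR, hdR]
      have h3 : (4 : ℝ) * a ^ 2 ≤ 3 * (3 * a ^ 2 - 5 * a) := by nlinarith
      have h4 : (0 : ℝ) ≤ 3 * (a : ℝ) ^ 2 - 5 * a := by nlinarith
      have h5 := mul_le_mul_of_nonneg_left hq2 h4
      nlinarith
    exact_mod_cast hm4R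

lemma st10_fin {d Tc I k : ℕ} (hk : k ≤ d) (hT : Tc + (I + 6) ≤ d) :
    ((k * Tc : ℕ) : ℝ) * (2 ^ (I + 6) * (2 : ℝ) ^ (-(3 * (d : ℝ)))) ≤ (2 : ℝ) ^ (-(d : ℝ)) := by
  have hcount : k * Tc ≤ d * Tc := Nat.mul_le_mul_right Tc hk
  have hcountR : ((k * Tc : ℕ) : ℝ) ≤ d * Tc := by exact_mod_cast hcount
  have hpos : (0 : ℝ) ≤ (2 : ℝ) ^ (I + 6) * (2 : ℝ) ^ (-(3 * (d : ℝ))) :=
    mul_nonneg (pow_nonneg zero_le_two _) (Real.rpow_nonneg zero_le_two _)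
  refine (mul_le_mul_of_nonneg_right hcountR hpos).trans ?_
  have hd2n : d ≤ 2 ^ d := Nat.lt_two_pow_self.le
  have hT2 : Tc * 2 ^ (I + 6) ≤ 2 ^ d := by
    calc Tc * 2 ^ (I + 6) ≤ 2 ^ Tc * 2 ^ (I + 6) :=
          Nat.mul_le_mul_right _ Nat.lt_two_pow_self.le
      _ = 2 ^ (Tc + (I + 6)) := (pow_add 2 Tc (I + 6)).symm
      _ ≤ 2 ^ d := Nat.pow_le_pow_right (by norm_num) hT
  have hd2R : (d : ℝ) ≤ 2 ^ d := by exact_mod_cast hd2n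
  have hT2R : (Tc : ℝ) * 2 ^ (I + 6) ≤ 2 ^ d := by exact_mod_cast hT2
  have h5 : (d : ℝ) * Tc * 2 ^ (I + 6) ≤ 2 ^ d * 2 ^ d := by
    rw [mul_assoc]
    exact mul_le_mul hd2R hT2R (by positivity) (by positivity)
  calc (d : ℝ) * Tc * (2 ^ (I + 6) * (2 : ℝ) ^ (-(3 * (d : ℝ))))
      = (d : ℝ) * Tc * 2 ^ (I + 6) * (2 : ℝ) ^ (-(3 * (d : ℝ))) := by ring
    _ ≤ (2 ^ d * 2 ^ d) * (2 : ℝ) ^ (-(3 * (d : ℝ))) :=
        mul_le_mul_of_nonneg_right h5 (Real.rpow_nonneg zero_le_two _)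
    _ = (2 : ℝ) ^ (-(d : ℝ)) := by
        rw [← Real.rpow_natCast, ← Real.rpow_add two_pos, ← Real.rpow_add two_pos]
        congr 1
        ring

open Classical in
/-- The second claim for one size `d`. -/
lemma st10_sum {n : ℕ} {T : Type} [Fintype T] [DecidableEq T] [Nonempty T]
    (D : T → Finset (Fin n)) (hD : Sep4 D) {I d m : ℕ} {δ c K c7 : ℝ}
    (hcard : ∀ t, Fintype.card {i // i ∈ D t} = d) (hm : m ≤ 4 * d)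
    (hK : 10 * (Fintype.card T : ℝ) + 30 ≤ K) (hc7 : 9 + 10 * (Fintype.card T : ℝ) ≤ c7 * d)
    (hT : Fintype.card T + (I + 6) ≤ d)
    (hbad : ∀ t, ∀ j : ℕ, I < j → 2 * j ≤ d + 2 * I + 4 → ∀ S : Finset
      ({i // i ∈ D t} → ZMod (2 ^ j)), (∀ x ∈ S, δ * (d : ℝ) ≤ nu x ∧
        BadL I (Real.exp (-c * (d : ℝ))) x) → (S.card : ℝ) ≤
        Real.exp (-K * (d : ℝ)) * ((2 : ℝ) ^ j) ^ d)
    (hblock : ∀ j : ℕ, I ≤ j → 2 * j ≤ d → ∀ t,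
      ∀ C : Finset ({i // i ∈ D t} → ZMod (2 ^ (j + 1))),
      (∀ x ∈ C, δ * (d : ℝ) ≤ nu x ∧
        GoodX I (Real.exp (-c * (d : ℝ))) (fun i => ((x i).cast : ZMod (2 ^ j)))) →
      ∑ x ∈ C, ∑ z : {i // i ∉ D t} → ZMod (2 ^ (j + 1)), Bpr 4 x z ≤
        (2 : ℝ) ^ (m + d + j + I + 3) * ((C.card : ℝ) / ((2 : ℝ) ^ (j + 1)) ^ d) +
        (2 : ℝ) ^ ((m : ℝ) + d - c7 * (d : ℝ) ^ 2)) :
    ∀ J, 2 * (J + 1) ≤ d → ∀ u : ℕ, δ * (d : ℝ) ≤ u →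
        (∑ p ∈ Icc I J ×ˢ (univ : Finset T),
          Pb (EvA6 D I u (Real.exp (-c * (d : ℝ))) p.1 p.2)) ≤ (2 : ℝ) ^ (-(d : ℝ)) := by
  intro J hJ u hu
  have hterm : ∀ p ∈ Icc I J ×ˢ (univ : Finset T),
      Pb (EvA6 D I u (Real.exp (-c * (d : ℝ))) p.1 p.2) ≤
        (2 : ℝ) ^ (I + 6) * (2 : ℝ) ^ (-(3 * (d : ℝ))) := by
    intro p hp
    obtain ⟨hp1, hp2⟩ := mem_Icc.1 (mem_product.1 hp).1
    refine st10_term D hD p.2 hcard hm (by omega) hK hc7 ?_ ?_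
    · refine hbad p.2 (p.1 + 1) (by omega) (by omega) _ fun x hx => ?_
      rw [mem_filter] at hx
      exact ⟨hu.trans (by exact_mod_cast hx.2.1), hx.2.2⟩
    · intro t C hC
      exact hblock p.1 hp1 (by omega) t C fun x hx =>
        ⟨hu.trans (by exact_mod_cast (hC x hx).1), (hC x hx).2⟩
  refine (sum_le_sum hterm).trans ?_
  rw [sum_const, nsmul_eq_mul, card_product, Nat.card_Icc, card_univ]
  exact st10_fin (by omega) hT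

open Classical in
/-- Task T10: the structured part for all levels and patterns. -/
theorem partA6 {a : ℕ} (ha : 3 ≤ a) {δ : ℝ} (hδ : 0 < δ) (hδ1 : δ ≤ 1) (I : ℕ) (hI : 4 * a ≤ I) :
    ∃ c : ℝ, 0 < c ∧ ∃ q0 : ℕ, ∀ q ≥ q0, ∀ n, 2 * a ^ 2 * q ≤ n → n ≤ 2 * a ^ 2 * (q + 1) →
      (∀ t : TTa a, ∀ j : ℕ, I < j → 2 * j ≤ (a ^ 2 - a) * q + 2 * I + 2 →
        ((univ.filter (fun x : {i // i ∈ DDa a n q t} → ZMod (2 ^ j) =>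
          δ * ((a ^ 2 - a) * q : ℕ) ≤ nu x ∧
          BadL I (Real.exp (-c * ((a ^ 2 - a) * q : ℕ))) x)).card : ℝ) ≤
          Real.exp (-(10 * ((I : ℝ) + 1)) * ((a ^ 2 - a) * q : ℕ)) *
            ((2 : ℝ) ^ j) ^ ((a ^ 2 - a) * q)) ∧
      ∀ J, 2 * (J + 1) ≤ (a ^ 2 - a) * q → ∀ u : ℕ, δ * ((a ^ 2 - a) * q : ℕ) ≤ u →
        (∑ p ∈ Icc I J ×ˢ (univ : Finset (TTa a)),
          Pb (EvA6 (DDa a n q) I u (Real.exp (-c * ((a ^ 2 - a) * q : ℕ))) p.1 p.2)) ≤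
          (2 : ℝ) ^ (-(((a ^ 2 - a) * q : ℕ) : ℝ)) := by
  have := nonempty_TTa a
  obtain ⟨Tc, hTc⟩ : ∃ Tc : ℕ, Tc = Fintype.card (TTa a) := ⟨_, rfl⟩
  obtain ⟨K, hK⟩ : ∃ K : ℝ, K = 10 * ((I : ℝ) + 1) + 10 * ((Tc : ℝ) + 2) := ⟨_, rfl⟩
  have haR : (3 : ℝ) ≤ a := by exact_mod_cast ha
  have hI1 : 1 ≤ I := by omega
  have ha1 : (0 : ℝ) < (a : ℝ) - 1 := by linarith
  have hθ0 : 0 < 2 / ((a : ℝ) - 1) := div_pos two_pos ha1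
  have hIR : 4 * (a : ℝ) ≤ I := by exact_mod_cast hI
  have hθI : 4 ≤ 2 / ((a : ℝ) - 1) * I := by
    rw [div_mul_eq_mul_div, le_div_iff₀ ha1]
    linarith
  have hI0 : (0 : ℝ) ≤ (I : ℝ) := Nat.cast_nonneg I
  have hT0 : (0 : ℝ) ≤ (Tc : ℝ) := Nat.cast_nonneg Tc
  obtain ⟨c, hc, d1, H7⟩ := card_badL I K hδ
  obtain ⟨c7, hc7, d2, H4⟩ := sumA6 I hI1 hθ0 hθI hδ hc
  obtain ⟨M, hM⟩ := exists_nat_ge ((9 + 10 * (Tc : ℝ)) / c7)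
  refine ⟨c, hc, 2 + d1 + d2 + M + (Tc + (I + 6)), fun q hq n hn1 hn2 => ?_⟩
  obtain ⟨hqd, hdn, hm1, hm4⟩ := st10_params ha (by omega) hn1 hn2
  obtain ⟨d, hd⟩ : ∃ d : ℕ, d = (a ^ 2 - a) * q := ⟨_, rfl⟩
  rw [← hd] at hqd hdn hm1 hm4 ⊢
  obtain ⟨m, hm⟩ : ∃ m : ℕ, m = n - d := ⟨_, rfl⟩
  rw [← hm] at hm1 hm4
  have hcard : ∀ t : TTa a, Fintype.card {i // i ∈ DDa a n q t} = d := by
    intro t
    rw [Fintype.card_coe, card_DDa ha hn1 t, hd]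
  have hcardc : ∀ t : TTa a, Fintype.card {i // i ∉ DDa a n q t} = m := by
    intro t
    have h1 := Fintype.card_subtype_compl (fun i => i ∈ DDa a n q t)
    rw [h1, Fintype.card_fin, hcard t, hm]
  have hd1 : d1 ≤ d := by omega
  have hd2 : d2 ≤ d := by omega
  have hMd : (9 + 10 * (Tc : ℝ)) ≤ c7 * d := by
    have h1 : (M : ℝ) ≤ d := by
      have : M ≤ d := by omega
      exact_mod_cast this
    rw [div_le_iff₀ hc7] at hM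
    nlinarith
  have hKT : 10 * (Tc : ℝ) + 30 ≤ K := by
    rw [hK]
    linarith
  have hbad : ∀ t : TTa a, ∀ j : ℕ, I < j → 2 * j ≤ d + 2 * I + 4 → ∀ S : Finset
      ({i // i ∈ DDa a n q t} → ZMod (2 ^ j)), (∀ x ∈ S, δ * (d : ℝ) ≤ nu x ∧
        BadL I (Real.exp (-c * (d : ℝ))) x) → (S.card : ℝ) ≤
        Real.exp (-K * (d : ℝ)) * ((2 : ℝ) ^ j) ^ d := by
    intro t j hj1 hj2 S hS
    have h := H7 {i // i ∈ DDa a n q t} (by rw [hcard t]; exact hd1) j hj1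
      (by rw [hcard t]; exact hj2)
    rw [hcard t] at h
    refine le_trans ?_ h
    have hsub : S ⊆ univ.filter (fun x : {i // i ∈ DDa a n q t} → ZMod (2 ^ j) =>
        δ * (d : ℝ) ≤ nu x ∧ BadL I (Real.exp (-c * (d : ℝ))) x) := by
      intro x hx
      rw [mem_filter]
      exact ⟨mem_univ x, hS x hx⟩
    exact_mod_cast card_le_card hsub
  constructor
  · intro t j hj1 hj2
    refine (hbad t j hj1 (by omega) _ fun x hx => (mem_filter.1 hx).2).trans ?_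
    refine mul_le_mul_of_nonneg_right ?_ (pow_nonneg (pow_nonneg zero_le_two _) _)
    rw [Real.exp_le_exp]
    have h3 : 10 * ((I : ℝ) + 1) ≤ K := by rw [hK]; linarith
    exact mul_le_mul_of_nonneg_right (neg_le_neg h3) (Nat.cast_nonneg d)
  · refine st10_sum (DDa a n q) (Sep4_DDa ha n q) hcard hm4 (hTc ▸ hKT) (hTc ▸ hMd)
      (by omega) hbad ?_
    intro j hj1 hj2 t C hC
    have h := H4 {i // i ∈ DDa a n q t} {i // i ∉ DDa a n q t} (by rw [hcard t]; exact hd2)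
      (by rw [hcard t, hcardc t]; exact hm1) (by rw [hcard t, hcardc t]; exact hm4)
      j hj1 (by rw [hcard t]; exact hj2) C
    rw [hcard t, hcardc t] at h
    exact h hC

end Vale.Agent.P160
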