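import Vale.Agent.P160.ST10

set_option linter.unusedSectionVars false

namespace Vale.Agent.P160

open Finset

lemma st11_arith {a q : ℕ} (ha : 3 ≤ a) : 6 * q ≤ (a ^ 2 - a) * q := by
  have h1 : 6 ≤ a ^ 2 - a := by
    obtain ⟨k, rfl⟩ : ∃ k, a = k + 3 := ⟨a - 3, by omega⟩
    have : (k + 3) ^ 2 = (k + 3) + (k ^ 2 + 5 * k + 6) := by ring
    omega
  exact Nat.mul_le_mul_right q h1

lemma st11_sub_cast (a : ℕ) (ha : 3 ≤ a) : ((a ^ 2 - a : ℕ) : ℝ) = (a : ℝ) ^ 2 - a := by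
  rw [Nat.cast_sub (by nlinarith)]
  push_cast
  ring

/-- the size of the complement of a block, lower bound. -/
lemma st11_lower {a q n : ℕ} (ha : 3 ≤ a) (hn : 2 * a ^ 2 * q ≤ n) :
    (1 + 2 / ((a : ℝ) - 1)) * (((a ^ 2 - a) * q : ℕ) : ℝ) ≤ ((n - (a ^ 2 - a) * q : ℕ) : ℝ) := by
  have haR : (3 : ℝ) ≤ a := by exact_mod_cast ha
  have h1 : (a ^ 2 - a) * q ≤ n := by
    refine le_trans ?_ hn
    refine Nat.mul_le_mul_right q ?_
    have : a ^ 2 - a ≤ a ^ 2 := Nat.sub_le _ _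
    omega
  rw [Nat.cast_sub h1]
  have h2 : (2 * (a : ℝ) ^ 2 * q) ≤ n := by exact_mod_cast hn
  have h3 : (((a ^ 2 - a) * q : ℕ) : ℝ) = ((a : ℝ) ^ 2 - a) * q := by
    rw [Nat.cast_mul, st11_sub_cast a ha]
  rw [h3]
  have h4 : (a : ℝ) - 1 ≠ 0 := by linarith
  have h5 : (1 + 2 / ((a : ℝ) - 1)) * (((a : ℝ) ^ 2 - a) * q) = ((a : ℝ) ^ 2 + a) * q := by
    field_simp
    ring
  rw [h5]
  linarith

/-- the size of the complement of a block, upper bound. -/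
lemma st11_upper {a q n : ℕ} (ha : 3 ≤ a) (hq : 2 ≤ q) (hn : n ≤ 2 * a ^ 2 * (q + 1)) :
    n - (a ^ 2 - a) * q ≤ 4 * ((a ^ 2 - a) * q) := by
  have h0 : a * a = a ^ 2 := by ring
  have h1 : 2 * a ^ 2 * (q + 1) ≤ 5 * ((a ^ 2 - a) * q) := by
    obtain ⟨k, rfl⟩ : ∃ k, a = k + 3 := ⟨a - 3, by omega⟩
    obtain ⟨r, rfl⟩ : ∃ r, q = r + 2 := ⟨q - 2, by omega⟩
    have h2 : (k + 3) ^ 2 - (k + 3) = k ^ 2 + 5 * k + 6 := by
      have : (k + 3) ^ 2 = (k + 3) + (k ^ 2 + 5 * k + 6) := by ring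
      omega
    rw [h2]
    nlinarith [Nat.zero_le (k ^ 2 * r), Nat.zero_le (k * r), Nat.zero_le k, Nat.zero_le r,
      Nat.zero_le (k ^ 2)]
  omega

/-- Task T11: the exponential bound for the family with parameter `a`. -/
theorem Pb_sing_le6 {a : ℕ} (ha : 3 ≤ a) {h : ℝ} (hh : 0 < h) :
    ∃ C : ℝ, 0 < C ∧ ∃ q0 : ℕ, ∀ q ≥ q0, ∀ n, 2 * a ^ 2 * q ≤ n → n ≤ 2 * a ^ 2 * (q + 1) →
      Pb (fun b : Sym2 (Fin n) → Bool => (signM b).det = 0) ≤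
        C * (2 : ℝ) ^ (-(1 - h) * (((a ^ 2 - a) * q : ℕ) : ℝ)) := by
  classical
  have : Nonempty (TTa a) := nonempty_TTa a
  have haR : (3 : ℝ) ≤ a := by exact_mod_cast ha
  obtain ⟨δ', hδ', hEv0⟩ := Pb_Ev0_6 hh
  obtain ⟨δ, hδdef⟩ : ∃ δ : ℝ, δ = min (δ' / 2) 1 := ⟨_, rfl⟩
  have hδ : 0 < δ := by rw [hδdef]; exact lt_min (by linarith) one_pos
  have hδ1 : δ ≤ 1 := by rw [hδdef]; exact min_le_right _ _
  have hδ2 : 2 * δ ≤ δ' := by
    have : δ ≤ δ' / 2 := by rw [hδdef]; exact min_le_left _ _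
    linarith
  obtain ⟨I, hI⟩ : ∃ I, I = 4 * a := ⟨_, rfl⟩
  have hI1 : 1 ≤ I := by omega
  obtain ⟨c, hc, q0', hA⟩ := partA6 ha hδ hδ1 I hI.ge
  obtain ⟨θ, hθdef⟩ : ∃ θ : ℝ, θ = 2 / ((a : ℝ) - 1) := ⟨_, rfl⟩
  have hθ : 0 < θ := by rw [hθdef]; exact div_pos two_pos (by linarith)
  have hθI : 8 ≤ θ * I := by
    rw [hθdef, hI, div_mul_eq_mul_div, le_div_iff₀ (by linarith)]
    push_cast
    linarith
  obtain ⟨d0, hB⟩ := sumB6 I hI1 hθ hθI hδ hc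
  obtain ⟨cT, hcT⟩ : ∃ cT : ℕ, cT = Fintype.card (TTa a) := ⟨_, rfl⟩
  obtain ⟨q1, hq1⟩ := exists_nat_ge (((cT : ℝ) + 1) / δ)
  refine ⟨2 * cT + 1 + 96 * 2 ^ (I + 8), by positivity,
    max (max q0' q1) (max d0 (2 * I + 2)), fun q hq n hn1 hn2 => ?_⟩
  have hq0 : q0' ≤ q := le_trans (le_trans (le_max_left _ _) (le_max_left _ _)) hq
  have hqq1 : q1 ≤ q := le_trans (le_trans (le_max_right _ _) (le_max_left _ _)) hq
  have hqd : d0 ≤ q := le_trans (le_trans (le_max_left _ _) (le_max_right _ _)) hq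
  have hqI : 2 * I + 2 ≤ q := le_trans (le_trans (le_max_right _ _) (le_max_right _ _)) hq
  obtain ⟨hA1, hA2⟩ := hA q hq0 n hn1 hn2
  have h6 := st11_arith (q := q) ha
  have hlow := st11_lower ha hn1
  have hupp := st11_upper ha (by omega : 2 ≤ q) hn2
  obtain ⟨d, hd⟩ : ∃ d, d = (a ^ 2 - a) * q := ⟨_, rfl⟩
  rw [← hd] at hA1 hA2 h6 hlow hupp ⊢
  have hcardD : ∀ t, (DDa a n q t).card = d := fun t => by rw [card_DDa ha hn1 t, hd]
  have hcardα : ∀ t, Fintype.card {i // i ∈ DDa a n q t} = d := fun t => by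
    rw [Fintype.card_coe, hcardD]
  have hcardβ : ∀ t, Fintype.card {i // i ∉ DDa a n q t} = n - d := fun t => by
    rw [Fintype.card_subtype_compl, Fintype.card_fin, Fintype.card_coe, hcardD]
  have hdq : (q : ℝ) ≤ d := by
    have : q ≤ d := by omega
    exact_mod_cast this
  have hδd : (cT : ℝ) + 1 ≤ δ * d := by
    have h1 : ((cT : ℝ) + 1) / δ ≤ q := hq1.trans (by exact_mod_cast hqq1)
    rw [div_le_iff₀ hδ] at h1
    calc (cT : ℝ) + 1 ≤ q * δ := h1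
      _ ≤ d * δ := by gcongr
      _ = δ * d := mul_comm _ _
  obtain ⟨u, hu⟩ : ∃ u, u = ⌈δ * d⌉₊ := ⟨_, rfl⟩
  have hu1 : δ * d ≤ u := by rw [hu]; exact Nat.le_ceil _
  have hu2 : (u : ℝ) ≤ δ' * d := by
    have h1 : (u : ℝ) < δ * d + 1 := by rw [hu]; exact Nat.ceil_lt_add_one (by positivity)
    have h2 : (0 : ℝ) ≤ cT := by positivity
    have h3 : 2 * δ * d ≤ δ' * d := by gcongr
    linarith
  have hucT : Fintype.card (TTa a) ≤ u := by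
    rw [← hcT]
    have : (cT : ℝ) ≤ u := by linarith
    exact_mod_cast this
  obtain ⟨J, hJ⟩ : ∃ J, J = d / 2 - 1 := ⟨_, rfl⟩
  have hJ1 : J + 1 = d / 2 := by omega
  have hIJ : I ≤ J := by omega
  have hJd : 2 * (J + 1) ≤ d := by omega
  obtain ⟨τ, hτ⟩ : ∃ τ : ℝ, τ = Real.exp (-c * (d : ℝ)) := ⟨_, rfl⟩
  have hτ0 : 0 ≤ τ := by rw [hτ]; positivity
  have hτ1 : τ ≤ 1 := by
    rw [hτ, Real.exp_le_one_iff]
    have : 0 ≤ c * (d : ℝ) := by positivity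
    linarith
  -- case distinction and union bound
  have hcase : Pb (fun b : Sym2 (Fin n) → Bool => (signM b).det = 0) ≤
      ∑ t : TTa a, Pb (Ev0 (DDa a n q t) u) +
        (∑ p ∈ Icc I J ×ˢ (univ : Finset (TTa a)), Pb (EvA6 (DDa a n q) I u τ p.1 p.2) +
          Pb (EvB6 (DDa a n q) I u τ J)) := by
    have h1 := Pb_mono (fun b hb => sing_cases6 (DDa a n q) I u hI1 τ J b hb)
    refine h1.trans ((Pb_or _ _).trans (add_le_add (Pb_exists _ _) ?_))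
    exact (Pb_or _ _).trans (add_le_add (Pb_exists _ _) le_rfl)
  obtain ⟨ρ, hρ⟩ : ∃ ρ : ℝ, ρ = (2 : ℝ) ^ (-(1 - h) * (d : ℝ)) := ⟨_, rfl⟩
  have hρ1 : (2 : ℝ) ^ (-(d : ℝ)) ≤ ρ := by
    rw [hρ]
    apply Real.rpow_le_rpow_of_exponent_le one_le_two
    have : 0 ≤ h * (d : ℝ) := by positivity
    linarith
  have hρ0 : 0 < ρ := by rw [hρ]; positivity
  have p0 : ∑ t : TTa a, Pb (Ev0 (DDa a n q t) u) ≤ 2 * cT * ρ := by
    have h1 : ∀ t : TTa a, Pb (Ev0 (DDa a n q t) u) ≤ 2 * ρ := by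
      intro t
      have h2 := hEv0 n (DDa a n q t) u (by rw [hcardD]; exact hu2)
      rw [hcardD, ← hρ] at h2
      exact h2
    refine (sum_le_sum fun t _ => h1 t).trans (le_of_eq ?_)
    rw [sum_const, card_univ, nsmul_eq_mul, ← hcT]
    ring
  have p1 : ∑ p ∈ Icc I J ×ˢ (univ : Finset (TTa a)), Pb (EvA6 (DDa a n q) I u τ p.1 p.2) ≤ ρ := by
    rw [hτ]
    exact (hA2 J hJd u hu1).trans hρ1
  have p2 : Pb (EvB6 (DDa a n q) I u τ J) ≤ 96 * 2 ^ (I + 8) * ρ := by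
    have h2 := Pb_EvB6_le (DDa a n q) (Sep4_DDa ha n q) hucT hτ0 J hIJ (X := (2 : ℝ) ^ (I + 8)) ?_
    · refine h2.trans ?_
      have e1 : (2 : ℝ) ^ (d : ℝ) ≤ 2 * ((2 : ℝ) ^ (J + 1)) ^ 2 := by
        rw [Real.rpow_natCast, ← pow_mul, ← pow_succ']
        exact pow_le_pow_right₀ one_le_two (by omega)
      have e2 : 1 / ((2 : ℝ) ^ (J + 1)) ^ 2 ≤ 2 * (2 : ℝ) ^ (-(d : ℝ)) := by
        rw [Real.rpow_neg (by norm_num), ← div_eq_mul_inv,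
          div_le_div_iff₀ (by positivity) (by positivity)]
        linarith
      calc 24 * (1 + τ) * (2 : ℝ) ^ (I + 8) / ((2 : ℝ) ^ (J + 1)) ^ 2
          = 24 * (1 + τ) * (2 : ℝ) ^ (I + 8) * (1 / ((2 : ℝ) ^ (J + 1)) ^ 2) := by ring
        _ ≤ 24 * (1 + 1) * (2 : ℝ) ^ (I + 8) * (2 * (2 : ℝ) ^ (-(d : ℝ))) := by gcongr
        _ = 96 * 2 ^ (I + 8) * (2 : ℝ) ^ (-(d : ℝ)) := by ring
        _ ≤ 96 * 2 ^ (I + 8) * ρ := by gcongr
    · intro t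
      have h3 := hB {i // i ∈ DDa a n q t} {i // i ∉ DDa a n q t} (by rw [hcardα]; omega)
        (by rw [hcardα, hcardβ, hθdef]; exact hlow)
        (by rw [hcardα, hcardβ]; exact hupp) (J + 1) (by rw [hcardα]; exact hJd)
        (by omega) (by
          intro j hj1 hj2
          have h4 := hA1 t j hj1 (by omega)
          rw [hcardα]
          exact h4)
      rw [hcardα, ← hτ] at h3
      refine le_trans (sum_le_sum_of_subset_of_nonneg ?_ ?_) h3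
      · intro x hx
        rw [mem_filter] at hx ⊢
        refine ⟨mem_univ _, ?_, hx.2.2⟩
        have h4 : (u : ℝ) ≤ nu x := by exact_mod_cast hx.2.1
        exact hu1.trans h4
      · intro x _ _
        exact sum_nonneg fun z _ => Bq_nonneg x z
  calc Pb (fun b : Sym2 (Fin n) → Bool => (signM b).det = 0) ≤ _ := hcase
    _ ≤ 2 * cT * ρ + (ρ + 96 * 2 ^ (I + 8) * ρ) := add_le_add p0 (add_le_add p1 p2)
    _ = (2 * cT + 1 + 96 * 2 ^ (I + 8)) * (2 : ℝ) ^ (-(1 - h) * (d : ℝ)) := by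
        rw [← hρ]; ring

end Vale.Agent.P160
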