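import Vale.Agent.P160.ST0

set_option linter.unusedSectionVars false

namespace Vale.Agent.P160

open Finset

lemma st2_good {α : Type*} [Fintype α] [DecidableEq α] (I : ℕ) (τ : ℝ) (J : ℕ) (g : α → ℤ)
    (x : α → ZMod (2 ^ J)) (hx : ∀ i, x i = (g i : ZMod (2 ^ J)))
    (h : ∀ m, I ≤ m → m + 1 ≤ J → ¬ BadL I τ (fun i => (g i : ZMod (2 ^ (m + 1))))) :
    GoodX I τ x := by
  intro j h1 h2 k
  obtain ⟨m, rfl⟩ : ∃ m, j = m + 1 := ⟨j - 1, by omega⟩
  have h3 := h m (by omega) h2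
  unfold BadL at h3
  push Not at h3
  have h4 := h3 k
  have h5 : ∀ i, ((x i).cast : ZMod (2 ^ (m + 1))) = (g i : ZMod (2 ^ (m + 1))) := fun i => by
    rw [hx i]
    exact ZMod.cast_intCast (pow_dvd_pow 2 h2) (g i)
  simp only [h5]
  exact h4

/-- Task T2: the case distinction. -/
theorem sing_cases6 {n : ℕ} {T : Type} [Fintype T] [DecidableEq T] [Nonempty T]
    (D : T → Finset (Fin n)) (I u : ℕ) (hI : 1 ≤ I) (τ : ℝ) (J : ℕ)
    (b : Sym2 (Fin n) → Bool) (h : (signM b).det = 0) :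
    (∃ t ∈ (univ : Finset T), Ev0 (D t) u b) ∨
      (∃ p ∈ Icc I J ×ˢ (univ : Finset T), EvA6 D I u τ p.1 p.2 b) ∨
        EvB6 D I u τ J b := by
  classical
  obtain ⟨g, c, ⟨i₀, hi₀⟩, hgc, hc⟩ := exists_kernel b h
  by_cases hsp : ∃ t, (univ.filter fun i : {i // i ∈ D t} => Odd (g i)).card < u
  · left
    obtain ⟨t, ht⟩ := hsp
    refine ⟨t, mem_univ _, fun i => (g i : ZMod 2), (c : ZMod 2), ?_, ?_, ?_⟩
    · intro h0
      have h1 := congrFun h0 i₀
      have h2 : ((g i₀ : ℤ) : ZMod 2) = 0 := h1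
      rw [ZMod.intCast_zmod_eq_zero_iff_dvd] at h2
      exact (Int.not_even_iff_odd.2 hi₀) (even_iff_two_dvd.2 (by exact_mod_cast h2))
    · have h3 := nu_intCast (fun i : {i // i ∈ D t} => g i) 0
      rw [zero_add, pow_one] at h3
      rw [h3]; exact ht
    · exact smul2_cast b g c hgc
  · right
    push Not at hsp
    by_cases hbad : ∃ j, j ∈ Icc I J ∧ ∃ t,
        BadL I τ (fun i : {i // i ∈ D t} => (g i : ZMod (2 ^ (j + 1))))
    · left
      have hj := Nat.find_spec hbad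
      have hmin := fun m => Nat.find_min hbad (m := m)
      set j := Nat.find hbad with hjdef
      obtain ⟨hj1, t₀, hj2⟩ := hj
      refine ⟨(j, t₀), mem_product.2 ⟨hj1, mem_univ _⟩,
        fun i => (g i : ZMod (2 ^ (j + 1))), (c : ZMod (2 ^ (j + 1))),
        ⟨?_, hj2, ?_⟩, smul2_cast b g c hgc⟩
      · intro t
        rw [nu_intCast (fun i : {i // i ∈ D t} => g i) j]; exact hsp t
      · intro t
        refine st2_good I τ j (fun i : {i // i ∈ D t} => g i) _ (fun i =>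
          ZMod.cast_intCast (pow_dvd_pow 2 (Nat.le_succ j)) (g i)) fun m hm1 hm2 hb => ?_
        have hj3 := mem_Icc.1 hj1
        exact hmin m (by omega) ⟨mem_Icc.2 ⟨hm1, by omega⟩, t, hb⟩
    · right
      refine ⟨g, c, hgc, hc, fun t => ⟨?_, ?_⟩⟩
      · rw [nu_intCast (fun i : {i // i ∈ D t} => g i) J]; exact hsp t
      · refine st2_good I τ (J + 1) (fun i : {i // i ∈ D t} => g i) _ (fun _ => rfl)
          fun m hm1 hm2 hb => ?_
        exact hbad ⟨m, mem_Icc.2 ⟨hm1, by omega⟩, t, hb⟩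

end Vale.Agent.P160
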