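import Vale.Agent.P160.SK1

set_option linter.unusedSectionVars false

namespace Vale.Agent.P160

open Finset

section
variable {α β : Type*} [Fintype α] [Fintype β] [DecidableEq α] [DecidableEq β]

lemma st6a_mem {γ : Type*} [Fintype γ] [DecidableEq γ] {N : ℕ} [NeZero N] {H : β → γ → ℤ}
    {u : γ → ZMod N} : u ∈ kerN N H ↔ ∀ i, ∑ l, (H i l : ZMod N) * u l = 0 := by
  unfold kerN
  rw [mem_filter]
  exact and_iff_right (mem_univ _)

lemma st6a_mem_opt {N : ℕ} [NeZero N] {G : β → Option α → ℤ}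
    {u : Option α → ZMod N} : u ∈ kerN N G ↔
      ∀ i, (G i none : ZMod N) * u none + ∑ l, (G i (some l) : ZMod N) * u (some l) = 0 := by
  rw [st6a_mem]
  refine forall_congr' fun i => ?_
  rw [Fintype.sum_option]

/-- one fibre over the first coordinate -/
lemma st6a_fib_le {N : ℕ} [NeZero N] (G : β → Option α → ℤ) (s : ZMod N) :
    ((kerN N G).filter (fun u => u none = s)).card ≤
      (kerN N (fun i l => G i (some l))).card := by
  by_cases hne : ((kerN N G).filter (fun u => u none = s)).Nonempty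
  · obtain ⟨u₀, hu₀⟩ := hne
    rw [mem_filter, st6a_mem_opt] at hu₀
    refine Finset.card_le_card_of_injOn (fun u l => u (some l) - u₀ (some l)) ?_ ?_
    · intro u hu
      rw [Finset.mem_coe, mem_filter, st6a_mem_opt] at hu
      rw [Finset.mem_coe, st6a_mem]
      intro i
      have h1 := hu.1 i
      have h2 := hu₀.1 i
      rw [hu.2] at h1
      rw [hu₀.2, ← h1] at h2
      have h3 := add_left_cancel h2
      simp only [mul_sub, sum_sub_distrib]
      rw [h3, sub_self]
    · intro u hu u' hu' h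
      rw [Finset.mem_coe, mem_filter] at hu hu'
      funext o
      cases o with
      | none => rw [hu.2, hu'.2]
      | some l => exact sub_left_injective (congrFun h l)
  · rw [Finset.not_nonempty_iff_eq_empty] at hne
    rw [hne]; simp

/-- one nonempty fibre over the first coordinate -/
lemma st6a_fib_ge {N : ℕ} [NeZero N] (G : β → Option α → ℤ) (s : ZMod N)
    (hs : ∃ u ∈ kerN N G, u none = s) :
    (kerN N (fun i l => G i (some l))).card ≤
      ((kerN N G).filter (fun u => u none = s)).card := by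
  obtain ⟨u₀, hu₀, hs₀⟩ := hs
  rw [st6a_mem_opt] at hu₀
  refine Finset.card_le_card_of_injOn
    (fun v o => Option.elim o (u₀ none) (fun l => v l + u₀ (some l))) ?_ ?_
  · intro v hv
    rw [Finset.mem_coe, st6a_mem] at hv
    rw [Finset.mem_coe, mem_filter, st6a_mem_opt]
    refine ⟨fun i => ?_, hs₀⟩
    have h1 := hv i
    have h2 := hu₀ i
    simp only [Option.elim_none, Option.elim_some, mul_add, sum_add_distrib]
    rw [h1, zero_add]
    exact h2
  · intro v _ v' _ h
    funext l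
    have h1 := congrFun h (some l)
    simp only [Option.elim_some] at h1
    exact add_right_cancel h1

lemma st6a_augM_some {N : ℕ} (x : α → ZMod N) (ω : β → α → Fin 4) :
    (fun i l => augM x ω i (some l)) = hm ω := rfl

/-- a subgroup of `ZMod (2 ^ I)` contains `2 ^ e` with `2 ^ (I - e)` its order -/
lemma st6a_sub {I : ℕ} (S : AddSubgroup (ZMod (2 ^ I))) :
    ∃ e ≤ I, Nat.card S = 2 ^ (I - e) ∧ (2 ^ e : ZMod (2 ^ I)) ∈ S := by
  classical
  have h1 : Nat.card S ∣ 2 ^ I := by
    have := AddSubgroup.card_addSubgroup_dvd_card S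
    rwa [Nat.card_zmod] at this
  obtain ⟨k, hk, hc⟩ := (Nat.dvd_prime_pow Nat.prime_two).1 h1
  refine ⟨I - k, Nat.sub_le _ _, ?_, ?_⟩
  · rw [hc]; congr 1; omega
  · have h2 := IsAddCyclic.card_nsmul_eq_zero_le (α := ZMod (2 ^ I)) (n := 2 ^ k)
      (by positivity)
    have h3 : (univ.filter (fun t : ZMod (2 ^ I) => t ∈ S)) ⊆
        univ.filter (fun t : ZMod (2 ^ I) => 2 ^ k • t = 0) := by
      intro t ht
      rw [mem_filter] at ht ⊢
      refine ⟨mem_univ _, ?_⟩
      have h4 : Nat.card S • (⟨t, ht.2⟩ : S) = 0 := card_nsmul_eq_zero'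
      rw [hc] at h4
      exact congrArg Subtype.val h4
    have h5 : (univ.filter (fun t : ZMod (2 ^ I) => t ∈ S)).card = 2 ^ k := by
      rw [← hc, Nat.card_eq_fintype_card, Fintype.card_subtype]
    have h6 := Finset.eq_of_subset_of_card_le h3 (by rw [h5]; exact h2)
    have h7 : (2 ^ (I - k) : ZMod (2 ^ I)) ∈
        univ.filter (fun t : ZMod (2 ^ I) => 2 ^ k • t = 0) := by
      rw [mem_filter]
      refine ⟨mem_univ _, ?_⟩
      rw [nsmul_eq_mul]
      push_cast
      rw [← pow_add, show k + (I - k) = I by omega]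
      have := ZMod.natCast_self (2 ^ I)
      push_cast at this
      exact this
    rw [← h6, mem_filter] at h7
    exact h7.2

/-- cardinality of the kernel of an augmented matrix -/
lemma st6a_card {I : ℕ} (G : β → Option α → ℤ) :
    ∃ e ≤ I, (kerN (2 ^ I) G).card = 2 ^ (I - e) *
      (kerN (2 ^ I) (fun i l => G i (some l))).card ∧
      ∃ u ∈ kerN (2 ^ I) G, u none = 2 ^ e := by
  classical
  set S : AddSubgroup (ZMod (2 ^ I)) :=
    { carrier := {s | ∃ u ∈ kerN (2 ^ I) G, u none = s}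
      add_mem' := by
        rintro a b ⟨u, hu, rfl⟩ ⟨v, hv, rfl⟩
        refine ⟨u + v, ?_, rfl⟩
        rw [st6a_mem] at hu hv ⊢
        intro i
        simp only [Pi.add_apply, mul_add, sum_add_distrib]
        rw [hu i, hv i, add_zero]
      zero_mem' := ⟨0, by rw [st6a_mem]; intro i; simp, rfl⟩
      neg_mem' := by
        rintro a ⟨u, hu, rfl⟩
        refine ⟨-u, ?_, rfl⟩
        rw [st6a_mem] at hu ⊢
        intro i
        simp only [Pi.neg_apply, mul_neg, sum_neg_distrib]
        rw [hu i, neg_zero] } with hS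
  obtain ⟨e, he, hc, hm⟩ := st6a_sub S
  refine ⟨e, he, ?_, hm⟩
  have h1 : (kerN (2 ^ I) G).card = ∑ s : ZMod (2 ^ I),
      ((kerN (2 ^ I) G).filter (fun u => u none = s)).card :=
    Finset.card_eq_sum_card_fiberwise (fun _ _ => by simp)
  have h2 : ∀ s : ZMod (2 ^ I), ((kerN (2 ^ I) G).filter (fun u => u none = s)).card =
      if s ∈ S then (kerN (2 ^ I) (fun i l => G i (some l))).card else 0 := by
    intro s
    split_ifs with h
    · exact le_antisymm (st6a_fib_le G s) (st6a_fib_ge G s h)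
    · rw [card_eq_zero, filter_eq_empty_iff]
      intro u hu hus
      exact h ⟨u, hu, hus⟩
  rw [h1, sum_congr rfl fun s _ => h2 s, ← sum_filter, sum_const, smul_eq_mul]
  congr 1
  rw [← hc, Nat.card_eq_fintype_card, Fintype.card_subtype]

/-- Task T6a: the kernel of the augmented matrix `[a | H]`. -/
theorem aug_cases {I L : ℕ} (hI : 1 ≤ I) (hIL : I ≤ L) (x : α → ZMod (2 ^ L))
    (ω : β → α → Fin 4) (hx : ∀ i, walk (ω i) x = 0) :
    ∃ e : ℕ, e ≤ I ∧ (kerN (2 ^ I) (augM x ω)).card = 2 ^ (I - e) * (kerN (2 ^ I) (hm ω)).card ∧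
      (e < I → ∃ y : α → ZMod (2 ^ (L + I - e)), (∀ i, walk (ω i) y = 0) ∧
        ∀ l, ((y l).cast : ZMod (2 ^ (L - e))) = ((x l).cast : ZMod (2 ^ (L - e)))) := by
  obtain ⟨e, he, hc, u, hu, hu0⟩ := st6a_card (I := I) (augM x ω)
  refine ⟨e, he, hc, fun _ => ?_⟩
  rw [st6a_mem_opt] at hu
  refine ⟨fun l => (((x l).val + 2 ^ (L - e) * (u (some l)).val : ℕ) :
    ZMod (2 ^ (L + I - e))), ?_, ?_⟩
  · intro i
    have h1 := hu i
    rw [hu0] at h1
    have h2 : ((augI x (ω i) * 2 ^ e + ∑ l, st (ω i l) * ((u (some l)).val : ℤ) : ℤ) :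
        ZMod (2 ^ I)) = 0 := by
      rw [← h1]
      push_cast
      congr 1
      refine sum_congr rfl fun l _ => ?_
      rw [ZMod.natCast_zmod_val]
      rfl
    rw [ZMod.intCast_zmod_eq_zero_iff_dvd] at h2
    have h3 := augI_mul x (ω i) (hx i)
    have h4 : walk (ω i) (fun l => (((x l).val + 2 ^ (L - e) * (u (some l)).val : ℕ) :
        ZMod (2 ^ (L + I - e)))) =
        ((∑ l, st (ω i l) * (((x l).val : ℤ) + 2 ^ (L - e) * ((u (some l)).val : ℤ)) : ℤ) :
          ZMod (2 ^ (L + I - e))) := by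
      unfold walk
      push_cast
      rfl
    rw [h4, ZMod.intCast_zmod_eq_zero_iff_dvd]
    have h5 : ∑ l, st (ω i l) * (((x l).val : ℤ) + 2 ^ (L - e) * ((u (some l)).val : ℤ)) =
        2 ^ (L - e) * (augI x (ω i) * 2 ^ e + ∑ l, st (ω i l) * ((u (some l)).val : ℤ)) := by
      have h6 : (2 : ℤ) ^ (L - e) * 2 ^ e = 2 ^ L := by
        rw [← pow_add]; congr 1; omega
      have h7 : ∑ l, st (ω i l) * (((x l).val : ℤ) + 2 ^ (L - e) * ((u (some l)).val : ℤ)) =
          ∑ l, st (ω i l) * ((x l).val : ℤ) +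
            2 ^ (L - e) * ∑ l, st (ω i l) * ((u (some l)).val : ℤ) := by
        rw [mul_sum, ← sum_add_distrib]
        refine sum_congr rfl fun l _ => ?_
        ring
      rw [h7, ← h3, mul_add]
      congr 1
      push_cast
      rw [← h6]
      ring
    rw [h5, show L + I - e = (L - e) + I by omega]
    push_cast at h2 ⊢
    rw [pow_add]
    exact mul_dvd_mul_left _ h2
  · intro l
    have hd : 2 ^ (L - e) ∣ 2 ^ (L + I - e) := pow_dvd_pow 2 (by omega)
    rw [ZMod.cast_natCast hd]
    push_cast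
    have h8 : ((2 : ZMod (2 ^ (L - e))) ^ (L - e)) = 0 := by
      have := ZMod.natCast_self (2 ^ (L - e))
      push_cast at this
      exact this
    rw [h8, zero_mul, add_zero, ZMod.natCast_val]

open Classical in
/-- Task T6a: number of kernel vectors with given reduction. -/
theorem card_fibre_le {I L e : ℕ} (he : e ≤ I) (hIL : I ≤ L) (ω : β → α → Fin 4)
    (y : α → ZMod (2 ^ (L - e))) :
    (univ.filter (fun x : α → ZMod (2 ^ L) => (∀ i, walk (ω i) x = 0) ∧
      ∀ l, ((x l).cast : ZMod (2 ^ (L - e))) = y l)).card ≤ (kerN (2 ^ I) (hm ω)).card := by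
  refine le_trans ?_ (card_kerN_mono (hm ω) he)
  by_cases hne : (univ.filter (fun x : α → ZMod (2 ^ L) => (∀ i, walk (ω i) x = 0) ∧
      ∀ l, ((x l).cast : ZMod (2 ^ (L - e))) = y l)).Nonempty
  · obtain ⟨x₀, hx₀⟩ := hne
    rw [mem_filter] at hx₀
    have hdd : 2 ^ (L - e) ∣ 2 ^ L := pow_dvd_pow 2 (by omega)
    have hd : ∀ x : α → ZMod (2 ^ L), (∀ l, ((x l).cast : ZMod (2 ^ (L - e))) = y l) →
        ∀ l, 2 ^ (L - e) ∣ (x l - x₀ l).val := by
      intro x hx l
      have h2 : ((x l - x₀ l).cast : ZMod (2 ^ (L - e))) = 0 := by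
        rw [ZMod.cast_sub hdd, hx l, hx₀.2.2 l, sub_self]
      rw [← ZMod.natCast_val, ZMod.natCast_eq_zero_iff] at h2
      exact h2
    have hp : 0 < 2 ^ (L - e) := by positivity
    have hLe : (2 : ℕ) ^ L = 2 ^ (L - e) * 2 ^ e := by
      rw [← pow_add]; congr 1; omega
    refine Finset.card_le_card_of_injOn
      (fun x l => (((x l - x₀ l).val / 2 ^ (L - e) : ℕ) : ZMod (2 ^ e))) ?_ ?_
    · intro x hx
      rw [Finset.mem_coe, mem_filter] at hx
      rw [Finset.mem_coe, st6a_mem]
      intro i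
      have h3 : ∑ l, (hm ω i l : ZMod (2 ^ L)) * (x l - x₀ l) = 0 := by
        have e1 := hx.2.1 i
        have e2 := hx₀.2.1 i
        unfold walk at e1 e2
        unfold hm
        simp only [mul_sub, sum_sub_distrib]
        rw [e1, e2, sub_self]
      have h5 : ∀ l, ((x l - x₀ l).val : ℤ) =
          2 ^ (L - e) * (((x l - x₀ l).val / 2 ^ (L - e) : ℕ) : ℤ) := by
        intro l
        have := Nat.mul_div_cancel' (hd x hx.2.2 l)
        exact_mod_cast this.symm
      have h4 : ((2 ^ (L - e) * ∑ l, hm ω i l *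
          (((x l - x₀ l).val / 2 ^ (L - e) : ℕ) : ℤ) : ℤ) : ZMod (2 ^ L)) = 0 := by
        rw [← h3, mul_sum]
        have : ∑ l, (2 : ℤ) ^ (L - e) * (hm ω i l *
            (((x l - x₀ l).val / 2 ^ (L - e) : ℕ) : ℤ)) =
            ∑ l, hm ω i l * ((x l - x₀ l).val : ℤ) := by
          refine sum_congr rfl fun l _ => ?_
          rw [h5 l]; ring
        rw [this, Int.cast_sum]
        refine sum_congr rfl fun l _ => ?_
        rw [Int.cast_mul, Int.cast_natCast, ZMod.natCast_zmod_val]
      rw [ZMod.intCast_zmod_eq_zero_iff_dvd] at h4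
      have h6 : ((2 ^ e : ℕ) : ℤ) ∣ ∑ l, hm ω i l *
          (((x l - x₀ l).val / 2 ^ (L - e) : ℕ) : ℤ) := by
        have h7 : ((2 ^ L : ℕ) : ℤ) = (2 : ℤ) ^ (L - e) * ((2 ^ e : ℕ) : ℤ) := by
          rw [hLe]; push_cast; ring
        rw [h7] at h4
        exact Int.dvd_of_mul_dvd_mul_left (by positivity) h4
      have h8 := (ZMod.intCast_zmod_eq_zero_iff_dvd _ (2 ^ e)).2 h6
      rw [← h8, Int.cast_sum]
      refine sum_congr rfl fun l _ => ?_
      rw [Int.cast_mul, Int.cast_natCast]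
    · intro x hx x' hx' h
      rw [Finset.mem_coe, mem_filter] at hx hx'
      funext l
      have h1 := congrFun h l
      simp only at h1
      have hlt : ∀ t : ZMod (2 ^ L), t.val / 2 ^ (L - e) < 2 ^ e := by
        intro t
        have := ZMod.val_lt t
        rw [Nat.div_lt_iff_lt_mul hp, mul_comm, ← hLe]
        exact this
      have h2 := congrArg ZMod.val h1
      rw [ZMod.val_cast_of_lt (hlt _), ZMod.val_cast_of_lt (hlt _)] at h2
      have h3 : (x l - x₀ l).val = (x' l - x₀ l).val := by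
        rw [← Nat.mul_div_cancel' (hd x hx.2.2 l), ← Nat.mul_div_cancel' (hd x' hx'.2.2 l), h2]
      exact sub_left_injective (ZMod.val_injective _ h3)
  · rw [Finset.not_nonempty_iff_eq_empty] at hne
    rw [hne]; simp

/-- Task T6a: trivial bound for the augmented matrix. -/
theorem card_aug_le {L : ℕ} (x : α → ZMod (2 ^ L)) (ω : β → α → Fin 4) :
    (kerN (2 ^ L) (augM x ω)).card ≤ 2 ^ L * (kerN (2 ^ L) (hm ω)).card := by
  have h1 : (kerN (2 ^ L) (augM x ω)).card = ∑ s : ZMod (2 ^ L),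
      ((kerN (2 ^ L) (augM x ω)).filter (fun u => u none = s)).card :=
    Finset.card_eq_sum_card_fiberwise (fun _ _ => by simp)
  rw [h1]
  refine (sum_le_sum fun s _ => st6a_fib_le (augM x ω) s).trans ?_
  rw [sum_const, card_univ, ZMod.card, smul_eq_mul, st6a_augM_some]

end

end Vale.Agent.P160
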