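import Vale.Agent.P160.ST0

set_option linter.unusedSectionVars false

namespace Vale.Agent.P160

open Finset

lemma st6b_cast_cast {a b c : ℕ} (hcb : c ≤ b) (hba : b ≤ a) (x : ZMod (2 ^ a)) :
    (((x.cast : ZMod (2 ^ b))).cast : ZMod (2 ^ c)) = (x.cast : ZMod (2 ^ c)) := by
  have h : ((ZMod.castHom (pow_dvd_pow 2 hcb) (ZMod (2 ^ c))).comp
      (ZMod.castHom (pow_dvd_pow 2 hba) (ZMod (2 ^ b)))) x =
      (ZMod.castHom (pow_dvd_pow 2 (hcb.trans hba)) (ZMod (2 ^ c))) x := by
    congr 1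
    exact Subsingleton.elim _ _
  exact h

lemma st6b_nu_cast {α : Type} [Fintype α] [DecidableEq α] {a b : ℕ} (hb : b ≠ 0) (hba : b ≤ a)
    (x : α → ZMod (2 ^ a)) :
    nu (fun i => ((x i).cast : ZMod (2 ^ b))) = nu x := by
  rw [← wt_eq_nu hb, ← wt_eq_nu (j := a) (by omega)]
  congr 1
  funext i
  have h : ((x i).cast : ZMod (2 ^ b)) =
      ZMod.castHom (pow_dvd_pow 2 hba) (ZMod (2 ^ b)) (x i) := rfl
  rw [h, ← RingHom.comp_apply]
  congr 1
  exact Subsingleton.elim _ _

lemma st6b_walk_cast {α : Type} [Fintype α] [DecidableEq α] {a b : ℕ} (hba : b ≤ a) (r : α → Fin 4)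
    (x : α → ZMod (2 ^ a)) (h : walk r x = 0) :
    walk r (fun i => ((x i).cast : ZMod (2 ^ b))) = 0 := by
  have h1 := walk_castHom (pow_dvd_pow 2 hba) r x
  rw [h, map_zero] at h1
  exact h1

lemma st6b_fiber {a c : ℕ} (h : c ≤ a) (t : ZMod (2 ^ c)) :
    (univ.filter (fun z : ZMod (2 ^ a) => (z.cast : ZMod (2 ^ c)) = t)).card ≤ 2 ^ (a - c) := by
  have hr : (range (2 ^ (a - c))).card = 2 ^ (a - c) := card_range _
  rw [← hr]
  refine card_le_card_of_injOn (fun z => z.val / 2 ^ c) ?_ ?_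
  · intro z _
    simp only [coe_range, Set.mem_Iio]
    apply Nat.div_lt_of_lt_mul
    rw [← pow_add, Nat.add_sub_cancel' h]
    exact ZMod.val_lt z
  · intro z hz w hw hzw
    rw [mem_coe, mem_filter] at hz hw
    have h1 : ((z.val : ℕ) : ZMod (2 ^ c)) = ((w.val : ℕ) : ZMod (2 ^ c)) := by
      rw [ZMod.natCast_val, ZMod.natCast_val, hz.2, hw.2]
    have h2 : z.val % 2 ^ c = w.val % 2 ^ c := (ZMod.natCast_eq_natCast_iff' _ _ _).1 h1
    have h3 : z.val = w.val := by
      have hzw' : z.val / 2 ^ c = w.val / 2 ^ c := hzw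
      rw [← Nat.div_add_mod z.val (2 ^ c), ← Nat.div_add_mod w.val (2 ^ c), h2, hzw']
    exact ZMod.val_injective _ h3

open Classical in
lemma st6b_lift {α : Type} [Fintype α] [DecidableEq α] {I L' j : ℕ} {τ u : ℝ} (hj : j ≠ 0)
    (hjL : j ≤ L') :
    (univ.filter (fun y : α → ZMod (2 ^ L') => u ≤ nu y ∧
      BadL I τ (fun i => ((y i).cast : ZMod (2 ^ j))))).card ≤
    (2 ^ (L' - j)) ^ Fintype.card α *
      (univ.filter (fun x : α → ZMod (2 ^ j) => u ≤ nu x ∧ BadL I τ x)).card := by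
  refine (card_le_mul_card_image (f := fun (y : α → ZMod (2 ^ L')) (i : α) =>
    ((y i).cast : ZMod (2 ^ j))) _ ((2 ^ (L' - j)) ^ Fintype.card α) ?_).trans ?_
  · intro x _
    refine (card_le_card (t := Fintype.piFinset (fun i => univ.filter
      (fun z : ZMod (2 ^ L') => (z.cast : ZMod (2 ^ j)) = x i))) ?_).trans ?_
    · intro y hy
      rw [mem_filter] at hy
      rw [Fintype.mem_piFinset]
      intro i
      rw [mem_filter]
      exact ⟨mem_univ _, congrFun hy.2 i⟩
    · rw [Fintype.card_piFinset]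
      refine (prod_le_prod' (fun i _ => st6b_fiber hjL (x i))).trans (le_of_eq ?_)
      rw [prod_const, card_univ]
  · refine Nat.mul_le_mul_left _ (card_le_card ?_)
    intro x hx
    obtain ⟨y, hy, rfl⟩ := mem_image.1 hx
    rw [mem_filter] at hy ⊢
    refine ⟨mem_univ _, ?_, hy.2.2⟩
    rw [st6b_nu_cast hj hjL]
    exact hy.2.1

open Classical in
/-- Task T6b: sum over the vectors `y` which are good up to level `L - e`. -/
theorem near_e {α β : Type} [Fintype α] [DecidableEq α] [Fintype β] [DecidableEq β]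
    {I L e b : ℕ} {δ τ κ : ℝ} (hI : 1 ≤ I) (he : e < I) (hL : 2 * I ≤ L)
    (h3 : 3 * (L + I) ≤ 2 * Fintype.card α)
    (hb : 2 * (b + 1) + Fintype.card α ≤ Fintype.card β) (hbI : b * I ≤ L + I)
    (Near : (β → α → Fin 4) → Prop)
    (hnear : ∀ J' : ℕ, I ≤ J' → 3 * J' ≤ 2 * Fintype.card α → ∀ x : α → ZMod (2 ^ J'),
      δ * Fintype.card α ≤ nu x → GoodX I τ x →
      ∀ B : ℕ, 2 * B + Fintype.card α ≤ Fintype.card β → B * I ≤ J' + 3 * I →
        (∑ ω : β → α → Fin 4, if (∀ i, walk (ω i) x = 0) ∧ Near ω then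
          ((kerN (2 ^ I) (hm ω)).card : ℝ) ^ B else 0) ≤
          8 * ((2 : ℝ) ^ I) ^ B * (1 / 2 ^ J') ^ Fintype.card β *
            4 ^ (Fintype.card β * Fintype.card α))
    (hκ : 0 ≤ κ)
    (hbad : ∀ j : ℕ, I < j → j ≤ L + I →
      ((univ.filter (fun x : α → ZMod (2 ^ j) => δ * Fintype.card α ≤ nu x ∧
        BadL I τ x)).card : ℝ) ≤ κ * ((2 : ℝ) ^ j) ^ Fintype.card α) :
    (∑ y ∈ univ.filter (fun y : α → ZMod (2 ^ (L + I - e)) => δ * Fintype.card α ≤ nu y ∧
        GoodX I τ (fun i => ((y i).cast : ZMod (2 ^ (L - e))))),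
      ∑ ω : β → α → Fin 4, if (∀ i, walk (ω i) y = 0) ∧ Near ω then
          ((kerN (2 ^ I) (hm ω)).card : ℝ) ^ (b + 1) else 0) ≤
      8 * ((2 : ℝ) ^ I) ^ (b + 1) * 4 ^ (Fintype.card β * Fintype.card α) *
        ((2 : ℝ) ^ (L + I - e)) ^ Fintype.card α * (1 / 2 ^ (L + I - e)) ^ Fintype.card β *
        (1 + I * κ * 2 ^ (I * Fintype.card β)) := by
  have hbI1 : (b + 1) * I = b * I + I := by ring
  set Y : Finset (α → ZMod (2 ^ (L + I - e))) := univ.filter (fun y =>
    δ * Fintype.card α ≤ nu y ∧ GoodX I τ (fun i => ((y i).cast : ZMod (2 ^ (L - e))))) with hY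
  set A : ℝ := 8 * ((2 : ℝ) ^ I) ^ (b + 1) * (1 / 2 ^ (L + I - e)) ^ Fintype.card β *
    4 ^ (Fintype.card β * Fintype.card α) with hA
  have hA0 : 0 ≤ A := by positivity
  have hgood : ∀ y ∈ Y.filter (fun y => GoodX I τ y),
      (∑ ω : β → α → Fin 4, if (∀ i, walk (ω i) y = 0) ∧ Near ω then
          ((kerN (2 ^ I) (hm ω)).card : ℝ) ^ (b + 1) else 0) ≤ A := by
    intro y hy
    rw [mem_filter, hY, mem_filter] at hy
    exact hnear (L + I - e) (by omega) (by omega) y hy.1.2.1 hy.2 (b + 1) hb (by omega)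
  have hbadS : ∀ y ∈ Y.filter (fun y => ¬ GoodX I τ y),
      (∑ ω : β → α → Fin 4, if (∀ i, walk (ω i) y = 0) ∧ Near ω then
          ((kerN (2 ^ I) (hm ω)).card : ℝ) ^ (b + 1) else 0) ≤
        A * 2 ^ (I * Fintype.card β) := by
    intro y hy
    rw [mem_filter, hY, mem_filter] at hy
    have h1 := hnear (L - e) (by omega) (by omega)
      (fun i => ((y i).cast : ZMod (2 ^ (L - e)))) (by
        rw [st6b_nu_cast (by omega) (by omega)]; exact hy.1.2.1) hy.1.2.2 (b + 1) hb (by omega)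
    refine (sum_le_sum fun ω _ => ?_).trans (h1.trans (le_of_eq ?_))
    · by_cases hc : (∀ i, walk (ω i) y = 0) ∧ Near ω
      · rw [if_pos hc, if_pos ⟨fun i => st6b_walk_cast (by omega) _ _ (hc.1 i), hc.2⟩]
      · rw [if_neg hc]
        split_ifs <;> positivity
    · have e1 : L + I - e = (L - e) + I := by omega
      have e2 : ((1 : ℝ) / 2 ^ (L - e)) ^ Fintype.card β =
          (1 / 2 ^ (L + I - e)) ^ Fintype.card β * 2 ^ (I * Fintype.card β) := by
        rw [pow_mul, ← mul_pow]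
        congr 1
        rw [e1, pow_add]
        field_simp
      rw [hA, e2]
      ring
  have hcard : (((Y.filter (fun y => GoodX I τ y)).card : ℕ) : ℝ) ≤
      ((2 : ℝ) ^ (L + I - e)) ^ Fintype.card α := by
    have : (Y.filter (fun y => GoodX I τ y)).card ≤ (2 ^ (L + I - e)) ^ Fintype.card α := by
      refine (card_le_univ _).trans (le_of_eq ?_)
      rw [Fintype.card_fun, ZMod.card]
    exact_mod_cast this
  have hcount : (((Y.filter (fun y => ¬ GoodX I τ y)).card : ℕ) : ℝ) ≤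
      I * κ * ((2 : ℝ) ^ (L + I - e)) ^ Fintype.card α := by
    have hsub : Y.filter (fun y => ¬ GoodX I τ y) ⊆ (Ioc (L - e) (L + I - e)).biUnion
        (fun j => univ.filter (fun y : α → ZMod (2 ^ (L + I - e)) => δ * Fintype.card α ≤ nu y ∧
          BadL I τ (fun i => ((y i).cast : ZMod (2 ^ j))))) := by
      intro y hy
      rw [mem_filter, hY, mem_filter] at hy
      obtain ⟨⟨_, hy1, hy2⟩, hy3⟩ := hy
      unfold GoodX at hy3
      push Not at hy3
      obtain ⟨j, hj1, hj2, k, hk⟩ := hy3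
      rw [mem_biUnion]
      refine ⟨j, ?_, ?_⟩
      · rw [mem_Ioc]
        refine ⟨?_, hj2⟩
        by_contra hcon
        have h4 := hy2 j hj1 (by omega) k
        have h5 : (fun i => ((((y i).cast : ZMod (2 ^ (L - e)))).cast : ZMod (2 ^ j)) +
            2 ^ (j - I) * k i) = (fun i => ((y i).cast : ZMod (2 ^ j)) + 2 ^ (j - I) * k i) := by
          funext i
          rw [st6b_cast_cast (by omega) (by omega)]
        rw [h5] at h4
        exact absurd h4 (not_le.2 hk)
      · rw [mem_filter]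
        exact ⟨mem_univ _, hy1, k, hk⟩
    have h1 : (((Y.filter (fun y => ¬ GoodX I τ y)).card : ℕ) : ℝ) ≤
        ∑ j ∈ Ioc (L - e) (L + I - e), ((univ.filter
          (fun y : α → ZMod (2 ^ (L + I - e)) => δ * Fintype.card α ≤ nu y ∧
          BadL I τ (fun i => ((y i).cast : ZMod (2 ^ j))))).card : ℝ) := by
      exact_mod_cast (card_le_card hsub).trans card_biUnion_le
    refine h1.trans ?_
    have h2 : ∀ j ∈ Ioc (L - e) (L + I - e), ((univ.filter
          (fun y : α → ZMod (2 ^ (L + I - e)) => δ * Fintype.card α ≤ nu y ∧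
          BadL I τ (fun i => ((y i).cast : ZMod (2 ^ j))))).card : ℝ) ≤
          κ * ((2 : ℝ) ^ (L + I - e)) ^ Fintype.card α := by
      intro j hj
      rw [mem_Ioc] at hj
      have h5 := st6b_lift (α := α) (I := I) (τ := τ) (u := δ * Fintype.card α) (j := j)
        (L' := L + I - e) (by omega) hj.2
      have h6 := hbad j (by omega) (by omega)
      calc ((univ.filter
          (fun y : α → ZMod (2 ^ (L + I - e)) => δ * Fintype.card α ≤ nu y ∧
          BadL I τ (fun i => ((y i).cast : ZMod (2 ^ j))))).card : ℝ)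
          ≤ ((2 : ℝ) ^ (L + I - e - j)) ^ Fintype.card α *
            ((univ.filter (fun x : α → ZMod (2 ^ j) => δ * Fintype.card α ≤ nu x ∧
              BadL I τ x)).card : ℝ) := by exact_mod_cast h5
        _ ≤ ((2 : ℝ) ^ (L + I - e - j)) ^ Fintype.card α *
            (κ * ((2 : ℝ) ^ j) ^ Fintype.card α) := by gcongr
        _ = κ * ((2 : ℝ) ^ (L + I - e)) ^ Fintype.card α := by
            have e1 : L + I - e = (L + I - e - j) + j := by omega
            have e2 : ((2 : ℝ) ^ (L + I - e)) ^ Fintype.card α =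
                ((2 : ℝ) ^ (L + I - e - j)) ^ Fintype.card α *
                  ((2 : ℝ) ^ j) ^ Fintype.card α := by
              rw [← mul_pow, ← pow_add, ← e1]
            rw [e2]
            ring
    refine (sum_le_sum h2).trans (le_of_eq ?_)
    rw [sum_const, Nat.card_Ioc, nsmul_eq_mul]
    have e1 : L + I - e - (L - e) = I := by omega
    rw [e1]
    ring
  rw [← sum_filter_add_sum_filter_not Y (fun y => GoodX I τ y)]
  have s1 := (sum_le_sum hgood)
  have s2 := (sum_le_sum hbadS)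
  rw [sum_const, nsmul_eq_mul] at s1 s2
  have s3 := mul_le_mul_of_nonneg_right hcard hA0
  have s4 := mul_le_mul_of_nonneg_right hcount
    (show 0 ≤ A * 2 ^ (I * Fintype.card β) by positivity)
  calc _ ≤ ((2 : ℝ) ^ (L + I - e)) ^ Fintype.card α * A +
      I * κ * ((2 : ℝ) ^ (L + I - e)) ^ Fintype.card α * (A * 2 ^ (I * Fintype.card β)) :=
        add_le_add (s1.trans s3) (s2.trans s4)
    _ = _ := by rw [hA]; ring

end Vale.Agent.P160
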