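import Vale.Agent.P160.ST6a
import Vale.Agent.P160.ST6b

set_option linter.unusedSectionVars false

namespace Vale.Agent.P160

open Finset

lemma st6c_cast_cast {a b c : ℕ} (h1 : b ≤ a) (h2 : c ≤ b) (z : ZMod (2 ^ a)) :
    ((z.cast : ZMod (2 ^ b)).cast : ZMod (2 ^ c)) = (z.cast : ZMod (2 ^ c)) := by
  have h : (ZMod.castHom (pow_dvd_pow 2 h2) (ZMod (2 ^ c))).comp
      (ZMod.castHom (pow_dvd_pow 2 h1) (ZMod (2 ^ b))) =
      ZMod.castHom (pow_dvd_pow 2 (h2.trans h1)) (ZMod (2 ^ c)) := Subsingleton.elim _ _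
  exact RingHom.congr_fun h z

lemma st6c_nu_cast {α : Type} [Fintype α] [DecidableEq α] {k a : ℕ} (hk : 1 ≤ k) (hka : k ≤ a)
    (x : α → ZMod (2 ^ a)) : nu (fun i => ((x i).cast : ZMod (2 ^ k))) = nu x := by
  rw [← wt_eq_nu (j := k) (by omega), ← wt_eq_nu (j := a) (by omega)]
  congr 1
  funext i
  have h : (ZMod.castHom (dvd_pow_self 2 (by omega : k ≠ 0)) (ZMod 2)).comp
      (ZMod.castHom (pow_dvd_pow 2 hka) (ZMod (2 ^ k))) =
      ZMod.castHom (dvd_pow_self 2 (by omega : a ≠ 0)) (ZMod 2) := Subsingleton.elim _ _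
  exact RingHom.congr_fun h (x i)

lemma st6c_good {α : Type} [Fintype α] [DecidableEq α] {I k a : ℕ} {τ : ℝ} (hka : k ≤ a)
    {x : α → ZMod (2 ^ a)} (hx : GoodX I τ x) :
    GoodX I τ (fun i => ((x i).cast : ZMod (2 ^ k))) := by
  intro j hj hjk s
  have h := hx j hj (hjk.trans hka) s
  have e : (fun i => ((x i).cast : ZMod (2 ^ j)) + 2 ^ (j - I) * s i) =
      fun i => ((((x i).cast : ZMod (2 ^ k)).cast : ZMod (2 ^ j)) + 2 ^ (j - I) * s i) := by
    funext i
    rw [st6c_cast_cast hka hjk]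
  rw [e] at h
  exact h

open Classical in
lemma st6c_term {α β : Type} [Fintype α] [DecidableEq α] [Fintype β] [DecidableEq β]
    {I L b : ℕ} (hI : 1 ≤ I) (hIL : I ≤ L) (hLb : L ≤ b * I) (x : α → ZMod (2 ^ L))
    (ω : β → α → Fin 4) (hx : ∀ i, walk (ω i) x = 0) :
    ((kerN (2 ^ L) (augM x ω)).card : ℝ) ≤ ((kerN (2 ^ I) (hm ω)).card : ℝ) ^ b +
      ∑ e ∈ range I, if (∃ y : α → ZMod (2 ^ (L + I - e)), (∀ i, walk (ω i) y = 0) ∧
        ∀ l, ((y l).cast : ZMod (2 ^ (L - e))) = ((x l).cast : ZMod (2 ^ (L - e)))) then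
          ((2 : ℝ) ^ (I - e)) ^ b * ((kerN (2 ^ I) (hm ω)).card : ℝ) ^ b else 0 := by
  obtain ⟨e, he, hc, hy⟩ := aug_cases hI hIL x ω hx
  have h1 : ((kerN (2 ^ L) (augM x ω)).card : ℝ) ≤
      ((kerN (2 ^ I) (augM x ω)).card : ℝ) ^ b := by
    exact_mod_cast card_kerN_pow_le (augM x ω) hI hLb
  rw [hc] at h1
  push_cast at h1
  rw [mul_pow] at h1
  have hnn : ∀ e' ∈ range I, (0 : ℝ) ≤
      (if (∃ y : α → ZMod (2 ^ (L + I - e')), (∀ i, walk (ω i) y = 0) ∧
        ∀ l, ((y l).cast : ZMod (2 ^ (L - e'))) = ((x l).cast : ZMod (2 ^ (L - e')))) then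
          ((2 : ℝ) ^ (I - e')) ^ b * ((kerN (2 ^ I) (hm ω)).card : ℝ) ^ b else 0) := by
    intro e' _
    split_ifs <;> positivity
  rcases Nat.eq_or_lt_of_le he with he' | he'
  · rw [he', Nat.sub_self, pow_zero, one_pow, one_mul] at h1
    exact h1.trans (le_add_of_nonneg_right (sum_nonneg hnn))
  · have h2 := single_le_sum hnn (mem_range.2 he')
    rw [if_pos (hy he')] at h2
    exact h1.trans (h2.trans (le_add_of_nonneg_left (by positivity)))

open Classical in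
lemma st6c_count {α β : Type} [Fintype α] [DecidableEq α] [Fintype β] [DecidableEq β]
    {I L e : ℕ} {δ τ : ℝ} (he : e < I) (hL : 2 * I ≤ L) (ω : β → α → Fin 4) :
    ((univ.filter (fun x : α → ZMod (2 ^ L) => δ * Fintype.card α ≤ nu x ∧
      GoodX I τ x)).filter (fun x => (∀ i, walk (ω i) x = 0) ∧
        ∃ y : α → ZMod (2 ^ (L + I - e)), (∀ i, walk (ω i) y = 0) ∧
        ∀ l, ((y l).cast : ZMod (2 ^ (L - e))) = ((x l).cast : ZMod (2 ^ (L - e))))).card ≤
      ((univ.filter (fun y : α → ZMod (2 ^ (L + I - e)) => δ * Fintype.card α ≤ nu y ∧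
        GoodX I τ (fun i => ((y i).cast : ZMod (2 ^ (L - e)))))).filter
          (fun y => ∀ i, walk (ω i) y = 0)).card * (kerN (2 ^ I) (hm ω)).card := by
  refine (card_le_card (t := ((univ.filter (fun y : α → ZMod (2 ^ (L + I - e)) =>
      δ * Fintype.card α ≤ nu y ∧
        GoodX I τ (fun i => ((y i).cast : ZMod (2 ^ (L - e)))))).filter
          (fun y => ∀ i, walk (ω i) y = 0)).biUnion (fun y =>
      univ.filter (fun x : α → ZMod (2 ^ L) => (∀ i, walk (ω i) x = 0) ∧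
      ∀ l, ((x l).cast : ZMod (2 ^ (L - e))) =
        (fun l => ((y l).cast : ZMod (2 ^ (L - e)))) l))) ?_).trans ?_
  · intro x hx
    simp only [mem_filter, mem_univ, true_and] at hx
    obtain ⟨⟨hnu, hgood⟩, h0, y, hy0, hy⟩ := hx
    rw [mem_biUnion]
    have hyx : (fun i => ((y i).cast : ZMod (2 ^ (L - e)))) =
        fun i => ((x i).cast : ZMod (2 ^ (L - e))) := funext hy
    refine ⟨y, ?_, ?_⟩
    · simp only [mem_filter, mem_univ, true_and]
      refine ⟨⟨?_, ?_⟩, hy0⟩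
      · have h1 := st6c_nu_cast (k := L - e) (a := L + I - e) (by omega) (by omega) y
        have h2 := st6c_nu_cast (k := L - e) (a := L) (by omega) (by omega) x
        rw [hyx] at h1
        rw [← h1, h2]
        exact hnu
      · rw [hyx]
        exact st6c_good (by omega) hgood
    · simp only [mem_filter, mem_univ, true_and]
      exact ⟨h0, fun l => (hy l).symm⟩
  · refine card_biUnion_le.trans ?_
    rw [← smul_eq_mul]
    refine sum_le_card_nsmul _ _ _ fun y _ => ?_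
    exact card_fibre_le (le_of_lt he) (by omega) ω _

open Classical in
lemma st6c_part {α β : Type} [Fintype α] [DecidableEq α] [Fintype β] [DecidableEq β]
    {I L e b : ℕ} {δ τ : ℝ} (he : e < I) (hL : 2 * I ≤ L) (Near : (β → α → Fin 4) → Prop) :
    (∑ x ∈ univ.filter (fun x : α → ZMod (2 ^ L) => δ * Fintype.card α ≤ nu x ∧ GoodX I τ x),
      ∑ ω : β → α → Fin 4, if ((∀ i, walk (ω i) x = 0) ∧ Near ω) ∧
        (∃ y : α → ZMod (2 ^ (L + I - e)), (∀ i, walk (ω i) y = 0) ∧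
        ∀ l, ((y l).cast : ZMod (2 ^ (L - e))) = ((x l).cast : ZMod (2 ^ (L - e)))) then
          ((2 : ℝ) ^ (I - e)) ^ b * ((kerN (2 ^ I) (hm ω)).card : ℝ) ^ b else 0) ≤
    ((2 : ℝ) ^ (I - e)) ^ b *
      ∑ y ∈ univ.filter (fun y : α → ZMod (2 ^ (L + I - e)) => δ * Fintype.card α ≤ nu y ∧
        GoodX I τ (fun i => ((y i).cast : ZMod (2 ^ (L - e))))),
      ∑ ω : β → α → Fin 4, if (∀ i, walk (ω i) y = 0) ∧ Near ω then
          ((kerN (2 ^ I) (hm ω)).card : ℝ) ^ (b + 1) else 0 := by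
  rw [sum_comm]
  conv_rhs => rw [sum_comm, mul_sum]
  refine sum_le_sum fun ω _ => ?_
  by_cases hN : Near ω
  · have hc := st6c_count (δ := δ) (τ := τ) he hL ω
    set K := (kerN (2 ^ I) (hm ω)).card with hK
    set X := univ.filter (fun x : α → ZMod (2 ^ L) => δ * Fintype.card α ≤ nu x ∧
      GoodX I τ x) with hX
    set Y := univ.filter (fun y : α → ZMod (2 ^ (L + I - e)) => δ * Fintype.card α ≤ nu y ∧
        GoodX I τ (fun i => ((y i).cast : ZMod (2 ^ (L - e))))) with hY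
    have e1 : (∑ x ∈ X, if ((∀ i, walk (ω i) x = 0) ∧ Near ω) ∧
        (∃ y : α → ZMod (2 ^ (L + I - e)), (∀ i, walk (ω i) y = 0) ∧
        ∀ l, ((y l).cast : ZMod (2 ^ (L - e))) = ((x l).cast : ZMod (2 ^ (L - e)))) then
          ((2 : ℝ) ^ (I - e)) ^ b * (K : ℝ) ^ b else 0) =
        ((X.filter (fun x => (∀ i, walk (ω i) x = 0) ∧
        ∃ y : α → ZMod (2 ^ (L + I - e)), (∀ i, walk (ω i) y = 0) ∧
        ∀ l, ((y l).cast : ZMod (2 ^ (L - e))) =
          ((x l).cast : ZMod (2 ^ (L - e))))).card : ℝ) *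
          (((2 : ℝ) ^ (I - e)) ^ b * (K : ℝ) ^ b) := by
      rw [← sum_filter, sum_const, nsmul_eq_mul]
      congr 3
      refine filter_congr fun x _ => ?_
      simp only [hN, and_true]
    have e2 : (∑ y ∈ Y, if (∀ i, walk (ω i) y = 0) ∧ Near ω then (K : ℝ) ^ (b + 1) else 0) =
        ((Y.filter (fun y => ∀ i, walk (ω i) y = 0)).card : ℝ) * (K : ℝ) ^ (b + 1) := by
      rw [← sum_filter, sum_const, nsmul_eq_mul]
      congr 3
      refine filter_congr fun x _ => ?_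
      simp only [hN, and_true]
    rw [e1, e2]
    have hc' : ((X.filter (fun x => (∀ i, walk (ω i) x = 0) ∧
        ∃ y : α → ZMod (2 ^ (L + I - e)), (∀ i, walk (ω i) y = 0) ∧
        ∀ l, ((y l).cast : ZMod (2 ^ (L - e))) =
          ((x l).cast : ZMod (2 ^ (L - e))))).card : ℝ) ≤
        ((Y.filter (fun y => ∀ i, walk (ω i) y = 0)).card : ℝ) * K := by
      exact_mod_cast hc
    calc _ ≤ (((Y.filter (fun y => ∀ i, walk (ω i) y = 0)).card : ℝ) * K) *
          (((2 : ℝ) ^ (I - e)) ^ b * (K : ℝ) ^ b) :=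
          mul_le_mul_of_nonneg_right hc' (by positivity)
      _ = _ := by ring
  · simp only [hN, and_false, false_and, if_false, sum_const_zero, mul_zero, le_refl]

open Classical in
/-- Task T6c: the near part of the sum for the augmented matrix. -/
theorem near_aug {α β : Type} [Fintype α] [DecidableEq α] [Fintype β] [DecidableEq β]
    {I L b : ℕ} {δ τ κ : ℝ} (hI : 1 ≤ I) (hL : 2 * I ≤ L)
    (h3 : 3 * (L + I) ≤ 2 * Fintype.card α)
    (hb : 2 * (b + 1) + Fintype.card α ≤ Fintype.card β) (hbI : b * I ≤ L + I)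
    (hLb : L ≤ b * I)
    (Near : (β → α → Fin 4) → Prop)
    (hnear : ∀ J' : ℕ, I ≤ J' → 3 * J' ≤ 2 * Fintype.card α → ∀ x : α → ZMod (2 ^ J'),
      δ * Fintype.card α ≤ nu x → GoodX I τ x →
      ∀ B : ℕ, 2 * B + Fintype.card α ≤ Fintype.card β → B * I ≤ J' + 3 * I →
        (∑ ω : β → α → Fin 4, if (∀ i, walk (ω i) x = 0) ∧ Near ω then
          ((kerN (2 ^ I) (hm ω)).card : ℝ) ^ B else 0) ≤
          8 * ((2 : ℝ) ^ I) ^ B * (1 / 2 ^ J') ^ Fintype.card β *
            4 ^ (Fintype.card β * Fintype.card α))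
    (hκ : 0 ≤ κ)
    (hbad : ∀ j : ℕ, I < j → j ≤ L + I →
      ((univ.filter (fun x : α → ZMod (2 ^ j) => δ * Fintype.card α ≤ nu x ∧
        BadL I τ x)).card : ℝ) ≤ κ * ((2 : ℝ) ^ j) ^ Fintype.card α) :
    (∑ x ∈ univ.filter (fun x : α → ZMod (2 ^ L) => δ * Fintype.card α ≤ nu x ∧ GoodX I τ x),
      ∑ ω : β → α → Fin 4, if (∀ i, walk (ω i) x = 0) ∧ Near ω then
          ((kerN (2 ^ L) (augM x ω)).card : ℝ) else 0) ≤
      4 ^ (Fintype.card β * Fintype.card α) *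
        (8 * ((2 : ℝ) ^ I) ^ b * ((2 : ℝ) ^ L) ^ Fintype.card α *
            (1 / 2 ^ L) ^ Fintype.card β +
          ∑ e ∈ range I, ((2 : ℝ) ^ (I - e)) ^ b * (8 * ((2 : ℝ) ^ I) ^ (b + 1) *
            ((2 : ℝ) ^ (L + I - e)) ^ Fintype.card α * (1 / 2 ^ (L + I - e)) ^ Fintype.card β *
            (1 + I * κ * 2 ^ (I * Fintype.card β)))) := by
  have hIL : I ≤ L := by omega
  set K : (β → α → Fin 4) → ℝ := fun ω => ((kerN (2 ^ I) (hm ω)).card : ℝ) with hK
  set C := univ.filter (fun x : α → ZMod (2 ^ L) => δ * Fintype.card α ≤ nu x ∧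
    GoodX I τ x) with hC
  have step1 : (∑ x ∈ C, ∑ ω : β → α → Fin 4, if (∀ i, walk (ω i) x = 0) ∧ Near ω then
          ((kerN (2 ^ L) (augM x ω)).card : ℝ) else 0) ≤
      (∑ x ∈ C, ∑ ω : β → α → Fin 4, if (∀ i, walk (ω i) x = 0) ∧ Near ω then
          ((kerN (2 ^ I) (hm ω)).card : ℝ) ^ b else 0) +
      ∑ e ∈ range I, ∑ x ∈ C, ∑ ω : β → α → Fin 4,
        if ((∀ i, walk (ω i) x = 0) ∧ Near ω) ∧
        (∃ y : α → ZMod (2 ^ (L + I - e)), (∀ i, walk (ω i) y = 0) ∧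
        ∀ l, ((y l).cast : ZMod (2 ^ (L - e))) = ((x l).cast : ZMod (2 ^ (L - e)))) then
          ((2 : ℝ) ^ (I - e)) ^ b * ((kerN (2 ^ I) (hm ω)).card : ℝ) ^ b else 0 := by
    rw [sum_comm (s := range I), ← sum_add_distrib]
    refine sum_le_sum fun x _ => ?_
    rw [sum_comm (s := range I), ← sum_add_distrib]
    refine sum_le_sum fun ω _ => ?_
    by_cases hA : (∀ i, walk (ω i) x = 0) ∧ Near ω
    · rw [if_pos hA, if_pos hA]
      refine (st6c_term hI hIL hLb x ω hA.1).trans (le_of_eq ?_)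
      congr 1
      exact sum_congr rfl fun e _ => if_congr (and_iff_right hA).symm rfl rfl
    · rw [if_neg hA, if_neg hA, zero_add]
      refine sum_nonneg fun e _ => ?_
      split_ifs <;> positivity
  have step2 : (∑ x ∈ C, ∑ ω : β → α → Fin 4, if (∀ i, walk (ω i) x = 0) ∧ Near ω then
          ((kerN (2 ^ I) (hm ω)).card : ℝ) ^ b else 0) ≤
      ((2 : ℝ) ^ L) ^ Fintype.card α * (8 * ((2 : ℝ) ^ I) ^ b * (1 / 2 ^ L) ^ Fintype.card β *
            4 ^ (Fintype.card β * Fintype.card α)) := by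
    have h1 : ∀ x ∈ C, (∑ ω : β → α → Fin 4, if (∀ i, walk (ω i) x = 0) ∧ Near ω then
          ((kerN (2 ^ I) (hm ω)).card : ℝ) ^ b else 0) ≤
          8 * ((2 : ℝ) ^ I) ^ b * (1 / 2 ^ L) ^ Fintype.card β *
            4 ^ (Fintype.card β * Fintype.card α) := by
      intro x hx
      rw [hC, mem_filter] at hx
      exact hnear L hIL (by omega) x hx.2.1 hx.2.2 b (by omega) (by omega)
    refine (sum_le_sum h1).trans ?_
    rw [sum_const, nsmul_eq_mul]
    refine mul_le_mul_of_nonneg_right ?_ (by positivity)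
    have h2 : C.card ≤ (2 ^ L) ^ Fintype.card α := by
      refine (card_le_univ _).trans (le_of_eq ?_)
      rw [Fintype.card_fun, ZMod.card]
    exact_mod_cast h2
  have step3 : ∀ e ∈ range I, (∑ x ∈ C, ∑ ω : β → α → Fin 4,
        if ((∀ i, walk (ω i) x = 0) ∧ Near ω) ∧
        (∃ y : α → ZMod (2 ^ (L + I - e)), (∀ i, walk (ω i) y = 0) ∧
        ∀ l, ((y l).cast : ZMod (2 ^ (L - e))) = ((x l).cast : ZMod (2 ^ (L - e)))) then
          ((2 : ℝ) ^ (I - e)) ^ b * ((kerN (2 ^ I) (hm ω)).card : ℝ) ^ b else 0) ≤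
      ((2 : ℝ) ^ (I - e)) ^ b * (8 * ((2 : ℝ) ^ I) ^ (b + 1) *
        4 ^ (Fintype.card β * Fintype.card α) *
        ((2 : ℝ) ^ (L + I - e)) ^ Fintype.card α * (1 / 2 ^ (L + I - e)) ^ Fintype.card β *
        (1 + I * κ * 2 ^ (I * Fintype.card β))) := by
    intro e he
    refine (st6c_part (mem_range.1 he) hL Near).trans ?_
    refine mul_le_mul_of_nonneg_left ?_ (by positivity)
    exact near_e hI (mem_range.1 he) hL h3 hb hbI Near hnear hκ hbad
  refine step1.trans ((add_le_add step2 (sum_le_sum step3)).trans (le_of_eq ?_))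
  rw [mul_add, mul_sum]
  congr 1
  · ring
  · refine sum_congr rfl fun e _ => ?_
    ring


end Vale.Agent.P160
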