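import Vale.Agent.P160.Model

set_option linter.unusedSectionVars false

namespace Vale.Agent.P160

open Finset

section sparse

variable {ι : Type*} [Fintype ι] [DecidableEq ι]

lemma card_sym2_split (i₁ : ι) :
    Fintype.card {e : Sym2 ι // i₁ ∉ e} + Fintype.card ι ≤ Fintype.card (Sym2 ι) := by
  have h1 : Fintype.card ι ≤ Fintype.card {e : Sym2 ι // ¬ (i₁ ∉ e)} := by
    refine Fintype.card_le_of_injective
      (fun i => (⟨s(i₁, i), by simp⟩ : {e : Sym2 ι // ¬ (i₁ ∉ e)})) ?_
    intro i j h
    simp only [Subtype.mk.injEq, Sym2.eq_iff] at h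
    rcases h with h | h
    · exact h.2
    · rw [h.2, ← h.1]
  have h2 := Fintype.card_subtype_compl (fun e : Sym2 ι => i₁ ∉ e)
  have h3 := Fintype.card_subtype_le (fun e : Sym2 ι => i₁ ∉ e)
  omega

/-- A solution of `S v = w` is determined by the entries away from a row where `v` is cancellable. -/
lemma smul2_injOn {R : Type*} [AddCommGroup R] (v : ι → R) (i₁ : ι) (h1 : v i₁ ≠ 0)
    (b b' : Sym2 ι → Bool) (h : smul2 b v = smul2 b' v)
    (hr : ∀ e : Sym2 ι, i₁ ∉ e → b e = b' e) : b = b' := by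
  have key : ∀ i, i ≠ i₁ → b s(i, i₁) = b' s(i, i₁) := by
    intro i hi
    have h2 := congrFun h i
    unfold smul2 at h2
    rw [← Finset.add_sum_erase _ _ (mem_univ i₁), ← Finset.add_sum_erase univ
      (fun j => if b' s(i, j) = true then v j else 0) (mem_univ i₁)] at h2
    have h3 : ∑ j ∈ univ.erase i₁, (if b s(i, j) then v j else 0) =
        ∑ j ∈ univ.erase i₁, (if b' s(i, j) then v j else 0) := by
      refine sum_congr rfl fun j hj => ?_
      rw [hr]
      simp only [Sym2.mem_iff, not_or]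
      exact ⟨fun h => hi h.symm, fun h => (ne_of_mem_erase hj) h.symm⟩
    rw [h3] at h2
    have h4 := add_right_cancel h2
    by_cases hb : b s(i, i₁) <;> by_cases hb' : b' s(i, i₁) <;> simp_all
  have key2 : b s(i₁, i₁) = b' s(i₁, i₁) := by
    have h2 := congrFun h i₁
    unfold smul2 at h2
    rw [← Finset.add_sum_erase _ _ (mem_univ i₁), ← Finset.add_sum_erase univ
      (fun j => if b' s(i₁, j) = true then v j else 0) (mem_univ i₁)] at h2
    have h3 : ∑ j ∈ univ.erase i₁, (if b s(i₁, j) then v j else 0) =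
        ∑ j ∈ univ.erase i₁, (if b' s(i₁, j) then v j else 0) := by
      refine sum_congr rfl fun j hj => ?_
      have h5 := key j (ne_of_mem_erase hj)
      rw [Sym2.eq_swap, h5]
    rw [h3] at h2
    have h4 := add_right_cancel h2
    by_cases hb : b s(i₁, i₁) <;> by_cases hb' : b' s(i₁, i₁) <;> simp_all
  funext e
  by_cases he : i₁ ∈ e
  · obtain ⟨j, rfl⟩ := he
    by_cases hj : j = i₁
    · subst hj; exact key2
    · have := key j hj
      rw [show s(i₁, j) = s(j, i₁) from Sym2.eq_swap]
      exact this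
  · exact hr e he

/-- For any fixed nonzero `v` the equation `S v = w` has probability at most `2 ^ (-n)`. -/
lemma Spr_le_two_pow {N : ℕ} (v w : ι → ZMod N) (hv : v ≠ 0) :
    Spr v w ≤ 1 / (2 : ℝ) ^ Fintype.card ι := by
  obtain ⟨i₁, h1⟩ := Function.ne_iff.1 hv
  have hcard : (univ.filter (fun b : Sym2 ι → Bool => smul2 b v = w)).card ≤
      2 ^ Fintype.card {e : Sym2 ι // i₁ ∉ e} := by
    have h2 : Fintype.card ({e : Sym2 ι // i₁ ∉ e} → Bool) =
        2 ^ Fintype.card {e : Sym2 ι // i₁ ∉ e} := by simp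
    rw [← h2, ← Finset.card_univ]
    refine Finset.card_le_card_of_injOn (fun b e => b e.1) (fun _ _ => mem_univ _) ?_
    intro b hb b' hb' hbb
    simp only [coe_filter, mem_univ, true_and, Set.mem_ofPred_eq] at hb hb'
    refine smul2_injOn v i₁ h1 b b' (hb.trans hb'.symm) ?_
    intro e he
    exact congrFun hbb ⟨e, he⟩
  unfold Spr
  rw [div_le_div_iff₀ (by positivity) (by positivity), one_mul]
  have h3 := card_sym2_split i₁
  calc ((univ.filter (fun b : Sym2 ι → Bool => smul2 b v = w)).card : ℝ) *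
        2 ^ Fintype.card ι ≤ 2 ^ Fintype.card {e : Sym2 ι // i₁ ∉ e} * 2 ^ Fintype.card ι := by
        gcongr
        exact_mod_cast hcard
    _ = 2 ^ (Fintype.card {e : Sym2 ι // i₁ ∉ e} + Fintype.card ι) := by rw [pow_add]
    _ ≤ 2 ^ Fintype.card (Sym2 ι) := pow_le_pow_right₀ (by norm_num) h3

end sparse

end Vale.Agent.P160
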